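import Mathlib

/-!
# Row 236: Auerbach normalisation
-/

set_option autoImplicit false

namespace Crest.Agent.R236

open Module Set

/-- A compact spanning set contains a basis in which all its points have coordinates in
`[-1, 1]` (maximal volume simplex with a vertex at the origin). -/
theorem auerbach {T : Type*} [NormedAddCommGroup T] [NormedSpace ℝ T] [FiniteDimensional ℝ T]
    {K : Set T} (hK : IsCompact K) (hs : Submodule.span ℝ K = ⊤) :
    ∃ b : Basis (Fin (finrank ℝ T)) ℝ T, (∀ i, b i ∈ K) ∧ ∀ x ∈ K, ∀ i, |b.repr x i| ≤ 1 := by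
  classical
  set e : Basis (Fin (finrank ℝ T)) ℝ T := finBasis ℝ T with he
  have hcomp : IsCompact (Set.pi Set.univ fun _ : Fin (finrank ℝ T) => K) :=
    isCompact_univ_pi fun _ => hK
  have hcont : Continuous fun v : Fin (finrank ℝ T) → T => |e.det v| := by
    have h1 : Continuous fun v : Fin (finrank ℝ T) → T => (e.toMatrix v).det := by
      apply Continuous.matrix_det
      refine continuous_matrix fun i j => ?_
      have : Continuous fun x : T => e.repr x i :=
        (LinearMap.continuous_of_finiteDimensional (e.coord i))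
      exact this.comp (continuous_apply j)
    simpa [Basis.det_apply] using h1.abs
  -- a basis inside K
  obtain ⟨b0, hb0⟩ : ∃ v : Fin (finrank ℝ T) → T, (∀ i, v i ∈ K) ∧ e.det v ≠ 0 := by
    obtain ⟨s, hsK, hspan, hli⟩ := exists_linearIndependent ℝ K
    rw [hs] at hspan
    let b : Basis s ℝ T := Basis.mk hli (by simpa using hspan.ge)
    have hfin : Finite s := hli.finite
    have := Fintype.ofFinite s
    have hcard : Fintype.card s = finrank ℝ T := (finrank_eq_card_basis b).symm
    let eqv : s ≃ Fin (finrank ℝ T) := Fintype.equivFinOfCardEq hcard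
    refine ⟨fun i => (eqv.symm i : T), fun i => hsK (eqv.symm i).2, ?_⟩
    have : (fun i => ((eqv.symm i : s) : T)) = b.reindex eqv := by
      funext i
      simp [b]
    rw [this]
    exact (e.isUnit_det _).ne_zero
  obtain ⟨v, hvK, hvmax⟩ := hcomp.exists_isMaxOn ⟨b0, fun i _ => hb0.1 i⟩ hcont.continuousOn
  have hvK' : ∀ i, v i ∈ K := fun i => hvK i (mem_univ i)
  have hv0 : e.det v ≠ 0 := by
    intro h
    have := hvmax (show b0 ∈ Set.pi Set.univ fun _ => K from fun i _ => hb0.1 i)
    simp only [mem_ofPred_eq, h, abs_zero] at this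
    exact hb0.2 (abs_nonpos_iff.mp this)
  have hbasis := (Basis.is_basis_iff_det e (v := v)).mpr (isUnit_iff_ne_zero.mpr hv0)
  refine ⟨Basis.mk hbasis.1 hbasis.2.ge, fun i => by simpa using hvK' i, fun x hx i => ?_⟩
  have hkey := congrArg (fun f => f x) (e.det_smul_mk_coord_eq_det_update hbasis.1 hbasis.2.ge i)
  simp only [LinearMap.smul_apply, smul_eq_mul, MultilinearMap.toLinearMap_apply,
    Basis.coord_apply] at hkey
  have hle := hvmax (show Function.update v i x ∈ Set.pi Set.univ fun _ => K from by
    intro k _
    by_cases hk : k = i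
    · subst hk; simpa using hx
    · simpa [Function.update_of_ne hk] using hvK' k)
  simp only [mem_ofPred_eq] at hle
  have h2 : |e.det v| * |(Basis.mk hbasis.1 hbasis.2.ge).repr x i| ≤ |e.det v| * 1 := by
    rw [← abs_mul, hkey, mul_one]
    exact hle
  exact le_of_mul_le_mul_left h2 (abs_pos.mpr hv0)

end Crest.Agent.R236
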