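import Crest.Agent.R236.ADefs
import Crest.Agent.R236.Auer

/-!
# Row 236: Auerbach normalisation, in the form of `AuerbachStmt`
-/

set_option autoImplicit false

namespace Crest.Agent.R236.A

open Module Set

theorem auerbachStmt : AuerbachStmt := by
  intro m S hS hconv h0 hint
  have hspan : Submodule.span ℝ S = ⊤ := by
    apply Submodule.eq_top_of_nonempty_interior'
    exact hint.mono (interior_mono Submodule.subset_span)
  obtain ⟨b, hbS, hb⟩ := auerbach hS hspan
  have hfr : finrank ℝ (EE m) = m := finrank_euclideanSpace_fin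
  let b' : Basis (Fin m) ℝ (EE m) := b.reindex (finCongr hfr)
  let B : EE m ≃L[ℝ] EE m :=
    (b'.equivFun.trans (WithLp.linearEquiv 2 ℝ (Fin m → ℝ)).symm).toContinuousLinearEquiv
  have hB : ∀ x i, B x i = b'.repr x i := fun x i => rfl
  refine ⟨B, fun i => ⟨b' i, ?_, ?_⟩, ?_⟩
  · simpa [b'] using hbS _
  · ext j
    rw [hB]
    simp [Finsupp.single_apply, eq_comm]
  · rintro _ ⟨x, hx, rfl⟩ i
    rw [hB]
    simpa [b'] using hb x hx _

/-- alias (used by SecNorm) -/
theorem auerbach : AuerbachStmt := auerbachStmt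

end Crest.Agent.R236.A
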