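import Crest.Agent.R236.AUlim
import Crest.Agent.R236.AAuer

/-! Row 236, Part A3: failure of balancedness gives a limit with a supporting hyperplane containing
a recession direction. (helper117) -/

set_option autoImplicit false
open scoped Topology ContDiff
open Crest.GeometryTopology.CoordMetric Crest.GeometryTopology.AffineMaximal
open Set Filter

noncomputable section

namespace Crest.Agent.R236.A

/-- normalised cap with a direction in which it is badly balanced -/
structure PreA3 (n : ℕ) (θ : ℝ) (C : Set (EE n × ℝ)) (ξ : EE n →L[ℝ] ℝ) : Prop where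
  appr : Appr n C
  zero : (0 : EE n × ℝ) ∈ C
  nonneg : ∀ X ∈ C, 0 ≤ X.2
  up : ((0 : EE n), (1 : ℝ)) ∈ Rec C
  cube : ∀ X ∈ C, X.2 ≤ 1 → ∀ i, |X.1 i| ≤ 1
  simp : ∀ i, (EuclideanSpace.single i (1 : ℝ), (1 : ℝ)) ∈ C
  norm : ‖ξ‖ = 1
  small : ∀ X ∈ C, X.2 ≤ 1 → ξ X.1 ≤ θ * Real.sqrt n

lemma norm_le_sqrt {n : ℕ} (x : EE n) (h : ∀ i, |x i| ≤ 1) : ‖x‖ ≤ Real.sqrt n := by
  rw [EuclideanSpace.norm_eq]
  apply Real.sqrt_le_sqrt
  calc ∑ i, ‖x i‖ ^ 2 ≤ ∑ _i : Fin n, (1 : ℝ) := by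
        refine Finset.sum_le_sum fun i _ => ?_
        rw [Real.norm_eq_abs]
        have := h i
        have h0 := abs_nonneg (x i)
        nlinarith
    _ = n := by simp

/-- the linear part of the normalising map -/
def preLin {n : ℕ} (B : EE n ≃L[ℝ] EE n) (D : EE n →L[ℝ] ℝ) (h : ℝ) (hh : h ≠ 0) :
    (EE n × ℝ) ≃ₗ[ℝ] (EE n × ℝ) where
  toFun p := (B p.1, h⁻¹ * (p.2 - D p.1))
  map_add' p q := by
    ext1
    · simp
    · simp; ring
  map_smul' c p := by
    ext1
    · simp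
    · simp; ring
  invFun q := (B.symm q.1, h * q.2 + D (B.symm q.1))
  left_inv p := by
    ext1
    · simp
    · simp only [ContinuousLinearEquiv.symm_apply_apply]; field_simp; ring
  right_inv q := by
    ext1
    · simp
    · simp only; field_simp; ring

/-- the normalising affine map -/
def preAff {n : ℕ} (B : EE n ≃L[ℝ] EE n) (D : EE n →L[ℝ] ℝ) (h : ℝ) (hh : h ≠ 0)
    (p₀ : EE n × ℝ) : (EE n × ℝ) ≃ᵃ[ℝ] (EE n × ℝ) :=
  (AffineEquiv.constVAdd ℝ (EE n × ℝ) (-p₀)).trans (preLin B D h hh).toAffineEquiv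

lemma preAff_symm_apply {n : ℕ} (B : EE n ≃L[ℝ] EE n) (D : EE n →L[ℝ] ℝ) (h : ℝ) (hh : h ≠ 0)
    (p₀ X : EE n × ℝ) :
    (preAff B D h hh p₀).symm X = (p₀.1 + B.symm X.1, p₀.2 + (h * X.2 + D (B.symm X.1))) := by
  rw [AffineEquiv.symm_apply_eq]
  simp only [preAff, AffineEquiv.trans_apply, AffineEquiv.constVAdd_apply, vadd_eq_add,
    LinearEquiv.coe_toAffineEquiv]
  simp only [preLin, LinearEquiv.coe_mk, LinearMap.coe_mk, AddHom.coe_mk]
  ext1
  · simp
  · simp
    field_simp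

/-- exact images of epigraphs are approximable -/
lemma appr_image {n : ℕ} {Ω : Set (EE n)} {u : EE n → ℝ} (hs : SOL Ω u)
    (A : (EE n × ℝ) ≃ᵃ[ℝ] (EE n × ℝ)) : Appr n (A.symm ⁻¹' epi Ω u) := by
  have hcont : Continuous A.symm := A.symm.toAffineMap.continuous_of_finiteDimensional
  have himg : A '' epi Ω u = A.symm ⁻¹' epi Ω u := by
    ext X
    constructor
    · rintro ⟨p, hp, rfl⟩
      simpa using hp
    · intro hX
      exact ⟨A.symm X, hX, by simp⟩
  refine ⟨hs.closed.preimage hcont, ?_, ?_⟩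
  · have h1 : Convex ℝ (epi Ω u) := hs.sc.convexOn.convex_epigraph
    exact h1.affine_preimage A.symm.toAffineMap
  · intro R ε hR hε
    refine ⟨Ω, u, A, hs, ?_, ?_⟩
    · intro x hx _
      exact ⟨x, by rw [himg]; exact hx, by simpa using hε⟩
    · intro y hy _
      exact ⟨y, by rw [himg] at hy; exact hy, by simpa using hε⟩

theorem pre_of_not_bal {n : ℕ} (hB : ¬ BAL n) {θ : ℝ} (hθ : 0 < θ) :
    ∃ C ξ, PreA3 n θ C ξ := by
  have h1 : ∃ (Ω : Set (EE n)) (u : EE n → ℝ), SOL Ω u ∧ ∃ x0 ∈ Ω, ∃ h : ℝ, 0 < h ∧ ∃ x ∈ Ω,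
      u x ≤ u x0 + fderiv ℝ u x0 (x - x0) + h ∧ ¬ (x0 - θ • (x - x0) ∈ Ω ∧
      u (x0 - θ • (x - x0)) ≤ u x0 + fderiv ℝ u x0 (-(θ • (x - x0))) + h) := by
    by_contra hcon
    apply hB
    refine ⟨θ, hθ, fun Ω u hs x0 hx0 h hh x hx hle => ?_⟩
    by_contra hc
    exact hcon ⟨Ω, u, hs, x0, hx0, h, hh, x, hx, hle, hc⟩
  obtain ⟨Ω, u, hs, x0, hx0, h, hh, x, hx, hle, hbad⟩ := h1
  set D := fderiv ℝ u x0 with hD
  set S : Set (EE n) := {v | x0 + v ∈ Ω ∧ u (x0 + v) ≤ u x0 + D v + h} with hSdef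
  have hScomp : IsCompact S := by
    have h2 := (hs.cap x0 hx0 h).image (continuous_id.sub continuous_const :
      Continuous fun y : EE n => y - x0)
    convert h2 using 1
    ext v
    simp only [hSdef, mem_ofPred_eq, mem_image]
    constructor
    · rintro ⟨hv1, hv2⟩
      exact ⟨x0 + v, ⟨hv1, by simpa using hv2⟩, by simp⟩
    · rintro ⟨y, ⟨hy1, hy2⟩, rfl⟩
      refine ⟨by simpa using hy1, ?_⟩
      simpa using hy2
  have hSconv : Convex ℝ S := by
    intro v hv w hw a b ha hb hab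
    have hc := hs.sc.convexOn.2 hv.1 hw.1 ha hb hab
    have hm := hs.sc.convex hv.1 hw.1 ha hb hab
    have he : a • (x0 + v) + b • (x0 + w) = x0 + (a • v + b • w) := by
      have : x0 = (a + b) • x0 := by rw [hab, one_smul]
      conv_rhs => rw [this]
      module
    rw [he] at hc hm
    refine ⟨hm, hc.trans ?_⟩
    have h2 := mul_le_mul_of_nonneg_left hv.2 ha
    have h3 := mul_le_mul_of_nonneg_left hw.2 hb
    simp only [map_add, map_smul, smul_eq_mul]
    have hb' : b = 1 - a := by linarith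
    subst hb'
    linarith
  have hS0 : (0 : EE n) ∈ S := by
    refine ⟨by simpa using hx0, ?_⟩
    simp only [add_zero, map_zero]; linarith
  have hSint : (interior S).Nonempty := by
    refine ⟨0, mem_interior_iff_mem_nhds.mpr ?_⟩
    have hc1 : ContinuousAt (fun v : EE n => x0 + v) 0 := by fun_prop
    have hΩ : ∀ᶠ v in 𝓝 (0 : EE n), x0 + v ∈ Ω :=
      hc1.eventually_mem (by simpa using hs.sc.isOpen.mem_nhds hx0)
    have hcu : ContinuousAt (fun v : EE n => u (x0 + v) - (u x0 + D v + h)) 0 := by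
      have h4 : ContinuousAt (fun v : EE n => u (x0 + v)) 0 := by
        have h5 : ContinuousAt u (x0 + 0) := by
          simpa using (hs.sc.differentiableAt hx0).continuousAt
        exact ContinuousAt.comp (f := fun v : EE n => x0 + v) h5 hc1
      exact h4.sub (by fun_prop)
    have h6 : ∀ᶠ v in 𝓝 (0 : EE n), u (x0 + v) - (u x0 + D v + h) < 0 :=
      hcu.eventually_lt_const (by simp [hh])
    filter_upwards [hΩ, h6] with v hv1 hv2
    exact ⟨hv1, by linarith⟩
  obtain ⟨B, hB1, hB2⟩ := auerbachStmt n S hScomp hSconv hS0 hSint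
  -- the bad point
  have hxS : x - x0 ∈ S := by
    refine ⟨by simpa using hx, ?_⟩
    simpa using hle
  have hpS : -(θ • (x - x0)) ∉ S := by
    intro hc
    apply hbad
    obtain ⟨hc1, hc2⟩ := hc
    rw [← sub_eq_add_neg] at hc1 hc2
    exact ⟨hc1, hc2⟩
  have hBS : IsCompact (B '' S) := hScomp.image B.continuous
  have hBSc : Convex ℝ (B '' S) := hSconv.linear_image (B : EE n →L[ℝ] EE n).toLinearMap
  have hpBS : B (-(θ • (x - x0))) ∉ B '' S := by
    rintro ⟨y, hy, hyy⟩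
    exact hpS (B.injective hyy ▸ hy)
  obtain ⟨f, s, hf1, hf2⟩ := geometric_hahn_banach_closed_point hBSc hBS.isClosed hpBS
  have hf0 : f ≠ 0 := by
    rintro rfl
    have := hf1 _ ⟨0, hS0, rfl⟩
    simp at this hf2
    linarith
  have hfn : 0 < ‖f‖ := norm_pos_iff.mpr hf0
  refine ⟨(preAff B D h hh.ne' (x0, u x0)).symm ⁻¹' epi Ω u, ‖f‖⁻¹ • f, ?_⟩
  have hmem : ∀ X : EE n × ℝ, X ∈ (preAff B D h hh.ne' (x0, u x0)).symm ⁻¹' epi Ω u ↔
      (x0 + B.symm X.1 ∈ Ω ∧ u (x0 + B.symm X.1) ≤ u x0 + (h * X.2 + D (B.symm X.1))) := by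
    intro X
    rw [mem_preimage, preAff_symm_apply]
    rfl
  have hle1 : ∀ X ∈ (preAff B D h hh.ne' (x0, u x0)).symm ⁻¹' epi Ω u, X.2 ≤ 1 → X.1 ∈ B '' S := by
    intro X hX h1
    rw [hmem] at hX
    refine ⟨B.symm X.1, ⟨hX.1, hX.2.trans ?_⟩, by simp⟩
    nlinarith
  refine ⟨appr_image hs _, ?_, ?_, ?_, ?_, ?_, ?_, ?_⟩
  · rw [hmem]
    simpa using hx0
  · intro X hX
    rw [hmem] at hX
    have h2 := hs.sc.tangent_le hx0 hX.1
    rw [← hD] at h2
    simp only [add_sub_cancel_left] at h2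
    have h3 : 0 ≤ h * X.2 := by linarith [hX.2]
    exact nonneg_of_mul_nonneg_right h3 hh
  · intro X hX t ht
    rw [hmem] at hX ⊢
    simp only [Prod.fst_add, Prod.smul_fst, smul_zero, add_zero, Prod.snd_add, Prod.smul_snd,
      smul_eq_mul, mul_one]
    refine ⟨hX.1, hX.2.trans ?_⟩
    nlinarith
  · intro X hX h1
    exact hB2 _ (hle1 X hX h1)
  · intro i
    obtain ⟨v, hv, hvi⟩ := hB1 i
    rw [hmem]
    simp only
    rw [← hvi, B.symm_apply_apply]
    exact ⟨hv.1, hv.2.trans (by linarith)⟩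
  · rw [norm_smul, norm_inv, norm_norm, inv_mul_cancel₀ hfn.ne']
  · intro X hX h1
    have h2 := hf1 _ (hle1 X hX h1)
    have h3 : f (B (-(θ • (x - x0)))) ≤ θ * (‖f‖ * Real.sqrt n) := by
      rw [map_neg, map_smul, map_neg, map_smul, smul_eq_mul]
      have h4 : ‖f (B (x - x0))‖ ≤ ‖f‖ * ‖B (x - x0)‖ := f.le_opNorm _
      have h5 : ‖B (x - x0)‖ ≤ Real.sqrt n := norm_le_sqrt _ (hB2 _ ⟨_, hxS, rfl⟩)
      have h6 : |f (B (x - x0))| ≤ ‖f‖ * Real.sqrt n :=
        (Real.norm_eq_abs _ ▸ h4).trans (mul_le_mul_of_nonneg_left h5 hfn.le)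
      have h7 := neg_abs_le (f (B (x - x0)))
      nlinarith
    rw [smul_apply, smul_eq_mul, inv_mul_le_iff₀ hfn]
    linarith

/-- a convex set containing `0` and spanning has interior points -/
lemma interior_nonempty_of_span {W : Type*} [NormedAddCommGroup W] [NormedSpace ℝ W]
    [FiniteDimensional ℝ W] {C : Set W} (hC : Convex ℝ C) (h0 : (0 : W) ∈ C)
    (hsp : Submodule.span ℝ C = ⊤) : (interior C).Nonempty := by
  rw [hC.interior_nonempty_iff_affineSpan_eq_top]
  have h1 : (affineSpan ℝ (insert 0 C) : Set W) = Submodule.span ℝ C := affineSpan_insert_zero C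
  rw [insert_eq_of_mem h0, hsp] at h1
  rw [← AffineSubspace.coe_eq_univ_iff, h1]
  rfl

theorem a3 : A3Stmt := by
  intro n hn hB
  have hθ : ∀ j : ℕ, (0:ℝ) < 1 / (j + 1) := fun j => by positivity
  choose C ξ hP using fun j : ℕ => pre_of_not_bal hB (hθ j)
  let U : Ultrafilter ℕ := hyperfilter ℕ
  have hU : (U : Filter ℕ) ≤ atTop := by
    rw [← Nat.cofinite_eq_atTop]
    exact hyperfilter_le_cofinite
  have hcl : ∀ j, IsClosed (C j) := fun j => (hP j).appr.1
  obtain ⟨ζ, -, hζ⟩ := exists_limit (U := U) (x := ξ) (R := 1)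
    (Eventually.of_forall fun j => (hP j).norm.le)
  have hζn : ‖ζ‖ = 1 := by
    have h1 : Tendsto (fun j => ‖ξ j‖) U (𝓝 ‖ζ‖) := hζ.norm
    have h2 : (fun j => ‖ξ j‖) = fun _ => (1:ℝ) := funext fun j => (hP j).norm
    rw [h2] at h1
    exact tendsto_nhds_unique h1 tendsto_const_nhds |>.symm ▸ rfl
  have hθ0 : Tendsto (fun j : ℕ => 1 / ((j:ℝ) + 1) * Real.sqrt n) U (𝓝 0) := by
    have h1 : Tendsto (fun j : ℕ => 1 / ((j:ℝ) + 1)) U (𝓝 0) :=
      tendsto_one_div_add_atTop_nhds_zero_nat.mono_left hU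
    simpa using h1.mul_const (Real.sqrt n)
  -- properties of the limit
  have hzero : (0 : EE n × ℝ) ∈ ulim U C :=
    mem_ulim_of_tendsto (Eventually.of_forall fun j => (hP j).zero) tendsto_const_nhds
  have hconv : Convex ℝ (ulim U C) := convex_ulim fun j => (hP j).appr.2.1
  have hup : ((0 : EE n), (1 : ℝ)) ∈ Rec (ulim U C) :=
    rec_ulim hcl (Eventually.of_forall fun j => (hP j).up) tendsto_const_nhds
  have hsimp : ∀ i, ((EuclideanSpace.single i (1:ℝ) : EE n), (1 : ℝ)) ∈ ulim U C := fun i =>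
    mem_ulim_of_tendsto (Eventually.of_forall fun j => (hP j).simp i) tendsto_const_nhds
  have hnonneg : ∀ X ∈ ulim U C, 0 ≤ X.2 := by
    intro X hX
    obtain ⟨x, hx, hl⟩ := exists_seq_of_mem_ulim hcl hX
    have h1 : Tendsto (fun j => (x j).2) U (𝓝 X.2) := (continuous_snd.tendsto X).comp hl
    exact ge_of_tendsto h1 (hx.mono fun j hj => (hP j).nonneg _ hj)
  have hcube : ∀ X ∈ ulim U C, X.2 < 1 → ∀ i, |X.1 i| ≤ 1 := by
    intro X hX hX1 i
    obtain ⟨x, hx, hl⟩ := exists_seq_of_mem_ulim hcl hX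
    have h1 : Tendsto (fun j => (x j).2) U (𝓝 X.2) := (continuous_snd.tendsto X).comp hl
    have h2 : ∀ᶠ j in (U : Filter ℕ), (x j).2 < 1 := h1.eventually_lt_const hX1
    have h3 : Tendsto (fun j => |(x j).1 i|) U (𝓝 |X.1 i|) := by
      have hc : Continuous fun X : EE n × ℝ => |X.1 i| := by fun_prop
      exact (hc.tendsto X).comp hl
    refine le_of_tendsto h3 ?_
    filter_upwards [hx, h2] with j hj1 hj2
    exact (hP j).cube _ hj1 hj2.le i
  have hsmall : ∀ X ∈ ulim U C, X.2 < 1 → ζ X.1 ≤ 0 := by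
    intro X hX hX1
    obtain ⟨x, hx, hl⟩ := exists_seq_of_mem_ulim hcl hX
    have h1 : Tendsto (fun j => (x j).2) U (𝓝 X.2) := (continuous_snd.tendsto X).comp hl
    have h2 : ∀ᶠ j in (U : Filter ℕ), (x j).2 < 1 := h1.eventually_lt_const hX1
    have h3 : Tendsto (fun j => ξ j (x j).1) U (𝓝 (ζ X.1)) := by
      have hb := (isBoundedBilinearMap_apply (𝕜 := ℝ) (E := EE n) (F := ℝ)).continuous.tendsto
        (ζ, X.1)
      exact hb.comp (hζ.prodMk_nhds ((continuous_fst.tendsto X).comp hl))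
    refine le_of_tendsto_of_tendsto h3 hθ0 ?_
    filter_upwards [hx, h2] with j hj1 hj2
    exact (hP j).small _ hj1 hj2.le
  have hscale : ∀ X ∈ ulim U C, ∀ s : ℝ, 0 ≤ s → s ≤ 1 → s • X ∈ ulim U C := by
    intro X hX s hs0 hs1
    have := hconv hX hzero hs0 (sub_nonneg.mpr hs1) (by ring)
    simpa using this
  refine ⟨ulim U C, ⟨appr_ulim fun j => (hP j).appr, ?_, ?_⟩, ?_⟩
  · -- interior
    apply interior_nonempty_of_span hconv hzero
    rw [eq_top_iff]
    intro X _
    have h01 : ((0 : EE n), (1 : ℝ)) ∈ ulim U C := by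
      have := hup 0 hzero 1 zero_le_one
      simpa using this
    have hm : ∀ p ∈ ulim U C, p ∈ Submodule.span ℝ (ulim U C) := fun p hp =>
      Submodule.subset_span hp
    have hX : X = ∑ i, X.1 i • (((EuclideanSpace.single i (1:ℝ) : EE n), (1 : ℝ)) -
        ((0 : EE n), (1:ℝ))) + X.2 • ((0 : EE n), (1:ℝ)) := by
      have h1 : ∀ i, X.1 i • (((EuclideanSpace.single i (1:ℝ) : EE n), (1 : ℝ)) -
        ((0 : EE n), (1:ℝ))) = (X.1 i • (EuclideanSpace.single i (1:ℝ) : EE n), (0:ℝ)) := by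
        intro i
        ext1
        · simp
        · simp
      simp_rw [h1]
      ext1
      · simp only [Prod.fst_add, Prod.smul_fst, smul_zero, add_zero, Prod.fst_sum]
        exact (sum_single X.1).symm
      · simp [Prod.snd_sum]
    rw [hX]
    refine Submodule.add_mem _ (Submodule.sum_mem _ fun i _ => Submodule.smul_mem _ _
      (Submodule.sub_mem _ (hm _ (hsimp i)) (hm _ h01))) (Submodule.smul_mem _ _ (hm _ h01))
  · -- no lines
    intro v hv hv'
    have h1 : ∀ t : ℝ, 0 ≤ t → t • v ∈ ulim U C := fun t ht => by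
      simpa using hv 0 hzero t ht
    have h2 : ∀ t : ℝ, 0 ≤ t → t • (-v) ∈ ulim U C := fun t ht => by
      simpa using hv' 0 hzero t ht
    have hv2 : v.2 = 0 := by
      have h3 := hnonneg _ (h1 1 zero_le_one)
      have h4 := hnonneg _ (h2 1 zero_le_one)
      simp only [one_smul, Prod.snd_neg] at h3 h4
      linarith
    have hv1 : ∀ i, v.1 i = 0 := by
      intro i
      by_contra hne
      have hpos : 0 < |v.1 i| := abs_pos.mpr hne
      have h3 := hcube _ (h1 (2 / |v.1 i|) (by positivity)) (by simp [hv2]) i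
      simp only [Prod.smul_fst, PiLp.smul_apply, smul_eq_mul, abs_mul, abs_div, abs_abs,
        Nat.abs_ofNat] at h3
      rw [div_mul_cancel₀ _ hpos.ne'] at h3
      norm_num at h3
    ext1
    · ext i; simpa using hv1 i
    · simpa using hv2
  · -- the supporting functional
    refine ⟨ζ.comp (ContinuousLinearMap.fst ℝ (EE n) ℝ), ?_, 0, hzero, ?_, fun _ => (0, 1), ?_, ?_⟩
    · intro h0
      have h1 : ζ = 0 := by
        ext x
        have := congrArg (fun g => g (x, (0:ℝ))) h0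
        simpa using this
      rw [h1, norm_zero] at hζn
      exact zero_ne_one hζn
    · intro X hX
      simp only [ContinuousLinearMap.comp_apply, ContinuousLinearMap.coe_fst',
        map_zero]
      have hX2 := hnonneg X hX
      have h1 : (0:ℝ) < 1 / (X.2 + 2) := by positivity
      have h2 : 1 / (X.2 + 2) ≤ 1 := by
        rw [div_le_one (by positivity)]; linarith
      have h3 := hsmall _ (hscale X hX (1 / (X.2 + 2)) h1.le h2) (by
        simp only [Prod.smul_snd, smul_eq_mul]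
        rw [div_mul_eq_mul_div, one_mul, div_lt_one (by positivity)]
        linarith)
      simp only [Prod.smul_fst, map_smul, smul_eq_mul] at h3
      exact nonpos_of_mul_nonpos_right h3 h1
    · rw [linearIndependent_unique_iff]
      intro h
      have := congrArg Prod.snd h
      simp at this
    · intro i
      exact ⟨hup, by simp⟩

end Crest.Agent.R236.A
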