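import Mathlib
import Crest.Prelude.Def_AffineMaximal
import Crest.Agent.R236.P1

/-! Row 236, Part A (structure theorem, note 13046): definitions and frozen statements. (helper499) -/

set_option autoImplicit false
open scoped ContDiff Topology
open Crest.GeometryTopology.CoordMetric Crest.GeometryTopology.AffineMaximal
open Set Filter

noncomputable section

namespace Crest.Agent.R236.A

abbrev EE (n : ℕ) := EuclideanSpace ℝ (Fin n)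

/-- the epigraph of `u` over `Ω` -/
def epi {n : ℕ} (Ω : Set (EE n)) (u : EE n → ℝ) : Set (EE n × ℝ) := {p | p.1 ∈ Ω ∧ u p.1 ≤ p.2}

/-- proper solutions of the affine maximal equation -/
structure SOL {n : ℕ} (Ω : Set (EE n)) (u : EE n → ℝ) : Prop where
  sc : SC Ω u
  ne : Ω.Nonempty
  pde : ∀ x ∈ Ω, affineMaximalOp n u x = 0
  closed : IsClosed (epi Ω u)
  cap : ∀ x0 ∈ Ω, ∀ t : ℝ, IsCompact {x | x ∈ Ω ∧ u x ≤ u x0 + fderiv ℝ u x0 (x - x0) + t}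

/-- all caps are balanced around their base point, uniformly -/
def BAL (n : ℕ) : Prop := ∃ θ : ℝ, 0 < θ ∧ ∀ (Ω : Set (EE n)) (u : EE n → ℝ), SOL Ω u →
  ∀ x0 ∈ Ω, ∀ h : ℝ, 0 < h → ∀ x ∈ Ω, u x ≤ u x0 + fderiv ℝ u x0 (x - x0) + h →
    x0 - θ • (x - x0) ∈ Ω ∧
      u (x0 - θ • (x - x0)) ≤ u x0 + fderiv ℝ u x0 (-(θ • (x - x0))) + h

section
variable {W : Type*} [NormedAddCommGroup W] [NormedSpace ℝ W]

/-- `C` is a limit (in the local Hausdorff sense) of affine images of epigraphs of solutions -/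
def Appr (n : ℕ) (C : Set W) : Prop :=
  IsClosed C ∧ Convex ℝ C ∧ ∀ R ε : ℝ, 0 < R → 0 < ε →
    ∃ (Ω : Set (EE n)) (u : EE n → ℝ) (A : (EE n × ℝ) ≃ᵃ[ℝ] W), SOL Ω u ∧
      (∀ x ∈ C, ‖x‖ ≤ R → ∃ y ∈ A '' epi Ω u, dist x y < ε) ∧
      (∀ y ∈ A '' epi Ω u, ‖y‖ ≤ R → ∃ x ∈ C, dist y x < ε)

/-- recession cone -/
def Rec (C : Set W) : Set W := {v | ∀ x ∈ C, ∀ t : ℝ, 0 ≤ t → x + t • v ∈ C}

/-- limits with interior points and without lines -/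
structure Good (n : ℕ) (C : Set W) : Prop where
  appr : Appr n C
  int : (interior C).Nonempty
  pointed : ∀ v, v ∈ Rec C → -v ∈ Rec C → v = 0

/-- a supporting plane `{ξ = max}` of `C` contains `d` independent recession directions -/
def RecD (d : ℕ) (C : Set W) : Prop :=
  ∃ ξ : W →L[ℝ] ℝ, ξ ≠ 0 ∧ ∃ X0 ∈ C, (∀ X ∈ C, ξ X ≤ ξ X0) ∧
    ∃ v : Fin d → W, LinearIndependent ℝ v ∧ ∀ i, v i ∈ Rec C ∧ ξ (v i) = 0
end

def HasRec (n d : ℕ) : Prop := ∃ C : Set (EE n × ℝ), Good n C ∧ RecD d C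

/-- the cone data `R, l, e, c0` in `Y = ℝ^D` -/
structure ConeData {D : ℕ} (R : Set (EE D)) (l : EE D →L[ℝ] ℝ) (e : EE D) (c0 : ℝ) : Prop where
  R_closed : IsClosed R
  R_convex : Convex ℝ R
  R_zero : (0 : EE D) ∈ R
  R_smul : ∀ v ∈ R, ∀ t : ℝ, 0 ≤ t → t • v ∈ R
  R_add : ∀ v ∈ R, ∀ w ∈ R, v + w ∈ R
  e_int : e ∈ interior R
  l_e : l e = 1
  c0_pos : 0 < c0
  l_ge : ∀ v ∈ R, c0 * ‖v‖ ≤ l v

/-- `{0} × R × [0,∞) ⊆ C ⊆ T × R × [0,∞)`, `C` good -/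
structure ClassR (n : ℕ) {m D : ℕ} (R : Set (EE D)) (C : Set (EE m × EE D × ℝ)) : Prop where
  good : Good n C
  sub : ∀ y ∈ R, ∀ z : ℝ, 0 ≤ z → ((0 : EE m), y, z) ∈ C
  le : ∀ X ∈ C, X.2.1 ∈ R ∧ 0 ≤ X.2.2

/-- normalisation: the `T`-projection of `{l ≤ 1, z ≤ 1}` is between simplex and cube -/
structure Norm1 {m D : ℕ} (l : EE D →L[ℝ] ℝ) (C : Set (EE m × EE D × ℝ)) : Prop where
  cube : ∀ X ∈ C, l X.2.1 ≤ 1 → X.2.2 ≤ 1 → ∀ i, |X.1 i| ≤ 1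
  simp : ∀ i, ∃ X ∈ C, l X.2.1 ≤ 1 ∧ X.2.2 ≤ 1 ∧ X.1 = EuclideanSpace.single i (1 : ℝ)

/-- the output of Part A for one fixed `C` (input of Part B) -/
structure IsStruct (n : ℕ) {m D : ℕ} (C : Set (EE m × EE D × ℝ)) (R : Set (EE D))
    (l : EE D →L[ℝ] ℝ) (e : EE D) (c0 L c : ℝ) : Prop where
  dim : m + D = n
  D_pos : 1 ≤ D
  cone : ConeData R l e c0
  appr : Appr n C
  int : (interior C).Nonempty
  sub : ∀ y ∈ R, ∀ z : ℝ, 0 ≤ z → ((0 : EE m), y, z) ∈ C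
  add : ∀ X ∈ C, ∀ y ∈ R, ∀ z : ℝ, 0 ≤ z → X + ((0 : EE m), y, z) ∈ C
  le : ∀ X ∈ C, X.2.1 ∈ R ∧ 0 ≤ X.2.2
  L_ge : 1 ≤ L
  c_pos : 0 < c
  lemX : ∀ lam tau : ℝ, 0 < lam → 0 < tau → ∃ B : EE m ≃L[ℝ] EE m,
    ∀ X ∈ C, l X.2.1 ≤ tau → X.2.2 ≤ lam → ‖B X.1‖ ≤ L ∧
      ∀ w : EE m, ‖B w‖ ≤ c → X + (w, (L * tau) • e, L * lam) ∈ C

def STRUCT (n : ℕ) : Prop := ∃ (m D : ℕ) (C : Set (EE m × EE D × ℝ)) (R : Set (EE D))
  (l : EE D →L[ℝ] ℝ) (e : EE D) (c0 L c : ℝ), IsStruct n C R l e c0 L c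

/-- A3 -/
def A3Stmt : Prop := ∀ n : ℕ, 1 ≤ n → ¬ BAL n → HasRec n 1

/-- A4 (blow-down) -/
def A4Stmt : Prop := ∀ n D : ℕ, 1 ≤ D → HasRec n D → ¬ HasRec n (D + 1) →
  ∃ (m : ℕ) (R : Set (EE D)) (l : EE D →L[ℝ] ℝ) (e : EE D) (c0 : ℝ) (C : Set (EE m × EE D × ℝ)),
    m + D = n ∧ ConeData R l e c0 ∧ ClassR n R C

/-- A5 + A6 -/
def A6Stmt : Prop := ∀ (n m D : ℕ) (R : Set (EE D)) (l : EE D →L[ℝ] ℝ) (e : EE D) (c0 : ℝ)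
  (C : Set (EE m × EE D × ℝ)), m + D = n → 1 ≤ D → ¬ HasRec n (D + 1) → ConeData R l e c0 →
    ClassR n R C → ∃ L c : ℝ, IsStruct n C R l e c0 L c

/-- Part A -/
def PartA : Prop := ∀ n : ℕ, 1 ≤ n → ¬ BAL n → STRUCT n

/-- normalisation lemma (Auerbach): used in A3, A4, A6 -/
def AuerbachStmt : Prop := ∀ (m : ℕ) (S : Set (EE m)), IsCompact S → Convex ℝ S → (0 : EE m) ∈ S →
  (interior S).Nonempty → ∃ B : EE m ≃L[ℝ] EE m,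
    (∀ i, EuclideanSpace.single i (1 : ℝ) ∈ B '' S) ∧ ∀ x ∈ B '' S, ∀ i, |x i| ≤ 1

end Crest.Agent.R236.A
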