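import Mathlib
import Crest.Agent.R236.ADefs

/-! Row 236, Part A1: ultralimits of closed convex sets. (helper499) -/

set_option autoImplicit false
set_option linter.unusedSectionVars false
set_option linter.style.haveILetI false
open scoped ContDiff Topology
open Set Filter

noncomputable section

namespace Crest.Agent.R236.A

section Ulim
variable {W : Type*} [NormedAddCommGroup W] [NormedSpace ℝ W]

/-- ultralimit of a sequence of sets -/
def ulim (U : Ultrafilter ℕ) (C : ℕ → Set W) : Set W :=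
  {x | ∀ ε : ℝ, 0 < ε → ∀ᶠ j in (U : Filter ℕ), ∃ y ∈ C j, dist x y < ε}

variable {U : Ultrafilter ℕ} {C : ℕ → Set W}

lemma mem_ulim_of_tendsto {x : ℕ → W} {a : W} (hx : ∀ᶠ j in (U : Filter ℕ), x j ∈ C j)
    (hl : Tendsto x U (𝓝 a)) : a ∈ ulim U C := by
  intro ε hε
  have h1 := (Metric.tendsto_nhds.1 hl) ε hε
  filter_upwards [hx, h1] with j hj hj1
  exact ⟨x j, hj, by rw [dist_comm]; exact hj1⟩

lemma exists_limit [FiniteDimensional ℝ W] {x : ℕ → W} {R : ℝ}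
    (hx : ∀ᶠ j in (U : Filter ℕ), ‖x j‖ ≤ R) :
    ∃ a : W, ‖a‖ ≤ R ∧ Tendsto x U (𝓝 a) := by
  haveI : ProperSpace W := FiniteDimensional.proper_real W
  have hc : IsCompact (Metric.closedBall (0 : W) R) := isCompact_closedBall 0 R
  have h1 : ((U.map x : Ultrafilter W) : Filter W) ≤ 𝓟 (Metric.closedBall (0 : W) R) := by
    rw [le_principal_iff]
    have : ∀ᶠ y in ((U.map x : Ultrafilter W) : Filter W), y ∈ Metric.closedBall (0 : W) R := by
      rw [Ultrafilter.coe_map, eventually_map]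
      filter_upwards [hx] with j hj
      simpa using hj
    exact this
  obtain ⟨a, ha, hla⟩ := hc.ultrafilter_le_nhds (U.map x) h1
  refine ⟨a, by simpa using ha, ?_⟩
  simpa [Tendsto, Ultrafilter.coe_map] using hla

lemma exists_seq_of_mem_ulim [FiniteDimensional ℝ W] (hC : ∀ j, IsClosed (C j)) {a : W}
    (ha : a ∈ ulim U C) :
    ∃ x : ℕ → W, (∀ᶠ j in (U : Filter ℕ), x j ∈ C j) ∧ Tendsto x U (𝓝 a) := by
  haveI : ProperSpace W := FiniteDimensional.proper_real W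
  classical
  have key : ∀ j, ∃ x : W, (C j).Nonempty → x ∈ C j ∧ ∀ y ∈ C j, dist a x ≤ dist a y := by
    intro j
    by_cases hne : (C j).Nonempty
    · obtain ⟨x, hx, hx'⟩ := (hC j).exists_infDist_eq_dist hne a
      refine ⟨x, fun _ => ⟨hx, fun y hy => ?_⟩⟩
      rw [← hx']
      exact Metric.infDist_le_dist_of_mem hy
    · exact ⟨a, fun h => absurd h hne⟩
  choose x hx using key
  refine ⟨x, ?_, ?_⟩
  · filter_upwards [ha 1 one_pos] with j hj
    obtain ⟨y, hy, _⟩ := hj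
    exact (hx j ⟨y, hy⟩).1
  · rw [Metric.tendsto_nhds]
    intro ε hε
    filter_upwards [ha ε hε] with j hj
    obtain ⟨y, hy, hd⟩ := hj
    rw [dist_comm]
    exact lt_of_le_of_lt ((hx j ⟨y, hy⟩).2 y hy) hd

lemma isClosed_ulim : IsClosed (ulim U C) := by
  rw [← isSeqClosed_iff_isClosed]
  intro s a hs hsa ε hε
  have h1 := (Metric.tendsto_atTop.1 hsa) (ε / 2) (by linarith)
  obtain ⟨N, hN⟩ := h1
  have h2 := hs N (ε / 2) (by linarith)
  filter_upwards [h2] with j hj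
  obtain ⟨y, hy, hd⟩ := hj
  refine ⟨y, hy, ?_⟩
  have h3 := hN N le_rfl
  rw [dist_comm] at h3
  calc dist a y ≤ dist a (s N) + dist (s N) y := dist_triangle _ _ _
    _ < ε := by linarith

lemma convex_ulim (hC : ∀ j, Convex ℝ (C j)) : Convex ℝ (ulim U C) := by
  intro a ha b hb s t hs ht hst ε hε
  filter_upwards [ha ε hε, hb ε hε] with j hj1 hj2
  obtain ⟨x, hx, hdx⟩ := hj1
  obtain ⟨y, hy, hdy⟩ := hj2
  refine ⟨s • x + t • y, hC j hx hy hs ht hst, ?_⟩
  rw [dist_eq_norm] at *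
  have : s • a + t • b - (s • x + t • y) = s • (a - x) + t • (b - y) := by
    simp only [smul_sub]; abel
  rw [this]
  have h1 : ‖s • (a - x) + t • (b - y)‖ ≤ s * ‖a - x‖ + t * ‖b - y‖ := by
    refine (norm_add_le _ _).trans ?_
    rw [norm_smul, norm_smul, Real.norm_of_nonneg hs, Real.norm_of_nonneg ht]
  rcases eq_or_lt_of_le hs with h0 | h0
  · rw [← h0] at h1 hst ⊢
    have : t = 1 := by linarith
    rw [this] at h1 ⊢
    simp only [zero_mul, one_mul, zero_add] at h1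
    exact lt_of_le_of_lt h1 hdy
  · have h2 : s * ‖a - x‖ < s * ε := mul_lt_mul_of_pos_left hdx h0
    have h3 : t * ‖b - y‖ ≤ t * ε := mul_le_mul_of_nonneg_left hdy.le ht
    have h4 : s * ε + t * ε = ε := by rw [← add_mul, hst, one_mul]
    linarith

/-- on bounded sets the ultralimit is uniformly close to `C j` -/
lemma ulim_thick [FiniteDimensional ℝ W] (R ε : ℝ) (hε : 0 < ε) :
    ∀ᶠ j in (U : Filter ℕ), ∀ x ∈ ulim U C, ‖x‖ ≤ R → ∃ y ∈ C j, dist x y < ε := by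
  haveI : ProperSpace W := FiniteDimensional.proper_real W
  have hK : IsCompact (ulim U C ∩ Metric.closedBall (0 : W) R) :=
    (isCompact_closedBall 0 R).inter_left isClosed_ulim
  obtain ⟨t, hts⟩ := hK.elim_nhds_subcover' (fun x _ => Metric.ball x (ε / 2))
    (fun x _ => Metric.ball_mem_nhds x (by linarith))
  have h1 : ∀ᶠ j in (U : Filter ℕ), ∀ x ∈ t, ∃ y ∈ C j, dist (x : W) y < ε / 2 := by
    rw [Filter.eventually_all_finset]
    intro x hx
    exact x.2.1 (ε / 2) (by linarith)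
  filter_upwards [h1] with j hj x hx hxR
  have hx2 : x ∈ ulim U C ∩ Metric.closedBall (0 : W) R := ⟨hx, by simpa using hxR⟩
  have h3 := hts hx2
  simp only [mem_iUnion, Metric.mem_ball] at h3
  obtain ⟨p, hp, hd⟩ := h3
  obtain ⟨y, hy, hdy⟩ := hj p hp
  exact ⟨y, hy, by
    calc dist x y ≤ dist x p + dist (p : W) y := dist_triangle _ _ _
      _ < ε := by linarith⟩

/-- on bounded sets `C j` is uniformly close to the ultralimit -/
lemma thick_ulim [FiniteDimensional ℝ W] (R ε : ℝ) (hε : 0 < ε) :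
    ∀ᶠ j in (U : Filter ℕ), ∀ y ∈ C j, ‖y‖ ≤ R → ∃ x ∈ ulim U C, dist y x < ε := by
  by_contra hcon
  rw [← Ultrafilter.eventually_not] at hcon
  push Not at hcon
  classical
  have hch : ∀ j, ∃ y : W, (∃ y ∈ C j, ‖y‖ ≤ R ∧ ∀ x ∈ ulim U C, ε ≤ dist y x) →
      (y ∈ C j ∧ ‖y‖ ≤ R ∧ ∀ x ∈ ulim U C, ε ≤ dist y x) := by
    intro j
    by_cases h : ∃ y ∈ C j, ‖y‖ ≤ R ∧ ∀ x ∈ ulim U C, ε ≤ dist y x
    · obtain ⟨y, hy⟩ := h
      exact ⟨y, fun _ => hy⟩
    · exact ⟨0, fun h' => absurd h' h⟩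
  choose y hy using hch
  have hev : ∀ᶠ j in (U : Filter ℕ), y j ∈ C j ∧ ‖y j‖ ≤ R ∧ ∀ x ∈ ulim U C, ε ≤ dist (y j) x := by
    filter_upwards [hcon] with j hj
    obtain ⟨z, hz, hzR, hzz⟩ := hj
    exact hy j ⟨z, hz, hzR, hzz⟩
  obtain ⟨a, _, hla⟩ := exists_limit (U := U) (hev.mono fun j hj => hj.2.1)
  have ha : a ∈ ulim U C := mem_ulim_of_tendsto (hev.mono fun j hj => hj.1) hla
  have h1 := (Metric.tendsto_nhds.1 hla) ε hε
  obtain ⟨j, hj1, hj2⟩ := (hev.and h1).exists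
  exact absurd hj2 (not_lt.2 (hj1.2.2 a ha))

/-- ultralimits of approximable sets are approximable -/
theorem appr_ulim [FiniteDimensional ℝ W] {n : ℕ} (hC : ∀ j, Appr n (C j)) :
    Appr n (ulim U C) := by
  refine ⟨isClosed_ulim, convex_ulim fun j => (hC j).2.1, ?_⟩
  intro R ε hR hε
  set δ : ℝ := min (ε / 2) 1 with hδ
  have hδ0 : 0 < δ := lt_min (by linarith) one_pos
  have hδ1 : δ ≤ ε / 2 := min_le_left _ _
  have hδ2 : δ ≤ 1 := min_le_right _ _
  obtain ⟨j, hj1, hj2⟩ := ((ulim_thick (U := U) (C := C) R δ hδ0).and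
    (thick_ulim (U := U) (C := C) (R + 1) δ hδ0)).exists
  obtain ⟨Ω, u, A, hs, h1, h2⟩ := (hC j).2.2 (R + 1) δ (by linarith) hδ0
  refine ⟨Ω, u, A, hs, ?_, ?_⟩
  · intro x hx hxR
    obtain ⟨y, hy, hd⟩ := hj1 x hx hxR
    have hyR : ‖y‖ ≤ R + 1 := by
      have : ‖y‖ ≤ ‖x‖ + dist x y := by
        rw [dist_eq_norm, ← norm_neg (x - y)]
        calc ‖y‖ = ‖x + -(x - y)‖ := by congr 1; abel
          _ ≤ _ := norm_add_le _ _
      linarith
    obtain ⟨z, hz, hdz⟩ := h1 y hy hyR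
    exact ⟨z, hz, by
      calc dist x z ≤ dist x y + dist y z := dist_triangle _ _ _
        _ < ε := by linarith⟩
  · intro y hy hyR
    obtain ⟨x, hx, hd⟩ := h2 y hy (by linarith)
    have hxR : ‖x‖ ≤ R + 1 := by
      have : ‖x‖ ≤ ‖y‖ + dist y x := by
        rw [dist_eq_norm, ← norm_neg (y - x)]
        calc ‖x‖ = ‖y + -(y - x)‖ := by congr 1; abel
          _ ≤ _ := norm_add_le _ _
      linarith
    obtain ⟨z, hz, hdz⟩ := hj2 x hx hxR
    exact ⟨z, hz, by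
      calc dist y z ≤ dist y x + dist x z := dist_triangle _ _ _
        _ < ε := by linarith⟩

lemma rec_ulim [FiniteDimensional ℝ W] (hC : ∀ j, IsClosed (C j)) {v : ℕ → W} {a : W}
    (hv : ∀ᶠ j in (U : Filter ℕ), v j ∈ Rec (C j)) (hl : Tendsto v U (𝓝 a)) :
    a ∈ Rec (ulim U C) := by
  intro x hx t ht
  obtain ⟨y, hy, hly⟩ := exists_seq_of_mem_ulim hC hx
  refine mem_ulim_of_tendsto (x := fun j => y j + t • v j) ?_ ?_
  · filter_upwards [hv, hy] with j hj1 hj2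
    exact hj1 _ hj2 t ht
  · exact hly.add (hl.const_smul t)

/-- a support inequality passes to the limit -/
lemma le_of_ulim [FiniteDimensional ℝ W] (hC : ∀ j, IsClosed (C j)) {ξ : ℕ → W →L[ℝ] ℝ}
    {ζ : W →L[ℝ] ℝ} {s : ℕ → ℝ} {b : ℝ} (hξ : Tendsto ξ U (𝓝 ζ)) (hs : Tendsto s U (𝓝 b))
    (h : ∀ᶠ j in (U : Filter ℕ), ∀ x ∈ C j, ξ j x ≤ s j) : ∀ x ∈ ulim U C, ζ x ≤ b := by
  intro x hx
  obtain ⟨y, hy, hly⟩ := exists_seq_of_mem_ulim hC hx
  have h1 : Tendsto (fun j => ξ j (y j)) U (𝓝 (ζ x)) := by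
    have := (isBoundedBilinearMap_apply (𝕜 := ℝ) (E := W) (F := ℝ)).continuous.tendsto (ζ, x)
    exact this.comp (hξ.prodMk_nhds hly)
  refine le_of_tendsto_of_tendsto h1 hs ?_
  filter_upwards [h, hy] with j hj1 hj2
  exact hj1 _ hj2

end Ulim

end Crest.Agent.R236.A
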