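import Mathlib
import Crest.Agent.R236.AUlim

/-! Row 236, Part A: recession cones. (helper499) -/

set_option autoImplicit false
set_option linter.unusedSectionVars false
set_option linter.style.haveILetI false
open scoped ContDiff Topology
open Set Filter

noncomputable section

namespace Crest.Agent.R236.A

variable {W : Type*} [NormedAddCommGroup W] [NormedSpace ℝ W] {C : Set W}

lemma rec_zero : (0 : W) ∈ Rec C := by
  intro x hx t _
  simpa using hx

lemma rec_add {v w : W} (hv : v ∈ Rec C) (hw : w ∈ Rec C) : v + w ∈ Rec C := by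
  intro x hx t ht
  have := hw _ (hv x hx t ht) t ht
  rwa [add_assoc, ← smul_add] at this

lemma rec_smul {v : W} (hv : v ∈ Rec C) {s : ℝ} (hs : 0 ≤ s) : s • v ∈ Rec C := by
  intro x hx t ht
  rw [smul_smul]
  exact hv x hx _ (mul_nonneg ht hs)

lemma isClosed_rec (hC : IsClosed C) : IsClosed (Rec C) := by
  have : Rec C = ⋂ x ∈ C, ⋂ t ∈ Ici (0 : ℝ), {v | x + t • v ∈ C} := by
    ext v
    simp only [Rec, mem_ofPred_eq, mem_iInter, mem_Ici]
  rw [this]
  refine isClosed_biInter fun x _ => isClosed_biInter fun t _ => ?_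
  exact hC.preimage (by fun_prop : Continuous fun v : W => x + t • v)

lemma mem_rec_of_tendsto {ι : Type*} {F : Filter ι} [F.NeBot] (hcl : IsClosed C)
    (hcv : Convex ℝ C) {x : ι → W} {t : ι → ℝ} {v : W} (hx : ∀ᶠ j in F, x j ∈ C)
    (ht : Tendsto t F atTop) (hl : Tendsto (fun j => (t j)⁻¹ • x j) F (𝓝 v)) : v ∈ Rec C := by
  intro y hy s hs
  have h1 : Tendsto (fun j => (1 - s * (t j)⁻¹) • y + s • ((t j)⁻¹ • x j)) F (𝓝 (y + s • v)) := by
    have h2 : Tendsto (fun j => 1 - s * (t j)⁻¹) F (𝓝 1) := by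
      have := (tendsto_inv_atTop_zero.comp ht).const_mul s
      simpa using this.const_sub 1
    have h3 := (h2.smul_const y).add (hl.const_smul s)
    simpa using h3
  refine hcl.mem_of_tendsto h1 ?_
  filter_upwards [hx, ht.eventually_ge_atTop (s + 1)] with j hj hj2
  have ht0 : 0 < t j := by linarith
  have h4 : s * (t j)⁻¹ ≤ 1 := by
    rw [← div_eq_mul_inv, div_le_one ht0]; linarith
  rw [smul_smul]
  exact hcv hy hj (by linarith) (mul_nonneg hs (inv_nonneg.2 ht0.le)) (by ring)

lemma mem_rec_of_ray (hcl : IsClosed C) (hcv : Convex ℝ C) {x0 v : W}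
    (h : ∀ t : ℝ, 0 ≤ t → x0 + t • v ∈ C) : v ∈ Rec C := by
  refine mem_rec_of_tendsto (F := (atTop : Filter ℝ)) hcl hcv (x := fun t => x0 + t • v)
    (t := fun t => t) ?_ tendsto_id ?_
  · filter_upwards [eventually_ge_atTop (0 : ℝ)] with t ht
    exact h t ht
  · have h1 : Tendsto (fun t : ℝ => t⁻¹ • x0 + v) atTop (𝓝 v) := by
      have := (tendsto_inv_atTop_zero (𝕜 := ℝ)).smul_const x0
      simpa using this.add_const v
    refine h1.congr' ?_
    filter_upwards [eventually_gt_atTop (0 : ℝ)] with t ht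
    rw [smul_add, smul_smul, inv_mul_cancel₀ ht.ne', one_smul]

lemma exists_rec_of_unbounded [FiniteDimensional ℝ W] (hcl : IsClosed C) (hcv : Convex ℝ C)
    (h : ¬ Bornology.IsBounded C) : ∃ v ∈ Rec C, ‖v‖ = 1 := by
  rw [isBounded_iff_forall_norm_le] at h
  push Not at h
  choose x hx hxn using fun j : ℕ => h j
  let U : Ultrafilter ℕ := Filter.hyperfilter ℕ
  have hU : (U : Filter ℕ) ≤ atTop := by
    rw [← Nat.cofinite_eq_atTop]; exact Filter.hyperfilter_le_cofinite
  have ht : Tendsto (fun j => ‖x j‖) U atTop := by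
    refine Tendsto.mono_left ?_ hU
    exact tendsto_atTop_mono (fun j => (hxn j).le) tendsto_natCast_atTop_atTop
  have hpos : ∀ᶠ j in (U : Filter ℕ), 0 < ‖x j‖ := ht.eventually_gt_atTop 0
  have hn : ∀ᶠ j in (U : Filter ℕ), ‖(‖x j‖)⁻¹ • x j‖ = 1 := by
    filter_upwards [hpos] with j hj
    rw [norm_smul, norm_inv, norm_norm, inv_mul_cancel₀ hj.ne']
  obtain ⟨a, _, hla⟩ := exists_limit (U := U) (hn.mono fun j hj => hj.le)
  refine ⟨a, mem_rec_of_tendsto hcl hcv (Eventually.of_forall hx) ht hla, ?_⟩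
  have h1 := hla.norm
  have h2 : Tendsto (fun j => ‖(‖x j‖)⁻¹ • x j‖) U (𝓝 1) :=
    tendsto_const_nhds.congr' (hn.mono fun j hj => hj.symm)
  exact tendsto_nhds_unique h1 h2

lemma isCompact_of_no_rec [FiniteDimensional ℝ W] (hcl : IsClosed C) (hcv : Convex ℝ C)
    (h : ∀ v ∈ Rec C, v = 0) : IsCompact C := by
  haveI : ProperSpace W := FiniteDimensional.proper_real W
  refine Metric.isCompact_of_isClosed_isBounded hcl ?_
  by_contra hb
  obtain ⟨v, hv, hv1⟩ := exists_rec_of_unbounded hcl hcv hb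
  rw [h v hv] at hv1
  simp at hv1

/-- a convex set containing `0` which spans has nonempty interior -/
lemma int_of_span [FiniteDimensional ℝ W] (hcv : Convex ℝ C) (h0 : (0 : W) ∈ C)
    (hs : Submodule.span ℝ C = ⊤) : (interior C).Nonempty := by
  rw [hcv.interior_nonempty_iff_affineSpan_eq_top,
    AffineSubspace.affineSpan_eq_top_iff_vectorSpan_eq_top_of_nonempty ℝ W W ⟨0, h0⟩]
  rw [eq_top_iff, ← hs, Submodule.span_le]
  intro x hx
  have := vsub_mem_vectorSpan ℝ hx h0
  simpa using this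

lemma exists_basis_of_int {D : ℕ} {R : Set (EE D)} (h : (interior R).Nonempty) :
    ∃ r : Fin D → EE D, (∀ i, r i ∈ R) ∧ LinearIndependent ℝ r := by
  have hs : Submodule.span ℝ R = ⊤ := by
    have h1 : affineSpan ℝ R = ⊤ := affineSpan_eq_top_of_nonempty_interior
      (h.mono (interior_mono (subset_convexHull ℝ R)))
    rw [eq_top_iff]
    intro x _
    have hx : x ∈ affineSpan ℝ R := by rw [h1]; trivial
    exact affineSpan_subset_span hx
  obtain ⟨f, hf, _, hl⟩ := Submodule.exists_fun_fin_finrank_span_eq ℝ R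
  have hd : Module.finrank ℝ (Submodule.span ℝ R) = D := by
    rw [hs, finrank_top]; simp
  refine ⟨fun i => f (Fin.cast hd.symm i), fun i => hf _, ?_⟩
  exact hl.comp _ (Fin.cast_injective _)

lemma linInd_cons {V : Type*} [AddCommGroup V] [Module ℝ V] {V' : Type*} [AddCommGroup V']
    [Module ℝ V'] {d : ℕ} {v : Fin d → V} (hv : LinearIndependent ℝ v) (f : V →ₗ[ℝ] V')
    (hf : ∀ i, f (v i) = 0) {x : V} (hx : f x ≠ 0) :
    LinearIndependent ℝ (Fin.cons x v : Fin (d + 1) → V) := by
  rw [linearIndependent_finCons]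
  refine ⟨hv, fun h => hx ?_⟩
  have h1 : Submodule.span ℝ (range v) ≤ LinearMap.ker f := by
    rw [Submodule.span_le]
    rintro _ ⟨i, rfl⟩
    exact hf i
  exact h1 h

end Crest.Agent.R236.A
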