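import Mathlib
import Crest.Agent.R236.ARec

/-! Row 236, Part A: invariance under affine isomorphisms. (helper499) -/

set_option autoImplicit false
set_option linter.unusedSectionVars false
set_option linter.style.haveILetI false
open scoped ContDiff Topology
open Set Filter

noncomputable section

namespace Crest.Agent.R236.A

variable {W W' : Type*} [NormedAddCommGroup W] [NormedSpace ℝ W] [FiniteDimensional ℝ W]
  [NormedAddCommGroup W'] [NormedSpace ℝ W'] [FiniteDimensional ℝ W'] {n d : ℕ} {C : Set W}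

lemma aff_lip (A : W ≃ᵃ[ℝ] W') : ∃ K : ℝ, 0 < K ∧ ∀ x y, dist (A x) (A y) ≤ K * dist x y := by
  let f : W →L[ℝ] W' := LinearMap.toContinuousLinearMap (A.linear : W →ₗ[ℝ] W')
  refine ⟨‖f‖ + 1, by positivity, fun x y => ?_⟩
  have h1 : A x - A y = f (x - y) := by
    have := A.toAffineMap.linearMap_vsub x y
    simp only [vsub_eq_sub] at this
    exact this.symm
  rw [dist_eq_norm, dist_eq_norm, h1]
  refine (f.le_opNorm _).trans ?_
  exact mul_le_mul_of_nonneg_right (by linarith) (norm_nonneg _)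

lemma aff_cont (A : W ≃ᵃ[ℝ] W') : Continuous A := by
  obtain ⟨K, hK, h⟩ := aff_lip A
  refine Metric.continuous_iff.2 fun b ε hε => ⟨ε / K, by positivity, fun a ha => ?_⟩
  refine (h a b).trans_lt ?_
  rwa [lt_div_iff₀ hK, mul_comm] at ha

lemma aff_isClosed (A : W ≃ᵃ[ℝ] W') (hC : IsClosed C) : IsClosed (A '' C) := by
  have : A '' C = A.symm ⁻¹' C := by
    ext x
    constructor
    · rintro ⟨y, hy, rfl⟩; simpa using hy
    · intro hx; exact ⟨A.symm x, hx, by simp⟩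
  rw [this]
  exact hC.preimage (aff_cont A.symm)

theorem Appr.image' (h : Appr n C) (A : W ≃ᵃ[ℝ] W') : Appr n (A '' C) := by
  refine ⟨aff_isClosed A h.1, h.2.1.affine_image (A : W →ᵃ[ℝ] W'), ?_⟩
  intro R ε hR hε
  obtain ⟨K, hK, hKl⟩ := aff_lip A
  obtain ⟨K', hK', hKl'⟩ := aff_lip A.symm
  have hb : ∀ x : W', ‖x‖ ≤ R → ‖A.symm x‖ ≤ K' * R + ‖A.symm 0‖ + 1 := by
    intro x hx
    have h1 := hKl' x 0
    rw [dist_eq_norm, dist_eq_norm, sub_zero] at h1
    have h2 : ‖A.symm x‖ ≤ ‖A.symm x - A.symm 0‖ + ‖A.symm 0‖ := by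
      calc ‖A.symm x‖ = ‖(A.symm x - A.symm 0) + A.symm 0‖ := by congr 1; abel
        _ ≤ _ := norm_add_le _ _
    have h3 : K' * ‖x‖ ≤ K' * R := mul_le_mul_of_nonneg_left hx hK'.le
    linarith
  obtain ⟨Ω, u, A0, hs, h1, h2⟩ := h.2.2 (K' * R + ‖A.symm 0‖ + 1) (ε / K) (by positivity)
    (by positivity)
  refine ⟨Ω, u, A0.trans A, hs, ?_, ?_⟩
  · rintro _ ⟨x, hx, rfl⟩ hxR
    have h3 := hb _ hxR
    rw [AffineEquiv.symm_apply_apply] at h3
    obtain ⟨_, ⟨y, hy, rfl⟩, hd⟩ := h1 x hx h3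
    refine ⟨A (A0 y), ⟨y, hy, rfl⟩, ?_⟩
    refine (hKl _ _).trans_lt ?_
    rwa [lt_div_iff₀ hK, mul_comm] at hd
  · rintro _ ⟨y, hy, rfl⟩ hyR
    have h3 := hb _ hyR
    rw [AffineEquiv.trans_apply, AffineEquiv.symm_apply_apply] at h3
    obtain ⟨x, hx, hd⟩ := h2 (A0 y) ⟨y, hy, rfl⟩ h3
    refine ⟨A x, ⟨x, hx, rfl⟩, ?_⟩
    rw [AffineEquiv.trans_apply]
    refine (hKl _ _).trans_lt ?_
    rwa [lt_div_iff₀ hK, mul_comm] at hd

theorem rec_image' (A : W ≃ᵃ[ℝ] W') : Rec (A '' C) = A.linear '' Rec C := by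
  ext v
  constructor
  · intro hv
    refine ⟨A.linear.symm v, fun x hx t ht => ?_, by simp⟩
    obtain ⟨y, hy, hye⟩ := hv (A x) ⟨x, hx, rfl⟩ t ht
    have : y = x + t • A.linear.symm v := by
      apply A.injective
      rw [hye]
      have h1 : A (x + t • A.linear.symm v) = A.linear (t • A.linear.symm v) + A x := by
        have := A.map_vadd x (t • A.linear.symm v)
        simpa [vadd_eq_add, add_comm] using this
      rw [h1, map_smul, LinearEquiv.apply_symm_apply, add_comm]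
    rwa [this] at hy
  · rintro ⟨w, hw, rfl⟩ _ ⟨x, hx, rfl⟩ t ht
    refine ⟨x + t • w, hw x hx t ht, ?_⟩
    have := A.map_vadd x (t • w)
    simp only [vadd_eq_add] at this
    rw [add_comm x, this, map_smul, add_comm]

theorem Good.image' (h : Good n C) (A : W ≃ᵃ[ℝ] W') : Good n (A '' C) := by
  refine ⟨h.appr.image' A, ?_, ?_⟩
  · obtain ⟨Q, hQ⟩ := h.int
    refine ⟨A Q, ?_⟩
    have h1 : IsOpen (A.symm ⁻¹' interior C) := isOpen_interior.preimage (aff_cont A.symm)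
    refine interior_maximal ?_ h1 (by simpa using hQ)
    intro x hx
    exact ⟨A.symm x, interior_subset hx, by simp⟩
  · intro v hv hv'
    rw [rec_image'] at hv hv'
    obtain ⟨w, hw, rfl⟩ := hv
    obtain ⟨w', hw', he⟩ := hv'
    have : w' = -w := by
      apply A.linear.injective
      rw [he, map_neg]
    rw [this] at hw'
    rw [h.pointed w hw hw', map_zero]

theorem hasRec_of' (hW : Module.finrank ℝ W = n + 1) (h : Good n C) (hr : RecD d C) :
    HasRec n d := by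
  have hf : Module.finrank ℝ W = Module.finrank ℝ (EE n × ℝ) := by
    rw [hW]; simp
  let A : W ≃ₗ[ℝ] (EE n × ℝ) := LinearEquiv.ofFinrankEq W (EE n × ℝ) hf
  obtain ⟨ξ, hξ, X0, hX0, hmax, v, hv, hv'⟩ := hr
  refine ⟨A.toAffineEquiv '' C, h.image' A.toAffineEquiv,
    ξ.comp (A.symm.toContinuousLinearEquiv : (EE n × ℝ) →L[ℝ] W), ?_, A X0, ⟨X0, hX0, rfl⟩, ?_,
    fun i => A (v i), hv.map' (A : W →ₗ[ℝ] (EE n × ℝ)) (LinearEquiv.ker A), fun i => ⟨?_, ?_⟩⟩
  · intro h0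
    apply hξ
    ext x
    have := congrArg (fun g : (EE n × ℝ) →L[ℝ] ℝ => g (A x)) h0
    simpa using this
  · rintro _ ⟨x, hx, rfl⟩
    simpa using hmax x hx
  · rw [rec_image']
    exact ⟨v i, (hv' i).1, rfl⟩
  · simpa using (hv' i).2

theorem hasRec_le' (h : HasRec n d) : d ≤ n := by
  obtain ⟨C, _, ξ, hξ, _, _, _, v, hv, hv'⟩ := h
  have h1 : Module.finrank ℝ (LinearMap.ker (ξ : (EE n × ℝ) →ₗ[ℝ] ℝ)) = n := by
    have h2 := LinearMap.finrank_range_add_finrank_ker (ξ : (EE n × ℝ) →ₗ[ℝ] ℝ)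
    have h3 : LinearMap.range (ξ : (EE n × ℝ) →ₗ[ℝ] ℝ) = ⊤ := by
      rw [LinearMap.range_eq_top]
      refine LinearMap.surjective ?_
      intro h0
      exact hξ (by ext x <;> exact congrArg (fun g : (EE n × ℝ) →ₗ[ℝ] ℝ => g _) h0)
    rw [h3, finrank_top] at h2
    simp at h2
    omega
  let w : Fin d → LinearMap.ker (ξ : (EE n × ℝ) →ₗ[ℝ] ℝ) := fun i => ⟨v i, (hv' i).2⟩
  have hw : LinearIndependent ℝ w := by
    refine LinearIndependent.of_comp (LinearMap.ker (ξ : (EE n × ℝ) →ₗ[ℝ] ℝ)).subtype ?_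
    exact hv
  have := hw.fintype_card_le_finrank
  rw [h1] at this
  simpa using this

end Crest.Agent.R236.A
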