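import Crest.Agent.R236.ACoordB
import Crest.Agent.R236.AInvB

/-!
# Row 236, Part A, node A4: `A4Stmt`
-/

set_option autoImplicit false

namespace Crest.Agent.R236.A

theorem a4 : A4Stmt :=
  a4_of coordStmt (fun _ _ _ _ _ _ _ _ _ _ A h => h.image' A) (fun _ _ _ _ _ _ _ _ _ A => rec_image' A)

end Crest.Agent.R236.A
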