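import Mathlib
import Crest.Agent.R236.ARec

/-! Row 236, Part A: the class `ClassR`, its normalisation and compactness. (helper499) -/

set_option autoImplicit false
set_option linter.unusedSectionVars false
set_option linter.style.haveILetI false
open scoped ContDiff Topology
open Set Filter

noncomputable section

namespace Crest.Agent.R236.A

/-- the linear scaling `(t,y,z) ↦ (B t, y/τ, z/λ)` -/
def Phi {m D : ℕ} (B : EE m ≃L[ℝ] EE m) (tau lam : ℝ) (ht : tau ≠ 0) (hl : lam ≠ 0) :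
    (EE m × EE D × ℝ) ≃L[ℝ] (EE m × EE D × ℝ) :=
  (LinearEquiv.prodCongr B.toLinearEquiv
    (LinearEquiv.prodCongr (LinearEquiv.smulOfNeZero ℝ (EE D) tau⁻¹ (inv_ne_zero ht))
      (LinearEquiv.smulOfNeZero ℝ ℝ lam⁻¹ (inv_ne_zero hl)))).toContinuousLinearEquiv

lemma Phi_apply {m D : ℕ} (B : EE m ≃L[ℝ] EE m) (tau lam : ℝ) (ht : tau ≠ 0) (hl : lam ≠ 0)
    (X : EE m × EE D × ℝ) :
    Phi B tau lam ht hl X = (B X.1, tau⁻¹ • X.2.1, lam⁻¹ * X.2.2) := by
  rfl

namespace ConeData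
variable {D : ℕ} {R : Set (EE D)} {l : EE D →L[ℝ] ℝ} {e : EE D} {c0 : ℝ}

lemma e_mem (h : ConeData R l e c0) : e ∈ R := interior_subset h.e_int

lemma norm_le (h : ConeData R l e c0) {v : EE D} (hv : v ∈ R) {s : ℝ} (hs : l v ≤ s) :
    ‖v‖ ≤ s / c0 := by
  rw [le_div_iff₀ h.c0_pos]
  have := h.l_ge v hv
  linarith [mul_comm c0 ‖v‖]

lemma l_nonneg (h : ConeData R l e c0) {v : EE D} (hv : v ∈ R) : 0 ≤ l v :=
  (mul_nonneg h.c0_pos.le (norm_nonneg v)).trans (h.l_ge v hv)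

lemma eq_zero (h : ConeData R l e c0) {v : EE D} (hv : v ∈ R) (hl : l v ≤ 0) : v = 0 := by
  have h1 := h.norm_le hv hl
  rw [zero_div] at h1
  exact norm_le_zero_iff.1 h1

lemma eq_zero_of_neg (h : ConeData R l e c0) {v : EE D} (hv : v ∈ R) (hv' : -v ∈ R) : v = 0 := by
  refine h.eq_zero hv ?_
  have := h.l_nonneg hv'
  rw [map_neg] at this
  linarith

/-- a functional which is `≤ 0` on `R` and `0` at `e` vanishes -/
lemma funct_zero (h : ConeData R l e c0) (f : EE D →ₗ[ℝ] ℝ) (hf : ∀ v ∈ R, f v ≤ 0)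
    (he : f e = 0) : f = 0 := by
  have h1 := h.e_int
  rw [mem_interior_iff_mem_nhds, Metric.mem_nhds_iff] at h1
  obtain ⟨δ, hδ, hb⟩ := h1
  ext v
  by_contra hv
  have hv0 : v ≠ 0 := by
    rintro rfl
    exact hv (by simp)
  have hn : 0 < ‖v‖ := norm_pos_iff.2 hv0
  set s : ℝ := δ / (2 * ‖v‖) with hs
  have hs0 : 0 < s := by positivity
  have hsv : ‖s • v‖ < δ := by
    rw [norm_smul, Real.norm_of_nonneg hs0.le, hs]
    have : δ / (2 * ‖v‖) * ‖v‖ = δ / 2 := by field_simp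
    rw [this]; linarith
  have m1 : e + s • v ∈ R := hb (by simpa [Metric.mem_ball, dist_eq_norm] using hsv)
  have m2 : e - s • v ∈ R := hb (by
    rw [Metric.mem_ball, dist_eq_norm]
    have : e - s • v - e = -(s • v) := by abel
    rw [this, norm_neg]; exact hsv)
  have e1 := hf _ m1
  have e2 := hf _ m2
  rw [map_add, he, map_smul, smul_eq_mul, zero_add] at e1
  rw [map_sub, he, map_smul, smul_eq_mul, zero_sub] at e2
  apply hv
  have : s * f v = 0 := by linarith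
  simpa [hs0.ne'] using this

end ConeData

section box
variable {m D : ℕ} (l : EE D →L[ℝ] ℝ) (tau lam : ℝ)

lemma isClosed_l : IsClosed {X : EE m × EE D × ℝ | l X.2.1 ≤ tau} :=
  isClosed_le (l.continuous.comp (continuous_fst.comp continuous_snd)) continuous_const
lemma isClosed_z : IsClosed {X : EE m × EE D × ℝ | X.2.2 ≤ lam} :=
  isClosed_le (continuous_snd.comp continuous_snd) continuous_const
lemma isOpen_l : IsOpen {X : EE m × EE D × ℝ | l X.2.1 < tau} :=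
  isOpen_lt (l.continuous.comp (continuous_fst.comp continuous_snd)) continuous_const
lemma isOpen_z : IsOpen {X : EE m × EE D × ℝ | X.2.2 < lam} :=
  isOpen_lt (continuous_snd.comp continuous_snd) continuous_const
lemma convex_l : Convex ℝ {X : EE m × EE D × ℝ | l X.2.1 ≤ tau} := by
  intro a ha b hb s t hs ht hst
  have ha' : l a.2.1 ≤ tau := ha
  have hb' : l b.2.1 ≤ tau := hb
  have h1 : l (s • a + t • b).2.1 = s * l a.2.1 + t * l b.2.1 := by simp
  change l (s • a + t • b).2.1 ≤ tau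
  rw [h1]
  have h2 := mul_le_mul_of_nonneg_left ha' hs
  have h3 := mul_le_mul_of_nonneg_left hb' ht
  have h4 : s * tau + t * tau = tau := by rw [← add_mul, hst, one_mul]
  linarith
lemma convex_z : Convex ℝ {X : EE m × EE D × ℝ | X.2.2 ≤ lam} := by
  intro a ha b hb s t hs ht hst
  have ha' : a.2.2 ≤ lam := ha
  have hb' : b.2.2 ≤ lam := hb
  have h1 : (s • a + t • b).2.2 = s * a.2.2 + t * b.2.2 := by simp
  change (s • a + t • b).2.2 ≤ lam
  rw [h1]
  have h2 := mul_le_mul_of_nonneg_left ha' hs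
  have h3 := mul_le_mul_of_nonneg_left hb' ht
  have h4 : s * lam + t * lam = lam := by rw [← add_mul, hst, one_mul]
  linarith
end box

namespace ClassR
variable {n m D : ℕ} {R : Set (EE D)} {C : Set (EE m × EE D × ℝ)}
variable {l : EE D →L[ℝ] ℝ} {e : EE D} {c0 : ℝ}

lemma zero_mem (h : ClassR n R C) (cd : ConeData R l e c0) : (0 : EE m × EE D × ℝ) ∈ C := by
  have := h.sub 0 cd.R_zero 0 le_rfl
  exact this

lemma closed (h : ClassR n R C) : IsClosed C := h.good.appr.1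
lemma convex (h : ClassR n R C) : Convex ℝ C := h.good.appr.2.1

lemma smul_mem (h : ClassR n R C) (cd : ConeData R l e c0) {X : EE m × EE D × ℝ} (hX : X ∈ C)
    {s : ℝ} (h0 : 0 ≤ s) (h1 : s ≤ 1) : s • X ∈ C :=
  h.convex.smul_mem_of_zero_mem (h.zero_mem cd) hX ⟨h0, h1⟩

lemma rec_mem (h : ClassR n R C) (cd : ConeData R l e c0) {y : EE D} (hy : y ∈ R) {z : ℝ}
    (hz : 0 ≤ z) : ((0 : EE m), y, z) ∈ Rec C := by
  refine mem_rec_of_ray h.closed h.convex (x0 := 0) fun t ht => ?_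
  have := h.sub (t • y) (cd.R_smul y hy t ht) (t * z) (mul_nonneg ht hz)
  have e1 : (0 : EE m × EE D × ℝ) + t • ((0 : EE m), y, z) = ((0 : EE m), t • y, t * z) := by
    ext <;> simp
  rw [e1]; exact this

lemma rec_sub (h : ClassR n R C) (cd : ConeData R l e c0) {v : EE m × EE D × ℝ}
    (hv : v ∈ Rec C) : v ∈ C := by
  have := hv 0 (h.zero_mem cd) 1 zero_le_one
  simpa using this

lemma add_mem (h : ClassR n R C) (cd : ConeData R l e c0) {X : EE m × EE D × ℝ} (hX : X ∈ C)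
    {y : EE D} (hy : y ∈ R) {z : ℝ} (hz : 0 ≤ z) : X + ((0 : EE m), y, z) ∈ C := by
  have := h.rec_mem cd hy hz X hX 1 zero_le_one
  simpa using this

/-- `RecD (D+1)` from one more recession direction -/
lemma recD_succ (h : ClassR n R C) (cd : ConeData R l e c0) {V' : Type*} [AddCommGroup V']
    [Module ℝ V'] (f : (EE m × EE D × ℝ) →ₗ[ℝ] V') (hf : ∀ y, f ((0 : EE m), y, 0) = 0)
    {x : EE m × EE D × ℝ} (hx : x ∈ Rec C) (hfx : f x ≠ 0)
    {ξ : (EE m × EE D × ℝ) →L[ℝ] ℝ} (hξ : ξ ≠ 0) {X0 : EE m × EE D × ℝ} (hX0 : X0 ∈ C)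
    (hmax : ∀ X ∈ C, ξ X ≤ ξ X0) (hξR : ∀ y, ξ ((0 : EE m), y, 0) = 0) (hξx : ξ x = 0) :
    RecD (D + 1) C := by
  obtain ⟨r, hr, hl⟩ := exists_basis_of_int ⟨e, cd.e_int⟩
  refine ⟨ξ, hξ, X0, hX0, hmax, Fin.cons x (fun i => ((0 : EE m), r i, (0 : ℝ))), ?_, ?_⟩
  · refine linInd_cons ?_ f (fun i => hf _) hfx
    let g : EE D →ₗ[ℝ] EE m × EE D × ℝ := (LinearMap.inr ℝ (EE m) (EE D × ℝ)).comp
      (LinearMap.inl ℝ (EE D) ℝ)
    have : (fun i => ((0 : EE m), r i, (0 : ℝ))) = g ∘ r := by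
      funext i; rfl
    rw [this]
    refine hl.map' g ?_
    rw [LinearMap.ker_eq_bot]
    intro a b hab
    have := congrArg (fun X : EE m × EE D × ℝ => X.2.1) hab
    exact this
  · intro i
    refine Fin.cases ?_ (fun j => ?_) i
    · simpa using ⟨hx, hξx⟩
    · simpa using ⟨h.rec_mem cd (hr j) le_rfl, hξR _⟩

/-- the only recession directions with `l ≤ 0`, `z ≤ 0` vanish, if `D` is maximal -/
lemma rec_eq_zero (h : ClassR n R C) (cd : ConeData R l e c0) (hmax : ¬ RecD (D + 1) C)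
    {v : EE m × EE D × ℝ} (hv : v ∈ Rec C) (hl : l v.2.1 ≤ 0) (hz : v.2.2 ≤ 0) : v = 0 := by
  have hvC := h.rec_sub cd hv
  obtain ⟨h1, h2⟩ := h.le v hvC
  have h3 : v.2.1 = 0 := cd.eq_zero h1 hl
  have h4 : v.2.2 = 0 := le_antisymm hz h2
  by_contra hne
  have h5 : v.1 ≠ 0 := by
    intro h6
    apply hne
    ext1
    · exact h6
    · ext1
      · exact h3
      · exact h4
  apply hmax
  refine h.recD_succ cd (LinearMap.fst ℝ (EE m) (EE D × ℝ)) (fun y => by simp) hv (by simpa using h5)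
    (ξ := -((ContinuousLinearMap.snd ℝ (EE D) ℝ).comp (ContinuousLinearMap.snd ℝ (EE m) (EE D × ℝ))))
    ?_ (X0 := 0) (h.zero_mem cd) ?_ (fun y => by simp) (by simp [h4])
  · intro h7
    have := congrArg (fun g : (EE m × EE D × ℝ) →L[ℝ] ℝ => g ((0 : EE m), (0 : EE D), (1 : ℝ))) h7
    simp at this
  · intro X hX
    have := (h.le X hX).2
    simpa using this

/-- the boxes `{l ≤ τ, z ≤ λ}` are compact -/
lemma isCompact_box (h : ClassR n R C) (cd : ConeData R l e c0) (hmax : ¬ RecD (D + 1) C)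
    {tau lam : ℝ} (ht : 0 ≤ tau) (hla : 0 ≤ lam) :
    IsCompact {X | X ∈ C ∧ l X.2.1 ≤ tau ∧ X.2.2 ≤ lam} := by
  have hcl : IsClosed {X : EE m × EE D × ℝ | X ∈ C ∧ l X.2.1 ≤ tau ∧ X.2.2 ≤ lam} := by
    exact h.closed.inter ((isClosed_l l tau).inter (isClosed_z lam))
  have hcv : Convex ℝ {X : EE m × EE D × ℝ | X ∈ C ∧ l X.2.1 ≤ tau ∧ X.2.2 ≤ lam} := by
    exact h.convex.inter ((convex_l l tau).inter (convex_z lam))
  refine isCompact_of_no_rec hcl hcv fun v hv => ?_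
  have h0 : (0 : EE m × EE D × ℝ) ∈ {X : EE m × EE D × ℝ | X ∈ C ∧ l X.2.1 ≤ tau ∧ X.2.2 ≤ lam} :=
    ⟨h.zero_mem cd, by simpa using ht, by simpa using hla⟩
  have hr : v ∈ Rec C := by
    refine mem_rec_of_ray h.closed h.convex (x0 := 0) fun t ht' => ?_
    exact (hv 0 h0 t ht').1
  have hall : ∀ t : ℝ, 0 ≤ t → t * l v.2.1 ≤ tau ∧ t * v.2.2 ≤ lam := by
    intro t ht'
    have := (hv 0 h0 t ht').2
    simpa using this
  refine h.rec_eq_zero cd hmax hr ?_ ?_
  · by_contra hpos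
    push Not at hpos
    have := (hall ((tau + 1) / l v.2.1) (by positivity)).1
    rw [div_mul_cancel₀ _ hpos.ne'] at this
    linarith
  · by_contra hpos
    push Not at hpos
    have := (hall ((lam + 1) / v.2.2) (by positivity)).2
    rw [div_mul_cancel₀ _ hpos.ne'] at this
    linarith

/-- Auerbach normalisation of the `T`-projection of the box -/
lemma exists_norm (hA : AuerbachStmt) (h : ClassR n R C) (cd : ConeData R l e c0)
    (hmax : ¬ RecD (D + 1) C) {tau lam : ℝ} (ht : 0 < tau) (hla : 0 < lam) :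
    ∃ B : EE m ≃L[ℝ] EE m, Norm1 l (Phi B tau lam ht.ne' hla.ne' '' C) := by
  set K : Set (EE m × EE D × ℝ) := {X | X ∈ C ∧ l X.2.1 ≤ tau ∧ X.2.2 ≤ lam} with hK
  have hKc : IsCompact K := h.isCompact_box cd hmax ht.le hla.le
  have hKcv : Convex ℝ K := by
    exact h.convex.inter ((convex_l l tau).inter (convex_z lam))
  have hint : (interior (Prod.fst '' K)).Nonempty := by
    obtain ⟨Q, hQ⟩ := h.good.int
    -- points s • Q
    have hlim : Tendsto (fun s : ℝ => s • Q) (𝓝[>] 0) (𝓝 0) := by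
      have : Tendsto (fun s : ℝ => s • Q) (𝓝 0) (𝓝 ((0 : ℝ) • Q)) :=
        (continuous_id.smul continuous_const).tendsto 0
      rw [zero_smul] at this
      exact this.mono_left nhdsWithin_le_nhds
    have hopen : IsOpen {X : EE m × EE D × ℝ | l X.2.1 < tau ∧ X.2.2 < lam} := by
      exact (isOpen_l l tau).inter (isOpen_z lam)
    have h1 : ∀ᶠ s : ℝ in 𝓝[>] 0, s • Q ∈ {X : EE m × EE D × ℝ | l X.2.1 < tau ∧ X.2.2 < lam} :=
      hlim (hopen.mem_nhds (by simpa using ⟨ht, hla⟩))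
    have h2 : ∀ᶠ s : ℝ in 𝓝[>] 0, s < 1 := by
      have : ∀ᶠ s : ℝ in 𝓝 0, s < 1 := eventually_lt_nhds zero_lt_one
      exact this.filter_mono nhdsWithin_le_nhds
    have h3 : ∀ᶠ s : ℝ in 𝓝[>] 0, 0 < s := eventually_mem_nhdsWithin
    obtain ⟨s, hs1, hs2, hs3⟩ := (h1.and (h2.and h3)).exists
    have h4 : s • Q ∈ interior C := by
      have := h.convex.openSegment_interior_closure_subset_interior hQ
        (subset_closure (h.zero_mem cd))
      apply this
      refine ⟨s, 1 - s, hs3, by linarith, by ring, by simp⟩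
    have ho : IsOpen (interior C ∩ {X : EE m × EE D × ℝ | l X.2.1 < tau ∧ X.2.2 < lam}) :=
      isOpen_interior.inter hopen
    refine ⟨(s • Q).1, ?_⟩
    refine interior_maximal ?_ (isOpenMap_fst _ ho) ⟨s • Q, ⟨h4, hs1⟩, rfl⟩
    rintro _ ⟨X, ⟨hX1, hX2⟩, rfl⟩
    exact ⟨X, ⟨interior_subset hX1, hX2.1.le, hX2.2.le⟩, rfl⟩
  obtain ⟨B, hB1, hB2⟩ := hA m (Prod.fst '' K) (hKc.image continuous_fst)
    (hKcv.linear_image (LinearMap.fst ℝ (EE m) (EE D × ℝ)))
    ⟨0, ⟨h.zero_mem cd, by simpa using ht.le, by simpa using hla.le⟩, rfl⟩ hint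
  refine ⟨B, ?_, ?_⟩
  · rintro _ ⟨X, hX, rfl⟩ h1 h2 i
    rw [Phi_apply] at h1 h2 ⊢
    refine hB2 _ ⟨X.1, ⟨X, ⟨hX, ?_, ?_⟩, rfl⟩, rfl⟩ i
    · simp only [map_smul, smul_eq_mul] at h1
      rwa [inv_mul_le_iff₀ ht, mul_one] at h1
    · simp only at h2
      rwa [inv_mul_le_iff₀ hla, mul_one] at h2
  · intro i
    obtain ⟨x, ⟨X, hX, rfl⟩, hx⟩ := hB1 i
    refine ⟨Phi B tau lam ht.ne' hla.ne' X, ⟨X, hX.1, rfl⟩, ?_, ?_, ?_⟩
    · rw [Phi_apply]
      simp only [map_smul, smul_eq_mul]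
      rw [inv_mul_le_iff₀ ht, mul_one]; exact hX.2.1
    · rw [Phi_apply]
      simp only
      rw [inv_mul_le_iff₀ hla, mul_one]; exact hX.2.2
    · rw [Phi_apply]
      exact hx

lemma image (hgood : ∀ A : (EE m × EE D × ℝ) ≃ᵃ[ℝ] (EE m × EE D × ℝ), Good n (A '' C))
    (h : ClassR n R C) (cd : ConeData R l e c0) (B : EE m ≃L[ℝ] EE m)
    {tau lam : ℝ} (ht : 0 < tau) (hla : 0 < lam) :
    ClassR n R (Phi B tau lam ht.ne' hla.ne' '' C) := by
  refine ⟨?_, ?_, ?_⟩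
  · exact hgood (Phi B tau lam ht.ne' hla.ne').toLinearEquiv.toAffineEquiv
  · intro y hy z hz
    refine ⟨((0 : EE m), tau • y, lam * z), h.sub _ (cd.R_smul y hy tau ht.le) _ (by positivity), ?_⟩
    rw [Phi_apply]
    simp only [map_zero, smul_smul, inv_mul_cancel₀ ht.ne', one_smul]
    rw [← mul_assoc, inv_mul_cancel₀ hla.ne', one_mul]
  · rintro _ ⟨X, hX, rfl⟩
    rw [Phi_apply]
    exact ⟨cd.R_smul _ (h.le X hX).1 _ (by positivity), by
      have := (h.le X hX).2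
      simp only
      positivity⟩

end ClassR

end Crest.Agent.R236.A
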