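import Mathlib
import Crest.Agent.R236.AClass

/-! Row 236, Part A: the class `ClassR` is closed under ultralimits; Lemma X. (helper499) -/

set_option autoImplicit false
set_option linter.unusedSectionVars false
set_option linter.style.haveILetI false
open scoped ContDiff Topology
open Set Filter

noncomputable section

namespace Crest.Agent.R236.A

variable {n m D : ℕ} {R : Set (EE D)} {l : EE D →L[ℝ] ℝ} {e : EE D} {c0 : ℝ}

lemma tendsto_fst' {U : Ultrafilter ℕ} {x : ℕ → EE m × EE D × ℝ} {a : EE m × EE D × ℝ}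
    (h : Tendsto x U (𝓝 a)) : Tendsto (fun j => (x j).1) U (𝓝 a.1) :=
  (continuous_fst.tendsto a).comp h
lemma tendsto_y {U : Ultrafilter ℕ} {x : ℕ → EE m × EE D × ℝ} {a : EE m × EE D × ℝ}
    (h : Tendsto x U (𝓝 a)) : Tendsto (fun j => (x j).2.1) U (𝓝 a.2.1) :=
  ((continuous_fst.comp continuous_snd).tendsto a).comp h
lemma tendsto_z {U : Ultrafilter ℕ} {x : ℕ → EE m × EE D × ℝ} {a : EE m × EE D × ℝ}
    (h : Tendsto x U (𝓝 a)) : Tendsto (fun j => (x j).2.2) U (𝓝 a.2.2) :=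
  ((continuous_snd.comp continuous_snd).tendsto a).comp h

/-- points of a normalised box are bounded -/
lemma norm_box_le {C : Set (EE m × EE D × ℝ)} (h : ClassR n R C) (cd : ConeData R l e c0)
    (hN : Norm1 l C) {X : EE m × EE D × ℝ} (hX : X ∈ C) (h1 : l X.2.1 ≤ 1) (h2 : X.2.2 ≤ 1) :
    ‖X‖ ≤ max (m : ℝ) (max (1 / c0) 1) := by
  rw [Prod.norm_def, Prod.norm_def]
  refine max_le_max ?_ (max_le_max ?_ ?_)
  · have hi := hN.cube X hX h1 h2
    rw [EuclideanSpace.norm_eq]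
    rcases Nat.eq_zero_or_pos m with hm | hm
    · subst hm
      simp
    rw [Real.sqrt_le_left (by positivity)]
    calc ∑ i, ‖X.1 i‖ ^ 2 ≤ ∑ _i : Fin m, (1 : ℝ) := by
          refine Finset.sum_le_sum fun i _ => ?_
          have := hi i
          rw [Real.norm_eq_abs]
          have h0 := abs_nonneg (X.1 i)
          nlinarith
      _ = (m : ℝ) := by simp
      _ ≤ (m : ℝ) ^ 2 := by
          have : (1 : ℝ) ≤ m := by exact_mod_cast hm
          nlinarith
  · exact cd.norm_le (h.le X hX).1 h1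
  · rw [Real.norm_of_nonneg (h.le X hX).2]; exact h2

/-- normalised classes are closed under ultralimits -/
theorem ulim_classR {U : Ultrafilter ℕ} {C : ℕ → Set (EE m × EE D × ℝ)}
    (h : ∀ j, ClassR n R (C j)) (cd : ConeData R l e c0) (hN : ∀ j, Norm1 l (C j)) :
    ClassR n R (ulim U C) := by
  have hcl : ∀ j, IsClosed (C j) := fun j => (h j).closed
  have hsub : ∀ y ∈ R, ∀ z : ℝ, 0 ≤ z → ((0 : EE m), y, z) ∈ ulim U C := fun y hy z hz =>
    mem_ulim_of_tendsto (x := fun _ => ((0 : EE m), y, z))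
      (Eventually.of_forall fun j => (h j).sub y hy z hz) tendsto_const_nhds
  have hle : ∀ X ∈ ulim U C, X.2.1 ∈ R ∧ 0 ≤ X.2.2 := by
    intro X hX
    obtain ⟨x, hx, hl⟩ := exists_seq_of_mem_ulim hcl hX
    refine ⟨cd.R_closed.mem_of_tendsto (tendsto_y hl) ?_,
      ge_of_tendsto (tendsto_z hl) ?_⟩
    · filter_upwards [hx] with j hj using ((h j).le _ hj).1
    · filter_upwards [hx] with j hj using ((h j).le _ hj).2
  have hcube : ∀ X ∈ ulim U C, l X.2.1 ≤ 1 → X.2.2 ≤ 1 → ∀ i, |X.1 i| ≤ 1 := by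
    intro X hX h1 h2 i
    obtain ⟨x, hx, hl⟩ := exists_seq_of_mem_ulim hcl hX
    let ρ : ℕ → ℝ := fun j => max 1 (max (l (x j).2.1) (x j).2.2)
    have hρ : Tendsto ρ U (𝓝 1) := by
      have a1 : Tendsto (fun j => l (x j).2.1) U (𝓝 (l X.2.1)) :=
        (l.continuous.tendsto _).comp (tendsto_y hl)
      have a2 := (tendsto_const_nhds (x := (1 : ℝ)) (f := (U : Filter ℕ))).max
        (a1.max (tendsto_z hl))
      have a3 : max 1 (max (l X.2.1) X.2.2) = 1 := max_eq_left (max_le h1 h2)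
      rw [a3] at a2
      exact a2
    have a4 : Tendsto (fun j => |(x j).1 i|) U (𝓝 |X.1 i|) := by
      have : Tendsto (fun j => (x j).1 i) U (𝓝 (X.1 i)) :=
        ((EuclideanSpace.proj (𝕜 := ℝ) i).continuous.tendsto X.1).comp (tendsto_fst' hl)
      exact this.abs
    refine le_of_tendsto_of_tendsto a4 hρ ?_
    filter_upwards [hx] with j hj
    have hρ1 : 1 ≤ ρ j := le_max_left _ _
    have hρ0 : 0 < ρ j := by linarith
    have a5 : (ρ j)⁻¹ • x j ∈ C j := (h j).smul_mem cd hj (inv_nonneg.2 hρ0.le) (inv_le_one_of_one_le₀ hρ1)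
    have a6 := (hN j).cube _ a5 (by
      simp only [Prod.smul_snd, Prod.smul_fst, map_smul, smul_eq_mul]
      rw [inv_mul_le_iff₀ hρ0, mul_one]
      exact (le_max_left _ _).trans (le_max_right _ _)) (by
      simp only [Prod.smul_snd, smul_eq_mul]
      rw [inv_mul_le_iff₀ hρ0, mul_one]
      exact (le_max_right _ _).trans (le_max_right _ _)) i
    have a7 : |((ρ j)⁻¹ • x j).1 i| = (ρ j)⁻¹ * |(x j).1 i| := by
      simp only [Prod.smul_fst, PiLp.smul_apply, smul_eq_mul, abs_mul]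
      rw [abs_of_pos (inv_pos.2 hρ0)]
    rw [a7, inv_mul_le_iff₀ hρ0, mul_one] at a6
    exact a6
  have hconv : Convex ℝ (ulim U C) := convex_ulim fun j => (h j).convex
  have hcl' : IsClosed (ulim U C) := isClosed_ulim
  have h0 : (0 : EE m × EE D × ℝ) ∈ ulim U C := hsub 0 cd.R_zero 0 le_rfl
  have hsimp : ∀ i, ∃ X ∈ ulim U C, X.1 = EuclideanSpace.single i (1 : ℝ) := by
    intro i
    choose x hx hx1 hx2 hx3 using fun j => (hN j).simp i
    obtain ⟨a, _, hla⟩ := exists_limit (U := U) (x := x) (Eventually.of_forall fun j =>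
      norm_box_le (h j) cd (hN j) (hx j) (hx1 j) (hx2 j))
    refine ⟨a, mem_ulim_of_tendsto (Eventually.of_forall hx) hla, ?_⟩
    refine tendsto_nhds_unique (tendsto_fst' hla) ?_
    exact tendsto_const_nhds.congr fun j => (hx3 j).symm
  refine ⟨⟨appr_ulim fun j => (h j).good.appr, ?_, ?_⟩, hsub, hle⟩
  · -- interior
    refine int_of_span hconv h0 ?_
    have k1 : ∀ y : EE D, ((0 : EE m), y, (0 : ℝ)) ∈ Submodule.span ℝ (ulim U C) := by
      obtain ⟨r, hr, hl⟩ := exists_basis_of_int ⟨e, cd.e_int⟩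
      have hs : Submodule.span ℝ (range r) = ⊤ :=
        hl.span_eq_top_of_card_eq_finrank' (by simp)
      intro y
      let g : EE D →ₗ[ℝ] EE m × EE D × ℝ := (LinearMap.inr ℝ (EE m) (EE D × ℝ)).comp
        (LinearMap.inl ℝ (EE D) ℝ)
      have hy : y ∈ Submodule.span ℝ (range r) := by rw [hs]; trivial
      have : Submodule.span ℝ (range r) ≤ (Submodule.span ℝ (ulim U C)).comap g := by
        rw [Submodule.span_le]
        rintro _ ⟨i, rfl⟩
        exact Submodule.subset_span (hsub _ (hr i) 0 le_rfl)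
      exact this hy
    have k2 : ∀ z : ℝ, ((0 : EE m), (0 : EE D), z) ∈ Submodule.span ℝ (ulim U C) := by
      intro z
      have : ((0 : EE m), (0 : EE D), z) = z • ((0 : EE m), (0 : EE D), (1 : ℝ)) := by
        ext <;> simp
      rw [this]
      exact Submodule.smul_mem _ _ (Submodule.subset_span (hsub 0 cd.R_zero 1 zero_le_one))
    have k3 : ∀ i, (EuclideanSpace.single i (1 : ℝ), (0 : EE D), (0 : ℝ)) ∈
        Submodule.span ℝ (ulim U C) := by
      intro i
      obtain ⟨X, hX, hX1⟩ := hsimp i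
      have : (EuclideanSpace.single i (1 : ℝ), (0 : EE D), (0 : ℝ)) =
          X - ((0 : EE m), X.2.1, (0 : ℝ)) - ((0 : EE m), (0 : EE D), X.2.2) := by
        rw [← hX1]
        ext <;> simp
      rw [this]
      exact Submodule.sub_mem _ (Submodule.sub_mem _ (Submodule.subset_span hX) (k1 _)) (k2 _)
    have k4 : ∀ t : EE m, (t, (0 : EE D), (0 : ℝ)) ∈ Submodule.span ℝ (ulim U C) := by
      intro t
      let g : EE m →ₗ[ℝ] EE m × EE D × ℝ := LinearMap.inl ℝ (EE m) (EE D × ℝ)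
      have h1 : g t ∈ Submodule.span ℝ (ulim U C) := by
        rw [← sum_single t, map_sum]
        refine Submodule.sum_mem _ fun i _ => ?_
        rw [map_smul]
        exact Submodule.smul_mem _ _ (k3 i)
      exact h1
    rw [eq_top_iff]
    intro X _
    have : X = (X.1, (0 : EE D), (0 : ℝ)) + ((0 : EE m), X.2.1, (0 : ℝ)) +
        ((0 : EE m), (0 : EE D), X.2.2) := by
      ext <;> simp
    rw [this]
    exact Submodule.add_mem _ (Submodule.add_mem _ (k4 _) (k1 _)) (k2 _)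
  · -- pointed
    intro v hv hv'
    have hv1 : ∀ t : ℝ, 0 ≤ t → t • v ∈ ulim U C := fun t ht => by
      have := hv 0 h0 t ht
      rwa [zero_add] at this
    have hv2 : -v ∈ ulim U C := by
      have := hv' 0 h0 1 zero_le_one
      simpa using this
    have hv3 : v ∈ ulim U C := by simpa using hv1 1 zero_le_one
    have z0 : v.2.2 = 0 := by
      have a := (hle _ hv3).2
      have b := (hle _ hv2).2
      simp only [Prod.snd_neg] at b
      linarith
    have y0 : v.2.1 = 0 := by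
      refine cd.eq_zero_of_neg (hle _ hv3).1 ?_
      have := (hle _ hv2).1
      simpa using this
    have t0 : v.1 = 0 := by
      ext i
      by_contra hne
      have hpos : 0 < |v.1 i| := abs_pos.2 (by simpa using hne)
      have h3 := hcube ((2 / |v.1 i|) • v) (hv1 _ (by positivity)) (by simp [y0]) (by simp [z0]) i
      have : ((2 / |v.1 i|) • v).1 i = (2 / |v.1 i|) * v.1 i := by simp
      rw [this, abs_mul, abs_of_nonneg (by positivity : 0 ≤ 2 / |v.1 i|),
        div_mul_cancel₀ _ hpos.ne'] at h3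
      linarith
    ext1
    · exact t0
    · ext1
      · exact y0
      · exact z0

/-- Lemma X for normalised elements of the class -/
theorem lemX (cd : ConeData R l e c0)
    (hmax : ∀ C : Set (EE m × EE D × ℝ), Good n C → ¬ RecD (D + 1) C) :
    ∃ L c : ℝ, 1 ≤ L ∧ 0 < c ∧ ∀ C : Set (EE m × EE D × ℝ), ClassR n R C → Norm1 l C →
      ∀ X ∈ C, l X.2.1 ≤ 1 → X.2.2 ≤ 1 → ∀ w : EE m, ‖w‖ ≤ c → X + (w, L • e, L) ∈ C := by
  by_contra hcon
  push Not at hcon
  have hex : ∀ j : ℕ, ∃ (C : Set (EE m × EE D × ℝ)) (X : EE m × EE D × ℝ) (w : EE m),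
      ClassR n R C ∧ Norm1 l C ∧ X ∈ C ∧ l X.2.1 ≤ 1 ∧ X.2.2 ≤ 1 ∧ ‖w‖ ≤ 1 / ((j : ℝ) + 1) ∧
      X + (w, ((j : ℝ) + 1) • e, (j : ℝ) + 1) ∉ C := by
    intro j
    obtain ⟨C, h1, h2, X, h3, h4, h5, w, h6, h7⟩ := hcon ((j : ℝ) + 1) (1 / ((j : ℝ) + 1))
      (by linarith [(Nat.cast_nonneg j : (0 : ℝ) ≤ j)]) (by positivity)
    exact ⟨C, X, w, h1, h2, h3, h4, h5, h6, h7⟩
  choose C X w hC hN hX hX1 hX2 hw hnot using hex
  -- separation
  have hsep : ∀ j, ∃ ξ : (EE m × EE D × ℝ) →L[ℝ] ℝ, ‖ξ‖ = 1 ∧ ∀ Y ∈ C j, ξ Y ≤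
      ξ (X j + (w j, ((j : ℝ) + 1) • e, (j : ℝ) + 1)) := by
    intro j
    obtain ⟨f, s, hf1, hf2⟩ := geometric_hahn_banach_closed_point (hC j).convex (hC j).closed (hnot j)
    have hf0 : f ≠ 0 := by
      rintro rfl
      have := hf1 _ (hX j)
      simp only [zero_apply] at this hf2
      linarith
    have hn : 0 < ‖f‖ := norm_pos_iff.2 hf0
    refine ⟨‖f‖⁻¹ • f, ?_, fun Y hY => ?_⟩
    · rw [norm_smul, norm_inv, norm_norm, inv_mul_cancel₀ hn.ne']
    · have h1 := hf1 Y hY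
      simp only [smul_apply, smul_eq_mul]
      exact mul_le_mul_of_nonneg_left (by linarith) (inv_nonneg.2 hn.le)
  choose ξ hξn hξ using hsep
  -- signs on the recession cone
  have hrec : ∀ j, ∀ v ∈ Rec (C j), ξ j v ≤ 0 := by
    intro j v hv
    by_contra hpos
    push Not at hpos
    set M : ℝ := ξ j (X j + (w j, ((j : ℝ) + 1) • e, (j : ℝ) + 1)) - ξ j (X j) with hM
    have hM0 : 0 ≤ M := by have := hξ j _ (hX j); linarith
    have h1 := hξ j _ (hv _ (hX j) ((M + 1) / ξ j v) (by positivity))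
    rw [map_add, map_smul, smul_eq_mul, div_mul_cancel₀ _ hpos.ne'] at h1
    linarith
  have hRle : ∀ j, ∀ y ∈ R, ∀ z : ℝ, 0 ≤ z → ξ j ((0 : EE m), y, z) ≤ 0 := fun j y hy z hz =>
    hrec j _ ((hC j).rec_mem cd hy hz)
  let U : Ultrafilter ℕ := Filter.hyperfilter ℕ
  have hU : (U : Filter ℕ) ≤ atTop := by
    rw [← Nat.cofinite_eq_atTop]; exact Filter.hyperfilter_le_cofinite
  have hsmall : Tendsto (fun j : ℕ => 1 / ((j : ℝ) + 1)) U (𝓝 0) :=
    tendsto_one_div_add_atTop_nhds_zero_nat.mono_left hU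
  -- the limits
  have hfd : FiniteDimensional ℝ ((EE m × EE D × ℝ) →L[ℝ] ℝ) := inferInstance
  obtain ⟨ζ, _, hζ⟩ := exists_limit (U := U) (x := ξ) (R := 1)
    (Eventually.of_forall fun j => (hξn j).le)
  obtain ⟨Z, _, hZ⟩ := exists_limit (U := U) (x := X) (Eventually.of_forall fun j =>
    norm_box_le (hC j) cd (hN j) (hX j) (hX1 j) (hX2 j))
  have hζn : ‖ζ‖ = 1 := by
    refine tendsto_nhds_unique hζ.norm ?_
    exact tendsto_const_nhds.congr fun j => (hξn j).symm
  have happ : ∀ {x : ℕ → EE m × EE D × ℝ} {a : EE m × EE D × ℝ}, Tendsto x U (𝓝 a) →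
      Tendsto (fun j => ξ j (x j)) U (𝓝 (ζ a)) := by
    intro x a hx
    have := (isBoundedBilinearMap_apply (𝕜 := ℝ) (E := EE m × EE D × ℝ) (F := ℝ)).continuous.tendsto
      (ζ, a)
    exact this.comp (hζ.prodMk_nhds hx)
  -- key decomposition
  have hdec : ∀ j, ξ j (X j + (w j, ((j : ℝ) + 1) • e, (j : ℝ) + 1)) =
      ξ j (X j) + ξ j (w j, 0, 0) + ((j : ℝ) + 1) * ξ j (0, e, 1) := by
    intro j
    have : X j + (w j, ((j : ℝ) + 1) • e, (j : ℝ) + 1) =
        X j + (w j, 0, 0) + ((j : ℝ) + 1) • ((0 : EE m), e, (1 : ℝ)) := by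
      ext <;> simp
    rw [this, map_add, map_add, map_smul, smul_eq_mul]
  have hwle : ∀ j, ξ j (w j, 0, 0) ≤ 1 / ((j : ℝ) + 1) := by
    intro j
    have h1 : ‖ξ j (w j, 0, 0)‖ ≤ ‖ξ j‖ * ‖((w j, 0, 0) : EE m × EE D × ℝ)‖ := (ξ j).le_opNorm _
    rw [hξn j, one_mul] at h1
    have h2 : ‖((w j, 0, 0) : EE m × EE D × ℝ)‖ = ‖w j‖ := by
      rw [Prod.norm_def, Prod.norm_def]; simp
    rw [h2] at h1
    exact (le_abs_self _).trans (h1.trans (hw j))
  have hee : ∀ j, ξ j (0, e, 1) ≤ 0 := fun j => hRle j e cd.e_mem 1 zero_le_one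
  have hele : ∀ j : ℕ, -(1 / ((j : ℝ) + 1)) ≤ ξ j (0, e, 1) := by
    intro j
    have h1 := hξ j _ (hX j)
    rw [hdec] at h1
    have h2 := hwle j
    have h3 : (0 : ℝ) ≤ (j : ℝ) := Nat.cast_nonneg j
    have h4 : -(1 / ((j : ℝ) + 1)) ≤ ((j : ℝ) + 1) * ξ j (0, e, 1) := by linarith
    have h5 : ((j : ℝ) + 1) * ξ j (0, e, 1) ≤ ξ j (0, e, 1) := by
      have := hee j
      nlinarith
    linarith
  -- ζ vanishes on `(0, e, 1)`
  have hζe1 : ζ (0, e, 1) = 0 := by
    have h1 : Tendsto (fun j => ξ j (0, e, 1)) U (𝓝 (ζ (0, e, 1))) := happ tendsto_const_nhds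
    have h2 : Tendsto (fun j : ℕ => -(1 / ((j : ℝ) + 1))) U (𝓝 0) := by
      simpa using hsmall.neg
    exact tendsto_nhds_unique h1 (tendsto_of_tendsto_of_tendsto_of_le_of_le h2 tendsto_const_nhds
      hele hee)
  have hζR : ∀ y ∈ R, ∀ z : ℝ, 0 ≤ z → ζ ((0 : EE m), y, z) ≤ 0 := by
    intro y hy z hz
    refine le_of_tendsto (happ (x := fun _ => ((0 : EE m), y, z)) tendsto_const_nhds) ?_
    exact Eventually.of_forall fun j => hRle j y hy z hz
  have hsplit : ζ ((0 : EE m), e, (1 : ℝ)) = ζ ((0 : EE m), e, (0 : ℝ)) +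
      ζ ((0 : EE m), (0 : EE D), (1 : ℝ)) := by
    rw [← map_add]; congr 1; ext <;> simp
  have hζe : ζ ((0 : EE m), e, (0 : ℝ)) = 0 := by
    have a := hζR e cd.e_mem 0 le_rfl
    have b := hζR 0 cd.R_zero 1 zero_le_one
    linarith
  have hζz : ζ ((0 : EE m), (0 : EE D), (1 : ℝ)) = 0 := by linarith
  let g : EE D →ₗ[ℝ] EE m × EE D × ℝ := (LinearMap.inr ℝ (EE m) (EE D × ℝ)).comp
    (LinearMap.inl ℝ (EE D) ℝ)
  have hζY : ∀ y : EE D, ζ ((0 : EE m), y, (0 : ℝ)) = 0 := by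
    have h1 : (ζ : (EE m × EE D × ℝ) →ₗ[ℝ] ℝ).comp g = 0 := by
      refine cd.funct_zero _ (fun v hv => ?_) ?_
      · exact hζR v hv 0 le_rfl
      · exact hζe
    intro y
    exact congrArg (fun f : EE D →ₗ[ℝ] ℝ => f y) h1
  -- the limit set
  have hlim : ClassR n R (ulim U C) := ulim_classR (U := U) hC cd hN
  have hZC : Z ∈ ulim U C := mem_ulim_of_tendsto (Eventually.of_forall hX) hZ
  have hζmax : ∀ Y ∈ ulim U C, ζ Y ≤ ζ Z := by
    refine le_of_ulim (fun j => (hC j).closed) hζ (s := fun j => ξ j (X j) + 1 / ((j : ℝ) + 1))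
      ?_ ?_
    · have := (happ hZ).add hsmall
      simpa using this
    · refine Eventually.of_forall fun j Y hY => ?_
      have h1 := hξ j Y hY
      rw [hdec] at h1
      have h2 := hwle j
      have h3 := hee j
      have h4 : (0 : ℝ) ≤ (j : ℝ) := Nat.cast_nonneg j
      have h5 : ((j : ℝ) + 1) * ξ j (0, e, 1) ≤ 0 := mul_nonpos_of_nonneg_of_nonpos (by linarith) h3
      linarith
  refine hmax _ hlim.good ?_
  refine hlim.recD_succ cd ((LinearMap.snd ℝ (EE D) ℝ).comp (LinearMap.snd ℝ (EE m) (EE D × ℝ)))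
    (fun y => by simp) (x := ((0 : EE m), (0 : EE D), (1 : ℝ)))
    (hlim.rec_mem cd cd.R_zero zero_le_one) (by simp) (ξ := ζ) ?_ hZC hζmax hζY hζz
  rintro rfl
  simp at hζn

/-- A5 + A6 (modulo the invariance lemmas and the Auerbach lemma) -/
theorem a6_of (hA : AuerbachStmt)
    (hG : ∀ (n m D : ℕ) (C : Set (EE m × EE D × ℝ)) (A : (EE m × EE D × ℝ) ≃ᵃ[ℝ] (EE m × EE D × ℝ)),
      Good n C → Good n (A '' C))
    (hH : ∀ (n m D d : ℕ) (C : Set (EE m × EE D × ℝ)), m + D = n → Good n C → RecD d C →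
      HasRec n d) : A6Stmt := by
  intro n m D R l e c0 C hdim hD hmax cd hC
  have hmax' : ∀ C : Set (EE m × EE D × ℝ), Good n C → ¬ RecD (D + 1) C :=
    fun C' h1 h2 => hmax (hH n m D (D + 1) C' hdim h1 h2)
  obtain ⟨L, c, hL, hc, hX⟩ := lemX (m := m) cd hmax'
  set L' : ℝ := max L (m + 1) with hL'
  have hLL : L ≤ L' := le_max_left _ _
  refine ⟨L', c, ⟨hdim, hD, cd, hC.good.appr, hC.good.int, hC.sub,
    fun X hXC y hy z hz => hC.add_mem cd hXC hy hz, hC.le, hL.trans hLL, hc, ?_⟩⟩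
  intro lam tau hlam htau
  obtain ⟨B, hB⟩ := hC.exists_norm hA cd (hmax' C hC.good) htau hlam
  have hC' : ClassR n R (Phi B tau lam htau.ne' hlam.ne' '' C) :=
    hC.image (fun A => hG n m D C A hC.good) cd B htau hlam
  refine ⟨B, fun X hXC h1 h2 => ?_⟩
  have m1 : l (Phi B tau lam htau.ne' hlam.ne' X).2.1 ≤ 1 := by
    rw [Phi_apply]
    simp only [map_smul, smul_eq_mul]
    rw [inv_mul_le_iff₀ htau, mul_one]; exact h1
  have m2 : (Phi B tau lam htau.ne' hlam.ne' X).2.2 ≤ 1 := by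
    rw [Phi_apply]
    simp only
    rw [inv_mul_le_iff₀ hlam, mul_one]; exact h2
  refine ⟨?_, fun w hw => ?_⟩
  · have h3 := hB.cube _ ⟨X, hXC, rfl⟩ m1 m2
    rw [Phi_apply] at h3
    simp only at h3
    refine le_trans ?_ (le_max_right L ((m : ℝ) + 1))
    rw [EuclideanSpace.norm_eq, Real.sqrt_le_left (by positivity)]
    calc ∑ i, ‖(B X.1) i‖ ^ 2 ≤ ∑ _i : Fin m, (1 : ℝ) := by
          refine Finset.sum_le_sum fun i _ => ?_
          have := h3 i
          rw [Real.norm_eq_abs]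
          have h0 := abs_nonneg ((B X.1) i)
          nlinarith
      _ = (m : ℝ) := by simp
      _ ≤ ((m : ℝ) + 1) ^ 2 := by
          have : (0 : ℝ) ≤ m := Nat.cast_nonneg m
          nlinarith
  · obtain ⟨Y, hY, hYe⟩ := hX _ hC' hB _ ⟨X, hXC, rfl⟩ m1 m2 (B w) hw
    have hYX : Y = X + (w, (L * tau) • e, L * lam) := by
      apply (Phi B tau lam htau.ne' hlam.ne').injective
      rw [hYe, map_add]
      congr 1
      rw [Phi_apply]
      ext1
      · rfl
      · ext1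
        · simp only [smul_smul]
          congr 1
          field_simp
        · simp only
          field_simp
    rw [hYX] at hY
    have h4 := hC.add_mem cd hY (cd.R_smul e cd.e_mem ((L' - L) * tau)
      (mul_nonneg (by linarith) htau.le)) (mul_nonneg (by linarith : (0 : ℝ) ≤ L' - L) hlam.le)
    have h5 : X + (w, (L * tau) • e, L * lam) + ((0 : EE m), ((L' - L) * tau) • e, (L' - L) * lam) =
        X + (w, (L' * tau) • e, L' * lam) := by
      rw [add_assoc]
      congr 1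
      ext1
      · simp
      · ext1
        · simp only [Prod.mk_add_mk]
          rw [← add_smul]; congr 1; ring
        · simp only [Prod.mk_add_mk]; ring
    rw [h5] at h4
    exact h4

end Crest.Agent.R236.A
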