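import Mathlib
import Crest.Agent.R236.ALemX
import Crest.Agent.R236.AAuer
import Crest.Agent.R236.AInvB

/-! Row 236, Part A: A6Stmt. (helper499) -/

set_option autoImplicit false
open scoped ContDiff Topology
open Set Filter

noncomputable section

namespace Crest.Agent.R236.A

theorem a6 : A6Stmt := a6_of auerbachStmt (fun _ _ _ _ A h => h.image' A)
  (fun n m D d _ hd h hr => hasRec_of' (by
    simp only [Module.finrank_prod, finrank_euclideanSpace, Fintype.card_fin,
      Module.finrank_self]
    omega) h hr)

end Crest.Agent.R236.A
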