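import Mathlib
import Crest.Prelude.Def_AffineMaximal

/-! Row 236: the Aleksandrov-Bakelman-Pucci contact set inequality (helper770). -/

set_option autoImplicit false
open scoped ContDiff Topology
open MeasureTheory
open Crest.GeometryTopology.CoordMetric Crest.GeometryTopology.AffineMaximal

noncomputable section

namespace Crest.Agent.R236.ABP

variable {n : ℕ}

/-- The Euclidean gradient, in coordinates. -/
def gradE (v : EuclideanSpace ℝ (Fin n) → ℝ) (x : EuclideanSpace ℝ (Fin n)) :
    EuclideanSpace ℝ (Fin n) :=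
  WithLp.toLp 2 (fun i => pderiv i v x)

/-- The differential of the gradient. -/
def hessL (v : EuclideanSpace ℝ (Fin n) → ℝ) (x : EuclideanSpace ℝ (Fin n)) :
    EuclideanSpace ℝ (Fin n) →L[ℝ] EuclideanSpace ℝ (Fin n) :=
  LinearMap.toContinuousLinearMap (Matrix.toEuclideanLin (hessianMat v x).transpose)

theorem hessL_det (v : EuclideanSpace ℝ (Fin n) → ℝ) (x : EuclideanSpace ℝ (Fin n)) :
    (hessL v x).det = (hessianMat v x).det := by
  unfold hessL
  rw [LinearMap.det_toContinuousLinearMap, Matrix.toEuclideanLin_eq_toLin_orthonormal,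
    LinearMap.det_toLin, Matrix.det_transpose]

theorem hessL_apply (v : EuclideanSpace ℝ (Fin n) → ℝ) (x h : EuclideanSpace ℝ (Fin n))
    (i : Fin n) : hessL v x h i = ∑ j, hessianMat v x j i * h j := by
  unfold hessL
  simp [Matrix.toLpLin_apply, Matrix.mulVec, dotProduct, Matrix.transpose_apply]

theorem diff_pderiv {S : Set (EuclideanSpace ℝ (Fin n))} (hS : IsOpen S)
    {v : EuclideanSpace ℝ (Fin n) → ℝ} (hv : ContDiffOn ℝ 2 v S)
    {x : EuclideanSpace ℝ (Fin n)} (hx : x ∈ S) (i : Fin n) :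
    DifferentiableAt ℝ (fun y => pderiv i v y) x := by
  have h1 : ContDiffAt ℝ 2 v x := hv.contDiffAt (hS.mem_nhds hx)
  have h2 : ContDiffAt ℝ 1 (fderiv ℝ v) x := h1.fderiv_right (by norm_num)
  have h3 : DifferentiableAt ℝ (fderiv ℝ v) x := h2.differentiableAt (by norm_num)
  unfold pderiv
  exact h3.clm_apply (differentiableAt_const _)

theorem fderiv_apply_eq_sum (f : EuclideanSpace ℝ (Fin n) → ℝ)
    (x h : EuclideanSpace ℝ (Fin n)) : fderiv ℝ f x h = ∑ j, pderiv j f x * h j := by
  have e : h = ∑ j, h j • EuclideanSpace.single j (1 : ℝ) := by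
    ext i
    simp [Finset.sum_apply, Pi.single_apply]
  conv_lhs => rw [e]
  rw [map_sum]
  refine Finset.sum_congr rfl fun j _ => ?_
  rw [map_smul, smul_eq_mul, mul_comm]
  rfl

theorem hasFDerivAt_gradE {S : Set (EuclideanSpace ℝ (Fin n))} (hS : IsOpen S)
    {v : EuclideanSpace ℝ (Fin n) → ℝ} (hv : ContDiffOn ℝ 2 v S)
    {x : EuclideanSpace ℝ (Fin n)} (hx : x ∈ S) :
    HasFDerivAt (gradE v) (hessL v x) x := by
  rw [← hasFDerivWithinAt_univ, hasFDerivWithinAt_euclidean]
  intro i
  rw [hasFDerivWithinAt_univ]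
  have h := (diff_pderiv hS hv hx i).hasFDerivAt
  have e : (EuclideanSpace.proj i : EuclideanSpace ℝ (Fin n) →L[ℝ] ℝ) ∘L hessL v x
      = fderiv ℝ (fun y => pderiv i v y) x := by
    ext h
    rw [fderiv_apply_eq_sum]
    change (hessL v x h) i = _
    rw [hessL_apply]
    rfl
  have h' : HasFDerivAt (fun y => pderiv i v y)
    ((EuclideanSpace.proj i : EuclideanSpace ℝ (Fin n) →L[ℝ] ℝ) ∘L hessL v x) x := by
    rw [e]; exact h
  exact h'

/-- second derivative along a line -/
theorem hasDerivAt_line {S : Set (EuclideanSpace ℝ (Fin n))} (hS : IsOpen S)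
    {v : EuclideanSpace ℝ (Fin n) → ℝ} (hv : ContDiffOn ℝ 2 v S)
    {x h : EuclideanSpace ℝ (Fin n)} {t : ℝ} (hx : x + t • h ∈ S) :
    HasDerivAt (fun s : ℝ => v (x + s • h)) (∑ j, pderiv j v (x + t • h) * h j) t := by
  have h1 : ContDiffAt ℝ 2 v (x + t • h) := hv.contDiffAt (hS.mem_nhds hx)
  have h2 : HasFDerivAt v (fderiv ℝ v (x + t • h)) (x + t • h) :=
    (h1.differentiableAt (by norm_num)).hasFDerivAt
  have h3 : HasDerivAt (fun s : ℝ => x + s • h) h t := by
    simpa using ((hasDerivAt_id t).smul_const h).const_add x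
  have := h2.comp_hasDerivAt t h3
  rw [fderiv_apply_eq_sum] at this
  exact this

theorem hasDerivAt_line2 {S : Set (EuclideanSpace ℝ (Fin n))} (hS : IsOpen S)
    {v : EuclideanSpace ℝ (Fin n) → ℝ} (hv : ContDiffOn ℝ 2 v S)
    {x h : EuclideanSpace ℝ (Fin n)} {t : ℝ} (hx : x + t • h ∈ S) :
    HasDerivAt (fun s : ℝ => ∑ j, pderiv j v (x + s • h) * h j)
      (∑ j, (∑ i, hessianMat v (x + t • h) i j * h i) * h j) t := by
  have h3 : HasDerivAt (fun s : ℝ => x + s • h) h t := by
    simpa using ((hasDerivAt_id t).smul_const h).const_add x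
  have key : ∀ j : Fin n, HasDerivAt (fun s : ℝ => pderiv j v (x + s • h) * h j)
      ((∑ i, hessianMat v (x + t • h) i j * h i) * h j) t := by
    intro j
    have h2 := (diff_pderiv hS hv hx j).hasFDerivAt
    have := h2.comp_hasDerivAt t h3
    rw [fderiv_apply_eq_sum] at this
    exact this.mul_const (h j)
  have := HasDerivAt.fun_sum (u := Finset.univ) (fun j _ => key j)
  exact this

/-- Second order necessary condition at an interior local minimum of `v - affine`. -/
theorem hess_nonneg_of_isLocalMin {S : Set (EuclideanSpace ℝ (Fin n))} (hS : IsOpen S)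
    {v : EuclideanSpace ℝ (Fin n) → ℝ} (hv : ContDiffOn ℝ 2 v S)
    {x p : EuclideanSpace ℝ (Fin n)} (hx : x ∈ S)
    (hmin : IsLocalMin (fun y => v y - ∑ j, p j * y j) x) (h : EuclideanSpace ℝ (Fin n)) :
    (∀ j, pderiv j v x = p j) ∧ 0 ≤ ∑ j, (∑ i, hessianMat v x i j * h i) * h j := by
  -- first order
  have first : ∀ h : EuclideanSpace ℝ (Fin n), ∑ j, pderiv j v x * h j = ∑ j, p j * h j := by
    intro h
    have hx0 : x + (0 : ℝ) • h ∈ S := by simpa using hx
    have d1 := hasDerivAt_line hS hv (x := x) (h := h) (t := 0) hx0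
    have d2 : HasDerivAt (fun s : ℝ => ∑ j, p j * (x + s • h) j) (∑ j, p j * h j) 0 := by
      have key : ∀ j : Fin n, HasDerivAt (fun s : ℝ => p j * (x + s • h) j) (p j * h j) 0 := by
        intro j
        have : HasDerivAt (fun s : ℝ => x j + s * h j) (h j) 0 := by
          simpa using ((hasDerivAt_id (0 : ℝ)).mul_const (h j)).const_add (x j)
        simpa using this.const_mul (p j)
      exact HasDerivAt.fun_sum (u := Finset.univ) (fun j _ => key j)
    have d3 := d1.sub d2
    have lm : IsLocalMin (fun s : ℝ => v (x + s • h) - ∑ j, p j * (x + s • h) j) 0 := by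
      have hc : ContinuousAt (fun s : ℝ => x + s • h) 0 := by fun_prop
      have hmin' : IsLocalMin (fun y => v y - ∑ j, p j * y j) (x + (0 : ℝ) • h) := by
        simpa using hmin
      have := hc.tendsto.eventually hmin'
      exact this
    have := lm.hasDerivAt_eq_zero d3
    simp only [zero_smul, add_zero] at this
    linarith
  refine ⟨fun j => ?_, ?_⟩
  · have := first (EuclideanSpace.single j 1)
    simpa [Pi.single_apply] using this
  · by_contra hneg
    push Not at hneg
    set φ : ℝ → ℝ := fun s => v (x + s • h) - ∑ j, p j * (x + s • h) j with hφ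
    have hc : ContinuousAt (fun s : ℝ => x + s • h) 0 := by fun_prop
    have hopen : ∀ᶠ s : ℝ in 𝓝 0, x + s • h ∈ S := by
      apply hc.tendsto.eventually
      simpa using hS.mem_nhds hx
    have dφ : ∀ᶠ s : ℝ in 𝓝 0, HasDerivAt φ (∑ j, pderiv j v (x + s • h) * h j - ∑ j, p j * h j) s := by
      filter_upwards [hopen] with s hs
      have d1 := hasDerivAt_line hS hv (x := x) (h := h) (t := s) hs
      have d2 : HasDerivAt (fun s : ℝ => ∑ j, p j * (x + s • h) j) (∑ j, p j * h j) s := by
        have key : ∀ j : Fin n, HasDerivAt (fun s : ℝ => p j * (x + s • h) j) (p j * h j) s := by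
          intro j
          have : HasDerivAt (fun s : ℝ => x j + s * h j) (h j) s := by
            simpa using ((hasDerivAt_id s).mul_const (h j)).const_add (x j)
          simpa using this.const_mul (p j)
        exact HasDerivAt.fun_sum (u := Finset.univ) (fun j _ => key j)
      exact d1.sub d2
    have e1 : deriv φ =ᶠ[𝓝 0] fun s => ∑ j, pderiv j v (x + s • h) * h j - ∑ j, p j * h j := by
      filter_upwards [dφ] with s hs using hs.deriv
    have hx0 : x + (0 : ℝ) • h ∈ S := by simpa using hx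
    have dd : HasDerivAt (deriv φ) (∑ j, (∑ i, hessianMat v x i j * h i) * h j) 0 := by
      have := (hasDerivAt_line2 hS hv (x := x) (h := h) (t := 0) hx0).sub_const (∑ j, p j * h j)
      simp only [zero_smul, add_zero] at this
      exact this.congr_of_eventuallyEq e1
    have d0 : deriv φ 0 = 0 := by
      rw [e1.eq_of_nhds]
      simp only [zero_smul, add_zero]
      rw [first h]; ring
    have hcont : ContinuousAt φ 0 := dφ.self_of_nhds.continuousAt
    have lmin : IsLocalMin φ 0 := by
      have hmin' : IsLocalMin (fun y => v y - ∑ j, p j * y j) (x + (0 : ℝ) • h) := by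
        simpa using hmin
      exact hc.tendsto.eventually hmin'
    have lmax : IsLocalMax φ 0 :=
      isLocalMax_of_deriv_deriv_neg (by rw [dd.deriv]; exact hneg) d0 hcont
    have hconst : φ =ᶠ[𝓝 0] fun _ => φ 0 := by
      filter_upwards [lmin, lmax] with s h1 h2
      exact le_antisymm h2 h1
    have hder : deriv φ =ᶠ[𝓝 0] fun _ => 0 := by
      have := hconst.deriv
      filter_upwards [this] with s hs
      rw [hs]; simp
    have : deriv (deriv φ) 0 = 0 := by
      rw [hder.deriv_eq]; simp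
    rw [dd.deriv] at this
    linarith

theorem hessianMat_symm {S : Set (EuclideanSpace ℝ (Fin n))} (hS : IsOpen S)
    {v : EuclideanSpace ℝ (Fin n) → ℝ} (hv : ContDiffOn ℝ 2 v S)
    {x : EuclideanSpace ℝ (Fin n)} (hx : x ∈ S) : (hessianMat v x).IsHermitian := by
  have h1 : ContDiffAt ℝ 2 v x := hv.contDiffAt (hS.mem_nhds hx)
  have h2 : ContDiffAt ℝ 1 (fderiv ℝ v) x := h1.fderiv_right (by norm_num)
  have h3 : DifferentiableAt ℝ (fderiv ℝ v) x := h2.differentiableAt (by norm_num)
  have hs : IsSymmSndFDerivAt ℝ v x := h1.isSymmSndFDerivAt (by simp)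
  have key : ∀ i j : Fin n, hessianMat v x i j
      = fderiv ℝ (fderiv ℝ v) x (EuclideanSpace.single i 1) (EuclideanSpace.single j 1) := by
    intro i j
    unfold hessianMat pderiv
    have := (h3.hasFDerivAt.clm_apply
      (hasFDerivAt_const (EuclideanSpace.single j (1 : ℝ)) x)).fderiv
    rw [this]
    simp
  ext i j
  simp only [Matrix.conjTranspose_apply, star_trivial]
  rw [key, key]
  exact hs.eq _ _

theorem finsupp_form (M : Matrix (Fin n) (Fin n) ℝ) (z : Fin n →₀ ℝ) :
    (z.sum fun i xi => z.sum fun j xj => star xi * M i j * xj)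
      = ∑ j, (∑ i, M i j * z i) * z j := by
  rw [Finsupp.sum_fintype _ _ (by intro i; simp [Finsupp.sum])]
  have : ∀ i, (z.sum fun j xj => star (z i) * M i j * xj) = ∑ j, star (z i) * M i j * z j :=
    fun i => Finsupp.sum_fintype _ _ (by simp)
  have h2 : (∑ i, z.sum fun j xj => star (z i) * M i j * xj)
      = ∑ i, ∑ j, star (z i) * M i j * z j := Finset.sum_congr rfl fun i _ => this i
  refine h2.trans ?_
  rw [Finset.sum_comm]
  refine Finset.sum_congr rfl fun j _ => ?_
  rw [Finset.sum_mul]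
  refine Finset.sum_congr rfl fun i _ => ?_
  rw [star_trivial]; ring

theorem posSemidef_of_isLocalMin {S : Set (EuclideanSpace ℝ (Fin n))} (hS : IsOpen S)
    {v : EuclideanSpace ℝ (Fin n) → ℝ} (hv : ContDiffOn ℝ 2 v S)
    {x p : EuclideanSpace ℝ (Fin n)} (hx : x ∈ S)
    (hmin : IsLocalMin (fun y => v y - ∑ j, p j * y j) x) :
    gradE v x = p ∧ (hessianMat v x).PosSemidef := by
  constructor
  · ext j
    exact (hess_nonneg_of_isLocalMin hS hv hx hmin 0).1 j
  · refine ⟨hessianMat_symm hS hv hx, fun z => ?_⟩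
    rw [finsupp_form]
    exact (hess_nonneg_of_isLocalMin hS hv hx hmin (WithLp.toLp 2 z)).2

theorem isClosed_posSemidef : IsClosed {M : Matrix (Fin n) (Fin n) ℝ | M.PosSemidef} := by
  have : {M : Matrix (Fin n) (Fin n) ℝ | M.PosSemidef}
      = {M | M.conjTranspose = M} ∩ ⋂ z : Fin n →₀ ℝ, {M | 0 ≤ ∑ j, (∑ i, M i j * z i) * z j} := by
    ext M
    simp only [Set.mem_ofPred_eq, Set.mem_inter_iff, Set.mem_iInter]
    constructor
    · intro h
      exact ⟨h.1, fun z => by rw [← finsupp_form]; exact h.2 z⟩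
    · intro h
      exact ⟨h.1, fun z => by rw [finsupp_form]; exact h.2 z⟩
  rw [this]
  refine IsClosed.inter ?_ (isClosed_iInter fun z => ?_)
  · exact isClosed_eq (by fun_prop) continuous_id
  · exact isClosed_le continuous_const (by fun_prop)

theorem continuousOn_hessianMat {S : Set (EuclideanSpace ℝ (Fin n))} (hS : IsOpen S)
    {v : EuclideanSpace ℝ (Fin n) → ℝ} (hv : ContDiffOn ℝ 2 v S) :
    ContinuousOn (hessianMat v) S := by
  refine continuousOn_pi.2 fun i => continuousOn_pi.2 fun j => ?_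
  intro x hx
  have h1 : ContDiffAt ℝ 2 v x := hv.contDiffAt (hS.mem_nhds hx)
  have h2 : ContDiffAt ℝ 1 (fderiv ℝ v) x := h1.fderiv_right (by norm_num)
  have h3 : ContDiffAt ℝ 1 (fun y => pderiv j v y) x := by
    unfold pderiv
    exact h2.clm_apply contDiffAt_const
  have h4 : ContDiffAt ℝ 0 (fderiv ℝ (fun y => pderiv j v y)) x := h3.fderiv_right (by norm_num)
  have h5 : ContDiffAt ℝ 0 (fun y => hessianMat v y i j) x := by
    unfold hessianMat
    exact h4.clm_apply contDiffAt_const
  exact h5.continuousAt.continuousWithinAt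

/-- the contact set used in the ABP inequality -/
def contact (S : Set (EuclideanSpace ℝ (Fin n))) (v : EuclideanSpace ℝ (Fin n) → ℝ) :
    Set (EuclideanSpace ℝ (Fin n)) :=
  {x | x ∈ S ∧ v x < 0 ∧ (hessianMat v x).PosSemidef}

theorem measurableSet_contact {S : Set (EuclideanSpace ℝ (Fin n))} (hS : IsOpen S)
    {v : EuclideanSpace ℝ (Fin n) → ℝ} (hv : ContDiffOn ℝ 2 v S) :
    MeasurableSet (contact S v) := by
  have h1 : MeasurableSet (S ∩ v ⁻¹' Set.Iio 0) :=
    (hv.continuousOn.isOpen_inter_preimage hS isOpen_Iio).measurableSet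
  have h2 : MeasurableSet (S ∩ (hessianMat v) ⁻¹' {M | M.PosSemidef}ᶜ) :=
    ((continuousOn_hessianMat hS hv).isOpen_inter_preimage hS
      isClosed_posSemidef.isOpen_compl).measurableSet
  have : contact S v = (S ∩ v ⁻¹' Set.Iio 0) \ (S ∩ (hessianMat v) ⁻¹' {M | M.PosSemidef}ᶜ) := by
    ext x
    simp only [contact, Set.mem_ofPred_eq, Set.mem_sdiff, Set.mem_inter_iff, Set.mem_preimage,
      Set.mem_Iio, Set.mem_compl_iff]
    tauto
  rw [this]
  exact h1.diff h2

/-- **Aleksandrov-Bakelman-Pucci**, contact set form. -/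
theorem abp {K S : Set (EuclideanSpace ℝ (Fin n))} (hK : IsCompact K) (hS : IsOpen S)
    (hSK : S ⊆ K) {v : EuclideanSpace ℝ (Fin n) → ℝ} (hvc : ContinuousOn v K)
    (hv : ContDiffOn ℝ 2 v S) (hb : ∀ x ∈ K, x ∉ S → 0 ≤ v x)
    {x0 : EuclideanSpace ℝ (Fin n)} (hx0 : x0 ∈ S) {m d : ℝ} (hm : 0 < m)
    (hvx : v x0 ≤ -m) (hd : 0 < d) (hKd : ∀ x ∈ K, dist x x0 ≤ d) :
    volume (Metric.ball (0 : EuclideanSpace ℝ (Fin n)) (m / d))
      ≤ ∫⁻ x in contact S v, ENNReal.ofReal (hessianMat v x).det := by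
  have hsub : Metric.ball (0 : EuclideanSpace ℝ (Fin n)) (m / d) ⊆ gradE v '' (contact S v) := by
    intro p hp
    have hpn : ‖p‖ < m / d := by simpa using hp
    have hpd : ‖p‖ * d < m := by rwa [lt_div_iff₀ hd] at hpn
    have hin : ∀ y : EuclideanSpace ℝ (Fin n), |∑ j, p j * (y j - x0 j)| ≤ ‖p‖ * dist y x0 := by
      intro y
      have h := abs_real_inner_le_norm p (y - x0)
      rw [dist_eq_norm]
      refine le_trans (le_of_eq ?_) h
      congr 1
      simp only [PiLp.inner_apply, RCLike.inner_apply, conj_trivial, PiLp.sub_apply]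
      exact Finset.sum_congr rfl fun j _ => by ring
    have hcont : ContinuousOn (fun y => v y - ∑ j, p j * y j) K :=
      hvc.sub (Continuous.continuousOn (by fun_prop))
    obtain ⟨x1, hx1K, hx1⟩ := hK.exists_isMinOn ⟨x0, hSK hx0⟩ hcont
    have hle : v x1 - ∑ j, p j * x1 j ≤ v x0 - ∑ j, p j * x0 j := hx1 (hSK hx0)
    have hsum : ∑ j, p j * (x1 j - x0 j) = ∑ j, p j * x1 j - ∑ j, p j * x0 j := by
      rw [← Finset.sum_sub_distrib]
      exact Finset.sum_congr rfl fun j _ => by ring
    have hv1 : v x1 < 0 := by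
      have h1 := hin x1
      have h2 : ‖p‖ * dist x1 x0 ≤ ‖p‖ * d :=
        mul_le_mul_of_nonneg_left (hKd x1 hx1K) (norm_nonneg _)
      have h3 := (abs_le.mp (h1.trans h2)).2
      linarith
    have hx1S : x1 ∈ S := by
      by_contra hcon
      have := hb x1 hx1K hcon
      linarith
    have hmin : IsLocalMin (fun y => v y - ∑ j, p j * y j) x1 := by
      filter_upwards [hS.mem_nhds hx1S] with y hy
      exact hx1 (hSK hy)
    obtain ⟨g, psd⟩ := posSemidef_of_isLocalMin hS hv hx1S hmin
    exact ⟨x1, ⟨hx1S, hv1, psd⟩, g⟩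
  have hmeas := measurableSet_contact hS hv
  calc volume (Metric.ball (0 : EuclideanSpace ℝ (Fin n)) (m / d))
      ≤ volume (gradE v '' (contact S v)) := measure_mono hsub
    _ ≤ ∫⁻ x in contact S v, ENNReal.ofReal |(hessL v x).det| :=
        addHaar_image_le_lintegral_abs_det_fderiv volume hmeas
          (fun x hx => (hasFDerivAt_gradE hS hv hx.1).hasFDerivWithinAt)
    _ = ∫⁻ x in contact S v, ENNReal.ofReal (hessianMat v x).det := by
        refine setLIntegral_congr_fun hmeas fun x hx => ?_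
        rw [hessL_det, abs_of_nonneg hx.2.2.det_nonneg]

end Crest.Agent.R236.ABP
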