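import Crest.Agent.R236.ADefs

/-!
# Row 236, Part A, node A4: cones and coordinates
-/

set_option autoImplicit false

namespace Crest.Agent.R236.A

open Module Set Filter Topology

section cone
variable {Y : Type*} [NormedAddCommGroup Y] [NormedSpace ℝ Y] [FiniteDimensional ℝ Y]

/-- a functional which is coercive on a pointed closed convex cone -/
theorem exists_coercive {R : Set Y} (hcl : IsClosed R) (h0 : (0 : Y) ∈ R)
    (hsm : ∀ v ∈ R, ∀ t : ℝ, 0 ≤ t → t • v ∈ R) (hadd : ∀ v ∈ R, ∀ w ∈ R, v + w ∈ R)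
    (hpt : ∀ v ∈ R, -v ∈ R → v = 0) :
    ∃ (l : Y →L[ℝ] ℝ) (c0 : ℝ), 0 < c0 ∧ ∀ v ∈ R, c0 * ‖v‖ ≤ l v := by
  classical
  set S : Set Y := R ∩ Metric.sphere (0 : Y) 1 with hS
  have hScomp : IsCompact S := (isCompact_sphere (0 : Y) 1).inter_left hcl
  have hRconv : Convex ℝ R := by
    intro x hx y hy a b ha hb hab
    exact hadd _ (hsm x hx a ha) _ (hsm y hy b hb)
  -- for each point of the sphere a functional, nonnegative on `R`, positive at the point
  have hex : ∀ s ∈ S, ∃ f : Y →L[ℝ] ℝ, (∀ b ∈ R, 0 ≤ f b) ∧ 0 < f s := by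
    intro s hs
    have hns : -s ∉ R := by
      intro h
      have := hpt s hs.1 h
      have hn : ‖s‖ = 1 := by simpa using hs.2
      rw [this] at hn
      simp at hn
    obtain ⟨f, u, hu0, hu⟩ := geometric_hahn_banach_point_closed hRconv hcl hns
    have hu1 : u < 0 := by simpa using hu 0 h0
    refine ⟨f, fun b hb => ?_, ?_⟩
    · by_contra hcon
      push Not at hcon
      have h1 := hu _ (hsm b hb (u / f b) (div_nonneg_of_nonpos hu1.le hcon.le))
      rw [map_smul, smul_eq_mul, div_mul_cancel₀ _ hcon.ne] at h1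
      exact lt_irrefl _ h1
    · rw [map_neg] at hu0
      linarith
  choose! f hf0 hf1 using hex
  obtain ⟨t, htS, htcov⟩ := hScomp.elim_nhds_subcover (fun s => {x | 0 < f s x}) (by
    intro s hs
    exact (isOpen_lt continuous_const (f s).continuous).mem_nhds (hf1 s hs))
  set l : Y →L[ℝ] ℝ := ∑ s ∈ t, f s with hl
  have hlv : ∀ v, l v = ∑ s ∈ t, f s v := by
    intro v
    rw [hl]
    simp
  have hlpos : ∀ x ∈ S, 0 < l x := by
    intro x hx
    have hx' := htcov hx
    simp only [mem_iUnion, mem_ofPred_eq] at hx'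
    obtain ⟨s, hst, hsx⟩ := hx'
    rw [hlv]
    exact Finset.sum_pos' (fun i hi => hf0 i (htS i hi) x hx.1) ⟨s, hst, hsx⟩
  -- the minimum on the compact set
  obtain ⟨c0, hc0, hc⟩ : ∃ c0 : ℝ, 0 < c0 ∧ ∀ x ∈ S, c0 ≤ l x := by
    rcases S.eq_empty_or_nonempty with h | h
    · exact ⟨1, one_pos, by simp [h]⟩
    · obtain ⟨x0, hx0, hmin⟩ := hScomp.exists_isMinOn h l.continuous.continuousOn
      exact ⟨l x0, hlpos x0 hx0, fun x hx => hmin hx⟩
  refine ⟨l, c0, hc0, fun v hv => ?_⟩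
  by_cases hv0 : v = 0
  · simp [hv0]
  have hvn : 0 < ‖v‖ := norm_pos_iff.mpr hv0
  have hmem : (‖v‖⁻¹ • v) ∈ S := by
    refine ⟨hsm v hv _ (inv_nonneg.mpr hvn.le), ?_⟩
    simp [norm_smul, hvn.ne']
  have h1 := hc _ hmem
  rw [map_smul, smul_eq_mul] at h1
  have h2 : c0 * ‖v‖ ≤ ‖v‖⁻¹ * l v * ‖v‖ := mul_le_mul_of_nonneg_right h1 hvn.le
  have h3 : ‖v‖⁻¹ * l v * ‖v‖ = l v := by field_simp
  linarith [h2, h3.le]

/-- a spanning closed convex cone has interior -/
theorem cone_interior {R : Set Y} (h0 : (0 : Y) ∈ R) (hconv : Convex ℝ R)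
    (hsp : Submodule.span ℝ R = ⊤) : (interior R).Nonempty := by
  rw [hconv.interior_nonempty_iff_affineSpan_eq_top]
  rw [← AffineSubspace.coe_eq_univ_iff, eq_univ_iff_forall]
  intro x
  have h1 : (0 : Y) ∈ affineSpan ℝ R := subset_affineSpan ℝ R h0
  have hx : x ∈ Submodule.span ℝ R := by rw [hsp]; trivial
  have : x ∈ (affineSpan ℝ R).direction := by
    rw [direction_affineSpan]
    have hle : Submodule.span ℝ R ≤ vectorSpan ℝ R := by
      rw [Submodule.span_le]
      intro y hy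
      have := vsub_mem_vectorSpan ℝ hy h0
      simpa using this
    exact hle hx
  have := AffineSubspace.vadd_mem_of_mem_direction this h1
  simpa using this

/-- all cone data from a pointed spanning closed convex cone -/
theorem exists_coneData {D : ℕ} (hD : 1 ≤ D) {R : Set (EE D)} (hcl : IsClosed R)
    (h0 : (0 : EE D) ∈ R)
    (hsm : ∀ v ∈ R, ∀ t : ℝ, 0 ≤ t → t • v ∈ R) (hadd : ∀ v ∈ R, ∀ w ∈ R, v + w ∈ R)
    (hpt : ∀ v ∈ R, -v ∈ R → v = 0) (hsp : Submodule.span ℝ R = ⊤) :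
    ∃ (l : EE D →L[ℝ] ℝ) (e : EE D) (c0 : ℝ), ConeData R l e c0 := by
  have hRconv : Convex ℝ R := by
    intro x hx y hy a b ha hb hab
    exact hadd _ (hsm x hx a ha) _ (hsm y hy b hb)
  obtain ⟨l, c0, hc0, hl⟩ := exists_coercive hcl h0 hsm hadd hpt
  obtain ⟨e', he'⟩ := cone_interior h0 hRconv hsp
  have he'0 : e' ≠ 0 := by
    rintro rfl
    -- zero in the interior: everything is in R
    have huniv : ∀ v : EE D, v ∈ R := by
      intro v
      rw [mem_interior_iff_mem_nhds] at he'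
      have h1 : Tendsto (fun t : ℝ => t • v) (𝓝[>] 0) (𝓝 0) := by
        have : Tendsto (fun t : ℝ => t • v) (𝓝 0) (𝓝 ((0 : ℝ) • v)) :=
          (continuous_id.smul continuous_const).tendsto 0
        rw [zero_smul] at this
        exact this.mono_left nhdsWithin_le_nhds
      have h2 := (h1.eventually he').and (self_mem_nhdsWithin (s := Ioi (0 : ℝ)))
      obtain ⟨t, ht, htpos⟩ := h2.exists
      have := hsm _ ht t⁻¹ (inv_nonneg.mpr (le_of_lt htpos))
      rwa [smul_smul, inv_mul_cancel₀ (ne_of_gt htpos), one_smul] at this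
    have hD' : 0 < D := hD
    have hv := hpt (EuclideanSpace.single (⟨0, hD'⟩ : Fin D) (1 : ℝ)) (huniv _) (huniv _)
    have := congrArg (fun x : EE D => x ⟨0, hD'⟩) hv
    simp at this
  have hle : 0 < l e' := by
    have := hl e' (interior_subset he')
    have h2 : 0 < c0 * ‖e'‖ := mul_pos hc0 (norm_pos_iff.mpr he'0)
    linarith
  refine ⟨l, (l e')⁻¹ • e', c0, ⟨hcl, hRconv, h0, hsm, hadd, ?_, ?_, hc0, hl⟩⟩
  · have hinv : (l e')⁻¹ ≠ 0 := inv_ne_zero hle.ne'
    have hop : IsOpenMap fun x : EE D => (l e')⁻¹ • x := isOpenMap_smul₀ hinv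
    have h2 : (fun x : EE D => (l e')⁻¹ • x) '' interior R ⊆ R := by
      rintro _ ⟨v, hv, rfl⟩
      exact hsm v (interior_subset hv) _ (inv_nonneg.mpr hle.le)
    exact interior_maximal h2 (hop _ isOpen_interior) ⟨e', he', rfl⟩
  · rw [map_smul, smul_eq_mul, inv_mul_cancel₀ hle.ne']

end cone

end Crest.Agent.R236.A
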