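import Crest.Agent.R236.ABlow1
import Crest.Agent.R236.AUlim
import Crest.Agent.R236.AAuer

/-!
# Row 236, Part A, node A4: the blow-down in coordinates
-/

set_option autoImplicit false

namespace Crest.Agent.R236.A

open Module Set Filter Topology

section recs
variable {W : Type*} [NormedAddCommGroup W] [NormedSpace ℝ W]

theorem rec_of_tendsto' {ι : Type*} {F : Filter ι} [F.NeBot] {C : Set W} (hcl : IsClosed C)
    (hc : Convex ℝ C) {x : ι → W} {t : ι → ℝ} {v : W} (hx : ∀ᶠ j in F, x j ∈ C)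
    (ht : Tendsto t F atTop) (hv : Tendsto (fun j => (t j)⁻¹ • x j) F (𝓝 v)) : v ∈ Rec C := by
  intro y hy s hs
  have h1 : Tendsto (fun j => (1 - s * (t j)⁻¹) • y + s • ((t j)⁻¹ • x j)) F
      (𝓝 ((1 - s * 0) • y + s • v)) := by
    have hi : Tendsto (fun j => (t j)⁻¹) F (𝓝 0) := tendsto_inv_atTop_zero.comp ht
    exact ((tendsto_const_nhds.sub (hi.const_mul s)).smul_const y).add (hv.const_smul s)
  rw [mul_zero, sub_zero, one_smul] at h1
  refine hcl.mem_of_tendsto h1 ?_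
  filter_upwards [hx, ht.eventually_ge_atTop (max s 1)] with j hj htj
  have ht1 : 1 ≤ t j := (le_max_right _ _).trans htj
  have ht0 : 0 < t j := by linarith
  have hst : s ≤ t j := (le_max_left _ _).trans htj
  have h2 : s * (t j)⁻¹ ≤ 1 := by
    rw [← div_eq_mul_inv, div_le_one ht0]; exact hst
  rw [smul_smul]
  exact hc hy hj (by linarith) (mul_nonneg hs (inv_nonneg.mpr ht0.le)) (by ring)

theorem mem_rec_of_ray' {C : Set W} (hcl : IsClosed C) (hc : Convex ℝ C) {x v : W}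
    (h : ∀ s : ℝ, 0 ≤ s → x + s • v ∈ C) : v ∈ Rec C := by
  refine rec_of_tendsto' (F := atTop) (x := fun s : ℝ => x + s • v) (t := fun s => s) hcl hc
    ?_ tendsto_id ?_
  · filter_upwards [eventually_ge_atTop (0 : ℝ)] with s hs using h s hs
  · have h1 : Tendsto (fun s : ℝ => s⁻¹ • x + v) atTop (𝓝 ((0 : ℝ) • x + v)) :=
      (tendsto_inv_atTop_zero.smul_const x).add tendsto_const_nhds
    rw [zero_smul, zero_add] at h1
    refine h1.congr' ?_
    filter_upwards [eventually_gt_atTop (0 : ℝ)] with s hs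
    rw [smul_add, smul_smul, inv_mul_cancel₀ hs.ne', one_smul]

end recs

section blow
variable {m D : ℕ}

/-- the situation after the choice of coordinates -/
structure Pre (C : Set (EE m × EE D × ℝ)) (R : Set (EE D)) (l : EE D →L[ℝ] ℝ) (e : EE D)
    (c0 : ℝ) : Prop where
  cl : IsClosed C
  cv : Convex ℝ C
  zero : (0 : EE m × EE D × ℝ) ∈ C
  nonneg : ∀ X ∈ C, 0 ≤ X.2.2
  vert : ∃ ζ : ℝ, 0 < ζ ∧ ((0 : EE m), (0 : EE D), ζ) ∈ interior C
  recR : ∀ y, y ∈ R ↔ ((0 : EE m), y, (0 : ℝ)) ∈ Rec C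
  rec0 : ∀ v ∈ Rec C, v.2.2 = 0 → v.1 = 0
  cone : ConeData R l e c0

variable {C : Set (EE m × EE D × ℝ)} {R : Set (EE D)} {l : EE D →L[ℝ] ℝ} {e : EE D} {c0 : ℝ}

/-- no unbounded sequence of `C` stays low -/
theorem Pre.key (h : Pre C R l e c0) (U : Ultrafilter ℕ) {X : ℕ → EE m × EE D × ℝ}
    (hX : ∀ᶠ j in (U : Filter ℕ), X j ∈ C) (hn : Tendsto (fun j => ‖X j‖) U atTop)
    (hl : ∀ ε : ℝ, 0 < ε → ∀ᶠ j in (U : Filter ℕ), l (X j).2.1 ≤ ε * ‖X j‖)
    (hz : ∀ ε : ℝ, 0 < ε → ∀ᶠ j in (U : Filter ℕ), (X j).2.2 ≤ ε * ‖X j‖) : False := by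
  set V : ℕ → EE m × EE D × ℝ := fun j => ‖X j‖⁻¹ • X j with hV
  have hVn : ∀ᶠ j in (U : Filter ℕ), ‖V j‖ = 1 := by
    filter_upwards [hn.eventually_gt_atTop 0] with j hj
    rw [hV]
    simp only [norm_smul, norm_inv, norm_norm]
    exact inv_mul_cancel₀ hj.ne'
  obtain ⟨v, -, hv⟩ := exists_limit (U := U) (hVn.mono fun j hj => hj.le)
  have hv1 : ‖v‖ = 1 := by
    have h1 : Tendsto (fun j => ‖V j‖) U (𝓝 ‖v‖) := hv.norm
    have h2 : Tendsto (fun j => ‖V j‖) U (𝓝 1) := by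
      refine Tendsto.congr' ?_ tendsto_const_nhds
      filter_upwards [hVn] with j hj using hj.symm
    exact tendsto_nhds_unique h1 h2
  have hrec : v ∈ Rec C := rec_of_tendsto' h.cl h.cv hX hn hv
  have hlV : l v.2.1 ≤ 0 := by
    refine le_of_forall_pos_le_add fun ε hε => ?_
    have h1 : Tendsto (fun j => l (V j).2.1) U (𝓝 (l v.2.1)) :=
      (l.continuous.comp (continuous_fst.comp continuous_snd)).continuousAt.tendsto.comp hv
    refine le_of_tendsto h1 ?_
    filter_upwards [hl ε hε, hn.eventually_gt_atTop 0] with j hj hj0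
    have : l (V j).2.1 = ‖X j‖⁻¹ * l (X j).2.1 := by
      simp [hV]
    rw [this, zero_add, inv_mul_le_iff₀ hj0]
    linarith [mul_comm ε ‖X j‖]
  have hzV : v.2.2 ≤ 0 := by
    refine le_of_forall_pos_le_add fun ε hε => ?_
    have h1 : Tendsto (fun j => (V j).2.2) U (𝓝 v.2.2) :=
      (continuous_snd.comp continuous_snd).continuousAt.tendsto.comp hv
    refine le_of_tendsto h1 ?_
    filter_upwards [hz ε hε, hn.eventually_gt_atTop 0] with j hj hj0
    have : (V j).2.2 = ‖X j‖⁻¹ * (X j).2.2 := by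
      simp [hV]
    rw [this, zero_add, inv_mul_le_iff₀ hj0]
    linarith [mul_comm ε ‖X j‖]
  have hz0 : 0 ≤ v.2.2 := by
    have := hrec 0 h.zero 1 zero_le_one
    have := h.nonneg _ this
    simpa using this
  have hz1 : v.2.2 = 0 := le_antisymm hzV hz0
  have ht0 : v.1 = 0 := h.rec0 v hrec hz1
  have hvR : v.2.1 ∈ R := by
    rw [h.recR]
    have : v = (0, v.2.1, 0) := by
      ext1
      · exact ht0
      · ext1
        · rfl
        · exact hz1
    rw [← this]; exact hrec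
  have h1 := h.cone.l_ge _ hvR
  have h2 : ‖v.2.1‖ = 0 := by
    have hc := h.cone.c0_pos
    have : c0 * ‖v.2.1‖ ≤ 0 := h1.trans hlV
    have h3 : ‖v.2.1‖ ≤ 0 := by
      by_contra hcon
      push Not at hcon
      have := mul_pos hc hcon
      linarith
    exact le_antisymm h3 (norm_nonneg _)
  have h3 : v = 0 := by
    ext1
    · exact ht0
    · ext1
      · exact norm_eq_zero.mp h2
      · exact hz1
  rw [h3, norm_zero] at hv1
  exact zero_ne_one hv1

theorem ultra_bdd_or_tendsto (U : Ultrafilter ℕ) (a : ℕ → ℝ) :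
    (∃ M : ℝ, ∀ᶠ j in (U : Filter ℕ), a j ≤ M) ∨ Tendsto a U atTop := by
  by_cases h : ∃ M : ℝ, ∀ᶠ j in (U : Filter ℕ), a j ≤ M
  · exact Or.inl h
  · right
    push Not at h
    rw [tendsto_atTop]
    intro b
    filter_upwards [h b] with j hj
    exact hj.le

/-- low points at scale `s j` are bounded at scale `s j` -/
theorem Pre.bdd (h : Pre C R l e c0) (U : Ultrafilter ℕ) {X : ℕ → EE m × EE D × ℝ}
    {s : ℕ → ℝ} (hs : Tendsto s U atTop)
    (hX : ∀ᶠ j in (U : Filter ℕ), X j ∈ C) (a b : ℝ)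
    (hl : ∀ᶠ j in (U : Filter ℕ), l (X j).2.1 ≤ a * s j)
    (hz : ∀ᶠ j in (U : Filter ℕ), (X j).2.2 ≤ b) :
    ∃ M : ℝ, ∀ᶠ j in (U : Filter ℕ), ‖(s j)⁻¹ • X j‖ ≤ M := by
  rcases ultra_bdd_or_tendsto U (fun j => ‖(s j)⁻¹ • X j‖) with h1 | h1
  · exact h1
  · exfalso
    have hs0 : ∀ᶠ j in (U : Filter ℕ), 1 ≤ s j := hs.eventually_ge_atTop 1
    have hmul : ∀ᶠ j in (U : Filter ℕ), ‖X j‖ = s j * ‖(s j)⁻¹ • X j‖ := by
      filter_upwards [hs0] with j hj
      rw [norm_smul, norm_inv, Real.norm_of_nonneg (by linarith), ← mul_assoc,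
        mul_inv_cancel₀ (by linarith), one_mul]
    have hn : Tendsto (fun j => ‖X j‖) U atTop := by
      refine tendsto_atTop_mono' _ ?_ h1
      filter_upwards [hs0, hmul] with j hj hj2
      rw [hj2]
      nlinarith [norm_nonneg ((s j)⁻¹ • X j)]
    refine h.key U hX hn (fun ε hε => ?_) (fun ε hε => ?_)
    · filter_upwards [hl, hs0, hmul, h1.eventually_ge_atTop (|a| / ε)] with j hj hj1 hj2 hj3
      rw [hj2]
      have h3 : |a| ≤ ε * ‖(s j)⁻¹ • X j‖ := by
        rw [div_le_iff₀ hε] at hj3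
        linarith [mul_comm ε ‖(s j)⁻¹ • X j‖]
      have h4 : a ≤ |a| := le_abs_self a
      have h5 : a * s j ≤ (ε * ‖(s j)⁻¹ • X j‖) * s j :=
        mul_le_mul_of_nonneg_right (h4.trans h3) (by linarith)
      calc l (X j).2.1 ≤ a * s j := hj
        _ ≤ _ := h5
        _ = ε * (s j * ‖(s j)⁻¹ • X j‖) := by ring
    · filter_upwards [hz, hn.eventually_ge_atTop (|b| / ε)] with j hj hj3
      have h3 : |b| ≤ ε * ‖X j‖ := by
        rw [div_le_iff₀ hε] at hj3
        linarith [mul_comm ε ‖X j‖]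
      linarith [le_abs_self b]

/-- the `y`-components of limits are in `R` -/
theorem Pre.limR (h : Pre C R l e c0) (U : Ultrafilter ℕ) {X : ℕ → EE m × EE D × ℝ}
    {s : ℕ → ℝ} (hs : Tendsto s U atTop)
    (hX : ∀ᶠ j in (U : Filter ℕ), X j ∈ C) {y : EE D}
    (hy : Tendsto (fun j => (s j)⁻¹ • (X j).2.1) U (𝓝 y)) (b : ℝ)
    (hz : ∀ᶠ j in (U : Filter ℕ), (X j).2.2 ≤ b) : y ∈ R := by
  have hs0 : ∀ᶠ j in (U : Filter ℕ), 1 ≤ s j := hs.eventually_ge_atTop 1
  have hl : ∀ᶠ j in (U : Filter ℕ), l (X j).2.1 ≤ (l y + 1) * s j := by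
    have h1 : Tendsto (fun j => l ((s j)⁻¹ • (X j).2.1)) U (𝓝 (l y)) :=
      l.continuous.continuousAt.tendsto.comp hy
    filter_upwards [hs0, h1.eventually_lt_const (show l y < l y + 1 by linarith)] with j hj hj2
    rw [map_smul, smul_eq_mul, inv_mul_lt_iff₀ (by linarith)] at hj2
    linarith [mul_comm (s j) (l y + 1)]
  obtain ⟨M, hM⟩ := h.bdd U hs hX _ b hl hz
  obtain ⟨v, -, hv⟩ := exists_limit (U := U) hM
  have hrec : v ∈ Rec C := rec_of_tendsto' h.cl h.cv hX hs hv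
  have hv1 : v.2.1 = y := by
    have h1 : Tendsto (fun j => ((s j)⁻¹ • X j).2.1) U (𝓝 v.2.1) :=
      (continuous_fst.comp continuous_snd).continuousAt.tendsto.comp hv
    exact tendsto_nhds_unique h1 hy
  have hv2 : v.2.2 = 0 := by
    have h1 : Tendsto (fun j => ((s j)⁻¹ • X j).2.2) U (𝓝 v.2.2) :=
      (continuous_snd.comp continuous_snd).continuousAt.tendsto.comp hv
    have hi : Tendsto (fun j => (s j)⁻¹ * b) U (𝓝 (0 * b)) :=
      (tendsto_inv_atTop_zero.comp hs).mul_const b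
    rw [zero_mul] at hi
    refine le_antisymm (le_of_tendsto_of_tendsto h1 hi ?_) (ge_of_tendsto h1 ?_)
    · filter_upwards [hz, hs0] with j hj hj1
      simp only [Prod.smul_snd, smul_eq_mul]
      exact mul_le_mul_of_nonneg_left hj (inv_nonneg.mpr (by linarith))
    · filter_upwards [hX, hs0] with j hj hj1
      simp only [Prod.smul_snd, smul_eq_mul]
      exact mul_nonneg (inv_nonneg.mpr (by linarith)) (h.nonneg _ hj)
  have hv0 := h.rec0 v hrec hv2
  rw [h.recR, ← hv1]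
  have : v = (0, v.2.1, 0) := by
    ext1
    · exact hv0
    · ext1
      · rfl
      · exact hv2
  rw [← this]; exact hrec

end blow

end Crest.Agent.R236.A
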