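import Crest.Agent.R236.ABlow2
import Crest.Agent.R236.ARec

/-!
# Row 236, Part A, node A4: the limit of the blow-down
-/

set_option autoImplicit false

namespace Crest.Agent.R236.A

open Module Set Filter Topology

section blow
variable {m D : ℕ}

/-- the scaling map `(t, y, z) ↦ (B t, y / s, s z)` -/
noncomputable def scal (B : EE m ≃L[ℝ] EE m) (s : ℝ) (hs : s ≠ 0) :
    (EE m × EE D × ℝ) ≃ₗ[ℝ] (EE m × EE D × ℝ) :=
  B.toLinearEquiv.prodCongr
    ((LinearEquiv.smulOfNeZero ℝ (EE D) s⁻¹ (inv_ne_zero hs)).prodCongr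
      (LinearEquiv.smulOfNeZero ℝ ℝ s hs))

@[simp] theorem scal_apply (B : EE m ≃L[ℝ] EE m) (s : ℝ) (hs : s ≠ 0) (X : EE m × EE D × ℝ) :
    scal B s hs X = (B X.1, s⁻¹ • X.2.1, s * X.2.2) := rfl

variable {C : Set (EE m × EE D × ℝ)} {R : Set (EE D)} {l : EE D →L[ℝ] ℝ} {e : EE D} {c0 : ℝ}

/-- the low part of `C` at scale `s` -/
def low (C : Set (EE m × EE D × ℝ)) (l : EE D →L[ℝ] ℝ) (s : ℝ) : Set (EE m × EE D × ℝ) :=
  {X | X ∈ C ∧ l X.2.1 ≤ s ∧ X.2.2 ≤ s⁻¹}

theorem low_eq (C : Set (EE m × EE D × ℝ)) (l : EE D →L[ℝ] ℝ) (s : ℝ) :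
    low C l s = C ∩ ({X : EE m × EE D × ℝ | l X.2.1 ≤ s} ∩
      {X : EE m × EE D × ℝ | X.2.2 ≤ s⁻¹}) := by
  ext X
  simp only [low, mem_ofPred_eq, mem_inter_iff]

theorem Pre.low_compact (h : Pre C R l e c0) (s : ℝ) : IsCompact (low C l s) := by
  have : ProperSpace (EE m × EE D × ℝ) := FiniteDimensional.proper_real _
  have hcl : IsClosed (low C l s) := by
    rw [low_eq]
    refine h.cl.inter ((isClosed_le ?_ continuous_const).inter (isClosed_le ?_ continuous_const))
    · exact l.continuous.comp (continuous_fst.comp continuous_snd)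
    · exact continuous_snd.comp continuous_snd
  refine Metric.isCompact_of_isClosed_isBounded hcl ?_
  by_contra hb
  rw [isBounded_iff_forall_norm_le] at hb
  push Not at hb
  choose x hx hxn using fun j : ℕ => hb j
  have hn : Tendsto (fun j => ‖x j‖) ((hyperfilter ℕ : Ultrafilter ℕ) : Filter ℕ) atTop := by
    have h1 : Tendsto (fun j => ‖x j‖) atTop atTop :=
      tendsto_atTop_mono (fun j => (hxn j).le) tendsto_natCast_atTop_atTop
    exact h1.mono_left Nat.hyperfilter_le_atTop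
  refine h.key (hyperfilter ℕ) (Eventually.of_forall fun j => (hx j).1) hn
    (fun ε hε => ?_) (fun ε hε => ?_)
  · filter_upwards [hn.eventually_ge_atTop (|s| / ε)] with j hj
    rw [div_le_iff₀ hε] at hj
    have := (hx j).2.1
    linarith [le_abs_self s, mul_comm ε ‖x j‖]
  · filter_upwards [hn.eventually_ge_atTop (|s⁻¹| / ε)] with j hj
    rw [div_le_iff₀ hε] at hj
    have := (hx j).2.2
    linarith [le_abs_self s⁻¹, mul_comm ε ‖x j‖]

theorem Pre.smul_mem (h : Pre C R l e c0) {X : EE m × EE D × ℝ} (hX : X ∈ C) {a : ℝ}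
    (ha : 0 ≤ a) (ha1 : a ≤ 1) : a • X ∈ C := by
  have := h.cv h.zero hX (show 0 ≤ 1 - a by linarith) ha (by ring)
  simpa using this

theorem Pre.low_interior (h : Pre C R l e c0) {s : ℝ} (hs : 0 < s) :
    (interior (low C l s)).Nonempty := by
  obtain ⟨ζ, hζ, hQ⟩ := h.vert
  set Q : EE m × EE D × ℝ := (0, 0, ζ) with hQd
  have hsi : 0 < s⁻¹ := inv_pos.mpr hs
  set a : ℝ := min 1 (s⁻¹ / (2 * ζ)) with ha
  have ha0 : 0 < a := lt_min one_pos (by positivity)
  have ha1 : a ≤ 1 := min_le_left _ _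
  have ha2 : a * ζ < s⁻¹ := by
    have : a ≤ s⁻¹ / (2 * ζ) := min_le_right _ _
    calc a * ζ ≤ s⁻¹ / (2 * ζ) * ζ := mul_le_mul_of_nonneg_right this hζ.le
      _ = s⁻¹ / 2 := by field_simp
      _ < s⁻¹ := by linarith
  have hop : IsOpenMap fun x : EE m × EE D × ℝ => a • x := isOpenMap_smul₀ ha0.ne'
  have hsub : (fun x : EE m × EE D × ℝ => a • x) '' interior C ⊆ C := by
    rintro _ ⟨v, hv, rfl⟩
    exact h.smul_mem (interior_subset hv) ha0.le ha1
  have hopen : IsOpen ((fun x : EE m × EE D × ℝ => a • x) '' interior C ∩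
      ({X : EE m × EE D × ℝ | l X.2.1 < s} ∩ {X : EE m × EE D × ℝ | X.2.2 < s⁻¹})) := by
    refine (hop _ isOpen_interior).inter ((isOpen_lt ?_ continuous_const).inter
      (isOpen_lt ?_ continuous_const))
    · exact l.continuous.comp (continuous_fst.comp continuous_snd)
    · exact continuous_snd.comp continuous_snd
  refine ⟨a • Q, interior_maximal ?_ hopen ⟨⟨Q, hQ, rfl⟩, ?_, ?_⟩⟩
  · rintro X ⟨h1, h2, h3⟩
    exact ⟨hsub h1, le_of_lt h2, le_of_lt h3⟩
  · simp [hQd, hs]
  · simpa [hQd] using ha2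

theorem Pre.exists_B (h : Pre C R l e c0) {s : ℝ} (hs : 0 < s) :
    ∃ B : EE m ≃L[ℝ] EE m, (∀ i, ∃ X ∈ low C l s, B X.1 = EuclideanSpace.single i (1 : ℝ)) ∧
      ∀ X ∈ low C l s, ∀ i, |B X.1 i| ≤ 1 := by
  have hlc : Convex ℝ (low C l s) := by
    rw [low_eq]
    refine h.cv.inter (Convex.inter ?_ ?_)
    · have : {a : EE m × EE D × ℝ | l a.2.1 ≤ s} =
          (fun X : EE m × EE D × ℝ => l X.2.1) ⁻¹' Iic s := rfl
      exact (convex_Iic s).is_linear_preimage
        (f := fun X : EE m × EE D × ℝ => l X.2.1)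
        ⟨fun x y => by simp, fun c x => by simp⟩
    · exact (convex_Iic s⁻¹).is_linear_preimage
        (f := fun X : EE m × EE D × ℝ => X.2.2)
        ⟨fun x y => by simp, fun c x => by simp⟩
  have h0 : (0 : EE m × EE D × ℝ) ∈ low C l s :=
    ⟨h.zero, by simp [hs.le], by simpa using hs.le⟩
  obtain ⟨B, hB1, hB2⟩ := auerbachStmt m (Prod.fst '' low C l s)
    ((h.low_compact s).image continuous_fst) (hlc.linear_image (LinearMap.fst ℝ _ _))
    ⟨0, h0, rfl⟩ (by
      obtain ⟨x, hx⟩ := h.low_interior hs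
      refine ⟨x.1, interior_maximal (image_mono interior_subset)
        (isOpenMap_fst _ isOpen_interior) ⟨x, hx, rfl⟩⟩)
  refine ⟨B, fun i => ?_, fun X hX i => hB2 _ ⟨X.1, ⟨X, hX, rfl⟩, rfl⟩ i⟩
  obtain ⟨_, ⟨X, hX, rfl⟩, hXB⟩ := hB1 i
  exact ⟨X, hX, hXB⟩

/-- the blow-down limit belongs to the class -/
theorem Pre.blowdown {n : ℕ} (h : Pre C R l e c0)
    (happr : ∀ A : (EE m × EE D × ℝ) ≃ₗ[ℝ] (EE m × EE D × ℝ), Appr n (A '' C)) :
    ∃ C' : Set (EE m × EE D × ℝ), ClassR n R C' := by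
  set s : ℕ → ℝ := fun j => (j : ℝ) + 1 with hsd
  have hs0 : ∀ j, 0 < s j := fun j => by positivity
  have hs1 : ∀ j, 1 ≤ s j := fun j => by simp [hsd]
  choose B hB1 hB2 using fun j : ℕ => h.exists_B (hs0 j)
  set U : Ultrafilter ℕ := hyperfilter ℕ with hU
  have hUs : Tendsto s U atTop := by
    have h1 : Tendsto s atTop atTop := tendsto_atTop_add_const_right _ _
      tendsto_natCast_atTop_atTop
    exact h1.mono_left Nat.hyperfilter_le_atTop
  set Cj : ℕ → Set (EE m × EE D × ℝ) := fun j => scal (B j) (s j) (hs0 j).ne' '' C with hCj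
  have hap : ∀ j, Appr n (Cj j) := fun j => happr _
  have hclj : ∀ j, IsClosed (Cj j) := fun j => (hap j).1
  set C1 : Set (EE m × EE D × ℝ) := ulim U Cj with hC1
  have hC1a : Appr n C1 := appr_ulim hap
  have hC1cl : IsClosed C1 := hC1a.1
  have hC1cv : Convex ℝ C1 := hC1a.2.1
  -- membership
  have hmem : ∀ j (X : EE m × EE D × ℝ), X ∈ C →
      (B j X.1, (s j)⁻¹ • X.2.1, s j * X.2.2) ∈ Cj j := fun j X hX => ⟨X, hX, rfl⟩
  -- horizontal part
  have hhor : ∀ y ∈ R, ((0 : EE m), y, (0 : ℝ)) ∈ C1 := by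
    intro y hy
    refine mem_ulim_of_tendsto (x := fun _ => ((0 : EE m), y, (0 : ℝ)))
      (Eventually.of_forall fun j => ?_) tendsto_const_nhds
    have h1 := (h.recR y).1 hy 0 h.zero (s j) (hs0 j).le
    have h2 := hmem j _ h1
    simpa [smul_smul, inv_mul_cancel₀ (hs0 j).ne'] using h2
  have h0C1 : (0 : EE m × EE D × ℝ) ∈ C1 := hhor 0 h.cone.R_zero
  -- vertical ray
  have hver : ∀ σ : ℝ, 0 ≤ σ → ((0 : EE m), (0 : EE D), σ) ∈ C1 := by
    intro σ hσ
    obtain ⟨ζ, hζ, hQ⟩ := h.vert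
    refine mem_ulim_of_tendsto (x := fun _ => ((0 : EE m), (0 : EE D), σ)) ?_ tendsto_const_nhds
    filter_upwards [hUs.eventually_ge_atTop (σ / ζ)] with j hj
    have hle : σ / (ζ * s j) ≤ 1 := by
      rw [div_le_one (mul_pos hζ (hs0 j))]
      rw [div_le_iff₀ hζ] at hj
      linarith [mul_comm ζ (s j)]
    have h1 := h.smul_mem (interior_subset hQ) (div_nonneg hσ (mul_pos hζ (hs0 j)).le) hle
    have h2 := hmem j _ h1
    have h3 : s j * (σ / (ζ * s j) * ζ) = σ := by
      have := (hs0 j).ne'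
      field_simp
    simpa [h3] using h2
  have hrecV : ((0 : EE m), (0 : EE D), (1 : ℝ)) ∈ Rec C1 := by
    refine mem_rec_of_ray hC1cl hC1cv (x0 := 0) fun t ht => ?_
    have := hver t ht
    simpa using this
  -- sequences
  have hseq : ∀ X ∈ C1, ∃ x : ℕ → EE m × EE D × ℝ, (∀ᶠ j in (U : Filter ℕ), x j ∈ C) ∧
      Tendsto (fun j => (B j (x j).1, (s j)⁻¹ • (x j).2.1, s j * (x j).2.2)) U (𝓝 X) := by
    intro X hX
    obtain ⟨y, hy, hly⟩ := exists_seq_of_mem_ulim hclj hX
    have hch : ∀ j, ∃ x : EE m × EE D × ℝ, y j ∈ Cj j →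
        x ∈ C ∧ (B j x.1, (s j)⁻¹ • x.2.1, s j * x.2.2) = y j := by
      intro j
      by_cases hj : y j ∈ Cj j
      · obtain ⟨x, hx, hxy⟩ := hj
        exact ⟨x, fun _ => ⟨hx, hxy⟩⟩
      · exact ⟨0, fun h => absurd h hj⟩
    choose x hx using hch
    refine ⟨x, ?_, ?_⟩
    · filter_upwards [hy] with j hj using (hx j hj).1
    · refine hly.congr' ?_
      filter_upwards [hy] with j hj using ((hx j hj).2).symm
  -- position of the limit
  have hpos : ∀ X ∈ C1, X.2.1 ∈ R ∧ 0 ≤ X.2.2 := by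
    intro X hX
    obtain ⟨x, hx, hlx⟩ := hseq X hX
    have h1 : Tendsto (fun j => (s j)⁻¹ • (x j).2.1) U (𝓝 X.2.1) :=
      (continuous_fst.comp continuous_snd).continuousAt.tendsto.comp hlx
    have h2 : Tendsto (fun j => s j * (x j).2.2) U (𝓝 X.2.2) :=
      (continuous_snd.comp continuous_snd).continuousAt.tendsto.comp hlx
    refine ⟨h.limR U hUs hx h1 (|X.2.2| + 1) ?_, ?_⟩
    · filter_upwards [h2.eventually_lt_const (show X.2.2 < |X.2.2| + 1 by
        linarith [le_abs_self X.2.2]), hx] with j hj hjx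
      have h3 := h.nonneg _ hjx
      have h4 : (x j).2.2 ≤ s j * (x j).2.2 := by nlinarith [hs1 j]
      linarith
    · refine ge_of_tendsto h2 ?_
      filter_upwards [hx] with j hj
      exact mul_nonneg (hs0 j).le (h.nonneg _ hj)
  -- bounded part
  have hbd : ∀ X ∈ C1, l X.2.1 < 1 → X.2.2 < 1 → ∀ i, |X.1 i| ≤ 1 := by
    intro X hX hXl hXz i
    obtain ⟨x, hx, hlx⟩ := hseq X hX
    have h0 : Tendsto (fun j => B j (x j).1) U (𝓝 X.1) :=
      continuous_fst.continuousAt.tendsto.comp hlx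
    have h1 : Tendsto (fun j => l ((s j)⁻¹ • (x j).2.1)) U (𝓝 (l X.2.1)) :=
      (l.continuous.comp (continuous_fst.comp continuous_snd)).continuousAt.tendsto.comp hlx
    have h2 : Tendsto (fun j => s j * (x j).2.2) U (𝓝 X.2.2) :=
      (continuous_snd.comp continuous_snd).continuousAt.tendsto.comp hlx
    have h3 : Tendsto (fun j => |(B j (x j).1) i|) U (𝓝 |X.1 i|) := by
      have hc : Continuous fun w : EE m => |w i| :=
        (EuclideanSpace.proj (𝕜 := ℝ) i).continuous.abs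
      exact hc.continuousAt.tendsto.comp h0
    refine le_of_tendsto h3 ?_
    filter_upwards [hx, h1.eventually_lt_const hXl, h2.eventually_lt_const hXz] with j hj h4 h5
    refine hB2 j (x j) ⟨hj, ?_, ?_⟩ i
    · rw [map_smul, smul_eq_mul, inv_mul_lt_iff₀ (hs0 j)] at h4
      linarith
    · rw [← one_div, le_div_iff₀ (hs0 j)]
      linarith [mul_comm (s j) (x j).2.2]
  -- spanning points
  have hsp1 : ∀ i : Fin m, ∃ y : EE D, ∃ z : ℝ, (EuclideanSpace.single i (1 : ℝ), y, z) ∈ C1 := by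
    intro i
    choose x hxl hxB using fun j => hB1 j i
    obtain ⟨M, hM⟩ := h.bdd U hUs (X := x) (Eventually.of_forall fun j => (hxl j).1) 1 1
      (Eventually.of_forall fun j => by simpa using (hxl j).2.1)
      (Eventually.of_forall fun j => (hxl j).2.2.trans (inv_le_one_of_one_le₀ (hs1 j)))
    obtain ⟨y, -, hy⟩ := exists_limit (U := U) (x := fun j => (s j)⁻¹ • (x j).2.1) (R := M) (by
      filter_upwards [hM] with j hj
      refine le_trans ?_ hj
      exact (norm_fst_le ((s j)⁻¹ • x j).2).trans (norm_snd_le ((s j)⁻¹ • x j)))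
    obtain ⟨z, -, hz⟩ := exists_limit (U := U) (x := fun j => s j * (x j).2.2) (R := 1)
      (Eventually.of_forall fun j => by
        have h1 := (hxl j).2.2
        have h2 := h.nonneg _ (hxl j).1
        rw [Real.norm_of_nonneg (mul_nonneg (hs0 j).le h2)]
        calc s j * (x j).2.2 ≤ s j * (s j)⁻¹ := mul_le_mul_of_nonneg_left h1 (hs0 j).le
          _ = 1 := mul_inv_cancel₀ (hs0 j).ne')
    refine ⟨y, z, mem_ulim_of_tendsto
      (x := fun j => (B j (x j).1, (s j)⁻¹ • (x j).2.1, s j * (x j).2.2))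
      (Eventually.of_forall fun j => hmem j _ (hxl j).1) ?_⟩
    have hB' : (fun j => B j (x j).1) = fun _ => EuclideanSpace.single i (1 : ℝ) := by
      funext j; exact hxB j
    have : Tendsto (fun j => B j (x j).1) U (𝓝 (EuclideanSpace.single i (1 : ℝ))) := by
      rw [hB']; exact tendsto_const_nhds
    exact this.prodMk_nhds (hy.prodMk_nhds hz)
  have hspan : Submodule.span ℝ C1 = ⊤ := by
    rw [eq_top_iff]
    rintro ⟨t, y, z⟩ -
    have hZ : ∀ z : ℝ, ((0 : EE m), (0 : EE D), z) ∈ Submodule.span ℝ C1 := by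
      intro z
      have h1 := (Submodule.span ℝ C1).smul_mem z (Submodule.subset_span (hver 1 zero_le_one))
      simpa using h1
    have hY : ∀ y : EE D, ((0 : EE m), y, (0 : ℝ)) ∈ Submodule.span ℝ C1 := by
      intro y
      have hR : Submodule.span ℝ R = ⊤ := by
        apply Submodule.eq_top_of_nonempty_interior'
        exact ⟨e, interior_mono Submodule.subset_span h.cone.e_int⟩
      have hy : y ∈ Submodule.span ℝ R := by rw [hR]; trivial
      have hle : Submodule.span ℝ R ≤ (Submodule.span ℝ C1).comap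
          ((LinearMap.inr ℝ (EE m) (EE D × ℝ)).comp (LinearMap.inl ℝ (EE D) ℝ)) := by
        rw [Submodule.span_le]
        intro w hw
        exact Submodule.subset_span (hhor w hw)
      exact hle hy
    have hT1 : ∀ i : Fin m, (EuclideanSpace.single i (1 : ℝ), (0 : EE D), (0 : ℝ)) ∈
        Submodule.span ℝ C1 := by
      intro i
      obtain ⟨y, z, hyz⟩ := hsp1 i
      have h1 := Submodule.sub_mem _ (Submodule.sub_mem _ (Submodule.subset_span hyz) (hY y)) (hZ z)
      have h6 : ((EuclideanSpace.single i (1 : ℝ) : EE m), (0 : EE D), (0 : ℝ)) =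
          ((EuclideanSpace.single i (1 : ℝ) : EE m), y, z) - ((0 : EE m), y, (0 : ℝ)) -
            ((0 : EE m), (0 : EE D), z) := by
        ext1
        · simp
        · ext1 <;> simp
      rw [h6]
      exact h1
    have hT : (t, (0 : EE D), (0 : ℝ)) ∈ Submodule.span ℝ C1 := by
      have h2 : (t, (0 : EE D), (0 : ℝ)) =
          ∑ i : Fin m, t i • (EuclideanSpace.single i (1 : ℝ), (0 : EE D), (0 : ℝ)) := by
        have h3 : t = ∑ i : Fin m, t i • (EuclideanSpace.single i (1 : ℝ) : EE m) := by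
          ext k
          simp [Finset.sum_apply, Pi.single_apply]
        ext1
        · simp only [Prod.fst_sum, Prod.smul_fst]
          exact h3
        · simp [Prod.snd_sum]
      rw [h2]
      exact Submodule.sum_mem _ fun i _ => Submodule.smul_mem _ _ (hT1 i)
    have h5 := Submodule.add_mem _ (Submodule.add_mem _ hT (hY y)) (hZ z)
    simpa using h5
  refine ⟨C1, ⟨⟨hC1a, int_of_span hC1cv h0C1 hspan, ?_⟩, ?_, hpos⟩⟩
  · intro v hv hv'
    have hp : ∀ t : ℝ, 0 ≤ t → t • v ∈ C1 := fun t ht => by simpa using hv 0 h0C1 t ht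
    have hm : ∀ t : ℝ, 0 ≤ t → -(t • v) ∈ C1 := fun t ht => by simpa using hv' 0 h0C1 t ht
    have h1 := hpos _ (hp 1 zero_le_one)
    have h2 := hpos _ (hm 1 zero_le_one)
    simp only [one_smul, Prod.fst_neg, Prod.snd_neg] at h1 h2
    have hz0 : v.2.2 = 0 := le_antisymm (by linarith [h2.2]) h1.2
    have hy0 : v.2.1 = 0 := by
      have h3 := h.cone.l_ge _ h1.1
      have h4 := h.cone.l_ge _ h2.1
      rw [map_neg, norm_neg] at h4
      have hc := h.cone.c0_pos
      have h5 : c0 * ‖v.2.1‖ ≤ 0 := by linarith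
      have h6 : ‖v.2.1‖ ≤ 0 := by
        by_contra hcon
        push Not at hcon
        have := mul_pos hc hcon
        linarith
      exact norm_eq_zero.mp (le_antisymm h6 (norm_nonneg _))
    have ht0 : v.1 = 0 := by
      ext i
      by_contra hne
      have hne' : 0 < |v.1 i| := abs_pos.mpr hne
      have h3 := hbd _ (hp (2 / |v.1 i|) (by positivity)) (by simp [hy0]) (by simp [hz0]) i
      simp only [Prod.smul_fst, PiLp.smul_apply, smul_eq_mul, abs_mul] at h3
      rw [abs_of_pos (show 0 < 2 / |v.1 i| by positivity), div_mul_cancel₀ _ hne'.ne'] at h3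
      norm_num at h3
    ext1
    · exact ht0
    · ext1
      · exact hy0
      · exact hz0
  · intro y hy z hz
    have := hrecV _ (hhor y hy) z hz
    simpa using this

end blow

end Crest.Agent.R236.A
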