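import Crest.Agent.R236.ABlow3

/-!
# Row 236, Part A, node A4: assembly
-/

set_option autoImplicit false

namespace Crest.Agent.R236.A

open Module Set Filter Topology

/-- the coordinate lemma -/
def CoordStmt : Prop := ∀ (n D : ℕ) (ξ : (EE n × ℝ) →L[ℝ] ℝ), ξ ≠ 0 →
  ∀ V : Submodule ℝ (EE n × ℝ), (∀ v ∈ V, ξ v = 0) → Module.finrank ℝ V = D →
    ∃ m : ℕ, m + D = n ∧ ∃ Φ : (EE n × ℝ) ≃L[ℝ] (EE m × EE D × ℝ),
      (∀ X, (Φ X).2.2 = -ξ X) ∧ ∀ X, X ∈ V ↔ ((Φ X).1 = 0 ∧ (Φ X).2.2 = 0)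

/-- shear `(t, y, z) ↦ (t - z a, y - z b, z)` -/
noncomputable def shear {m D : ℕ} (a : EE m) (b : EE D) :
    (EE m × EE D × ℝ) ≃ₗ[ℝ] (EE m × EE D × ℝ) where
  toFun X := (X.1 - X.2.2 • a, X.2.1 - X.2.2 • b, X.2.2)
  invFun X := (X.1 + X.2.2 • a, X.2.1 + X.2.2 • b, X.2.2)
  map_add' X Y := by
    ext1
    · simp only [Prod.fst_add, Prod.snd_add, add_smul]; abel
    · ext1
      · simp only [Prod.fst_add, Prod.snd_add, add_smul]; abel
      · rfl
  map_smul' c X := by
    ext1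
    · simp only [Prod.smul_fst, Prod.smul_snd, smul_sub, smul_smul, smul_eq_mul,
        RingHom.id_apply]
    · ext1
      · simp only [Prod.smul_fst, Prod.smul_snd, smul_sub, smul_smul, smul_eq_mul,
          RingHom.id_apply]
      · rfl
  left_inv X := by
    ext1
    · simp
    · ext1 <;> simp
  right_inv X := by
    ext1
    · simp
    · ext1 <;> simp

theorem shear_apply {m D : ℕ} (a : EE m) (b : EE D) (X : EE m × EE D × ℝ) :
    shear a b X = (X.1 - X.2.2 • a, X.2.1 - X.2.2 • b, X.2.2) := rfl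

/-- coordinates adapted to an additional vector -/
theorem coord_adapted (hco : CoordStmt) (n D : ℕ) (ξ : (EE n × ℝ) →L[ℝ] ℝ) (hξ : ξ ≠ 0)
    (V : Submodule ℝ (EE n × ℝ)) (hV : ∀ v ∈ V, ξ v = 0) (hD : Module.finrank ℝ V = D)
    (q : EE n × ℝ) (hq : ξ q < 0) :
    ∃ m : ℕ, m + D = n ∧ ∃ Φ : (EE n × ℝ) ≃L[ℝ] (EE m × EE D × ℝ),
      (∀ X, (Φ X).2.2 = -ξ X) ∧ (∀ X, X ∈ V ↔ ((Φ X).1 = 0 ∧ (Φ X).2.2 = 0)) ∧
        Φ q = (0, 0, -ξ q) := by
  obtain ⟨m, hm, Φ, hΦ1, hΦ2⟩ := hco n D ξ hξ V hV hD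
  set ζ : ℝ := -ξ q with hζ
  have hζ0 : ζ ≠ 0 := by
    have : 0 < ζ := by rw [hζ]; linarith
    exact this.ne'
  set S := shear (ζ⁻¹ • (Φ q).1) (ζ⁻¹ • (Φ q).2.1) with hS
  refine ⟨m, hm, Φ.trans S.toContinuousLinearEquiv, fun X => ?_, fun X => ?_, ?_⟩
  · simpa [hS, shear_apply] using hΦ1 X
  · rw [hΦ2]
    constructor
    · rintro ⟨h1, h2⟩
      refine ⟨?_, ?_⟩
      · simp [hS, shear_apply, h1, h2]
      · simpa [hS, shear_apply] using h2
    · rintro ⟨h1, h2⟩
      have h2' : (Φ X).2.2 = 0 := by simpa [hS, shear_apply] using h2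
      refine ⟨?_, h2'⟩
      simpa [hS, shear_apply, h2'] using h1
  · have h3 : (Φ q).2.2 = ζ := hΦ1 q
    ext1
    · simp [hS, shear_apply, h3, smul_smul, mul_inv_cancel₀ hζ0]
    · ext1
      · simp [hS, shear_apply, h3, smul_smul, mul_inv_cancel₀ hζ0]
      · simpa [hS, shear_apply] using h3

theorem a4_of (hco : CoordStmt)
    (happ : ∀ (n : ℕ) (W W' : Type) [NormedAddCommGroup W] [NormedSpace ℝ W]
      [FiniteDimensional ℝ W] [NormedAddCommGroup W'] [NormedSpace ℝ W'] [FiniteDimensional ℝ W']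
      (C : Set W) (A : W ≃ᵃ[ℝ] W'), Appr n C → Appr n (A '' C))
    (hrec : ∀ (W W' : Type) [NormedAddCommGroup W] [NormedSpace ℝ W]
      [FiniteDimensional ℝ W] [NormedAddCommGroup W'] [NormedSpace ℝ W'] [FiniteDimensional ℝ W']
      (C : Set W) (A : W ≃ᵃ[ℝ] W'), Rec (A '' C) = A.linear '' Rec C) : A4Stmt := by
  classical
  intro n D hD hR hnR
  obtain ⟨C0, hgood, ξ, hξ, X0, hX0, hmax, v, hli, hv⟩ := hR
  set RW : Set (EE n × ℝ) := {w | w ∈ Rec C0 ∧ ξ w = 0} with hRW
  set V : Submodule ℝ (EE n × ℝ) := Submodule.span ℝ RW with hVd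
  have hV0 : ∀ w ∈ V, ξ w = 0 := by
    intro w hw
    have : V ≤ LinearMap.ker ξ.toLinearMap := by
      rw [hVd, Submodule.span_le]
      intro x hx
      exact hx.2
    exact this hw
  have hfin : finrank ℝ V = D := by
    apply le_antisymm
    · by_contra hcon
      push Not at hcon
      apply hnR
      obtain ⟨b, hbR, hbspan, hbli⟩ := exists_linearIndependent ℝ RW
      have hbfin : Finite b := hbli.finite
      have := Fintype.ofFinite b
      have hcard : Fintype.card b = finrank ℝ V := by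
        have := finrank_span_set_eq_card (R := ℝ) (s := b) hbli
        rw [hVd, ← hbspan, this, Set.toFinset_card]
      have hle : D + 1 ≤ Fintype.card b := by omega
      obtain ⟨f⟩ : Nonempty (Fin (D + 1) ↪ b) := by
        apply Function.Embedding.nonempty_of_card_le
        simpa using hle
      refine ⟨C0, hgood, ξ, hξ, X0, hX0, hmax, fun i => (f i : EE n × ℝ), ?_, fun i => ?_⟩
      · exact hbli.comp f f.injective
      · exact hbR (f i).2
    · have h1 : LinearIndependent ℝ (fun i => (⟨v i, Submodule.subset_span (hv i)⟩ : V)) := by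
        apply LinearIndependent.of_comp V.subtype
        simpa [Function.comp_def] using hli
      simpa using h1.fintype_card_le_finrank
  -- an interior point
  obtain ⟨Q, hQ⟩ := hgood.int
  have hξQ : ξ (Q - X0) < 0 := by
    rw [map_sub]
    have h1 : ξ Q ≤ ξ X0 := hmax Q (interior_subset hQ)
    rcases h1.lt_or_eq with h | h
    · linarith
    · exfalso
      obtain ⟨w, hw⟩ : ∃ w, ξ w ≠ 0 := by
        by_contra hcon
        push Not at hcon
        exact hξ (ContinuousLinearMap.ext hcon)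
      have hcont : Tendsto (fun t : ℝ => Q + t • w) (𝓝 0) (𝓝 (Q + (0 : ℝ) • w)) :=
        (continuous_const.add (continuous_id.smul continuous_const)).tendsto 0
      rw [zero_smul, add_zero] at hcont
      have h2 := hcont.eventually (mem_interior_iff_mem_nhds.mp hQ)
      rw [Metric.eventually_nhds_iff] at h2
      obtain ⟨ε, hε, h3⟩ := h2
      have h4 : ∀ t : ℝ, |t| < ε → t * ξ w ≤ 0 := by
        intro t ht
        have := hmax _ (h3 (y := t) (by simpa [Real.dist_eq] using ht))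
        rw [map_add, map_smul, smul_eq_mul, h] at this
        linarith
      have h5 := h4 (ε / 2) (by rw [abs_of_pos (by linarith)]; linarith)
      have h6 := h4 (-(ε / 2)) (by rw [abs_neg, abs_of_pos (by linarith)]; linarith)
      apply hw
      nlinarith
  obtain ⟨m, hm, Φ, hΦ1, hΦ2, hΦq⟩ := coord_adapted hco n D ξ hξ V hV0 hfin _ hξQ
  -- the affine map
  set A : (EE n × ℝ) ≃ᵃ[ℝ] (EE m × EE D × ℝ) :=
    (AffineEquiv.constVAdd ℝ (EE n × ℝ) (-X0)).trans Φ.toLinearEquiv.toAffineEquiv with hA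
  have hAap : ∀ X, A X = Φ (X - X0) := by
    intro X
    simp [hA, neg_add_eq_sub]
  have hAlin : ∀ X, A.linear X = Φ X := by
    intro X
    rfl
  set C' : Set (EE m × EE D × ℝ) := A '' C0 with hC'
  have hC'a : Appr n C' := happ n _ _ C0 A hgood.appr
  have hrecC' : Rec C' = A.linear '' Rec C0 := hrec _ _ C0 A
  set R : Set (EE D) := {y | ((0 : EE m), y, (0 : ℝ)) ∈ Rec C'} with hRd
  have hrec0 : ∀ w ∈ Rec C', w.2.2 = 0 → w.1 = 0 := by
    intro w hw hw2
    rw [hrecC'] at hw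
    obtain ⟨x, hx, rfl⟩ := hw
    rw [hAlin] at hw2 ⊢
    rw [hΦ1] at hw2
    have hxV : x ∈ V := Submodule.subset_span ⟨hx, by linarith⟩
    exact ((hΦ2 x).1 hxV).1
  have hRcl : IsClosed R := by
    have hc : Continuous fun y : EE D => ((0 : EE m), y, (0 : ℝ)) := by fun_prop
    exact (isClosed_rec hC'a.1).preimage hc
  have hR0 : (0 : EE D) ∈ R := by
    have : ((0 : EE m), (0 : EE D), (0 : ℝ)) = 0 := rfl
    rw [hRd]
    simp only [mem_ofPred_eq, this]
    exact rec_zero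
  have hRsm : ∀ y ∈ R, ∀ t : ℝ, 0 ≤ t → t • y ∈ R := by
    intro y hy t ht
    have := rec_smul (C := C') hy ht
    simpa [hRd] using this
  have hRadd : ∀ y ∈ R, ∀ w ∈ R, y + w ∈ R := by
    intro y hy w hw
    have := rec_add (C := C') hy hw
    simpa [hRd] using this
  have hpt' : ∀ w, w ∈ Rec C' → -w ∈ Rec C' → w = 0 := by
    intro w hw hw'
    rw [hrecC'] at hw hw'
    obtain ⟨x, hx, rfl⟩ := hw
    obtain ⟨x', hx', hxx'⟩ := hw'
    rw [hAlin, hAlin, ← map_neg] at hxx'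
    have : x' = -x := Φ.injective hxx'
    rw [this] at hx'
    rw [hgood.pointed x hx hx', map_zero]
  have hRpt : ∀ y ∈ R, -y ∈ R → y = 0 := by
    intro y hy hy'
    have h1 := hpt' ((0 : EE m), y, (0 : ℝ)) hy (by
      have : -((0 : EE m), y, (0 : ℝ)) = ((0 : EE m), -y, (0 : ℝ)) := by simp
      rw [this]; exact hy')
    have := congrArg (fun X : EE m × EE D × ℝ => X.2.1) h1
    simpa using this
  have hRsp : Submodule.span ℝ R = ⊤ := by
    rw [eq_top_iff]
    rintro y -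
    set π : (EE n × ℝ) →ₗ[ℝ] EE D :=
      (LinearMap.fst ℝ (EE D) ℝ).comp ((LinearMap.snd ℝ (EE m) (EE D × ℝ)).comp
        Φ.toLinearEquiv.toLinearMap) with hπ
    have hle : V ≤ (Submodule.span ℝ R).comap π := by
      rw [hVd, Submodule.span_le]
      intro w hw
      refine Submodule.subset_span ?_
      have h1 : Φ w ∈ Rec C' := by rw [hrecC']; exact ⟨w, hw.1, hAlin w⟩
      have h2 := (hΦ2 w).1 (Submodule.subset_span hw)
      have h3 : Φ w = ((0 : EE m), (Φ w).2.1, (0 : ℝ)) := by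
        ext1
        · exact h2.1
        · ext1
          · rfl
          · exact h2.2
      rw [h3] at h1
      exact h1
    have hy : Φ.symm ((0 : EE m), y, (0 : ℝ)) ∈ V := by
      rw [hΦ2]; simp
    have := hle hy
    simpa [hπ] using this
  obtain ⟨l, e, c0, hcone⟩ := exists_coneData hD hRcl hR0 hRsm hRadd hRpt hRsp
  have hpre : Pre C' R l e c0 := by
    refine ⟨hC'a.1, hC'a.2.1, ⟨X0, hX0, by rw [hAap]; simp⟩, ?_, ⟨-ξ (Q - X0), by linarith, ?_⟩,
      fun y => Iff.rfl, hrec0, hcone⟩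
    · rintro _ ⟨X, hX, rfl⟩
      rw [hAap, hΦ1, map_sub]
      linarith [hmax X hX]
    · have hop : IsOpenMap A := by
        have h1 : IsOpenMap fun X : EE n × ℝ => Φ (X - X0) :=
          Φ.toHomeomorph.isOpenMap.comp (Homeomorph.subRight X0).isOpenMap
        have h2 : (A : EE n × ℝ → EE m × EE D × ℝ) = fun X => Φ (X - X0) := funext hAap
        rw [h2]; exact h1
      refine interior_maximal (image_mono interior_subset) (hop _ isOpen_interior) ⟨Q, hQ, ?_⟩
      rw [hAap, hΦq]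
  obtain ⟨C1, hC1⟩ := hpre.blowdown (n := n) fun B => happ n _ _ C' B.toAffineEquiv hC'a
  exact ⟨m, R, l, e, c0, C1, hm, hcone, hC1⟩

end Crest.Agent.R236.A
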