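import Crest.Agent.R236.ABlow4

/-!
# Row 236, Part A, node A4: the coordinate lemma
-/

set_option autoImplicit false

namespace Crest.Agent.R236.A

open Module Set

theorem coordStmt : CoordStmt := by
  intro n D ξ hξ V hV hD
  set K : Submodule ℝ (EE n × ℝ) := LinearMap.ker ξ.toLinearMap with hK
  have hVK : V ≤ K := fun x hx => hV x hx
  have hW : finrank ℝ (EE n × ℝ) = n + 1 := by simp
  have hKn : finrank ℝ K = n := by
    have hne : (ξ.toLinearMap : Module.Dual ℝ (EE n × ℝ)) ≠ 0 := by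
      intro h
      apply hξ
      refine ContinuousLinearMap.ext fun x => ?_
      exact congrArg (fun f : Module.Dual ℝ (EE n × ℝ) => f x) h
    have := Module.Dual.finrank_ker_add_one_of_ne_zero hne
    rw [hW] at this
    exact Nat.add_right_cancel this
  set V' : Submodule ℝ K := V.comap K.subtype with hV'
  have hV'D : finrank ℝ V' = D := by
    rw [← hD]
    exact (Submodule.comapSubtypeEquivOfLe hVK).finrank_eq
  have hq := Submodule.finrank_quotient_add_finrank V'
  rw [hV'D, hKn] at hq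
  refine ⟨finrank ℝ (K ⧸ V'), hq, ?_⟩
  -- f
  let f0 : (K ⧸ V') ≃ₗ[ℝ] EE (finrank ℝ (K ⧸ V')) :=
    LinearEquiv.ofFinrankEq _ _ (by simp)
  obtain ⟨f, hf⟩ := LinearMap.exists_extend (f0.toLinearMap.comp V'.mkQ)
  let g0 : V ≃ₗ[ℝ] EE D := LinearEquiv.ofFinrankEq _ _ (by simp [hD])
  obtain ⟨g, hg⟩ := LinearMap.exists_extend g0.toLinearMap
  have hfK : ∀ x : K, f x = f0 (V'.mkQ x) := fun x => by
    have := congrArg (fun h => h x) hf
    simpa using this
  have hgV : ∀ x : V, g x = g0 x := fun x => by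
    have := congrArg (fun h => h x) hg
    simpa using this
  have hfV : ∀ x ∈ K, (f x = 0 ↔ x ∈ V) := by
    intro x hx
    rw [hfK ⟨x, hx⟩, LinearEquiv.map_eq_zero_iff, Submodule.mkQ_apply,
      Submodule.Quotient.mk_eq_zero]
    simp [hV']
  let Φ0 : (EE n × ℝ) →ₗ[ℝ] (EE (finrank ℝ (K ⧸ V')) × EE D × ℝ) :=
    f.prod (g.prod (-ξ.toLinearMap))
  have hinj : Function.Injective Φ0 := by
    rw [← LinearMap.ker_eq_bot, LinearMap.ker_eq_bot']
    intro x hx
    have h1 : f x = 0 := congrArg (fun X => X.1) hx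
    have h2 : g x = 0 := congrArg (fun X => X.2.1) hx
    have h3 : -ξ x = 0 := congrArg (fun X => X.2.2) hx
    have hxK : x ∈ K := by
      rw [hK, LinearMap.mem_ker]
      have : ξ x = 0 := by linarith
      exact this
    have hxV : x ∈ V := (hfV x hxK).1 h1
    rw [hgV ⟨x, hxV⟩, LinearEquiv.map_eq_zero_iff] at h2
    exact congrArg Subtype.val h2
  let Φ : (EE n × ℝ) ≃ₗ[ℝ] (EE (finrank ℝ (K ⧸ V')) × EE D × ℝ) :=
    LinearEquiv.ofInjectiveOfFinrankEq Φ0 hinj (by simp; omega)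
  have hΦ : ∀ x, Φ x = (f x, g x, -ξ x) := fun x => rfl
  refine ⟨Φ.toContinuousLinearEquiv, fun x => ?_, fun x => ?_⟩
  · simp [hΦ]
  · simp only [LinearEquiv.coe_toContinuousLinearEquiv', hΦ, neg_eq_zero]
    constructor
    · intro hx
      exact ⟨(hfV x (hVK hx)).2 hx, hV x hx⟩
    · rintro ⟨h1, h2⟩
      exact (hfV x h2).1 h1

end Crest.Agent.R236.A
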