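import Mathlib
import Crest.Agent.R236.AA6
import Crest.Agent.R236.A3

/-! Row 236, Part A: assembly. (helper499) -/

set_option autoImplicit false
open scoped ContDiff Topology
open Set Filter

noncomputable section

namespace Crest.Agent.R236.A

/-- Part A from the blow-down A4 -/
theorem partA_of_a4 (h4 : A4Stmt) : PartA := by
  classical
  intro n hn hb
  have h1 : HasRec n 1 := a3 n hn hb
  set D := Nat.findGreatest (HasRec n) n with hD
  have hD1 : 1 ≤ D := Nat.le_findGreatest hn h1
  have hDr : HasRec n D := Nat.findGreatest_spec hn h1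
  have hDm : ¬ HasRec n (D + 1) := by
    intro h
    have := Nat.le_findGreatest (hasRec_le' h) h
    omega
  obtain ⟨m, R, l, e, c0, C, hdim, cd, hC⟩ := h4 n D hD1 hDr hDm
  obtain ⟨L, c, hs⟩ := a6 n m D R l e c0 C hdim hD1 hDm cd hC
  exact ⟨m, D, C, R, l, e, c0, L, c, hs⟩

end Crest.Agent.R236.A
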