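import Crest.Agent.R236.P1

/-! Row 236: definitions for the section geometry (helper202). -/

set_option autoImplicit false
open scoped ContDiff Topology
open Crest.GeometryTopology.CoordMetric Crest.GeometryTopology.AffineMaximal
open Set Filter MeasureTheory

noncomputable section

namespace Crest.Agent.R236.Sec

variable {n : ℕ}

/-- Bregman deviation: `u` at `y` minus the tangent plane at `x` -/
def dev (u : EuclideanSpace ℝ (Fin n) → ℝ) (x y : EuclideanSpace ℝ (Fin n)) : ℝ :=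
  u y - u x - fderiv ℝ u x (y - x)

/-- balanced sections -/
def BAL (Ω : Set (EuclideanSpace ℝ (Fin n))) (u : EuclideanSpace ℝ (Fin n) → ℝ) (th : ℝ) : Prop :=
  ∀ x ∈ Ω, ∀ y ∈ Ω, ∀ l : ℝ, dev u x y ≤ l →
    x - th • (y - x) ∈ Ω ∧ dev u x (x - th • (y - x)) ≤ l

/-- quasi-uniform convexity -/
def QS (Ω : Set (EuclideanSpace ℝ (Fin n))) (u : EuclideanSpace ℝ (Fin n) → ℝ) (C0 : ℝ) : Prop :=
  ∀ x ∈ Ω, ∀ y ∈ Ω, dev u y x ≤ C0 * dev u x y

/-- the affine maximal equation on `Ω` -/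
def PDE (Ω : Set (EuclideanSpace ℝ (Fin n))) (u : EuclideanSpace ℝ (Fin n) → ℝ) : Prop :=
  ∀ x ∈ Ω, affineMaximalOp n u x = 0

/-- A normalised section `{u ≤ 2}` of an entire function. -/
structure NSec (n : ℕ) (r lam Lam G : ℝ) (u : EuclideanSpace ℝ (Fin n) → ℝ) : Prop where
  sc : SC univ u
  zero : u 0 = 0
  dzero : fderiv ℝ u 0 = 0
  ball : ∀ x, ‖x‖ ≤ r → u x ≤ 2
  bdd : ∀ x, u x ≤ 2 → ‖x‖ ≤ 1
  grad : ∀ x, u x ≤ 2 → ‖fderiv ℝ u x‖ ≤ G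
  det_ge : ∀ x, u x ≤ 2 → lam ≤ (hessianMat u x).det
  det_le : ∀ x, u x ≤ 2 → (hessianMat u x).det ≤ Lam

/-- The weak Harnack inequality in measure, as used by the Liouville theorem. -/
def WHStmt (n : ℕ) : Prop :=
  ∀ r lam Lam G : ℝ, 0 < r → 0 < lam → 0 < Lam → 0 < G → ∃ C : ℝ, 0 < C ∧
    ∀ u : EuclideanSpace ℝ (Fin n) → ℝ, NSec n r lam Lam G u →
    ∀ v : EuclideanSpace ℝ (Fin n) → ℝ, ContDiff ℝ ∞ v → (∀ x, 0 < v x) →
      (∀ x, u x ≤ 2 → ∑ i, ∑ j, (hessianMat u x).adjugate i j * hessianMat v x i j ≤ 0) →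
      ∀ z, u z ≤ 1 / 2 → ∀ eps d : ℝ, 0 < eps → v z ≤ eps → 4 * eps < d →
        (volume {x | u x ≤ 1 / 2 ∧ d ≤ v x}).toReal * Real.log (d / (4 * eps)) ≤ C

end Crest.Agent.R236.Sec
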