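import Mathlib
import Crest.Prelude.Def_AffineMaximal
import Crest.Agent.R236.P1
import Crest.Agent.R236.SecDefs
import Crest.Agent.R236.ADefs

/-! Row 236: balanced sections imply quasi-symmetry of the height function (helper183).

`Bal θ Ω u`: for `x, y ∈ Ω` the reflected point `x - θ (y - x)` lies in `Ω` and its height above the
tangent plane at `x` is at most the height of `y`. -/

set_option autoImplicit false
open scoped ContDiff Topology
open Crest.GeometryTopology.CoordMetric Crest.GeometryTopology.AffineMaximal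
open Set Filter

noncomputable section

namespace Crest.Agent.R236.Qs

variable {n : ℕ} {Ω : Set (EuclideanSpace ℝ (Fin n))} {u : EuclideanSpace ℝ (Fin n) → ℝ}

/-- sections are balanced with constant `θ` -/
def Bal (θ : ℝ) (Ω : Set (EuclideanSpace ℝ (Fin n))) (u : EuclideanSpace ℝ (Fin n) → ℝ) : Prop :=
  ∀ x ∈ Ω, ∀ y ∈ Ω, x - θ • (y - x) ∈ Ω ∧
    u (x - θ • (y - x)) - u x - fderiv ℝ u x (-(θ • (y - x))) ≤
      u y - u x - fderiv ℝ u x (y - x)

/-- `Bal` from the formulation with sections `S_h(x) = {y ∈ Ω : u y ≤ u x + Du(x)(y-x) + h}`. -/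
theorem bal_of_sections {θ : ℝ}
    (H : ∀ x₀ ∈ Ω, ∀ h : ℝ, ∀ x ∈ Ω, u x ≤ u x₀ + fderiv ℝ u x₀ (x - x₀) + h →
      x₀ - θ • (x - x₀) ∈ Ω ∧ u (x₀ - θ • (x - x₀)) ≤
        u x₀ + fderiv ℝ u x₀ ((x₀ - θ • (x - x₀)) - x₀) + h) : Bal θ Ω u := by
  intro x hx y hy
  obtain ⟨h1, h2⟩ := H x hx (u y - u x - fderiv ℝ u x (y - x)) y hy (by linarith)
  refine ⟨h1, ?_⟩
  have : (x - θ • (y - x)) - x = -(θ • (y - x)) := by abel
  rw [this] at h2
  linarith

/-- the constant of quasi-symmetry -/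
def C0 (θ : ℝ) : ℝ := 2 * (2 + θ) * (1 + θ) / θ ^ 2

lemma C0_pos {θ : ℝ} (hθ : 0 < θ) : 0 < C0 θ := by unfold C0; positivity

lemma one_le_C0 {θ : ℝ} (hθ : 0 < θ) : 1 ≤ C0 θ := by
  unfold C0
  rw [le_div_iff₀ (by positivity)]
  nlinarith [sq_nonneg θ]

/-- **quasi-symmetry from balanced sections**: `u_y(x) ≤ C0 u_x(y)`. -/
theorem qs_of_bal (h : SC Ω u) {θ : ℝ} (hθ : 0 < θ) (hb : Bal θ Ω u) {x y : EuclideanSpace ℝ (Fin n)}
    (hx : x ∈ Ω) (hy : y ∈ Ω) :
    u x - u y - fderiv ℝ u y (x - y) ≤ C0 θ * (u y - u x - fderiv ℝ u x (y - x)) := by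
  set v := y - x with hv
  set δ : ℝ := θ / (2 * (1 + θ)) with hδ
  have hδ0 : 0 < δ := by positivity
  have hδ1 : δ < 1 := by
    rw [hδ, div_lt_one (by positivity)]; linarith
  have hw : x + (1 - δ) • v ∈ Ω := h.segment_mem hx hy ⟨by linarith, by linarith⟩
  set w := x + (1 - δ) • v with hwdef
  obtain ⟨hp, hdev⟩ := hb w hw x hx
  have h1δ : (1 - δ) * (1 + θ) = 1 + θ / 2 := by
    rw [hδ]; field_simp; ring
  have hxw : x - w = -((1 - δ) • v) := by rw [hwdef]; abel
  have hpe : w - θ • (x - w) = x + (1 + θ / 2) • v := by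
    rw [hxw, hwdef, ← h1δ]; module
  rw [hpe] at hp hdev
  rw [hxw] at hdev
  set p := x + (1 + θ / 2) • v with hpdef
  simp only [map_neg, map_smul, smul_eq_mul, smul_neg, neg_neg] at hdev
  -- tangent plane at w seen from y
  have hyw : y - w = δ • v := by
    rw [hwdef, hv]; module
  have t1 := h.tangent_le hw hy
  rw [hyw, map_smul, smul_eq_mul] at t1
  have hwx : w - x = (1 - δ) • v := by rw [hwdef]; abel
  have t2 := h.tangent_le hx hw
  rw [hwx, map_smul, smul_eq_mul] at t2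
  have hpy : p - y = (θ / 2) • v := by
    rw [hpdef, hv]; module
  have t3 := h.tangent_le hy hp
  rw [hpy, map_smul, smul_eq_mul] at t3
  have hxy : x - y = -v := by rw [hv]; abel
  rw [hxy, map_neg]
  have tm := h.tangent_le hx hy
  rw [← hv] at tm
  set a := fderiv ℝ u w v
  set a0 := fderiv ℝ u x v
  set a1 := fderiv ℝ u y v
  -- hdev : u p - u w - θ * ((1-δ) * a) ≤ u x - u w + (1-δ) * a
  have e1 : u p ≤ u x + (1 + θ / 2) * a := by
    have : u p ≤ u x + (1 - δ) * (1 + θ) * a := by nlinarith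
    rwa [h1δ] at this
  have e2 : δ * (a - a0) ≤ u y - u x - a0 := by nlinarith
  have e2' : a - a0 ≤ (u y - u x - a0) / δ := by
    rw [le_div_iff₀ hδ0]; linarith
  set m := u y - u x - a0 with hm
  have hm0 : 0 ≤ m := by rw [hm]; linarith
  have e3 : θ / 2 * (a1 - a0) ≤ -m + (1 + θ / 2) * (m / δ) := by
    have : (1 + θ / 2) * (a - a0) ≤ (1 + θ / 2) * (m / δ) :=
      mul_le_mul_of_nonneg_left e2' (by positivity)
    rw [hm] at *
    nlinarith
  have e4 : a1 - a0 ≤ (2 / θ) * ((1 + θ / 2) * (m / δ)) := by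
    have h5 : (2 / θ) * (θ / 2 * (a1 - a0)) ≤ (2 / θ) * (-m + (1 + θ / 2) * (m / δ)) :=
      mul_le_mul_of_nonneg_left e3 (by positivity)
    have h6 : (2 / θ) * (θ / 2 * (a1 - a0)) = a1 - a0 := by field_simp
    have h7 : (2 / θ) * (-m + (1 + θ / 2) * (m / δ)) ≤ (2 / θ) * ((1 + θ / 2) * (m / δ)) :=
      mul_le_mul_of_nonneg_left (by linarith) (by positivity)
    linarith
  have e5 : (2 / θ) * ((1 + θ / 2) * (m / δ)) = C0 θ * m := by
    rw [hδ]; unfold C0; field_simp
  have : u x - u y - -a1 = (a1 - a0) - m := by rw [hm]; ring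
  rw [this]
  linarith

/-- the same in helper202's notation: `Sec.BAL Ω u θ → Sec.QS Ω u (C0 θ)`. -/
theorem sec_qs_of_bal (h : SC Ω u) {θ : ℝ} (hθ : 0 < θ) (hb : Sec.BAL Ω u θ) :
    Sec.QS Ω u (C0 θ) := by
  intro x hx y hy
  refine qs_of_bal h hθ ?_ hx hy
  intro x hx y hy
  obtain ⟨h1, h2⟩ := hb x hx y hy _ le_rfl
  refine ⟨h1, ?_⟩
  unfold Sec.dev at h2
  have : (x - θ • (y - x)) - x = -(θ • (y - x)) := by abel
  rwa [this] at h2

/-- completeness of the graph metric gives a proper solution in the sense of Part A -/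
theorem sol_of_complete (h : SC Ω u) (hne : Ω.Nonempty)
    (hcomp : IsCompleteOn (graphMetric u) Ω) (hpde : ∀ x ∈ Ω, affineMaximalOp n u x = 0) :
    A.SOL Ω u where
  sc := h
  ne := hne
  pde := hpde
  cap := fun x₀ hx₀ t => h.section_compact hcomp hx₀ t
  closed := by
    rw [← isSeqClosed_iff_isClosed]
    intro y p hy hlim
    have h1 : Tendsto (fun k => (y k).1) atTop (𝓝 p.1) := (continuous_fst.tendsto p).comp hlim
    have h2 : Tendsto (fun k => (y k).2) atTop (𝓝 p.2) := (continuous_snd.tendsto p).comp hlim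
    by_cases hp : p.1 ∈ Ω
    · refine ⟨hp, ?_⟩
      have hc : ContinuousAt u p.1 := (h.differentiableAt hp).continuousAt
      exact le_of_tendsto_of_tendsto (hc.tendsto.comp h1) h2 (Eventually.of_forall fun k => (hy k).2)
    · exfalso
      have hb : ∀ᶠ k in atTop, (y k).2 ≤ p.2 + 1 :=
        h2.eventually (Iic_mem_nhds (by linarith))
      obtain ⟨N, hN⟩ := eventually_atTop.1 hb
      refine h.not_tendsto_of_le hcomp hp (C := p.2 + 1) (y := fun k => (y (k + N)).1)
        (fun k => (hy (k + N)).1) (fun k => ?_) ?_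
      · exact (hy (k + N)).2.trans (hN _ (by omega))
      · exact h1.comp (tendsto_add_atTop_nat N)

/-- Part A's `BAL n` in the notation of the section geometry -/
theorem sec_bal_of_BAL (H : A.BAL n) : ∃ θ : ℝ, 0 < θ ∧
    ∀ (Ω : Set (EuclideanSpace ℝ (Fin n))) (u : EuclideanSpace ℝ (Fin n) → ℝ), A.SOL Ω u →
      Sec.BAL Ω u θ := by
  obtain ⟨θ, hθ, H⟩ := H
  refine ⟨θ, hθ, fun Ω u hs x hx y hy l hl => ?_⟩
  rcases eq_or_ne y x with rfl | hyx
  · rw [sub_self, smul_zero, sub_zero]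
    exact ⟨hx, hl⟩
  · have hpos : 0 < l := by
      have := hs.sc.tangent_lt hx hy (Ne.symm hyx)
      unfold Sec.dev at hl
      linarith
    obtain ⟨h1, h2⟩ := H Ω u hs x hx l hpos y hy (by unfold Sec.dev at hl; linarith)
    refine ⟨h1, ?_⟩
    unfold Sec.dev
    have : (x - θ • (y - x)) - x = -(θ • (y - x)) := by abel
    rw [this]
    linarith

end Crest.Agent.R236.Qs
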