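import Crest.Agent.R236.P1
import Crest.Agent.R236.ADefs
import Crest.Agent.R236.SecDefs
import Crest.Agent.R236.Qs

/-! Row 236: top assembly of S0365 from BAL(n), the Liouville theorem and JCP (helper850). -/

set_option autoImplicit false
open scoped ContDiff Topology
open Crest.GeometryTopology.CoordMetric Crest.GeometryTopology.AffineMaximal
open Set Filter MeasureTheory

noncomputable section

namespace Crest.Agent.R236.Asm

open Crest.Agent.R236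

/-- Liouville: constancy of the determinant (helper202, helper770, helper877) -/
def ConstStmt (n : ℕ) : Prop :=
  ∀ (Ω : Set (EuclideanSpace ℝ (Fin n))) (u : EuclideanSpace ℝ (Fin n) → ℝ) (th : ℝ),
    A.SOL Ω u → 0 < th → Sec.BAL Ω u th →
      ∃ c : ℝ, ∀ x ∈ Ω, (hessianMat u x).det = c

/-- Jörgens–Calabi–Pogorelov (helper633, helper40) -/
def JcpStmt (n : ℕ) : Prop :=
  ∀ (Ω : Set (EuclideanSpace ℝ (Fin n))) (u : EuclideanSpace ℝ (Fin n) → ℝ) (c : ℝ),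
    SC Ω u → Ω.Nonempty → (∀ x ∈ Ω, (hessianMat u x).det = c) →
    (∀ x₀ ∈ Ω, ∀ t : ℝ,
      IsCompact {x | x ∈ Ω ∧ u x ≤ u x₀ + fderiv ℝ u x₀ (x - x₀) + t}) →
    Ω = Set.univ ∧
      ∃ (A : Matrix (Fin n) (Fin n) ℝ) (b : EuclideanSpace ℝ (Fin n)) (c : ℝ), A.PosDef ∧
        ∀ x, u x = (1 / 2) * (∑ i, ∑ j, A i j * x i * x j) + (∑ i, b i * x i) + c

/-- `S0365` for one `n` -/
def S0365Stmt (n : ℕ) : Prop :=
  ∀ (Ω : Set (EuclideanSpace ℝ (Fin n))), IsOpen Ω → Convex ℝ Ω → Ω.Nonempty →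
    ∀ (u : EuclideanSpace ℝ (Fin n) → ℝ), ContDiffOn ℝ ∞ u Ω →
    (∀ x ∈ Ω, (hessianMat u x).PosDef) → (∀ x ∈ Ω, affineMaximalOp n u x = 0) →
    IsCompleteOn (graphMetric u) Ω →
    Ω = Set.univ ∧
      ∃ (A : Matrix (Fin n) (Fin n) ℝ) (b : EuclideanSpace ℝ (Fin n)) (c : ℝ), A.PosDef ∧
        ∀ x, u x = (1 / 2) * (∑ i, ∑ j, A i j * x i * x j) + (∑ i, b i * x i) + c

theorem S0365_of {n : ℕ} (hBAL : A.BAL n) (hC : ConstStmt n) (hJ : JcpStmt n) : S0365Stmt n := by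
  intro Ω hΩ hΩc hΩn u hu hpos hpde hcomp
  have hsc : SC Ω u := ⟨hΩ, hΩc, hu, hpos⟩
  have hsol : A.SOL Ω u := Qs.sol_of_complete hsc hΩn hcomp hpde
  obtain ⟨θ, hθ, hB⟩ := Qs.sec_bal_of_BAL hBAL
  obtain ⟨c, hc⟩ := hC Ω u θ hsol hθ (hB Ω u hsol)
  exact hJ Ω u c hsc hΩn hc hsol.cap

end Crest.Agent.R236.Asm
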