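import Crest.Agent.R236.P1

/-!
Row 236, Part B, node B2 (note 13105): conormal comparisons (helper868).

Abstract part: `Nv` is the conormal (a linear form, nonnegative on `C' - X`), `nr` the scaled norm
`|.|_s` (only absolute homogeneity is used), `es = e_*`.
Concrete part: the conormal `N(v) = ρ (v.2 - Du(x) v.1)` of the graph of `u`.
-/

set_option autoImplicit false

open Crest.GeometryTopology.CoordMetric Crest.GeometryTopology.AffineMaximal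
open Set

noncomputable section

namespace Crest.Agent.R236.B2

section Abstract

variable {W : Type*} [AddCommGroup W] [Module ℝ W]

/-- `N(e_*) ≥ 0` -/
theorem es_nonneg {Nv : W →ₗ[ℝ] ℝ} {nr : W → ℝ} {es : W} {L2 c2 : ℝ}
    (hom : ∀ (t : ℝ) (v : W), nr (t • v) = |t| * nr v) (hL : 0 < L2) (hc : 0 ≤ c2)
    (h : ∀ w, nr w ≤ c2 → 0 ≤ Nv (L2 • es + w)) : 0 ≤ Nv es := by
  have h0 : nr (0 : W) = 0 := by simpa using hom 0 0
  have h1 := h 0 (by rw [h0]; exact hc)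
  rw [add_zero, map_smul, smul_eq_mul] at h1
  exact nonneg_of_mul_nonneg_right h1 hL

/-- (b) ⟹ `|N(v)| ≤ (L₂/c₂) |v|_s N(e_*)` -/
theorem abs_le {Nv : W →ₗ[ℝ] ℝ} {nr : W → ℝ} {es : W} {L2 c2 : ℝ}
    (hom : ∀ (t : ℝ) (v : W), nr (t • v) = |t| * nr v) (hn : ∀ v, 0 ≤ nr v)
    (hc : 0 < c2) (h : ∀ w, nr w ≤ c2 → 0 ≤ Nv (L2 • es + w)) (v : W) :
    |Nv v| ≤ L2 / c2 * nr v * Nv es := by
  -- for every `t` with `|t| nr v ≤ c2`: `|t| |N v| ≤ L2 N es`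
  have key : ∀ t : ℝ, |t| * nr v ≤ c2 → -(L2 * Nv es) ≤ t * Nv v := by
    intro t ht
    have h1 := h (t • v) (by rw [hom]; exact ht)
    rw [map_add, map_smul, map_smul, smul_eq_mul, smul_eq_mul] at h1
    linarith
  rcases (hn v).eq_or_lt with h0 | hpos
  · -- `nr v = 0`
    have hz : Nv v = 0 := by
      by_contra hne
      have h1 := key (-(L2 * Nv es + 1) / Nv v) (by rw [← h0, mul_zero]; exact hc.le)
      rw [div_mul_cancel₀ _ hne] at h1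
      linarith
    rw [hz, ← h0]
    simp
  · have h1 := key (c2 / nr v) (by
      rw [abs_of_pos (div_pos hc hpos), div_mul_cancel₀ _ hpos.ne'])
    have h2 := key (-(c2 / nr v)) (by
      rw [abs_neg, abs_of_pos (div_pos hc hpos), div_mul_cancel₀ _ hpos.ne'])
    have h3 : |c2 / nr v * Nv v| ≤ L2 * Nv es := _root_.abs_le.2 ⟨h1, by linarith⟩
    rw [abs_mul, abs_of_pos (div_pos hc hpos), div_mul_eq_mul_div, div_le_iff₀ hpos] at h3
    have e : L2 / c2 * nr v * Nv es = (L2 * Nv es * nr v) / c2 := by ring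
    rw [e, le_div_iff₀ hc]
    linarith

/-- strict positivity of `N(e_*)` when `N ≠ 0` -/
theorem es_pos {Nv : W →ₗ[ℝ] ℝ} {nr : W → ℝ} {es : W} {L2 c2 : ℝ}
    (hom : ∀ (t : ℝ) (v : W), nr (t • v) = |t| * nr v) (hn : ∀ v, 0 ≤ nr v) (hL : 0 < L2)
    (hc : 0 < c2) (h : ∀ w, nr w ≤ c2 → 0 ≤ Nv (L2 • es + w)) {v : W} (hv : Nv v ≠ 0) :
    0 < Nv es := by
  rcases (es_nonneg hom hL hc.le h).eq_or_lt with h0 | h0
  · have := abs_le hom hn hc h v
    rw [← h0, mul_zero] at this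
    exact absurd (abs_nonpos_iff.1 this) hv
  · exact h0

/-- `N(e_*) ≤ 2 (λ N(e_P) + τ N(e_W))` where `e_P = e_z + δ e`, `e_W = e + δ e_z`,
`e_* = τ e + λ e_z`. -/
theorem es_le {Nv : W →ₗ[ℝ] ℝ} {e ez : W} {lam tau dl : ℝ} (hlam : 0 ≤ lam) (htau : 0 ≤ tau)
    (hd : 0 ≤ dl) (hd2 : dl ≤ 1 / 2) (hP : 0 ≤ Nv (ez + dl • e)) (hW : 0 ≤ Nv (e + dl • ez)) :
    Nv (tau • e + lam • ez) ≤ 2 * (lam * Nv (ez + dl • e) + tau * Nv (e + dl • ez)) := by
  simp only [map_add, map_smul, smul_eq_mul] at hP hW ⊢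
  set x := Nv e
  set z := Nv ez
  -- `(1 - dl²) (τ x + λ z) = (τ - δ λ) (x + δ z) + (λ - δ τ) (z + δ x)`
  have e1 : (1 - dl ^ 2) * (tau * x + lam * z)
      = tau * (x + dl * z) + lam * (z + dl * x)
        - dl * (lam * (x + dl * z) + tau * (z + dl * x)) := by ring
  have h1 : 0 ≤ lam * (x + dl * z) := mul_nonneg hlam hW
  have h2 : 0 ≤ tau * (z + dl * x) := mul_nonneg htau hP
  have h3 : 0 ≤ tau * (x + dl * z) := mul_nonneg htau hW
  have h4 : 0 ≤ lam * (z + dl * x) := mul_nonneg hlam hP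
  have h5 : 0 ≤ dl * (lam * (x + dl * z) + tau * (z + dl * x)) := mul_nonneg hd (add_nonneg h1 h2)
  have h6 : (1 - dl ^ 2) * (tau * x + lam * z) ≤ tau * (x + dl * z) + lam * (z + dl * x) := by
    rw [e1]
    linarith
  have h7 : 3 / 4 ≤ 1 - dl ^ 2 := by nlinarith
  by_contra hcon
  push Not at hcon
  have h8 : 0 ≤ tau * x + lam * z := by linarith
  have h9 : 3 / 4 * (tau * x + lam * z) ≤ (1 - dl ^ 2) * (tau * x + lam * z) :=
    mul_le_mul_of_nonneg_right h7 h8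
  linarith

/-- `0 ≤ N(v) ≤ C N(e_*)` from a bound of `|v|_s` -/
theorem le_es {Nv : W →ₗ[ℝ] ℝ} {nr : W → ℝ} {es : W} {L2 c2 : ℝ}
    (hom : ∀ (t : ℝ) (v : W), nr (t • v) = |t| * nr v) (hn : ∀ v, 0 ≤ nr v) (hL : 0 < L2)
    (hc : 0 < c2) (h : ∀ w, nr w ≤ c2 → 0 ≤ Nv (L2 • es + w)) {v : W} {K : ℝ} (hv : nr v ≤ K) :
    Nv v ≤ L2 / c2 * K * Nv es := by
  have h0 := es_nonneg hom hL hc.le h
  calc Nv v ≤ |Nv v| := le_abs_self _
    _ ≤ L2 / c2 * nr v * Nv es := abs_le hom hn hc h v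
    _ ≤ L2 / c2 * K * Nv es := by gcongr

/-- upper bound of `V = N(Q - X)`, `Q = L₃ e_*` -/
theorem V_le {Nv : W →ₗ[ℝ] ℝ} {nr : W → ℝ} {es X : W} {L2 c2 L3 K : ℝ}
    (hom : ∀ (t : ℝ) (v : W), nr (t • v) = |t| * nr v) (hn : ∀ v, 0 ≤ nr v) (hL : 0 < L2)
    (hc : 0 < c2) (h : ∀ w, nr w ≤ c2 → 0 ≤ Nv (L2 • es + w)) (hX : nr X ≤ K) :
    Nv (L3 • es - X) ≤ (L3 + L2 / c2 * K) * Nv es := by
  have h1 := le_es hom hn hL hc h (v := -X) (K := K) (by
    have := hom (-1) X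
    rw [neg_one_smul, abs_neg, abs_one, one_mul] at this
    rw [this]
    exact hX)
  rw [sub_eq_add_neg, map_add, map_smul, smul_eq_mul]
  linarith

/-- lower bound of `V = N(Q - X)` from `Q + {|.|_s ≤ c₂} ⊆ C'` -/
theorem le_V {Nv : W →ₗ[ℝ] ℝ} {nr : W → ℝ} {es Q X : W} {c2 k : ℝ}
    (hom : ∀ (t : ℝ) (v : W), nr (t • v) = |t| * nr v)
    (hc : 0 < c2) (hk : 0 < k) (hes : nr es ≤ k)
    (h : ∀ w, nr w ≤ c2 → 0 ≤ Nv (Q + w - X)) :
    c2 / k * Nv es ≤ Nv (Q - X) := by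
  have h1 := h (-(c2 / k) • es) (by
    rw [hom, abs_neg, abs_of_pos (div_pos hc hk)]
    calc c2 / k * nr es ≤ c2 / k * k := by gcongr
      _ = c2 := div_mul_cancel₀ _ hk.ne')
  have e : Q + -(c2 / k) • es - X = (Q - X) + -(c2 / k) • es := by abel
  rw [e, map_add, map_smul, smul_eq_mul] at h1
  linarith

end Abstract

section Concrete

variable {n : ℕ} {Ω : Set (EuclideanSpace ℝ (Fin n))} {u : EuclideanSpace ℝ (Fin n) → ℝ}

/-- conormal of the graph of `u` at `x`, with weight `rho` -/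
def cn (rho : ℝ) (u : EuclideanSpace ℝ (Fin n) → ℝ) (x : EuclideanSpace ℝ (Fin n)) :
    (EuclideanSpace ℝ (Fin n) × ℝ) →ₗ[ℝ] ℝ where
  toFun v := rho * (v.2 - fderiv ℝ u x v.1)
  map_add' v w := by
    simp only [Prod.snd_add, Prod.fst_add, map_add]
    ring
  map_smul' t v := by
    simp only [Prod.smul_snd, Prod.smul_fst, map_smul, smul_eq_mul, RingHom.id_apply]
    ring

theorem cn_apply (rho : ℝ) (u : EuclideanSpace ℝ (Fin n) → ℝ) (x : EuclideanSpace ℝ (Fin n))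
    (v : EuclideanSpace ℝ (Fin n) × ℝ) : cn rho u x v = rho * (v.2 - fderiv ℝ u x v.1) := rfl

/-- the conormal is nonnegative on `epi - X(x)` -/
theorem cn_nonneg (h : SC Ω u) {x : EuclideanSpace ℝ (Fin n)} (hx : x ∈ Ω) {rho : ℝ}
    (hr : 0 ≤ rho) {Z : EuclideanSpace ℝ (Fin n) × ℝ} (hZ : Z.1 ∈ Ω) (hZ2 : u Z.1 ≤ Z.2) :
    0 ≤ cn rho u x (Z - (x, u x)) := by
  rw [cn_apply]
  refine mul_nonneg hr ?_
  have h1 := h.tangent_le hx hZ
  simp only [Prod.snd_sub, Prod.fst_sub]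
  linarith

theorem cn_vert (rho : ℝ) (u : EuclideanSpace ℝ (Fin n) → ℝ) (x : EuclideanSpace ℝ (Fin n)) :
    cn rho u x (0, 1) = rho := by
  rw [cn_apply]
  simp

/-- strict positivity of the conormal on vectors pointing inside: `X(x) + v ∈ epi` with the
vertical coordinate strictly above the graph -/
theorem cn_pos (h : SC Ω u) {x : EuclideanSpace ℝ (Fin n)} (hx : x ∈ Ω) {rho : ℝ}
    (hr : 0 < rho) {v : EuclideanSpace ℝ (Fin n) × ℝ} (hZ : x + v.1 ∈ Ω)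
    (hZ2 : u (x + v.1) < u x + v.2) : 0 < cn rho u x v := by
  rw [cn_apply]
  refine mul_pos hr ?_
  have h1 := h.tangent_le hx hZ
  rw [add_sub_cancel_left] at h1
  linarith

/-- the conormal pulled back to `W` by the linear part `A` of the affine isomorphism -/
def cnW {W : Type*} [AddCommGroup W] [Module ℝ W] (A : (EuclideanSpace ℝ (Fin n) × ℝ) ≃ₗ[ℝ] W)
    (rho : ℝ) (u : EuclideanSpace ℝ (Fin n) → ℝ) (x : EuclideanSpace ℝ (Fin n)) : W →ₗ[ℝ] ℝ :=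
  (cn rho u x).comp A.symm.toLinearMap

theorem cnW_apply {W : Type*} [AddCommGroup W] [Module ℝ W]
    (A : (EuclideanSpace ℝ (Fin n) × ℝ) ≃ₗ[ℝ] W) (rho : ℝ) (u : EuclideanSpace ℝ (Fin n) → ℝ)
    (x : EuclideanSpace ℝ (Fin n)) (v : W) : cnW A rho u x v = cn rho u x (A.symm v) := rfl

end Concrete

end Crest.Agent.R236.B2
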