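import Mathlib
import Crest.Prelude.Def_AffineMaximal
import Crest.Agent.R236.P1
import Crest.Agent.R236.ADefs

/-! Row 236, Part B (note 13105), B0+B1+B2: INTERFACE (everything is pulled back to `E × ℝ`).
Users of Part B see only `APX` (and `ApxStmt`). (helper660)

Dictionary: `V = E × ℝ`; `X(x) = (x, u x)`; `sg u v x = v_z - Du(x) v_x`, so `N_v = rho * sg u v`;
`aff F c X = F X + c` (affine function); `P = aff P0 pc`, `W = aff W0 wc`; scale `s = (lam, tau)` on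
the grid `lam = 2^a, tau = 2^b, |a|,|b| ≤ N`; `nrm lam tau` is the norm `|.|_s` (pulled back), `O` the
pull back of the origin of `W`, `es lam tau = e_*`, `Q lam tau = Q_s`; the volume `kappa * v_s` is
`volume {v | nrm lam tau v ≤ 1}`. -/

set_option autoImplicit false
open scoped ContDiff Topology
open Crest.GeometryTopology.CoordMetric Crest.GeometryTopology.AffineMaximal
open Set Filter

noncomputable section

namespace Crest.Agent.R236.B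

open Crest.Agent.R236.A (EE epi SOL STRUCT IsStruct ConeData Appr)

/-- the space `E × ℝ` -/
abbrev VV (n : ℕ) := EE n × ℝ

/-- affine function with linear part `F` and constant `c` -/
def aff {n : ℕ} (F : VV n →L[ℝ] ℝ) (c : ℝ) (X : VV n) : ℝ := F X + c

/-- `sg u v x = v_z - Du(x) v_x`; the conormal is `N_v = rho * sg u v` -/
def sg {n : ℕ} (u : EE n → ℝ) (v : VV n) (x : EE n) : ℝ := v.2 - fderiv ℝ u x v.1

/-- the dyadic grid of scales -/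
def Grid (N : ℕ) (lam tau : ℝ) : Prop :=
  ∃ a b : ℤ, |a| ≤ (N : ℤ) ∧ |b| ≤ (N : ℤ) ∧ lam = (2:ℝ) ^ a ∧ tau = (2:ℝ) ^ b

/-- one approximant, on the grid `|a|, |b| ≤ N`. `Θ K c2 C0` depend only on STRUCT. -/
structure APX (n : ℕ) (Θ K c2 C0 : ℝ) (N : ℕ) (ε0 : ℝ) (Ω : Set (EE n)) (u : EE n → ℝ)
    (P0 W0 : VV n →L[ℝ] ℝ) (pc wc : ℝ) (eP eW O : VV n) (es Q : ℝ → ℝ → VV n)
    (nrm : ℝ → ℝ → Seminorm ℝ (VV n)) : Prop where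
  Θ_ge : 16 ≤ Θ
  K_pos : 0 < K
  c2_pos : 0 < c2
  C0_ge : 1 ≤ C0
  sol : SOL Ω u
  PP : P0 eP = 1
  PW : P0 eW = 0
  WP : W0 eP = 0
  WW : W0 eW = 1
  -- the norms `|.|_s`
  definite : ∀ lam tau, Grid N lam tau → ∀ v, nrm lam tau v = 0 → v = 0
  es_le : ∀ lam tau, Grid N lam tau → nrm lam tau (es lam tau) ≤ C0
  eP_le : ∀ lam tau, Grid N lam tau → nrm lam tau (lam • eP) ≤ C0
  eW_le : ∀ lam tau, Grid N lam tau → nrm lam tau (tau • eW) ≤ C0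
  P0_le : ∀ lam tau, Grid N lam tau → ∀ v, |P0 v| ≤ C0 * lam * nrm lam tau v
  W0_le : ∀ lam tau, Grid N lam tau → ∀ v, |W0 v| ≤ C0 * tau * nrm lam tau v
  -- (a), for all functionals `α P/lam + β W/tau`, `1 ≤ α, β ≤ 2`
  bdd : ∀ lam tau, Grid N lam tau → ∀ α β : ℝ, 1 ≤ α → α ≤ 2 → 1 ≤ β → β ≤ 2 →
    ∀ X ∈ epi Ω u, α * aff P0 pc X / lam + β * aff W0 wc X / tau ≤ Θ →
      nrm lam tau (X - O) ≤ K ∧ -(ε0 * lam) ≤ aff P0 pc X ∧ -(ε0 * tau) ≤ aff W0 wc X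
  cpt : ∀ lam tau, Grid N lam tau → ∀ α β : ℝ, 1 ≤ α → α ≤ 2 → 1 ≤ β → β ≤ 2 → ∀ θ : ℝ, θ ≤ Θ →
    IsCompact {x | x ∈ Ω ∧ α * aff P0 pc (x, u x) / lam + β * aff W0 wc (x, u x) / tau ≤ θ}
  up : ∀ lam tau, Grid N lam tau → ∀ α β : ℝ, 1 ≤ α → α ≤ 2 → 1 ≤ β → β ≤ 2 →
    0 < α * P0 (0, 1) / lam + β * W0 (0, 1) / tau
  -- (b)
  deep : ∀ lam tau, Grid N lam tau → ∀ X ∈ epi Ω u,
    aff P0 pc X / lam + aff W0 wc X / tau ≤ Θ →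
      ∀ v, nrm lam tau v ≤ c2 → X + C0 • es lam tau + v ∈ epi Ω u
  -- (d)
  Q_mem : ∀ lam tau, Grid N lam tau → ∀ v, nrm lam tau v ≤ c2 → Q lam tau + v ∈ epi Ω u ∧
    aff P0 pc (Q lam tau + v) / lam + aff W0 wc (Q lam tau + v) / tau < Θ / 8
  Q_le : ∀ lam tau, Grid N lam tau → nrm lam tau (Q lam tau - O) ≤ K
  -- (c) and B2, at the points `x ∈ Ω` with `P/lam + W/tau ≤ Θ`
  sg_eP : ∀ lam tau, Grid N lam tau → ∀ x ∈ Ω,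
    aff P0 pc (x, u x) / lam + aff W0 wc (x, u x) / tau ≤ Θ → 0 < sg u eP x
  sg_eW : ∀ lam tau, Grid N lam tau → ∀ x ∈ Ω,
    aff P0 pc (x, u x) / lam + aff W0 wc (x, u x) / tau ≤ Θ → 0 < sg u eW x
  sg_es : ∀ lam tau, Grid N lam tau → ∀ x ∈ Ω,
    aff P0 pc (x, u x) / lam + aff W0 wc (x, u x) / tau ≤ Θ → 0 < sg u (es lam tau) x
  sg_le : ∀ lam tau, Grid N lam tau → ∀ x ∈ Ω,
    aff P0 pc (x, u x) / lam + aff W0 wc (x, u x) / tau ≤ Θ →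
      ∀ v, |sg u v x| ≤ C0 * nrm lam tau v * sg u (es lam tau) x
  es_sg_le : ∀ lam tau, Grid N lam tau → ∀ x ∈ Ω,
    aff P0 pc (x, u x) / lam + aff W0 wc (x, u x) / tau ≤ Θ →
      sg u (es lam tau) x ≤ 2 * (lam * sg u eP x + tau * sg u eW x)
  V_ge : ∀ lam tau, Grid N lam tau → ∀ x ∈ Ω,
    aff P0 pc (x, u x) / lam + aff W0 wc (x, u x) / tau ≤ Θ →
      sg u (es lam tau) x ≤ C0 * sg u (Q lam tau - (x, u x)) x
  V_le : ∀ lam tau, Grid N lam tau → ∀ x ∈ Ω,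
    aff P0 pc (x, u x) / lam + aff W0 wc (x, u x) / tau ≤ Θ →
      sg u (Q lam tau - (x, u x)) x ≤ C0 * sg u (es lam tau) x

/-- output of B0+B1+B2 -/
def ApxStmt : Prop := ∀ n : ℕ, 1 ≤ n → STRUCT n → ∃ Θ K c2 C0 : ℝ, 16 ≤ Θ ∧ 0 < K ∧ 0 < c2 ∧ 1 ≤ C0 ∧
  ∀ (N : ℕ) (ε0 : ℝ), 0 < ε0 → ∃ (Ω : Set (EE n)) (u : EE n → ℝ) (P0 W0 : VV n →L[ℝ] ℝ)
    (pc wc : ℝ) (eP eW O : VV n) (es Q : ℝ → ℝ → VV n) (nrm : ℝ → ℝ → Seminorm ℝ (VV n)),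
    APX n Θ K c2 C0 N ε0 Ω u P0 W0 pc wc eP eW O es Q nrm

end Crest.Agent.R236.B
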