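import Crest.Agent.R236.B2
import Crest.Agent.R236.BApxDefs

/-!
Row 236, Part B, node B2 in the form of the fields `sg_*`, `V_*` of `APX` (660's `BApxDefs`):
everything at one point `x` and one scale (helper868).
-/

set_option autoImplicit false

open Crest.GeometryTopology.CoordMetric Crest.GeometryTopology.AffineMaximal
open Set

noncomputable section

namespace Crest.Agent.R236.B2

open Crest.Agent.R236.A (EE epi SOL)
open Crest.Agent.R236.B (VV aff sg)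

variable {n : ℕ} {Ω : Set (EE n)} {u : EE n → ℝ} {x : EE n}

/-- `v ↦ sg u v x` as a linear form -/
def sgL (u : EE n → ℝ) (x : EE n) : VV n →ₗ[ℝ] ℝ := cn 1 u x

theorem sgL_apply (u : EE n → ℝ) (x : EE n) (v : VV n) : sgL u x v = sg u v x := by
  unfold sgL sg
  rw [cn_apply, one_mul]

theorem sg_nonneg_of_mem (h : SC Ω u) (hx : x ∈ Ω) {Z : VV n} (hZ : Z ∈ epi Ω u) :
    0 ≤ sg u (Z - (x, u x)) x := by
  rw [← sgL_apply]
  exact cn_nonneg h hx zero_le_one hZ.1 hZ.2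

theorem sg_vert (u : EE n → ℝ) (x : EE n) : sg u ((0 : EE n), (1 : ℝ)) x = 1 := by
  unfold sg
  simp

theorem homN (p : Seminorm ℝ (VV n)) (t : ℝ) (v : VV n) : p (t • v) = |t| * p v := by
  rw [map_smul_eq_mul, Real.norm_eq_abs]

/-- the hypothesis (b) at the point `x` in linear form -/
theorem deep_lin (h : SC Ω u) (hx : x ∈ Ω) {p : Seminorm ℝ (VV n)} {es : VV n} {L2 c2 : ℝ}
    (hd : ∀ v, p v ≤ c2 → (x, u x) + L2 • es + v ∈ epi Ω u) :
    ∀ w, p w ≤ c2 → 0 ≤ sgL u x (L2 • es + w) := by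
  intro w hw
  have h1 := sg_nonneg_of_mem h hx (hd w hw)
  rw [← sgL_apply] at h1
  have e : (x, u x) + L2 • es + w - (x, u x) = L2 • es + w := by abel
  rwa [e] at h1

/-- (c): strict positivity of `sg` in a deep direction (`es := eP`, `L2 := S`, or `es := e_*`) -/
theorem sg_pos (h : SC Ω u) (hx : x ∈ Ω) {p : Seminorm ℝ (VV n)} {es : VV n} {L2 c2 : ℝ}
    (hL : 0 < L2) (hc : 0 < c2) (hd : ∀ v, p v ≤ c2 → (x, u x) + L2 • es + v ∈ epi Ω u) :
    0 < sg u es x := by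
  rw [← sgL_apply]
  refine es_pos (homN p) (fun v => apply_nonneg p v) hL hc (deep_lin h hx hd)
    (v := ((0 : EE n), (1 : ℝ))) ?_
  rw [sgL_apply, sg_vert]
  exact one_ne_zero

/-- `sg_le` with constant `L2 / c2` -/
theorem sg_le (h : SC Ω u) (hx : x ∈ Ω) {p : Seminorm ℝ (VV n)} {es : VV n} {L2 c2 : ℝ}
    (hc : 0 < c2) (hd : ∀ v, p v ≤ c2 → (x, u x) + L2 • es + v ∈ epi Ω u) (v : VV n) :
    |sg u v x| ≤ L2 / c2 * p v * sg u es x := by
  have h1 := abs_le (homN p) (fun v => apply_nonneg p v) hc (deep_lin h hx hd) v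
  rwa [sgL_apply, sgL_apply] at h1

/-- `sg_le` with any constant `C0 ≥ L2 / c2` -/
theorem sg_le' (h : SC Ω u) (hx : x ∈ Ω) {p : Seminorm ℝ (VV n)} {es : VV n} {L2 c2 C0 : ℝ}
    (hL : 0 < L2) (hc : 0 < c2) (hC : L2 / c2 ≤ C0)
    (hd : ∀ v, p v ≤ c2 → (x, u x) + L2 • es + v ∈ epi Ω u) (v : VV n) :
    |sg u v x| ≤ C0 * p v * sg u es x := by
  have h1 := sg_le h hx hc hd v
  have h2 := (sg_pos h hx hL hc hd).le
  have h3 : 0 ≤ p v := apply_nonneg p v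
  refine h1.trans ?_
  gcongr

/-- `es_sg_le`: `e_* = τ e + λ e_z`, `e_P = e_z + δ e`, `e_W = e + δ e_z` (pulled back) -/
theorem es_sg_le {e ez : VV n} {lam tau dl : ℝ} (hlam : 0 ≤ lam) (htau : 0 ≤ tau)
    (hd : 0 ≤ dl) (hd2 : dl ≤ 1 / 2) (hP : 0 ≤ sg u (ez + dl • e) x)
    (hW : 0 ≤ sg u (e + dl • ez) x) :
    sg u (tau • e + lam • ez) x
      ≤ 2 * (lam * sg u (ez + dl • e) x + tau * sg u (e + dl • ez) x) := by
  rw [← sgL_apply] at hP hW ⊢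
  rw [← sgL_apply, ← sgL_apply]
  exact es_le hlam htau hd hd2 hP hW

/-- `V_ge` with constant `k / c2`, `|e_*|_s ≤ k` -/
theorem V_ge (h : SC Ω u) (hx : x ∈ Ω) {p : Seminorm ℝ (VV n)} {es Q : VV n} {c2 k : ℝ}
    (hc : 0 < c2) (hk : 0 < k) (hes : p es ≤ k) (hQ : ∀ v, p v ≤ c2 → Q + v ∈ epi Ω u) :
    sg u es x ≤ k / c2 * sg u (Q - (x, u x)) x := by
  have h1 := le_V (Nv := sgL u x) (nr := p) (es := es) (Q := Q) (X := (x, u x)) (homN p) hc hk hes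
    (fun w hw => by
      rw [sgL_apply]
      exact sg_nonneg_of_mem h hx (hQ w hw))
  rw [sgL_apply, sgL_apply] at h1
  calc sg u es x = k / c2 * (c2 / k * sg u es x) := by field_simp
    _ ≤ k / c2 * sg u (Q - (x, u x)) x := mul_le_mul_of_nonneg_left h1 (by positivity)

/-- `V_le` with constant `2 K L2 / c2` -/
theorem V_le' (h : SC Ω u) (hx : x ∈ Ω) {p : Seminorm ℝ (VV n)} {es Q O : VV n} {L2 c2 K : ℝ}
    (hL : 0 < L2) (hc : 0 < c2) (hd : ∀ v, p v ≤ c2 → (x, u x) + L2 • es + v ∈ epi Ω u)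
    (hQ : p (Q - O) ≤ K) (hX : p ((x, u x) - O) ≤ K) :
    sg u (Q - (x, u x)) x ≤ L2 / c2 * (2 * K) * sg u es x := by
  have h1 : p (Q - (x, u x)) ≤ 2 * K := by
    have e : Q - (x, u x) = (Q - O) - ((x, u x) - O) := by abel
    rw [e]
    refine (map_sub_le_add p _ _).trans ?_
    linarith
  have h2 := le_es (homN p) (fun v => apply_nonneg p v) hL hc (deep_lin h hx hd) h1
  rwa [sgL_apply, sgL_apply] at h2

/-- All B2 fields of `APX` at one point `x` and one scale.  `L2`, `c2` : (b); `S` : (c); `C0` any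
constant `≥ L2 / c2`, `≥ k / c2`, `≥ 2 K L2 / c2`. -/
theorem fields (h : SC Ω u) (hx : x ∈ Ω) {p : Seminorm ℝ (VV n)} {e ez Q O : VV n}
    {lam tau dl L2 c2 k K S C0 : ℝ} (hlam : 0 < lam) (htau : 0 < tau) (hd0 : 0 ≤ dl)
    (hd2 : dl ≤ 1 / 2) (hL : 0 < L2) (hc : 0 < c2) (hk : 0 < k) (hS : 0 < S)
    (hes : p (tau • e + lam • ez) ≤ k)
    (hb : ∀ v, p v ≤ c2 → (x, u x) + L2 • (tau • e + lam • ez) + v ∈ epi Ω u)
    (hcP : ∀ v, p v ≤ c2 → (x, u x) + S • (ez + dl • e) + v ∈ epi Ω u)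
    (hcW : ∀ v, p v ≤ c2 → (x, u x) + S • (e + dl • ez) + v ∈ epi Ω u)
    (hQm : ∀ v, p v ≤ c2 → Q + v ∈ epi Ω u) (hQ : p (Q - O) ≤ K) (hX : p ((x, u x) - O) ≤ K)
    (hC1 : L2 / c2 ≤ C0) (hC2 : k / c2 ≤ C0) (hC3 : L2 / c2 * (2 * K) ≤ C0) :
    0 < sg u (ez + dl • e) x ∧ 0 < sg u (e + dl • ez) x ∧ 0 < sg u (tau • e + lam • ez) x ∧
    (∀ v, |sg u v x| ≤ C0 * p v * sg u (tau • e + lam • ez) x) ∧
    sg u (tau • e + lam • ez) x ≤ 2 * (lam * sg u (ez + dl • e) x + tau * sg u (e + dl • ez) x) ∧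
    sg u (tau • e + lam • ez) x ≤ C0 * sg u (Q - (x, u x)) x ∧
    sg u (Q - (x, u x)) x ≤ C0 * sg u (tau • e + lam • ez) x := by
  have h1 := sg_pos h hx hS hc hcP
  have h2 := sg_pos h hx hS hc hcW
  have h3 := sg_pos h hx hL hc hb
  have h4 := V_ge h hx hc hk hes hQm
  have h5 := V_le' h hx hL hc hb hQ hX
  have h6 : 0 < sg u (Q - (x, u x)) x := by
    have h7 : 0 < k / c2 * sg u (Q - (x, u x)) x := lt_of_lt_of_le h3 h4
    exact pos_of_mul_pos_right h7 (by positivity)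
  refine ⟨h1, h2, h3, fun v => sg_le' h hx hL hc hC1 hb v,
    es_sg_le hlam.le htau.le hd0 hd2 h1.le h2.le, h4.trans ?_, h5.trans ?_⟩
  · exact mul_le_mul_of_nonneg_right hC2 h6.le
  · exact mul_le_mul_of_nonneg_right hC3 h3.le

end Crest.Agent.R236.B2
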