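import Mathlib
import Crest.Prelude.Def_AffineMaximal
import Crest.Agent.R236.ADefs

/-! Row 236, Part B, node B5': sublevel sets of an affine functional on the graph: compactness,
positivity of the vertical slope, lower bound of the affine area (from B5). (helper913) -/

set_option autoImplicit false
open scoped ContDiff Topology ENNReal
open Crest.GeometryTopology.CoordMetric Crest.GeometryTopology.AffineMaximal
open Set Filter MeasureTheory
open Crest.Agent.R236.A

noncomputable section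

namespace Crest.Agent.R236.BA

variable {n : ℕ} {Ω : Set (EE n)} {u : EE n → ℝ}

/-- the graph is closed as soon as the epigraph is -/
theorem isClosed_graph (hΩ : IsOpen Ω) (hu : ContinuousOn u Ω) (hc : IsClosed (epi Ω u)) :
    IsClosed {p : EE n × ℝ | p.1 ∈ Ω ∧ p.2 = u p.1} := by
  rw [← isSeqClosed_iff_isClosed]
  intro p q hp hpq
  have hq : q ∈ epi Ω u :=
    hc.mem_of_tendsto hpq (Eventually.of_forall fun k => ⟨(hp k).1, (hp k).2.ge⟩)
  refine ⟨hq.1, ?_⟩
  have h1 : Tendsto (fun k => (p k).1) atTop (𝓝 q.1) := (continuous_fst.tendsto q).comp hpq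
  have h2 : Tendsto (fun k => (p k).2) atTop (𝓝 q.2) := (continuous_snd.tendsto q).comp hpq
  have h3 : Tendsto (fun k => u (p k).1) atTop (𝓝 (u q.1)) :=
    ((hu.continuousAt (hΩ.mem_nhds hq.1)).tendsto).comp h1
  exact tendsto_nhds_unique h2 (h3.congr fun k => (hp k).2.symm)

/-- compactness of sublevel sets of a continuous function on the graph -/
theorem isCompact_sub (hΩ : IsOpen Ω) (hu : ContinuousOn u Ω) (hc : IsClosed (epi Ω u))
    {F : EE n × ℝ → ℝ} (hF : Continuous F) {c : ℝ}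
    (hb : Bornology.IsBounded {p | p ∈ epi Ω u ∧ F p ≤ c}) :
    IsCompact {x | x ∈ Ω ∧ F (x, u x) ≤ c} := by
  have hK : IsCompact ({p : EE n × ℝ | p.1 ∈ Ω ∧ p.2 = u p.1} ∩ {p | F p ≤ c}) := by
    apply Metric.isCompact_of_isClosed_isBounded
    · exact (isClosed_graph hΩ hu hc).inter (isClosed_le hF continuous_const)
    · exact hb.subset fun p hp => ⟨⟨hp.1.1, hp.1.2.ge⟩, hp.2⟩
  have he : {x | x ∈ Ω ∧ F (x, u x) ≤ c}
      = Prod.fst '' ({p : EE n × ℝ | p.1 ∈ Ω ∧ p.2 = u p.1} ∩ {p | F p ≤ c}) := by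
    ext x
    constructor
    · rintro ⟨h1, h2⟩
      exact ⟨(x, u x), ⟨⟨h1, rfl⟩, h2⟩, rfl⟩
    · rintro ⟨p, ⟨⟨h1, h2⟩, h3⟩, rfl⟩
      refine ⟨h1, ?_⟩
      rw [← h2]
      exact h3
  rw [he]
  exact hK.image continuous_fst

theorem SOL_isCompact_sub (h : SOL Ω u) {F : EE n × ℝ → ℝ} (hF : Continuous F) {c : ℝ}
    (hb : Bornology.IsBounded {p | p ∈ epi Ω u ∧ F p ≤ c}) :
    IsCompact {x | x ∈ Ω ∧ F (x, u x) ≤ c} :=
  isCompact_sub h.sc.isOpen h.sc.continuousOn h.closed hF hb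

/-- the vertical slope of an affine functional with bounded sublevel set is positive -/
theorem slope_pos {F : EE n × ℝ →L[ℝ] ℝ} {c : ℝ}
    (hb : Bornology.IsBounded {p | p ∈ epi Ω u ∧ F p ≤ c}) {p0 : EE n × ℝ}
    (hp0 : p0 ∈ epi Ω u) (hc0 : F p0 ≤ c) : 0 < F (0, 1) := by
  by_contra hneg
  push Not at hneg
  obtain ⟨M, hM⟩ := hb.exists_norm_le
  have h1 : ∀ t : ℝ, 0 ≤ t → ‖p0 + t • ((0 : EE n), (1 : ℝ))‖ ≤ M := by
    intro t ht
    apply hM
    refine ⟨⟨by simpa using hp0.1, ?_⟩, ?_⟩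
    · have h3 : (p0 + t • ((0 : EE n), (1 : ℝ))).2 = p0.2 + t := by simp
      have h4 : (p0 + t • ((0 : EE n), (1 : ℝ))).1 = p0.1 := by simp
      rw [h3, h4]
      linarith [hp0.2]
    · rw [map_add, map_smul, smul_eq_mul]
      nlinarith
  have h2 := h1 (|M| + |p0.2| + 1) (by positivity)
  have h3 : |(p0 + (|M| + |p0.2| + 1) • ((0 : EE n), (1 : ℝ))).2| ≤ M :=
    (norm_snd_le _).trans h2
  have h4 : (p0 + (|M| + |p0.2| + 1) • ((0 : EE n), (1 : ℝ))).2 = p0.2 + (|M| + |p0.2| + 1) := by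
    simp
  rw [h4] at h3
  have h5 := le_abs_self (p0.2 + (|M| + |p0.2| + 1))
  have h6 := neg_abs_le p0.2
  have h7 := le_abs_self M
  linarith

theorem apply_eq (F : EE n × ℝ →L[ℝ] ℝ) (x : EE n) (z : ℝ) :
    F (x, z) = F (x, 0) + F (0, 1) * z := by
  have : (x, z) = (x, (0:ℝ)) + z • ((0 : EE n), (1 : ℝ)) := by ext <;> simp
  conv_lhs => rw [this]
  rw [map_add, map_smul, smul_eq_mul, mul_comm]

/-- the affine function whose graph is `{F = c}` -/
def slopeL (F : EE n × ℝ →L[ℝ] ℝ) : EE n →L[ℝ] ℝ :=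
  -((F (0, 1))⁻¹ • F.comp (ContinuousLinearMap.inl ℝ (EE n) ℝ))

theorem lt_iff {F : EE n × ℝ →L[ℝ] ℝ} (hF : 0 < F (0, 1)) (c : ℝ) (x : EE n) (z : ℝ) :
    F (x, z) < c ↔ z < slopeL F x + c / F (0, 1) := by
  rw [apply_eq, slopeL]
  simp only [neg_apply, smul_apply, smul_eq_mul,
    ContinuousLinearMap.coe_comp, Function.comp_apply, ContinuousLinearMap.inl_apply]
  constructor
  · intro h
    have : z = (F (0,1))⁻¹ * (F (0,1) * z) := by field_simp
    rw [this]
    have h2 : (F (0,1))⁻¹ * (F (0,1) * z) < (F (0,1))⁻¹ * (c - F (x, 0)) := by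
      apply mul_lt_mul_of_pos_left _ (inv_pos.mpr hF)
      linarith
    calc _ < _ := h2
      _ = _ := by ring
  · intro h
    have h2 : F (0,1) * z < F (0,1) * (-((F (0,1))⁻¹ * F (x, 0)) + c / F (0,1)) :=
      mul_lt_mul_of_pos_left h hF
    have h3 : F (0,1) * (-((F (0,1))⁻¹ * F (x, 0)) + c / F (0,1)) = -F (x,0) + c := by
      field_simp
    linarith

theorem le_iff {F : EE n × ℝ →L[ℝ] ℝ} (hF : 0 < F (0, 1)) (c : ℝ) (x : EE n) (z : ℝ) :
    F (x, z) ≤ c ↔ z ≤ slopeL F x + c / F (0, 1) := by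
  rw [apply_eq, slopeL]
  simp only [neg_apply, smul_apply, smul_eq_mul,
    ContinuousLinearMap.coe_comp, Function.comp_apply, ContinuousLinearMap.inl_apply]
  constructor
  · intro h
    have : z = (F (0,1))⁻¹ * (F (0,1) * z) := by field_simp
    rw [this]
    have h2 : (F (0,1))⁻¹ * (F (0,1) * z) ≤ (F (0,1))⁻¹ * (c - F (x, 0)) := by
      apply mul_le_mul_of_nonneg_left _ (inv_pos.mpr hF).le
      linarith
    calc _ ≤ _ := h2
      _ = _ := by ring
  · intro h
    have h2 : F (0,1) * z ≤ F (0,1) * (-((F (0,1))⁻¹ * F (x, 0)) + c / F (0,1)) :=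
      mul_le_mul_of_nonneg_left h hF.le
    have h3 : F (0,1) * (-((F (0,1))⁻¹ * F (x, 0)) + c / F (0,1)) = -F (x,0) + c := by
      field_simp
    linarith

/-- `D` as a sublevel set of `u` minus an affine function -/
theorem Dset_eq {F : EE n × ℝ →L[ℝ] ℝ} (hF : 0 < F (0, 1)) (c : ℝ) :
    {x | x ∈ Ω ∧ F (x, u x) < c} = {x | x ∈ Ω ∧ u x < slopeL F x + c / F (0, 1)} := by
  ext x
  simp only [mem_ofPred_eq, lt_iff hF]

theorem Dset_le_eq {F : EE n × ℝ →L[ℝ] ℝ} (hF : 0 < F (0, 1)) (c : ℝ) :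
    {x | x ∈ Ω ∧ F (x, u x) ≤ c} = {x | x ∈ Ω ∧ u x ≤ slopeL F x + c / F (0, 1)} := by
  ext x
  simp only [mem_ofPred_eq, le_iff hF]

theorem isOpen_D (hΩ : IsOpen Ω) (hu : ContinuousOn u Ω) {g : EE n → ℝ} (hg : Continuous g) :
    IsOpen {x | x ∈ Ω ∧ u x < g x} := by
  have : {x | x ∈ Ω ∧ u x < g x} = Ω ∩ (fun x => u x - g x) ⁻¹' (Iio 0) := by
    ext x
    simp
  rw [this]
  exact (hu.sub hg.continuousOn).isOpen_inter_preimage hΩ isOpen_Iio

/-- volume of a subset of the cap -/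
theorem volume_cap_le {g : EE n → ℝ} (hΩ : IsOpen Ω) (hu : ContinuousOn u Ω) (hg : Continuous g)
    {h : ℝ} (hh : ∀ x ∈ Ω, g x - u x ≤ h) {S : Set (EE n × ℝ)} (hS : MeasurableSet S)
    (hSs : ∀ p ∈ S, p ∈ epi Ω u ∧ p.2 < g p.1) :
    volume S ≤ ENNReal.ofReal h * volume {x | x ∈ Ω ∧ u x < g x} := by
  have hD : MeasurableSet {x | x ∈ Ω ∧ u x < g x} := (isOpen_D hΩ hu hg).measurableSet
  rw [Measure.volume_eq_prod, Measure.prod_apply hS]
  calc ∫⁻ x, volume (Prod.mk x ⁻¹' S)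
      ≤ ∫⁻ x, {x | x ∈ Ω ∧ u x < g x}.indicator (fun _ => ENNReal.ofReal h) x := by
        refine lintegral_mono fun x => ?_
        by_cases hx : x ∈ {x | x ∈ Ω ∧ u x < g x}
        · rw [indicator_of_mem hx]
          calc volume (Prod.mk x ⁻¹' S) ≤ volume (Icc (u x) (g x)) := by
                refine measure_mono fun z hz => ?_
                have := hSs (x, z) hz
                exact ⟨this.1.2, this.2.le⟩
            _ = ENNReal.ofReal (g x - u x) := Real.volume_Icc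
            _ ≤ ENNReal.ofReal h := ENNReal.ofReal_le_ofReal (hh x hx.1)
        · rw [indicator_of_notMem hx]
          have : Prod.mk x ⁻¹' S = ∅ := by
            ext z
            simp only [mem_preimage, mem_empty_iff_false, iff_false]
            intro hz
            have := hSs (x, z) hz
            exact hx ⟨this.1.1, this.1.2.trans_lt this.2⟩
          rw [this, measure_empty]
    _ = ENNReal.ofReal h * volume {x | x ∈ Ω ∧ u x < g x} := by
        rw [lintegral_indicator hD, lintegral_const, Measure.restrict_apply MeasurableSet.univ,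
          univ_inter]

end Crest.Agent.R236.BA
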