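import Mathlib
import Crest.Prelude.Def_AffineMaximal
import Crest.Agent.R236.BA
import Crest.Agent.R236.BApxDefs

/-! Row 236, Part B, node B5': lower bound of the affine area of `D_s`, from B5. (helper913) -/

set_option autoImplicit false
open scoped ContDiff Topology ENNReal Pointwise
open Crest.GeometryTopology.CoordMetric Crest.GeometryTopology.AffineMaximal
open Set Filter MeasureTheory
open Crest.Agent.R236.A

noncomputable section

namespace Crest.Agent.R236.BA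

open Crest.Agent.R236.B

/-- the statement B5 (with constant `c`) -/
def B5Hyp (n : ℕ) (c : ℝ) : Prop :=
  ∀ (Ω : Set (EE n)) (u : EE n → ℝ), SC Ω u → (∀ x ∈ Ω, affineMaximalOp n u x = 0) →
    ∀ (l : EE n →L[ℝ] ℝ) (b h : ℝ), IsCompact {x | x ∈ Ω ∧ u x ≤ l x + b} → 0 < h →
      (∃ x0 ∈ Ω, l x0 + b - u x0 = h) → (∀ x ∈ Ω, l x + b - u x ≤ h) →
      ENNReal.ofReal c * (ENNReal.ofReal h * volume {x | x ∈ Ω ∧ u x < l x + b}) ^
        ((n : ℝ) / ((n : ℝ) + 2)) ≤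
      ∫⁻ x in {x | x ∈ Ω ∧ u x < l x + b},
        ENNReal.ofReal ((hessianMat u x).det ^ ((1 : ℝ) / ((n : ℝ) + 2)))

variable {n : ℕ} {Ω : Set (EE n)} {u : EE n → ℝ}

/-- area of a sublevel set of an affine functional, in terms of the volume of a subset of the cap -/
theorem area_ge_of_volume {c : ℝ} (hB : B5Hyp n c) (hsc : SC Ω u)
    (hpde : ∀ x ∈ Ω, affineMaximalOp n u x = 0) {F : EE n × ℝ →L[ℝ] ℝ} {θ : ℝ}
    (hF : 0 < F (0, 1)) (hcpt : IsCompact {x | x ∈ Ω ∧ F (x, u x) ≤ θ})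
    {S : Set (EE n × ℝ)} (hS : MeasurableSet S) (hSs : ∀ p ∈ S, p ∈ epi Ω u ∧ F p < θ)
    (hSne : S.Nonempty) :
    ENNReal.ofReal c * (volume S) ^ ((n : ℝ) / ((n : ℝ) + 2)) ≤
      ∫⁻ x in {x | x ∈ Ω ∧ F (x, u x) < θ},
        ENNReal.ofReal ((hessianMat u x).det ^ ((1 : ℝ) / ((n : ℝ) + 2))) := by
  rw [Dset_eq hF θ]
  rw [Dset_le_eq hF θ] at hcpt
  set l := slopeL F with hl
  set b := θ / F (0, 1) with hb
  have hg : Continuous fun x => l x + b := by fun_prop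
  -- the maximum
  obtain ⟨p, hp⟩ := hSne
  have hp1 := hSs p hp
  have hplt : p.2 < l p.1 + b := (lt_iff hF θ p.1 p.2).mp hp1.2
  have hne : {x | x ∈ Ω ∧ u x ≤ l x + b}.Nonempty := ⟨p.1, hp1.1.1, hp1.1.2.trans hplt.le⟩
  obtain ⟨x0, hx0, hmax⟩ := hcpt.exists_isMaxOn hne
    (f := fun x => l x + b - u x)
    (hg.continuousOn.sub (hsc.continuousOn.mono fun x hx => hx.1))
  set h := l x0 + b - u x0 with hh
  have hpos : 0 < h := by
    have h1 : l p.1 + b - u p.1 ≤ h := hmax (a := p.1) ⟨hp1.1.1, hp1.1.2.trans hplt.le⟩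
    have h2 := hp1.1.2
    linarith
  have hle : ∀ x ∈ Ω, l x + b - u x ≤ h := by
    intro x hx
    by_cases hx' : u x ≤ l x + b
    · exact hmax (a := x) ⟨hx, hx'⟩
    · push Not at hx'
      linarith
  refine le_trans ?_ (hB Ω u hsc hpde l b h hcpt hpos ⟨x0, hx0.1, rfl⟩ hle)
  gcongr
  exact volume_cap_le hsc.isOpen hsc.continuousOn hg hle hS fun q hq =>
    ⟨(hSs q hq).1, (lt_iff hF θ q.1 q.2).mp (hSs q hq).2⟩

theorem seminorm_continuous {E : Type*} [NormedAddCommGroup E] [NormedSpace ℝ E]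
    [FiniteDimensional ℝ E] (p : Seminorm ℝ E) : Continuous p := by
  rw [← continuousOn_univ]
  exact p.convexOn.continuousOn isOpen_univ

/-- volume of a translated and scaled ball -/
theorem volume_ball_image (p : Seminorm ℝ (VV n)) {r : ℝ} (hr : 0 < r) (Q : VV n) :
    volume {X : VV n | p (X - Q) ≤ r} =
      ENNReal.ofReal (r ^ (n + 1)) * volume {v : VV n | p v ≤ 1} := by
  have e1 : {X : VV n | p (X - Q) ≤ r} = (fun X => X + (-Q)) ⁻¹' {X : VV n | p X ≤ r} := by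
    ext X
    simp [sub_eq_add_neg]
  have e2 : {X : VV n | p X ≤ r} = r • {v : VV n | p v ≤ 1} := by
    ext v
    rw [mem_smul_set_iff_inv_smul_mem₀ hr.ne']
    simp only [mem_ofPred_eq, map_smul_eq_mul, norm_inv, Real.norm_eq_abs, abs_of_pos hr]
    rw [inv_mul_le_iff₀ hr, mul_one]
  have e3 : Module.finrank ℝ (VV n) = n + 1 := by
    simp [VV, EE]
  have : (volume : Measure (VV n)).IsAddHaarMeasure := by
    rw [Measure.volume_eq_prod]; infer_instance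
  rw [e1, measure_preimage_add_right, e2, Measure.addHaar_smul, e3, abs_of_pos (by positivity)]

variable {Θ K c2 C0 : ℝ} {N : ℕ} {ε0 : ℝ} {P0 W0 : VV n →L[ℝ] ℝ} {pc wc : ℝ} {eP eW O : VV n}
  {es Q : ℝ → ℝ → VV n} {nrm : ℝ → ℝ → Seminorm ℝ (VV n)}

/-- the region `{x ∈ Ω | P/lam + W/tau < θ}` -/
def Dr (Ω : Set (EE n)) (u : EE n → ℝ) (P0 W0 : VV n →L[ℝ] ℝ) (pc wc lam tau θ : ℝ) : Set (EE n) :=
  {x | x ∈ Ω ∧ aff P0 pc (x, u x) / lam + aff W0 wc (x, u x) / tau < θ}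

/-- **B5'**: lower bound of the affine area of `D_s`. -/
theorem area_lower {c : ℝ} (hB : B5Hyp n c)
    (h : APX n Θ K c2 C0 N ε0 Ω u P0 W0 pc wc eP eW O es Q nrm) {lam tau : ℝ}
    (hg : Grid N lam tau) {θ : ℝ} (hθ : Θ / 8 ≤ θ) (hθ' : θ ≤ Θ) :
    ENNReal.ofReal c * (ENNReal.ofReal (c2 ^ (n + 1)) * volume {v : VV n | nrm lam tau v ≤ 1}) ^
        ((n : ℝ) / ((n : ℝ) + 2)) ≤
      ∫⁻ x in Dr Ω u P0 W0 pc wc lam tau θ,
        ENNReal.ofReal ((hessianMat u x).det ^ ((1 : ℝ) / ((n : ℝ) + 2))) := by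
  obtain ⟨a, b, -, -, hlam, htau⟩ := id hg
  have hl0 : 0 < lam := by rw [hlam]; positivity
  have ht0 : 0 < tau := by rw [htau]; positivity
  set F : VV n →L[ℝ] ℝ := lam⁻¹ • P0 + tau⁻¹ • W0 with hF
  have hFv : ∀ X : VV n, aff P0 pc X / lam + aff W0 wc X / tau = F X + (pc / lam + wc / tau) := by
    intro X
    simp only [hF, aff, add_apply, smul_apply, smul_eq_mul]
    field_simp
    ring
  have hup : 0 < F (0, 1) := by
    have := h.up lam tau hg 1 1 le_rfl (by norm_num) le_rfl (by norm_num)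
    simp only [hF, add_apply, smul_apply, smul_eq_mul]
    calc (0:ℝ) < _ := this
      _ = _ := by ring
  have hDr : Dr Ω u P0 W0 pc wc lam tau θ =
      {x | x ∈ Ω ∧ F (x, u x) < θ - (pc / lam + wc / tau)} := by
    ext x
    simp only [Dr, mem_ofPred_eq, hFv, lt_sub_iff_add_lt]
  have hcpt : IsCompact {x | x ∈ Ω ∧ F (x, u x) ≤ θ - (pc / lam + wc / tau)} := by
    have := h.cpt lam tau hg 1 1 le_rfl (by norm_num) le_rfl (by norm_num) θ hθ'
    convert this using 1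
    ext x
    simp only [mem_ofPred_eq, one_mul, hFv, le_sub_iff_add_le]
  have hball := volume_ball_image (nrm lam tau) h.c2_pos (Q lam tau)
  rw [hDr, ← hball]
  refine area_ge_of_volume hB h.sol.sc h.sol.pde hup hcpt ?_ ?_ ?_
  · have hcont := seminorm_continuous (nrm lam tau)
    exact (isClosed_le (hcont.comp (continuous_id.sub continuous_const))
      continuous_const).measurableSet
  · intro X hX
    have h1 := h.Q_mem lam tau hg (X - Q lam tau) hX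
    rw [add_sub_cancel] at h1
    refine ⟨h1.1, ?_⟩
    have h2 := h1.2
    rw [hFv] at h2
    linarith
  · exact ⟨Q lam tau, by simp [h.c2_pos.le]⟩

/-- real form: `κ v_s = (volume {nrm ≤ 1}).toReal` -/
theorem area_lower' {c : ℝ} (hc : 0 ≤ c) (hB : B5Hyp n c)
    (h : APX n Θ K c2 C0 N ε0 Ω u P0 W0 pc wc eP eW O es Q nrm) {lam tau : ℝ}
    (hg : Grid N lam tau) {θ : ℝ} (hθ : Θ / 8 ≤ θ) (hθ' : θ ≤ Θ) :
    ENNReal.ofReal (c * (c2 ^ (n + 1)) ^ ((n : ℝ) / ((n : ℝ) + 2)) *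
      (volume {v : VV n | nrm lam tau v ≤ 1}).toReal ^ ((n : ℝ) / ((n : ℝ) + 2))) ≤
      ∫⁻ x in Dr Ω u P0 W0 pc wc lam tau θ,
        ENNReal.ofReal ((hessianMat u x).det ^ ((1 : ℝ) / ((n : ℝ) + 2))) := by
  refine le_trans ?_ (area_lower hB h hg hθ hθ')
  have hγ : (0 : ℝ) ≤ (n : ℝ) / ((n : ℝ) + 2) := by positivity
  have h2 : (0 : ℝ) ≤ c2 ^ (n + 1) := pow_nonneg h.c2_pos.le _
  rw [ENNReal.mul_rpow_of_nonneg _ _ hγ, mul_assoc, ENNReal.ofReal_mul hc,
    ENNReal.ofReal_mul (Real.rpow_nonneg h2 _), ENNReal.ofReal_rpow_of_nonneg h2 hγ]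
  gcongr
  rw [← ENNReal.ofReal_rpow_of_nonneg ENNReal.toReal_nonneg hγ]
  gcongr
  exact ENNReal.ofReal_toReal_le

end Crest.Agent.R236.BA
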