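import Crest.Agent.R236.BApxL

/-! Row 236, Part B, B0+B1+B2: `ApxStmt` from `GeoStmt` and `ApxWStmt` (pull-back) (helper660) -/

set_option autoImplicit false
open scoped ContDiff Topology
open Crest.GeometryTopology.CoordMetric Crest.GeometryTopology.AffineMaximal
open Set Filter

noncomputable section

namespace Crest.Agent.R236.B

open Crest.Agent.R236.A (EE epi SOL STRUCT IsStruct ConeData Appr)

section pull
variable {n m D : ℕ} (A : (EE n × ℝ) ≃ᵃ[ℝ] WW m D)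

theorem A_apply (X : VV n) : A X = A.linear X + A 0 := by
  have := A.map_vadd (0 : VV n) X
  simpa using this

theorem A_add (X v : VV n) : A (X + v) = A X + A.linear v := by
  have := A.map_vadd X v
  rw [vadd_eq_add, vadd_eq_add, add_comm v X] at this
  rw [this, add_comm]

theorem A_sub (X Y : VV n) : A.linear (X - Y) = A X - A Y := by
  have := A_add A Y (X - Y)
  rw [add_sub_cancel] at this
  rw [this]
  abel

/-- the linear part as a continuous linear map -/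
def AC : VV n →L[ℝ] WW m D := LinearMap.toContinuousLinearMap (A.linear : VV n →ₗ[ℝ] WW m D)

theorem AC_apply (v : VV n) : AC A v = A.linear v := rfl

/-- pulled back functional -/
def pb (F : WW m D →L[ℝ] ℝ) : VV n →L[ℝ] ℝ := F.comp (AC A)

theorem pb_apply (F : WW m D →L[ℝ] ℝ) (v : VV n) : pb A F v = F (A.linear v) := rfl

theorem aff_pb (F : WW m D →L[ℝ] ℝ) (X : VV n) : aff (pb A F) (F (A 0)) X = F (A X) := by
  unfold aff
  rw [pb_apply, ← map_add, ← A_apply]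

/-- pulled back norm -/
def pn (p : Seminorm ℝ (WW m D)) : Seminorm ℝ (VV n) := p.comp (A.linear : VV n →ₗ[ℝ] WW m D)

theorem pn_apply (p : Seminorm ℝ (WW m D)) (v : VV n) : pn A p v = p (A.linear v) := rfl

theorem mem_image_iff {S : Set (VV n)} {X : VV n} : A X ∈ A '' S ↔ X ∈ S :=
  A.injective.mem_set_image

end pull

section est
variable {m D : ℕ} {l : EE D →L[ℝ] ℝ} {e : EE D} {δ : ℝ}

theorem one_sub_sq (hδ : 0 < δ) (hδ8 : δ ≤ 1 / 8) : 1 / 2 ≤ 1 - δ ^ 2 := by nlinarith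

theorem pF_wP (hl : l e = 1) (hδ : 0 < δ) (hδ8 : δ ≤ 1 / 8) : pF m l δ (wP m e δ) = 1 := by
  have h := one_sub_sq hδ hδ8
  rw [pF_apply]
  simp only [wP, map_smul, hl, smul_eq_mul]
  field_simp

theorem pF_wW (hl : l e = 1) : pF m l δ (wW m e δ) = 0 := by
  rw [pF_apply]
  simp only [wW, hl]
  ring

theorem wF_wP (hl : l e = 1) : wF m l δ (wP m e δ) = 0 := by
  rw [wF_apply]
  simp only [wP, map_smul, hl, smul_eq_mul]
  ring

theorem wF_wW (hl : l e = 1) (hδ : 0 < δ) (hδ8 : δ ≤ 1 / 8) : wF m l δ (wW m e δ) = 1 := by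
  have h := one_sub_sq hδ hδ8
  rw [wF_apply]
  simp only [wW, hl]
  field_simp

theorem inv_bd (hδ : 0 < δ) (hδ8 : δ ≤ 1 / 8) : 0 < 1 / (1 - δ ^ 2) ∧ 1 / (1 - δ ^ 2) ≤ 2 := by
  have h := one_sub_sq hδ hδ8
  constructor
  · positivity
  · rw [div_le_iff₀ (by linarith)]
    linarith

theorem pF_le {lam tau q : ℝ} (hδ : 0 < δ) (hδ8 : δ ≤ 1 / 8) (hlam : 0 < lam)
    (htau : 0 < tau) (hdt : δ * tau ≤ lam / 8) {v : WW m D} (hy : ‖v.2.1‖ ≤ tau * q)
    (hz : |v.2.2| ≤ lam * q) (hq : 0 ≤ q) : |pF m l δ v| ≤ 2 * (1 + ‖l‖) * lam * q := by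
  obtain ⟨h1, h2⟩ := inv_bd hδ hδ8
  rw [pF_apply, abs_mul, abs_of_pos h1]
  have h3 : |l v.2.1| ≤ ‖l‖ * (tau * q) := by
    calc |l v.2.1| ≤ ‖l‖ * ‖v.2.1‖ := l.le_opNorm _
      _ ≤ ‖l‖ * (tau * q) := by gcongr
  have h4 : |v.2.2 - δ * l v.2.1| ≤ (1 + ‖l‖) * lam * q := by
    calc |v.2.2 - δ * l v.2.1| ≤ |v.2.2| + |δ * l v.2.1| := abs_sub _ _
      _ = |v.2.2| + δ * |l v.2.1| := by rw [abs_mul, abs_of_pos hδ]
      _ ≤ lam * q + δ * (‖l‖ * (tau * q)) := by gcongr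
      _ = lam * q + ‖l‖ * q * (δ * tau) := by ring
      _ ≤ lam * q + ‖l‖ * q * (lam / 8) := by gcongr
      _ ≤ (1 + ‖l‖) * lam * q := by
        have : 0 ≤ ‖l‖ * q * lam := by positivity
        nlinarith
  calc 1 / (1 - δ ^ 2) * |v.2.2 - δ * l v.2.1| ≤ 2 * ((1 + ‖l‖) * lam * q) := by gcongr
    _ = _ := by ring

theorem wF_le {lam tau q : ℝ} (hδ : 0 < δ) (hδ8 : δ ≤ 1 / 8) (hlam : 0 < lam)
    (htau : 0 < tau) (hdl : δ * lam ≤ tau / 8) {v : WW m D} (hy : ‖v.2.1‖ ≤ tau * q)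
    (hz : |v.2.2| ≤ lam * q) (hq : 0 ≤ q) : |wF m l δ v| ≤ 2 * (1 + ‖l‖) * tau * q := by
  obtain ⟨h1, h2⟩ := inv_bd hδ hδ8
  rw [wF_apply, abs_mul, abs_of_pos h1]
  have h3 : |l v.2.1| ≤ ‖l‖ * (tau * q) := by
    calc |l v.2.1| ≤ ‖l‖ * ‖v.2.1‖ := l.le_opNorm _
      _ ≤ ‖l‖ * (tau * q) := by gcongr
  have h4 : |l v.2.1 - δ * v.2.2| ≤ (1 + ‖l‖) * tau * q := by
    calc |l v.2.1 - δ * v.2.2| ≤ |l v.2.1| + |δ * v.2.2| := abs_sub _ _
      _ = |l v.2.1| + δ * |v.2.2| := by rw [abs_mul, abs_of_pos hδ]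
      _ ≤ ‖l‖ * (tau * q) + δ * (lam * q) := by gcongr
      _ = ‖l‖ * (tau * q) + q * (δ * lam) := by ring
      _ ≤ ‖l‖ * (tau * q) + q * (tau / 8) := by gcongr
      _ ≤ (1 + ‖l‖) * tau * q := by
        have : 0 ≤ q * tau := by positivity
        nlinarith
  calc 1 / (1 - δ ^ 2) * |l v.2.1 - δ * v.2.2| ≤ 2 * ((1 + ‖l‖) * tau * q) := by gcongr
    _ = _ := by ring

end est

set_option maxHeartbeats 1000000 in
/-- the pull-back -/
theorem apx_of (n m D : ℕ) {l : EE D →L[ℝ] ℝ} {e : EE D} (hl : l e = 1)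
    {C : Set (WW m D)} {Θ K L2 L3 ρ : ℝ} {nr : ℝ → ℝ → Seminorm ℝ (WW m D)}
    (hK : 1 ≤ K) (hL2 : 1 ≤ L2) (hL3 : 1 ≤ L3) (hΘ : 16 ≤ Θ) (hρ : 0 < ρ)
    (hG : Geo C l e Θ K L2 L3 ρ nr) {k K' C0 : ℝ} (hk : ‖e‖ ≤ k) (hk1 : 1 ≤ k)
    (hK1 : K + 1 ≤ K') (hK2 : L3 * k ≤ K') (hC1 : k ≤ C0) (hC2 : L2 / (ρ / 2) ≤ C0)
    (hC3 : k / (ρ / 2) ≤ C0) (hC4 : L2 / (ρ / 2) * (2 * K') ≤ C0) (hC5 : 2 * (1 + ‖l‖) ≤ C0)
    {N : ℕ} {ε0 δ : ℝ} (hδ : 0 < δ) (hδN : δ * 4 ^ N ≤ 1 / 8)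
    {Ω : Set (EE n)} {u : EE n → ℝ} {A : (EE n × ℝ) ≃ᵃ[ℝ] WW m D} (hS : SOL Ω u)
    (hA : ApxW l e Θ K L2 L3 C0 ρ δ N ε0 nr (A '' epi Ω u)) :
    APX n Θ K' (ρ / 2) C0 N ε0 Ω u (pb A (pF m l δ)) (pb A (wF m l δ)) (pF m l δ (A 0))
      (wF m l δ (A 0)) (A.linear.symm (wP m e δ)) (A.linear.symm (wW m e δ)) (A.symm 0)
      (fun lam tau => A.linear.symm (est m e lam tau))
      (fun lam tau => A.symm (L3 • est m e lam tau))
      (fun lam tau => pn A (nr lam tau)) := by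
  have hδ8 : δ ≤ 1 / 8 := by
    have : (1 : ℝ) ≤ 4 ^ N := one_le_pow₀ (by norm_num)
    nlinarith
  have hC0pos : 0 < C0 := by linarith
  -- basic translations
  have hsymm : ∀ w : WW m D, A.linear (A.linear.symm w) = w := fun w =>
    LinearEquiv.apply_symm_apply _ _
  have hAs : ∀ w : WW m D, A (A.symm w) = w := fun w => A.apply_symm_apply w
  have hO : ∀ X : VV n, A.linear (X - A.symm 0) = A X := by
    intro X
    rw [A_sub, hAs, sub_zero]
  have hmemA : ∀ {X : VV n}, X ∈ epi Ω u → A X ∈ A '' epi Ω u := fun h => mem_image_of_mem _ h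
  have hshift : ∀ (X : VV n) (t : ℝ) (w : WW m D) (v : VV n),
      A (X + t • A.linear.symm w + v) = A X + t • w + A.linear v := by
    intro X t w v
    rw [A_add, A_add, map_smul, hsymm]
  have hQs : ∀ (lam tau : ℝ) (v : VV n), A (A.symm (L3 • est m e lam tau) + v)
      = L3 • est m e lam tau + A.linear v := by
    intro lam tau v
    rw [A_add, hAs]
  have hest : ∀ lam tau, Grid N lam tau → nr lam tau (est m e lam tau) ≤ k := by
    intro lam tau hg
    obtain ⟨h1, h2⟩ := hg.pos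
    refine hG.le_yz lam tau h1 h2 _ _ _ ?_ ?_
    · rw [norm_smul, Real.norm_eq_abs, abs_of_pos h2, mul_comm]
      gcongr
    · rw [abs_of_pos h1]
      nlinarith
  -- definiteness
  have hdef : ∀ lam tau, Grid N lam tau → ∀ v, pn A (nr lam tau) v = 0 → v = 0 := by
    intro lam tau hg v hv
    obtain ⟨h1, h2⟩ := hg.pos
    have h3 := hG.definite lam tau h1 h2 _ hv
    exact A.linear.map_eq_zero_iff.1 h3
  -- the bound (a)
  have hbdd : ∀ lam tau, Grid N lam tau → ∀ α β : ℝ, 1 ≤ α → α ≤ 2 → 1 ≤ β → β ≤ 2 →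
      ∀ X ∈ epi Ω u, α * aff (pb A (pF m l δ)) (pF m l δ (A 0)) X / lam
        + β * aff (pb A (wF m l δ)) (wF m l δ (A 0)) X / tau ≤ Θ →
      pn A (nr lam tau) (X - A.symm 0) ≤ K' ∧ -(ε0 * lam) ≤ aff (pb A (pF m l δ)) (pF m l δ (A 0)) X
        ∧ -(ε0 * tau) ≤ aff (pb A (wF m l δ)) (wF m l δ (A 0)) X := by
    intro lam tau hg α β h1 h2 h3 h4 X hX hle
    rw [aff_pb, aff_pb] at hle ⊢
    rw [pn_apply, hO]
    obtain ⟨h5, h6, h7⟩ := hA.bdd lam tau hg α β h1 h2 h3 h4 (A X) (hmemA hX) hle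
    exact ⟨h5.trans hK1, h6, h7⟩
  -- `Q` is in all the regions
  have hQin : ∀ lam tau, Grid N lam tau → A.symm (L3 • est m e lam tau) ∈ epi Ω u := by
    intro lam tau hg
    have h1 := (hA.Qm lam tau hg 0 (by rw [map_zero]; positivity)).1
    rw [add_zero, ← hAs (L3 • est m e lam tau)] at h1
    exact (mem_image_iff A).1 h1
  have hQP : ∀ lam tau, Grid N lam tau → 0 ≤ pF m l δ (L3 • est m e lam tau) ∧
      0 ≤ wF m l δ (L3 • est m e lam tau) := by
    intro lam tau hg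
    obtain ⟨h1, h2⟩ := hg.pos
    obtain ⟨h3, h4⟩ := hg.dl hδ hδN
    obtain ⟨h5, h6⟩ := inv_bd hδ hδ8
    constructor
    · rw [pF_apply]
      refine mul_nonneg h5.le ?_
      simp only [est, Prod.smul_snd, Prod.smul_fst, map_smul, hl, smul_eq_mul, mul_one]
      nlinarith
    · rw [wF_apply]
      refine mul_nonneg h5.le ?_
      simp only [est, Prod.smul_snd, Prod.smul_fst, map_smul, hl, smul_eq_mul, mul_one]
      nlinarith
  have hQle : ∀ lam tau, Grid N lam tau → ∀ α β : ℝ, 1 ≤ α → α ≤ 2 → 1 ≤ β → β ≤ 2 →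
      α * aff (pb A (pF m l δ)) (pF m l δ (A 0)) (A.symm (L3 • est m e lam tau)) / lam
        + β * aff (pb A (wF m l δ)) (wF m l δ (A 0)) (A.symm (L3 • est m e lam tau)) / tau ≤ Θ := by
    intro lam tau hg α β h1 h2 h3 h4
    obtain ⟨h5, h6⟩ := hg.pos
    obtain ⟨h7, h8⟩ := hQP lam tau hg
    have h9 := (hA.Qm lam tau hg 0 (by rw [map_zero]; positivity)).2
    rw [add_zero] at h9
    rw [aff_pb, aff_pb, hAs]
    have h10 : α * pF m l δ (L3 • est m e lam tau) / lam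
        ≤ 2 * (pF m l δ (L3 • est m e lam tau) / lam) := by
      rw [mul_div_assoc]
      have : 0 ≤ pF m l δ (L3 • est m e lam tau) / lam := by positivity
      gcongr
    have h11 : β * wF m l δ (L3 • est m e lam tau) / tau
        ≤ 2 * (wF m l δ (L3 • est m e lam tau) / tau) := by
      rw [mul_div_assoc]
      have : 0 ≤ wF m l δ (L3 • est m e lam tau) / tau := by positivity
      gcongr
    linarith
  -- rewriting the affine combination as one functional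
  have hcomb : ∀ (lam tau α β : ℝ) (X : VV n),
      α * aff (pb A (pF m l δ)) (pF m l δ (A 0)) X / lam
        + β * aff (pb A (wF m l δ)) (wF m l δ (A 0)) X / tau
      = ((α / lam) • pb A (pF m l δ) + (β / tau) • pb A (wF m l δ)) X
        + (α / lam * pF m l δ (A 0) + β / tau * wF m l δ (A 0)) := by
    intro lam tau α β X
    unfold aff
    simp only [add_apply, smul_apply, smul_eq_mul]
    ring
  have hup : ∀ lam tau, Grid N lam tau → ∀ α β : ℝ, 1 ≤ α → α ≤ 2 → 1 ≤ β → β ≤ 2 →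
      0 < ((α / lam) • pb A (pF m l δ) + (β / tau) • pb A (wF m l δ)) ((0 : EE n), (1 : ℝ)) := by
    intro lam tau hg α β h1 h2 h3 h4
    refine up_of_bdd _ (pn A (nr lam tau)) (hdef lam tau hg) (θ := Θ) (K := K') (O := A.symm 0)
      (Q := A.symm (L3 • est m e lam tau))
      (c := α / lam * pF m l δ (A 0) + β / tau * wF m l δ (A 0)) ?_ (hQin lam tau hg) ?_
    · intro X hX hle
      rw [← hcomb] at hle
      exact (hbdd lam tau hg α β h1 h2 h3 h4 X hX hle).1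
    · rw [← hcomb]
      exact hQle lam tau hg α β h1 h2 h3 h4
  -- depth with a constant `L`
  have hdeep : ∀ (lam tau : ℝ) (w : WW m D) (L : ℝ), (∀ X ∈ A '' epi Ω u,
      pF m l δ X / lam + wF m l δ X / tau ≤ Θ → ∀ v, nr lam tau v ≤ ρ / 2 →
        X + L • w + v ∈ A '' epi Ω u) →
      ∀ X ∈ epi Ω u, aff (pb A (pF m l δ)) (pF m l δ (A 0)) X / lam
        + aff (pb A (wF m l δ)) (wF m l δ (A 0)) X / tau ≤ Θ →
      ∀ v, pn A (nr lam tau) v ≤ ρ / 2 → X + L • A.linear.symm w + v ∈ epi Ω u := by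
    intro lam tau w L hw X hX hle v hv
    rw [aff_pb, aff_pb] at hle
    have h1 := hw (A X) (hmemA hX) hle (A.linear v) hv
    rw [← hshift] at h1
    exact (mem_image_iff A).1 h1
  have hQm : ∀ lam tau, Grid N lam tau → ∀ v, pn A (nr lam tau) v ≤ ρ / 2 →
      A.symm (L3 • est m e lam tau) + v ∈ epi Ω u ∧
      aff (pb A (pF m l δ)) (pF m l δ (A 0)) (A.symm (L3 • est m e lam tau) + v) / lam
      + aff (pb A (wF m l δ)) (wF m l δ (A 0)) (A.symm (L3 • est m e lam tau) + v) / tau < Θ / 8 := by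
    intro lam tau hg v hv
    obtain ⟨h1, h2⟩ := hA.Qm lam tau hg (A.linear v) hv
    rw [aff_pb, aff_pb, hQs]
    refine ⟨?_, h2⟩
    rw [← hQs] at h1
    exact (mem_image_iff A).1 h1
  have hQl : ∀ lam tau, Grid N lam tau →
      pn A (nr lam tau) (A.symm (L3 • est m e lam tau) - A.symm 0) ≤ K' := by
    intro lam tau hg
    rw [pn_apply, hO, hAs, map_smul_eq_mul, Real.norm_eq_abs, abs_of_pos (by linarith)]
    refine le_trans ?_ hK2
    have := hest lam tau hg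
    gcongr
  obtain ⟨SP, hSP, hSP2⟩ := hA.deepP
  obtain ⟨SW, hSW, hSW2⟩ := hA.deepW
  -- the B2 fields
  have hB2 : ∀ lam tau, Grid N lam tau → ∀ x ∈ Ω,
      aff (pb A (pF m l δ)) (pF m l δ (A 0)) (x, u x) / lam
        + aff (pb A (wF m l δ)) (wF m l δ (A 0)) (x, u x) / tau ≤ Θ →
      0 < sg u (A.linear.symm (wP m e δ)) x ∧ 0 < sg u (A.linear.symm (wW m e δ)) x ∧
      0 < sg u (A.linear.symm (est m e lam tau)) x ∧
      (∀ v, |sg u v x| ≤ C0 * pn A (nr lam tau) v * sg u (A.linear.symm (est m e lam tau)) x) ∧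
      sg u (A.linear.symm (est m e lam tau)) x ≤ 2 * (lam * sg u (A.linear.symm (wP m e δ)) x
        + tau * sg u (A.linear.symm (wW m e δ)) x) ∧
      sg u (A.linear.symm (est m e lam tau)) x
        ≤ C0 * sg u (A.symm (L3 • est m e lam tau) - (x, u x)) x ∧
      sg u (A.symm (L3 • est m e lam tau) - (x, u x)) x
        ≤ C0 * sg u (A.linear.symm (est m e lam tau)) x := by
    intro lam tau hg x hx hle
    obtain ⟨h1, h2⟩ := hg.pos
    have hX : ((x, u x) : VV n) ∈ epi Ω u := ⟨hx, le_rfl⟩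
    set ee : VV n := A.linear.symm ((0 : EE m), e, (0 : ℝ)) with hee
    set ez : VV n := A.linear.symm ((0 : EE m), (0 : EE D), (1 : ℝ)) with hez
    have e1 : A.linear.symm (est m e lam tau) = tau • ee + lam • ez := by
      rw [hee, hez, ← map_smul, ← map_smul, ← map_add]
      congr 1
      simp [est]
    have e2 : A.linear.symm (wP m e δ) = ez + δ • ee := by
      rw [hee, hez, ← map_smul, ← map_add]
      congr 1
      simp [wP]
    have e3 : A.linear.symm (wW m e δ) = ee + δ • ez := by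
      rw [hee, hez, ← map_smul, ← map_add]
      congr 1
      simp [wW]
    have b0 : pn A (nr lam tau) ((x, u x) - A.symm 0) ≤ K' := by
      refine (hbdd lam tau hg 1 1 le_rfl (by norm_num) le_rfl (by norm_num) _ hX ?_).1
      rw [one_mul, one_mul]
      exact hle
    have b1 : pn A (nr lam tau) (tau • ee + lam • ez) ≤ k := by
      rw [← e1, pn_apply, hsymm]
      exact hest lam tau hg
    have b2 := hdeep lam tau (est m e lam tau) L2 (hA.deep2 lam tau hg) _ hX hle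
    have b3 := hdeep lam tau (wP m e δ) SP (hSP2 lam tau hg) _ hX hle
    have b4 := hdeep lam tau (wW m e δ) SW (hSW2 lam tau hg) _ hX hle
    rw [e1] at b2
    rw [e2] at b3
    rw [e3] at b4
    rw [e1, e2, e3]
    have hc : 0 < ρ / 2 := by positivity
    have c1 := B2.sg_pos hS.sc hx hSP hc b3
    have c2 := B2.sg_pos hS.sc hx hSW hc b4
    have c3 := B2.sg_pos hS.sc hx (by linarith) hc b2
    have c4 := B2.V_ge hS.sc hx hc (by linarith) b1 (fun v hv => (hQm lam tau hg v hv).1)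
    have c5 := B2.V_le' hS.sc hx (by linarith) hc b2 (hQl lam tau hg) b0
    have c6 : 0 < sg u (A.symm (L3 • est m e lam tau) - (x, u x)) x := by
      have h7 := lt_of_lt_of_le c3 c4
      exact pos_of_mul_pos_right h7 (by positivity)
    refine ⟨c1, c2, c3, fun v => B2.sg_le' hS.sc hx (by linarith) hc hC2 b2 v,
      B2.es_sg_le h1.le h2.le hδ.le (by linarith) c1.le c2.le, c4.trans ?_, c5.trans ?_⟩
    · exact mul_le_mul_of_nonneg_right hC3 c6.le
    · exact mul_le_mul_of_nonneg_right hC4 c3.le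
  refine ⟨hΘ, by linarith, by positivity, by linarith, hS, ?_, ?_, ?_, ?_, hdef, ?_, ?_, ?_, ?_, ?_,
    hbdd, ?_, ?_, ?_, hQm, hQl, ?_, ?_, ?_, ?_, ?_, ?_, ?_⟩
  · rw [pb_apply, hsymm, pF_wP hl hδ hδ8]
  · rw [pb_apply, hsymm, pF_wW hl]
  · rw [pb_apply, hsymm, wF_wP hl]
  · rw [pb_apply, hsymm, wF_wW hl hδ hδ8]
  · intro lam tau hg
    rw [pn_apply, hsymm]
    exact (hest lam tau hg).trans hC1
  · -- eP_le
    intro lam tau hg
    obtain ⟨h1, h2⟩ := hg.pos
    obtain ⟨h3, h4⟩ := hg.dl hδ hδN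
    rw [pn_apply, map_smul, hsymm]
    refine le_trans ?_ hC1
    have e1 : lam • wP m e δ = ((0 : EE m), (lam * δ) • e, lam) := by
      simp [wP, smul_smul]
    rw [e1]
    refine hG.le_yz lam tau h1 h2 _ _ _ ?_ ?_
    · rw [norm_smul, Real.norm_eq_abs, abs_of_pos (by positivity)]
      calc lam * δ * ‖e‖ ≤ tau * k := by
            have : lam * δ ≤ tau := by nlinarith
            gcongr
        _ = k * tau := by ring
    · rw [abs_of_pos h1]
      nlinarith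
  · -- eW_le
    intro lam tau hg
    obtain ⟨h1, h2⟩ := hg.pos
    obtain ⟨h3, h4⟩ := hg.dl hδ hδN
    rw [pn_apply, map_smul, hsymm]
    refine le_trans ?_ hC1
    have e1 : tau • wW m e δ = ((0 : EE m), tau • e, tau * δ) := by
      simp [wW]
    rw [e1]
    refine hG.le_yz lam tau h1 h2 _ _ _ ?_ ?_
    · rw [norm_smul, Real.norm_eq_abs, abs_of_pos h2, mul_comm]
      gcongr
    · rw [abs_of_pos (by positivity)]
      nlinarith
  · -- P0_le
    intro lam tau hg v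
    obtain ⟨h1, h2⟩ := hg.pos
    obtain ⟨h3, h4⟩ := hg.dl hδ hδN
    rw [pb_apply, pn_apply]
    have hq : 0 ≤ nr lam tau (A.linear v) := apply_nonneg _ _
    refine (pF_le hδ hδ8 h1 h2 h4 (hG.y_le lam tau h1 h2 _) (hG.z_le lam tau h1 h2 _) hq).trans ?_
    gcongr
  · -- W0_le
    intro lam tau hg v
    obtain ⟨h1, h2⟩ := hg.pos
    obtain ⟨h3, h4⟩ := hg.dl hδ hδN
    rw [pb_apply, pn_apply]
    have hq : 0 ≤ nr lam tau (A.linear v) := apply_nonneg _ _
    refine (wF_le hδ hδ8 h1 h2 h3 (hG.y_le lam tau h1 h2 _) (hG.z_le lam tau h1 h2 _) hq).trans ?_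
    gcongr
  · -- cpt
    intro lam tau hg α β h1 h2 h3 h4 θ hθ
    have h5 := cpt_of_bdd hS ((α / lam) • pb A (pF m l δ) + (β / tau) • pb A (wF m l δ))
      (c := α / lam * pF m l δ (A 0) + β / tau * wF m l δ (A 0)) (θ := θ) (K := K')
      (pn A (nr lam tau)) (hdef lam tau hg) (O := A.symm 0) (fun X hX hle => by
        rw [← hcomb] at hle
        exact (hbdd lam tau hg α β h1 h2 h3 h4 X hX (hle.trans hθ)).1)
      (hup lam tau hg α β h1 h2 h3 h4)
    simp only [hcomb]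
    exact h5
  · -- up
    intro lam tau hg α β h1 h2 h3 h4
    have h5 := hup lam tau hg α β h1 h2 h3 h4
    simp only [add_apply, smul_apply, smul_eq_mul] at h5
    have e1 : α * pb A (pF m l δ) ((0 : EE n), (1 : ℝ)) / lam
        + β * pb A (wF m l δ) ((0 : EE n), (1 : ℝ)) / tau
        = α / lam * pb A (pF m l δ) ((0 : EE n), (1 : ℝ))
          + β / tau * pb A (wF m l δ) ((0 : EE n), (1 : ℝ)) := by ring
    rw [e1]
    exact h5
  · -- deep
    intro lam tau hg X hX hle v hv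
    exact hdeep lam tau (est m e lam tau) C0 (hA.deepL lam tau hg) X hX hle v hv
  · exact fun lam tau hg x hx hle => (hB2 lam tau hg x hx hle).1
  · exact fun lam tau hg x hx hle => (hB2 lam tau hg x hx hle).2.1
  · exact fun lam tau hg x hx hle => (hB2 lam tau hg x hx hle).2.2.1
  · exact fun lam tau hg x hx hle => (hB2 lam tau hg x hx hle).2.2.2.1
  · exact fun lam tau hg x hx hle => (hB2 lam tau hg x hx hle).2.2.2.2.1
  · exact fun lam tau hg x hx hle => (hB2 lam tau hg x hx hle).2.2.2.2.2.1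
  · exact fun lam tau hg x hx hle => (hB2 lam tau hg x hx hle).2.2.2.2.2.2

/-- `ApxStmt` from B0 (`GeoStmt`) and B1 (`ApxWStmt`) -/
theorem apx_of_stmts (hGeo : GeoStmt) (hApx : ApxWStmt) : ApxStmt := by
  intro n _ hstr
  obtain ⟨m, D, C, R, l, e, c0, L, c, hI⟩ := hstr
  obtain ⟨L3, hL3, hG⟩ := hGeo n m D C R l e c0 L c hI
  have hL := hI.L_ge
  set Θ : ℝ := 18 * (L3 + 2) + L with hΘ
  have hln : (0 : ℝ) ≤ ‖l‖ := norm_nonneg _
  obtain ⟨K, L2, ρ, hK, hL2, hρ, hρ1, nr, hgeo⟩ := hG Θ (by linarith) (by linarith)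
    (1 / (1 + ‖l‖)) (by positivity)
  have hρ2 : ρ * (1 + ‖l‖) ≤ 1 := by
    rwa [le_div_iff₀ (by positivity)] at hρ1
  have hρle : ρ ≤ 1 := by nlinarith
  have hρl : ρ * ‖l‖ ≤ 1 := by nlinarith
  set k : ℝ := ‖e‖ + 1 with hk
  have hen : (0 : ℝ) ≤ ‖e‖ := norm_nonneg _
  set K' : ℝ := K + 1 + L3 * k with hK'
  have hK'pos : 0 < K' := by positivity
  set C0 : ℝ := k + L2 / (ρ / 2) + k / (ρ / 2) + L2 / (ρ / 2) * (2 * K') + 2 * (1 + ‖l‖) + L2
    with hC0
  have p1 : 0 < L2 / (ρ / 2) := by positivity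
  have p2 : 0 < k / (ρ / 2) := by positivity
  have p3 : 0 < L2 / (ρ / 2) * (2 * K') := by positivity
  have p4 : 0 < 2 * (1 + ‖l‖) := by positivity
  have p5 : 0 < k := by positivity
  refine ⟨Θ, K', ρ / 2, C0, by linarith, hK'pos, by positivity, by linarith, ?_⟩
  intro N ε0 hε0
  obtain ⟨δ, hδ, hδN, Ω, u, A, hS, hA⟩ := hApx n m D C R l e c0 L c hI Θ K L2 L3 ρ nr hK hL2 hL3
    (by linarith) hρ hρle hρl hgeo C0 (by linarith) N ε0 hε0
  exact ⟨Ω, u, _, _, _, _, _, _, _, _, _, _, apx_of n m D hI.cone.l_e hK hL2 hL3 (by linarith) hρ hgeo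
    (k := k) (K' := K') (C0 := C0) (by linarith) (by linarith) (by nlinarith) (by linarith)
    (by linarith) (by linarith) (by linarith) (by linarith) (by linarith) hδ hδN hS hA⟩

end Crest.Agent.R236.B
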