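import Mathlib

/-!
# Row 236, Part B: closeness lemmas for convex sets (CL1), (CL2)
-/

set_option autoImplicit false

open Set Metric

namespace Crest.Agent.R236.BClose

variable {V : Type*} [NormedAddCommGroup V] [NormedSpace ℝ V]

/-- Supporting functional at a point outside the interior of a convex set (finite dimension). -/
theorem exists_support [FiniteDimensional ℝ V] {C : Set V} (hC : Convex ℝ C) (hne : C.Nonempty)
    {p : V} (hp : p ∉ interior C) : ∃ f : V →L[ℝ] ℝ, f ≠ 0 ∧ ∀ z ∈ C, f z ≤ f p := by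
  by_cases hi : (interior C).Nonempty
  · obtain ⟨f, hf⟩ := geometric_hahn_banach_open_point hC.interior isOpen_interior hp
    refine ⟨f, ?_, fun z hz => ?_⟩
    · rintro rfl
      obtain ⟨w, hw⟩ := hi
      simpa using hf w hw
    · have h1 : z ∈ closure (interior C) := by
        rw [hC.closure_interior_eq_closure_of_nonempty_interior hi]
        exact subset_closure hz
      have h2 : closure (interior C) ⊆ {w | f w ≤ f p} :=
        closure_minimal (fun w hw => (hf w hw).le) (isClosed_le f.continuous continuous_const)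
      exact h2 h1
  · have h1 : affineSpan ℝ C ≠ ⊤ := by
      intro h
      exact hi ((hC.interior_nonempty_iff_affineSpan_eq_top).2 h)
    have hne' : (affineSpan ℝ C : Set V).Nonempty := (affineSpan_nonempty ℝ).2 hne
    have h2 : (affineSpan ℝ C).direction ≠ ⊤ := by
      intro h
      exact h1 ((AffineSubspace.direction_eq_top_iff_of_nonempty hne').1 h)
    obtain ⟨f, hf0, hf⟩ := Submodule.exists_le_ker_of_lt_top _ (lt_top_iff_ne_top.2 h2)
    obtain ⟨c, hc⟩ := hne
    have hconst : ∀ z ∈ C, f z = f c := by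
      intro z hz
      have h3 : z -ᵥ c ∈ (affineSpan ℝ C).direction :=
        AffineSubspace.vsub_mem_direction (mem_affineSpan ℝ hz) (mem_affineSpan ℝ hc)
      have h4 := hf h3
      rw [LinearMap.mem_ker, vsub_eq_sub, map_sub, sub_eq_zero] at h4
      exact h4
    rcases le_total (f c) (f p) with h | h
    · refine ⟨LinearMap.toContinuousLinearMap f, ?_, fun z hz => ?_⟩
      · intro h0
        apply hf0
        ext v
        exact congrArg (fun g : V →L[ℝ] ℝ => g v) h0
      · show f z ≤ f p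
        rw [hconst z hz]; exact h
    · refine ⟨-LinearMap.toContinuousLinearMap f, ?_, fun z hz => ?_⟩
      · intro h0
        apply hf0
        ext v
        have := congrArg (fun g : V →L[ℝ] ℝ => g v) h0
        simpa using this
      · show -f z ≤ -f p
        rw [hconst z hz]; linarith

/-- A functional on a finite dimensional space attains its norm on the closed unit ball. -/
theorem exists_norm_attained [FiniteDimensional ℝ V] (f : V →L[ℝ] ℝ) :
    ∃ u : V, ‖u‖ ≤ 1 ∧ f u = ‖f‖ := by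
  obtain ⟨u, hu, hmax⟩ := (isCompact_closedBall (0 : V) 1).exists_isMaxOn
    ⟨0, mem_closedBall_self zero_le_one⟩ f.continuous.continuousOn
  have hu1 : ‖u‖ ≤ 1 := by simpa using hu
  refine ⟨u, hu1, le_antisymm ?_ ?_⟩
  · calc f u ≤ ‖f u‖ := Real.le_norm_self _
      _ ≤ ‖f‖ * ‖u‖ := f.le_opNorm u
      _ ≤ ‖f‖ * 1 := by gcongr
      _ = ‖f‖ := mul_one _
  · have hfu : 0 ≤ f u := by
      have := hmax (mem_closedBall_self zero_le_one : (0:V) ∈ closedBall (0:V) 1)
      simpa using this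
    refine f.opNorm_le_bound hfu (fun v => ?_)
    by_cases hv : v = 0
    · simp [hv]
    have hv' : 0 < ‖v‖ := norm_pos_iff.2 hv
    have key : ∀ w : V, ‖w‖ = ‖v‖ → f w ≤ f u * ‖v‖ := by
      intro w hw
      have h1 : ‖v‖⁻¹ • w ∈ closedBall (0:V) 1 := by
        simp [norm_smul, hw, hv'.ne']
      have h2 : f (‖v‖⁻¹ • w) ≤ f u := hmax h1
      rw [map_smul, smul_eq_mul, inv_mul_le_iff₀ hv'] at h2
      linarith
    rw [Real.norm_eq_abs, abs_le]
    constructor
    · have := key (-v) (by simp)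
      rw [map_neg] at this
      linarith
    · exact key v rfl

/-- (CL1) If every point of the closed ball of radius `2r` is within distance `< r` of the convex
set `C`, then the closed ball of radius `r` is contained in the interior of `C`. -/
theorem closedBall_subset_interior [FiniteDimensional ℝ V] {C : Set V} (hC : Convex ℝ C)
    {x : V} {r : ℝ} (hr : 0 < r)
    (h : ∀ y, dist y x ≤ 2 * r → ∃ z ∈ C, dist y z < r) :
    closedBall x r ⊆ interior C := by
  intro p hp
  by_contra hpi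
  obtain ⟨z0, hz0, -⟩ := h x (by simp; linarith)
  obtain ⟨f, hf0, hf⟩ := exists_support hC ⟨z0, hz0⟩ hpi
  have hn : 0 < ‖f‖ := norm_pos_iff.2 hf0
  obtain ⟨u, hu, hfu⟩ := exists_norm_attained f
  obtain ⟨z, hz, hyz⟩ := h (x + (2 * r) • u) (by
    rw [dist_eq_norm]
    simp only [add_sub_cancel_left, norm_smul, Real.norm_eq_abs]
    rw [abs_of_pos (by linarith)]
    nlinarith)
  have h1 : f z ≤ f p := hf z hz
  have h2 : f p ≤ f x + ‖f‖ * r := by
    have h3 : f p - f x ≤ ‖f‖ * ‖p - x‖ := by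
      rw [← map_sub]
      exact (Real.le_norm_self _).trans (f.le_opNorm _)
    have h4 : ‖p - x‖ ≤ r := by rwa [mem_closedBall, dist_eq_norm] at hp
    nlinarith
  have h5 : f (x + (2 * r) • u) - f z ≤ ‖f‖ * ‖(x + (2 * r) • u) - z‖ := by
    rw [← map_sub]
    exact (Real.le_norm_self _).trans (f.le_opNorm _)
  rw [dist_eq_norm] at hyz
  rw [map_add, map_smul, smul_eq_mul, hfu] at h5
  nlinarith

theorem closedBall_subset [FiniteDimensional ℝ V] {C : Set V} (hC : Convex ℝ C)
    {x : V} {r : ℝ} (hr : 0 < r)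
    (h : ∀ y, dist y x ≤ 2 * r → ∃ z ∈ C, dist y z < r) :
    closedBall x r ⊆ C :=
  (closedBall_subset_interior hC hr h).trans interior_subset

/-- (CL2) far points, convex `g`. -/
theorem norm_le_half_of_convex {C : Set V} {g : V → ℝ} (hg : ConvexOn ℝ C g)
    {a0 : V} (ha0 : a0 ∈ C) {θ R0 : ℝ} (hga : g a0 ≤ θ) (hR : 0 < R0)
    (hnear : ∀ y ∈ C, ‖y‖ ≤ R0 → g y ≤ θ → ‖y‖ ≤ R0 / 2) (hna : ‖a0‖ ≤ R0 / 2) :
    ∀ y ∈ C, g y ≤ θ → ‖y‖ ≤ R0 / 2 := by
  intro y hy hgy
  by_cases h : ‖y‖ ≤ R0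
  · exact hnear y hy h hgy
  push Not at h
  have hcont : Continuous (fun t : ℝ => ‖(1 - t) • a0 + t • y‖) := by fun_prop
  obtain ⟨t, ht, htR⟩ : R0 ∈ (fun t : ℝ => ‖(1 - t) • a0 + t • y‖) '' Icc 0 1 := by
    apply intermediate_value_Icc zero_le_one hcont.continuousOn
    constructor
    · simp only [sub_zero, one_smul, zero_smul, add_zero]; linarith
    · simp only [sub_self, zero_smul, one_smul, zero_add]; exact h.le
  have hmem : (1 - t) • a0 + t • y ∈ C := hg.1 ha0 hy (by linarith [ht.2]) ht.1 (by ring)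
  have hle : g ((1 - t) • a0 + t • y) ≤ θ := by
    have h1 := hg.2 ha0 hy (by linarith [ht.2] : (0:ℝ) ≤ 1 - t) ht.1 (by ring)
    simp only [smul_eq_mul] at h1
    nlinarith [ht.1, ht.2]
  have := hnear _ hmem (le_of_eq htR) hle
  simp only at htR
  linarith

/-- (CL2) far points, affine `g = ℓ + c`. -/
theorem norm_le_half_of_affine {C : Set V} (hC : Convex ℝ C) (l : V →L[ℝ] ℝ) (c : ℝ)
    {a0 : V} (ha0 : a0 ∈ C) {θ R0 : ℝ} (hga : l a0 + c ≤ θ) (hR : 0 < R0)
    (hnear : ∀ y ∈ C, ‖y‖ ≤ R0 → l y + c ≤ θ → ‖y‖ ≤ R0 / 2) (hna : ‖a0‖ ≤ R0 / 2) :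
    ∀ y ∈ C, l y + c ≤ θ → ‖y‖ ≤ R0 / 2 := by
  refine norm_le_half_of_convex (g := fun y => l y + c) ?_ ha0 hga hR hnear hna
  refine ⟨hC, ?_⟩
  intro x _ y _ a b _ _ hab
  simp only [map_add, map_smul, smul_eq_mul]
  have : c = (a + b) * c := by rw [hab, one_mul]
  nlinarith

end Crest.Agent.R236.BClose
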