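import Crest.Agent.R236.BApxWDefs
import Crest.Agent.R236.BClose

/-! Row 236, Part B, B1 in the coordinates of `W = T × Y × ℝ`. (helper734) -/

set_option autoImplicit false
open scoped ContDiff Topology
open Set Filter Metric

noncomputable section

namespace Crest.Agent.R236.B

open Crest.Agent.R236.A (EE epi SOL STRUCT IsStruct ConeData Appr)

section seminorm

variable {V : Type*} [NormedAddCommGroup V] [NormedSpace ℝ V] [FiniteDimensional ℝ V]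

theorem seminorm_le_norm (p : Seminorm ℝ V) : ∃ M : ℝ, 0 < M ∧ ∀ v, p v ≤ M * ‖v‖ := by
  classical
  let b := Module.finBasis ℝ V
  let F : Fin (Module.finrank ℝ V) → (V →L[ℝ] ℝ) := fun i =>
    LinearMap.toContinuousLinearMap (b.coord i)
  refine ⟨(∑ i, ‖F i‖ * p (b i)) + 1, ?_, fun v => ?_⟩
  · have : 0 ≤ ∑ i, ‖F i‖ * p (b i) :=
      Finset.sum_nonneg fun i _ => mul_nonneg (norm_nonneg _) (apply_nonneg _ _)
    linarith
  · have h1 : p v ≤ ∑ i, ‖F i‖ * ‖v‖ * p (b i) := by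
      calc p v = p (∑ i, b.repr v i • b i) := by rw [b.sum_repr]
        _ ≤ ∑ i, p (b.repr v i • b i) :=
          Finset.le_sum_of_subadditive p (map_zero p).le (fun x y => map_add_le_add p x y) _ _
        _ ≤ ∑ i, ‖F i‖ * ‖v‖ * p (b i) := by
          refine Finset.sum_le_sum fun i _ => ?_
          rw [map_smul_eq_mul]
          refine mul_le_mul_of_nonneg_right ?_ (apply_nonneg _ _)
          exact (F i).le_opNorm v
    calc p v ≤ ∑ i, ‖F i‖ * ‖v‖ * p (b i) := h1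
      _ = (∑ i, ‖F i‖ * p (b i)) * ‖v‖ := by
        rw [Finset.sum_mul]; exact Finset.sum_congr rfl fun i _ => by ring
      _ ≤ ((∑ i, ‖F i‖ * p (b i)) + 1) * ‖v‖ := by
        have := norm_nonneg v
        nlinarith

theorem seminorm_continuous (p : Seminorm ℝ V) : Continuous p := by
  obtain ⟨M, hM, h⟩ := seminorm_le_norm p
  have : LipschitzWith ⟨M, hM.le⟩ p := by
    refine LipschitzWith.of_dist_le_mul fun x y => ?_
    rw [Real.dist_eq, dist_eq_norm]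
    exact (abs_sub_map_le_sub p x y).trans (h (x - y))
  exact this.continuous

theorem norm_le_seminorm (p : Seminorm ℝ V) (hp : ∀ v, p v = 0 → v = 0) :
    ∃ M : ℝ, 0 < M ∧ ∀ v, ‖v‖ ≤ M * p v := by
  rcases (sphere (0 : V) 1).eq_empty_or_nonempty with he | hne
  · refine ⟨1, one_pos, fun v => ?_⟩
    by_cases hv : v = 0
    · simp [hv]
    · exfalso
      have : ‖v‖⁻¹ • v ∈ sphere (0 : V) 1 := by
        simp [norm_smul, hv]
      rw [he] at this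
      exact this
  · obtain ⟨w, hw, hmin⟩ := (isCompact_sphere (0 : V) 1).exists_isMinOn hne
      (seminorm_continuous p).continuousOn
    have hw1 : ‖w‖ = 1 := by simpa using hw
    have hpw : 0 < p w := by
      refine lt_of_le_of_ne (apply_nonneg _ _) fun h0 => ?_
      have := hp w h0.symm
      rw [this] at hw1
      simp at hw1
    refine ⟨(p w)⁻¹, inv_pos.2 hpw, fun v => ?_⟩
    by_cases hv : v = 0
    · simp [hv]
    have hv' : 0 < ‖v‖ := norm_pos_iff.2 hv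
    have h1 : ‖v‖⁻¹ • v ∈ sphere (0 : V) 1 := by
      simp [norm_smul, hv]
    have h2 : p w ≤ p (‖v‖⁻¹ • v) := hmin h1
    rw [map_smul_eq_mul, norm_inv, norm_norm, le_inv_mul_iff₀ hv'] at h2
    rw [le_inv_mul_iff₀ hpw]
    linarith

end seminorm

theorem Grid.facts {N : ℕ} {lam tau : ℝ} (h : Grid N lam tau) :
    0 < lam ∧ 0 < tau ∧ lam ≤ 2 ^ N ∧ tau ≤ 2 ^ N ∧ 1 ≤ 2 ^ N * lam ∧ 1 ≤ 2 ^ N * tau := by
  obtain ⟨a, b, ha, hb, rfl, rfl⟩ := h
  have h2 : (0:ℝ) < 2 := two_pos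
  have key : ∀ a : ℤ, |a| ≤ (N : ℤ) → (2:ℝ) ^ a ≤ 2 ^ N ∧ 1 ≤ (2:ℝ) ^ N * 2 ^ a := by
    intro a ha
    rw [abs_le] at ha
    constructor
    · rw [← zpow_natCast]
      exact zpow_le_zpow_right₀ one_le_two ha.2
    · rw [← zpow_natCast, ← zpow_add₀ h2.ne']
      exact one_le_zpow₀ one_le_two (by linarith [ha.1])
  exact ⟨zpow_pos h2 _, zpow_pos h2 _, (key a ha).1, (key b hb).1, (key a ha).2, (key b hb).2⟩

theorem Grid.tau_le {N : ℕ} {lam tau : ℝ} (h : Grid N lam tau) : tau ≤ 4 ^ N * lam := by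
  obtain ⟨h1, h2, h3, h4, h5, h6⟩ := h.facts
  have h7 : (4:ℝ) ^ N = 2 ^ N * 2 ^ N := by
    rw [← mul_pow]; norm_num
  rw [h7, mul_assoc]
  have h8 : (0:ℝ) < 2 ^ N := by positivity
  nlinarith

theorem Grid.lam_le {N : ℕ} {lam tau : ℝ} (h : Grid N lam tau) : lam ≤ 4 ^ N * tau := by
  obtain ⟨h1, h2, h3, h4, h5, h6⟩ := h.facts
  have h7 : (4:ℝ) ^ N = 2 ^ N * 2 ^ N := by
    rw [← mul_pow]; norm_num
  rw [h7, mul_assoc]
  have h8 : (0:ℝ) < 2 ^ N := by positivity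
  nlinarith

theorem finite_grid (N : ℕ) : {s : ℝ × ℝ | Grid N s.1 s.2}.Finite := by
  have h1 : ((Icc (-(N:ℤ)) N) ×ˢ (Icc (-(N:ℤ)) N) : Set (ℤ × ℤ)).Finite :=
    (finite_Icc _ _).prod (finite_Icc _ _)
  refine (h1.image (fun q : ℤ × ℤ => ((2:ℝ) ^ q.1, (2:ℝ) ^ q.2))).subset ?_
  rintro ⟨lam, tau⟩ ⟨a, b, ha, hb, h2, h3⟩
  exact ⟨(a, b), ⟨⟨(abs_le.1 ha).1, (abs_le.1 ha).2⟩, ⟨(abs_le.1 hb).1, (abs_le.1 hb).2⟩⟩,
    Prod.ext h2.symm h3.symm⟩

/-- one constant for all grid scales -/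
theorem exists_M {V : Type*} [NormedAddCommGroup V] [NormedSpace ℝ V] [FiniteDimensional ℝ V]
    (N : ℕ) (nr : ℝ → ℝ → Seminorm ℝ V)
    (hd : ∀ lam tau : ℝ, 0 < lam → 0 < tau → ∀ v, nr lam tau v = 0 → v = 0) :
    ∃ M : ℝ, 1 ≤ M ∧ ∀ lam tau, Grid N lam tau → ∀ v, nr lam tau v ≤ M * ‖v‖ ∧
      ‖v‖ ≤ M * nr lam tau v := by
  have h1 : ∀ s : ℝ × ℝ, ∃ M : ℝ, 0 < M ∧ (0 < s.1 → 0 < s.2 → ∀ v, nr s.1 s.2 v ≤ M * ‖v‖ ∧
      ‖v‖ ≤ M * nr s.1 s.2 v) := by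
    intro s
    obtain ⟨M1, hM1, h1⟩ := seminorm_le_norm (nr s.1 s.2)
    by_cases hs : 0 < s.1 ∧ 0 < s.2
    · obtain ⟨M2, hM2, h2⟩ := norm_le_seminorm (nr s.1 s.2) (hd _ _ hs.1 hs.2)
      refine ⟨max M1 M2, lt_max_of_lt_left hM1, fun _ _ v => ⟨?_, ?_⟩⟩
      · exact (h1 v).trans (mul_le_mul_of_nonneg_right (le_max_left _ _) (norm_nonneg _))
      · exact (h2 v).trans (mul_le_mul_of_nonneg_right (le_max_right _ _) (apply_nonneg _ _))
    · exact ⟨1, one_pos, fun h3 h4 => absurd ⟨h3, h4⟩ hs⟩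
  choose F hF0 hF using h1
  obtain ⟨M, hM⟩ := ((finite_grid N).image F).bddAbove
  refine ⟨max M 1, le_max_right _ _, fun lam tau hg v => ?_⟩
  have h2 : F (lam, tau) ≤ max M 1 := (hM ⟨(lam, tau), hg, rfl⟩).trans (le_max_left _ _)
  obtain ⟨h3, h4⟩ := hF (lam, tau) hg.facts.1 hg.facts.2.1 v
  exact ⟨h3.trans (mul_le_mul_of_nonneg_right h2 (norm_nonneg _)),
    h4.trans (mul_le_mul_of_nonneg_right h2 (apply_nonneg _ _))⟩

/-! ### algebra of the functionals -/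

/-- lower bound for `α P/lam + β W/tau` -/
theorem comb_ge {δ lam tau α β z w : ℝ} (hl : 0 < lam) (ht : 0 < tau) (hδ0 : 0 < δ) (hδ : δ ≤ 1 / 8)
    (hδ1 : δ * tau ≤ 1 / 8 * lam) (hδ2 : δ * lam ≤ 1 / 8 * tau)
    (hα : 1 ≤ α) (hα2 : α ≤ 2) (hβ : 1 ≤ β) (hβ2 : β ≤ 2) (hz : 0 ≤ z) (hw : 0 ≤ w) :
    3 / 4 * (z / lam + w / tau) ≤
      α * (1 / (1 - δ ^ 2) * (z - δ * w)) / lam + β * (1 / (1 - δ ^ 2) * (w - δ * z)) / tau := by
  have hκ : 1 ≤ 1 / (1 - δ ^ 2) := by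
    rw [le_div_iff₀ (by nlinarith)]; nlinarith
  set κ := 1 / (1 - δ ^ 2) with hκd
  set a := z / lam with ha
  set b := w / tau with hb
  have hza : z = a * lam := by rw [ha]; field_simp
  have hwb : w = b * tau := by rw [hb]; field_simp
  have ha0 : 0 ≤ a := div_nonneg hz hl.le
  have hb0 : 0 ≤ b := div_nonneg hw ht.le
  set p := δ * tau / lam with hp
  set q := δ * lam / tau with hq
  have hp0 : 0 ≤ p := by positivity
  have hq0 : 0 ≤ q := by positivity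
  have hp1 : p ≤ 1 / 8 := by rw [hp, div_le_iff₀ hl]; exact hδ1
  have hq1 : q ≤ 1 / 8 := by rw [hq, div_le_iff₀ ht]; exact hδ2
  have h1 : α * (κ * (z - δ * w)) / lam = κ * (α * (a - p * b)) := by
    rw [hza, hwb, hp]; field_simp
  have h2 : β * (κ * (w - δ * z)) / tau = κ * (β * (b - q * a)) := by
    rw [hza, hwb, hq]; field_simp
  rw [h1, h2, ← mul_add]
  have h3 : 3 / 4 * (a + b) ≤ α * (a - p * b) + β * (b - q * a) := by
    have e1 : β * q ≤ 1 / 4 := by nlinarith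
    have e2 : α * p ≤ 1 / 4 := by nlinarith
    have e3 : 3 / 4 * a ≤ (α - β * q) * a := by
      apply mul_le_mul_of_nonneg_right _ ha0; linarith
    have e4 : 3 / 4 * b ≤ (β - α * p) * b := by
      apply mul_le_mul_of_nonneg_right _ hb0; linarith
    nlinarith
  have h4 : 0 ≤ 3 / 4 * (a + b) := by positivity
  nlinarith

theorem kappa_bounds {δ : ℝ} (hδ0 : 0 < δ) (hδ : δ ≤ 1 / 8) :
    1 ≤ 1 / (1 - δ ^ 2) ∧ 1 / (1 - δ ^ 2) ≤ 64 / 63 := by
  have h1 : 0 < 1 - δ ^ 2 := by nlinarith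
  constructor
  · rw [le_div_iff₀ h1]; nlinarith
  · rw [div_le_iff₀ h1]; nlinarith

/-! ### the transfer lemma -/

section transfer

variable {n m D : ℕ}

/-- from the ball of radius `ρ` around `p0` in `C` to the ball of radius `ρ/2` around `X0` in `C'` -/
theorem transfer {C C' : Set (WW m D)} (hC' : Convex ℝ C') {p : Seminorm ℝ (WW m D)}
    {M ε ρ R : ℝ} (hε : 0 < ε) (hM : 0 ≤ M) (hp : ∀ v, p v ≤ M * ‖v‖ ∧ ‖v‖ ≤ M * p v)
    (hMε : 3 * (M * ε) ≤ ρ / 2)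
    (hcl : ∀ x ∈ C, ‖x‖ ≤ R → ∃ y ∈ C', dist x y < ε)
    {p0 X0 : WW m D} (h0 : ∀ v, p v ≤ ρ → p0 + v ∈ C) (hX : p (X0 - p0) ≤ M * ε)
    (hR : ‖X0‖ + M * (ρ / 2) + 2 * ε ≤ R) :
    ∀ v, p v ≤ ρ / 2 → X0 + v ∈ C' := by
  intro v hv
  refine BClose.closedBall_subset hC' hε (x := X0 + v) ?_ (mem_closedBall_self hε.le)
  intro y hy
  rw [dist_eq_norm] at hy
  have h1 : p (y - p0) ≤ ρ := by
    have e1 : y - p0 = (y - (X0 + v)) + (X0 - p0) + v := by abel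
    calc p (y - p0) = p ((y - (X0 + v)) + (X0 - p0) + v) := by rw [← e1]
      _ ≤ p (y - (X0 + v)) + p (X0 - p0) + p v :=
        (map_add_le_add p _ _).trans (add_le_add (map_add_le_add p _ _) le_rfl)
      _ ≤ M * (2 * ε) + M * ε + ρ / 2 := by
        refine add_le_add (add_le_add ?_ hX) hv
        exact (hp _).1.trans (mul_le_mul_of_nonneg_left hy hM)
      _ ≤ ρ := by linarith
  have h2 : y ∈ C := by
    have := h0 (y - p0) h1
    rwa [add_sub_cancel] at this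
  refine hcl y h2 ?_
  calc ‖y‖ = ‖(y - (X0 + v)) + X0 + v‖ := by congr 1; abel
    _ ≤ ‖y - (X0 + v)‖ + ‖X0‖ + ‖v‖ :=
      (norm_add_le _ _).trans (add_le_add (norm_add_le _ _) le_rfl)
    _ ≤ 2 * ε + ‖X0‖ + M * (ρ / 2) := by
      refine add_le_add (add_le_add hy le_rfl) ?_
      exact (hp _).2.trans (mul_le_mul_of_nonneg_left hv hM)
    _ ≤ R := by linarith

end transfer

section main

variable {n m D : ℕ}

/-- the functional `α P/lam + β W/tau` -/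
def gs {D : ℕ} (m : ℕ) (l : EE D →L[ℝ] ℝ) (δ α β lam tau : ℝ) : WW m D →L[ℝ] ℝ :=
  (α / lam) • pF m l δ + (β / tau) • wF m l δ

theorem gs_apply (l : EE D →L[ℝ] ℝ) (δ α β lam tau : ℝ) (X : WW m D) :
    gs m l δ α β lam tau X = α * pF m l δ X / lam + β * wF m l δ X / tau := by
  show α / lam * pF m l δ X + β / tau * wF m l δ X = _
  ring

theorem abs_pF_le (l : EE D →L[ℝ] ℝ) {δ : ℝ} (hδ0 : 0 < δ) (hδ : δ ≤ 1 / 8) (X : WW m D) :
    |pF m l δ X| ≤ 2 * ((1 + ‖l‖) * ‖X‖) := by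
  obtain ⟨hκ1, hκ2⟩ := kappa_bounds hδ0 hδ
  rw [pF_apply, abs_mul, abs_of_nonneg (by linarith : (0:ℝ) ≤ 1 / (1 - δ ^ 2))]
  have h1 : |X.2.2| ≤ ‖X‖ := (le_max_right _ _).trans (le_max_right _ _)
  have h2 : ‖X.2.1‖ ≤ ‖X‖ := (le_max_left _ _).trans (le_max_right _ _)
  have h3 : |l X.2.1| ≤ ‖l‖ * ‖X‖ :=
    (l.le_opNorm _).trans (mul_le_mul_of_nonneg_left h2 (norm_nonneg _))
  have h4 : |X.2.2 - δ * l X.2.1| ≤ (1 + ‖l‖) * ‖X‖ := by
    calc |X.2.2 - δ * l X.2.1| ≤ |X.2.2| + |δ * l X.2.1| := abs_sub _ _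
      _ = |X.2.2| + δ * |l X.2.1| := by rw [abs_mul, abs_of_pos hδ0]
      _ ≤ ‖X‖ + 1 * (‖l‖ * ‖X‖) := by
        refine add_le_add h1 (mul_le_mul (by linarith) h3 (abs_nonneg _) zero_le_one)
      _ = _ := by ring
  refine mul_le_mul (by linarith) h4 (abs_nonneg _) (by norm_num)

theorem abs_wF_le (l : EE D →L[ℝ] ℝ) {δ : ℝ} (hδ0 : 0 < δ) (hδ : δ ≤ 1 / 8) (X : WW m D) :
    |wF m l δ X| ≤ 2 * ((1 + ‖l‖) * ‖X‖) := by
  obtain ⟨hκ1, hκ2⟩ := kappa_bounds hδ0 hδ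
  rw [wF_apply, abs_mul, abs_of_nonneg (by linarith : (0:ℝ) ≤ 1 / (1 - δ ^ 2))]
  have h1 : |X.2.2| ≤ ‖X‖ := (le_max_right _ _).trans (le_max_right _ _)
  have h2 : ‖X.2.1‖ ≤ ‖X‖ := (le_max_left _ _).trans (le_max_right _ _)
  have h3 : |l X.2.1| ≤ ‖l‖ * ‖X‖ :=
    (l.le_opNorm _).trans (mul_le_mul_of_nonneg_left h2 (norm_nonneg _))
  have h4 : |l X.2.1 - δ * X.2.2| ≤ (1 + ‖l‖) * ‖X‖ := by
    calc |l X.2.1 - δ * X.2.2| ≤ |l X.2.1| + |δ * X.2.2| := abs_sub _ _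
      _ = |l X.2.1| + δ * |X.2.2| := by rw [abs_mul, abs_of_pos hδ0]
      _ ≤ ‖l‖ * ‖X‖ + 1 * ‖X‖ := by
        refine add_le_add h3 (mul_le_mul (by linarith) h1 (abs_nonneg _) zero_le_one)
      _ = _ := by ring
  refine mul_le_mul (by linarith) h4 (abs_nonneg _) (by norm_num)

/-- near points: consequences for the point `Y ∈ C` and for `X` -/
theorem near {C : Set (WW m D)} {R : Set (EE D)} {l : EE D →L[ℝ] ℝ} {e : EE D} {c0 L c : ℝ}
    (h : IsStruct n C R l e c0 L c) {Θ : ℝ} (hΘ : 2 ≤ Θ) {N : ℕ} {δ ε0 η : ℝ}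
    (hδ0 : 0 < δ) (hδ : δ ≤ 1 / 8) (hδN : δ * 4 ^ N ≤ 1 / 8) (hδε : 8 * Θ * (δ * 4 ^ N) ≤ ε0)
    (_hε0 : 0 < ε0) (hη0 : 0 ≤ η) (hη1 : 8 * (2 ^ N * η) ≤ 1) (hη2 : 4 * (2 ^ N * η) ≤ ε0)
    {lam tau : ℝ} (hg : Grid N lam tau) {α β : ℝ} (hα : 1 ≤ α) (hα2 : α ≤ 2) (hβ : 1 ≤ β)
    (hβ2 : β ≤ 2) {X Y : WW m D} (hY : Y ∈ C) (hP : |pF m l δ X - pF m l δ Y| ≤ 2 * η)
    (hW : |wF m l δ X - wF m l δ Y| ≤ 2 * η)
    (hX : α * pF m l δ X / lam + β * wF m l δ X / tau ≤ Θ) :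
    l Y.2.1 ≤ 2 * Θ * tau ∧ Y.2.2 ≤ 2 * Θ * lam ∧ -(ε0 * lam) ≤ pF m l δ X ∧
      -(ε0 * tau) ≤ wF m l δ X := by
  obtain ⟨hl, ht, hl2, ht2, hl3, ht3⟩ := hg.facts
  have hδ1 : δ * tau ≤ 1 / 8 * lam := by nlinarith [hg.tau_le]
  have hδ2 : δ * lam ≤ 1 / 8 * tau := by nlinarith [hg.lam_le]
  obtain ⟨hYR, hz⟩ := h.le Y hY
  have hw : 0 ≤ l Y.2.1 := (mul_nonneg h.cone.c0_pos.le (norm_nonneg _)).trans (h.cone.l_ge _ hYR)
  have hgY : α * pF m l δ Y / lam + β * wF m l δ Y / tau ≤ Θ + 1 := by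
    have e1 : α * pF m l δ Y / lam ≤ α * pF m l δ X / lam + 2 * (2 * η) * 2 ^ N := by
      rw [div_le_iff₀ hl, add_mul, div_mul_cancel₀ _ hl.ne']
      have e2 := (abs_le.1 hP).1
      have e3 : α * pF m l δ Y ≤ α * pF m l δ X + 2 * (2 * η) := by nlinarith
      have e4 : 2 * (2 * η) ≤ 2 * (2 * η) * 2 ^ N * lam := by
        rw [mul_assoc (2 * (2 * η))]
        exact le_mul_of_one_le_right (by positivity) hl3
      linarith
    have e2 : β * wF m l δ Y / tau ≤ β * wF m l δ X / tau + 2 * (2 * η) * 2 ^ N := by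
      rw [div_le_iff₀ ht, add_mul, div_mul_cancel₀ _ ht.ne']
      have e2 := (abs_le.1 hW).1
      have e3 : β * wF m l δ Y ≤ β * wF m l δ X + 2 * (2 * η) := by nlinarith
      have e4 : 2 * (2 * η) ≤ 2 * (2 * η) * 2 ^ N * tau := by
        rw [mul_assoc (2 * (2 * η))]
        exact le_mul_of_one_le_right (by positivity) ht3
      linarith
    nlinarith
  have h1 := comb_ge hl ht hδ0 hδ hδ1 hδ2 hα hα2 hβ hβ2 hz hw
  rw [← pF_apply (m := m) l δ Y, ← wF_apply (m := m) l δ Y] at h1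
  have hz0 : 0 ≤ Y.2.2 / lam := div_nonneg hz hl.le
  have hw0 : 0 ≤ l Y.2.1 / tau := div_nonneg hw ht.le
  have hz1 : Y.2.2 / lam ≤ 2 * Θ := by linarith
  have hw1 : l Y.2.1 / tau ≤ 2 * Θ := by linarith
  rw [div_le_iff₀ hl] at hz1
  rw [div_le_iff₀ ht] at hw1
  obtain ⟨hκ1, hκ2⟩ := kappa_bounds hδ0 hδ
  have hNl : 4 * η ≤ ε0 * lam := by
    have : 4 * η * 1 ≤ 4 * η * (2 ^ N * lam) := mul_le_mul_of_nonneg_left hl3 (by positivity)
    nlinarith
  have hNt : 4 * η ≤ ε0 * tau := by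
    have : 4 * η * 1 ≤ 4 * η * (2 ^ N * tau) := mul_le_mul_of_nonneg_left ht3 (by positivity)
    nlinarith
  have hX1 : δ * l Y.2.1 ≤ ε0 / 4 * lam := by
    calc δ * l Y.2.1 ≤ δ * (2 * Θ * (4 ^ N * lam)) := by
          apply mul_le_mul_of_nonneg_left _ hδ0.le
          refine hw1.trans ?_
          exact mul_le_mul_of_nonneg_left hg.tau_le (by linarith)
      _ = 8 * Θ * (δ * 4 ^ N) / 4 * lam := by ring
      _ ≤ ε0 / 4 * lam := by gcongr
  have hX2 : δ * Y.2.2 ≤ ε0 / 4 * tau := by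
    calc δ * Y.2.2 ≤ δ * (2 * Θ * (4 ^ N * tau)) := by
          apply mul_le_mul_of_nonneg_left _ hδ0.le
          refine hz1.trans ?_
          exact mul_le_mul_of_nonneg_left hg.lam_le (by linarith)
      _ = 8 * Θ * (δ * 4 ^ N) / 4 * tau := by ring
      _ ≤ ε0 / 4 * tau := by gcongr
  refine ⟨hw1, hz1, ?_, ?_⟩
  · have e1 := (abs_le.1 hP).1
    have e2 : -(64 / 63 * (ε0 / 4 * lam)) ≤ pF m l δ Y := by
      rw [pF_apply]
      have e3 : 1 / (1 - δ ^ 2) * (δ * l Y.2.1) ≤ 64 / 63 * (ε0 / 4 * lam) :=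
        mul_le_mul hκ2 hX1 (mul_nonneg hδ0.le hw) (by norm_num)
      have e4 : 0 ≤ 1 / (1 - δ ^ 2) * Y.2.2 := mul_nonneg (by linarith) hz
      rw [mul_sub]
      linarith
    linarith [mul_pos _hε0 hl]
  · have e1 := (abs_le.1 hW).1
    have e2 : -(64 / 63 * (ε0 / 4 * tau)) ≤ wF m l δ Y := by
      rw [wF_apply]
      have e3 : 1 / (1 - δ ^ 2) * (δ * Y.2.2) ≤ 64 / 63 * (ε0 / 4 * tau) :=
        mul_le_mul hκ2 hX2 (mul_nonneg hδ0.le hz) (by norm_num)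
      have e4 : 0 ≤ 1 / (1 - δ ^ 2) * l Y.2.1 := mul_nonneg (by linarith) hw
      rw [mul_sub]
      linarith
    linarith [mul_pos _hε0 ht]

theorem norm_est_le {D : ℕ} (m : ℕ) (e : EE D) {N : ℕ} {lam tau : ℝ} (hg : Grid N lam tau) :
    ‖est m e lam tau‖ ≤ 2 ^ N * (‖e‖ + 1) := by
  obtain ⟨hl, ht, hl2, ht2, hl3, ht3⟩ := hg.facts
  have h0 := norm_nonneg e
  have h2N : (0:ℝ) < 2 ^ N := by positivity
  rw [est, Prod.norm_def, Prod.norm_def]
  refine max_le ?_ (max_le ?_ ?_)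
  · simp only [norm_zero]; positivity
  · simp only [norm_smul, Real.norm_eq_abs, abs_of_pos ht]
    nlinarith
  · simp only [Real.norm_eq_abs, abs_of_pos hl]
    nlinarith

theorem norm_wP_le {D : ℕ} (m : ℕ) (e : EE D) {δ : ℝ} (hδ0 : 0 < δ) (hδ : δ ≤ 1 / 8) :
    ‖wP m e δ‖ ≤ ‖e‖ + 1 := by
  have h0 := norm_nonneg e
  rw [wP, Prod.norm_def, Prod.norm_def]
  refine max_le ?_ (max_le ?_ ?_)
  · simp only [norm_zero]; positivity
  · simp only [norm_smul, Real.norm_eq_abs, abs_of_pos hδ0]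
    nlinarith
  · simp only [Real.norm_eq_abs, abs_one]
    linarith

theorem norm_wW_le {D : ℕ} (m : ℕ) (e : EE D) {δ : ℝ} (hδ0 : 0 < δ) (hδ : δ ≤ 1 / 8) :
    ‖wW m e δ‖ ≤ ‖e‖ + 1 := by
  have h0 := norm_nonneg e
  rw [wW, Prod.norm_def, Prod.norm_def]
  refine max_le ?_ (max_le ?_ ?_)
  · simp only [norm_zero]; positivity
  · simp only; linarith
  · simp only [Real.norm_eq_abs, abs_of_pos hδ0]
    linarith

/-- adding a multiple of `(0, a e, b)` -/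
theorem add_cone {C : Set (WW m D)} {R : Set (EE D)} {l : EE D →L[ℝ] ℝ} {e : EE D} {c0 L c : ℝ}
    (h : IsStruct n C R l e c0 L c) {X : WW m D} (hX : X ∈ C) {a b : ℝ} (ha : 0 ≤ a) (hb : 0 ≤ b) :
    X + ((0 : EE m), a • e, b) ∈ C :=
  h.add X hX _ (h.cone.R_smul _ (interior_subset h.cone.e_int) a ha) _ hb

set_option maxHeartbeats 4000000 in
/-- **B1 in `W`-coordinates** -/
theorem apxW : ApxWStmt := by
  intro n m D C R l e c0 L c h Θ K L2 L3 ρ nr hK hL2 hL3 hΘ hρ0 hρ1 hρl G LL hLL N ε0 hε0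
  have h4N : (0:ℝ) < 4 ^ N := by positivity
  have h2N : (0:ℝ) < 2 ^ N := by positivity
  have h2N1 : (1:ℝ) ≤ 2 ^ N := one_le_pow₀ one_le_two
  have h4N1 : (1:ℝ) ≤ 4 ^ N := one_le_pow₀ (by norm_num)
  have hΘ0 : 54 ≤ Θ := by linarith
  obtain ⟨δ, hδ0, hδN8, hδε⟩ : ∃ δ : ℝ, 0 < δ ∧ δ * 4 ^ N ≤ 1 / 8 ∧ 8 * Θ * (δ * 4 ^ N) ≤ ε0 := by
    refine ⟨min (1 / 8) (ε0 / (8 * Θ)) / 4 ^ N, by positivity, ?_, ?_⟩
    · rw [div_mul_cancel₀ _ h4N.ne']; exact min_le_left _ _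
    · rw [div_mul_cancel₀ _ h4N.ne']
      have h1 : min (1 / 8) (ε0 / (8 * Θ)) ≤ ε0 / (8 * Θ) := min_le_right _ _
      rw [le_div_iff₀ (by positivity)] at h1
      linarith
  have hδ8 : δ ≤ 1 / 8 := by nlinarith
  obtain ⟨M, hM1, hM⟩ := exists_M N nr G.definite
  have hM0 : 0 < M := by linarith
  set S : ℝ := L2 * 2 ^ N / δ with hS
  have hS0 : 0 < S := by positivity
  have hSδ : S * δ = L2 * 2 ^ N := by rw [hS]; field_simp
  have hSL : L2 * 2 ^ N ≤ S := by rw [← hSδ]; nlinarith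
  set H : ℝ := M * (K + 1) + 1 with hH
  have hH0 : 0 < H := by positivity
  set E : ℝ := 2 ^ N * (‖e‖ + 1) with hE
  have hE0 : 0 < E := by positivity
  have hLL0 : 0 < LL := by linarith
  set RR : ℝ := 2 * H + (LL + L3) * E + S * (‖e‖ + 1) + M + 2 with hRR
  have hRR0 : 0 < RR := by positivity
  set Λ : ℝ := 1 + ‖l‖ with hΛ
  have hΛ0 : 0 < Λ := by positivity
  obtain ⟨ε, hε, hε1, hε2, hε3, hε4⟩ : ∃ ε : ℝ, 0 < ε ∧ ε ≤ 1 ∧ 3 * (M * ε) ≤ ρ / 2 ∧
      8 * (2 ^ N * (Λ * ε)) ≤ 1 ∧ 4 * (2 ^ N * (Λ * ε)) ≤ ε0 := by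
    refine ⟨min (min 1 (ρ / (6 * M))) (min (1 / (8 * 2 ^ N * Λ)) (ε0 / (4 * 2 ^ N * Λ))),
      by positivity, ?_, ?_, ?_, ?_⟩
    · exact (min_le_left _ _).trans (min_le_left _ _)
    · have h1 : min (min 1 (ρ / (6 * M))) (min (1 / (8 * 2 ^ N * Λ)) (ε0 / (4 * 2 ^ N * Λ))) ≤
        ρ / (6 * M) := (min_le_left _ _).trans (min_le_right _ _)
      rw [le_div_iff₀ (by positivity)] at h1
      linarith
    · have h1 : min (min 1 (ρ / (6 * M))) (min (1 / (8 * 2 ^ N * Λ)) (ε0 / (4 * 2 ^ N * Λ))) ≤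
        1 / (8 * 2 ^ N * Λ) := (min_le_right _ _).trans (min_le_left _ _)
      rw [le_div_iff₀ (by positivity)] at h1
      linarith
    · have h1 : min (min 1 (ρ / (6 * M))) (min (1 / (8 * 2 ^ N * Λ)) (ε0 / (4 * 2 ^ N * Λ))) ≤
        ε0 / (4 * 2 ^ N * Λ) := (min_le_right _ _).trans (min_le_right _ _)
      rw [le_div_iff₀ (by positivity)] at h1
      linarith
  have hMε1 : M * ε ≤ 1 := by nlinarith [mul_pos hM0 hε]
  obtain ⟨Ω, u, A, hsol, hcl1, hcl2⟩ := h.appr.2.2 RR ε hRR0 hε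
  refine ⟨δ, hδ0, hδN8, Ω, u, A, hsol, ?_⟩
  have hC' : Convex ℝ (A '' epi Ω u) := by
    have h1 : Convex ℝ (epi Ω u) := hsol.sc.convexOn.convex_epigraph
    exact h1.affine_image (A : (EE n × ℝ) →ᵃ[ℝ] WW m D)
  generalize A '' epi Ω u = C' at hcl1 hcl2 hC'
  have hdP : ∀ X Y : WW m D, dist X Y < ε → |pF m l δ X - pF m l δ Y| ≤ 2 * (Λ * ε) := by
    intro X Y hXY
    rw [← map_sub]
    refine (abs_pF_le l hδ0 hδ8 _).trans ?_
    rw [dist_eq_norm] at hXY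
    gcongr
  have hdW : ∀ X Y : WW m D, dist X Y < ε → |wF m l δ X - wF m l δ Y| ≤ 2 * (Λ * ε) := by
    intro X Y hXY
    rw [← map_sub]
    refine (abs_wF_le l hδ0 hδ8 _).trans ?_
    rw [dist_eq_norm] at hXY
    gcongr
  have loc : ∀ lam tau, Grid N lam tau → ∀ α β : ℝ, 1 ≤ α → α ≤ 2 → 1 ≤ β → β ≤ 2 →
      ∀ X ∈ C', ‖X‖ ≤ RR → α * pF m l δ X / lam + β * wF m l δ X / tau ≤ Θ →
        ∃ Y ∈ C, nr lam tau (X - Y) ≤ M * ε ∧ nr lam tau Y ≤ K ∧ l Y.2.1 ≤ 2 * Θ * tau ∧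
          Y.2.2 ≤ 2 * Θ * lam ∧ nr lam tau X ≤ K + 1 ∧ -(ε0 * lam) ≤ pF m l δ X ∧
            -(ε0 * tau) ≤ wF m l δ X := by
    intro lam tau hg α β hα hα2 hβ hβ2 X hX hXR hXg
    obtain ⟨Y, hY, hXY⟩ := hcl2 X hX hXR
    obtain ⟨n1, n2, n3, n4⟩ := near h (by linarith) hδ0 hδ8 hδN8 hδε hε0 (by positivity)
      hε3 hε4 hg hα hα2 hβ hβ2 hY (hdP X Y hXY) (hdW X Y hXY) hXg
    have hb := G.bd lam tau hg.facts.1 hg.facts.2.1 Y hY n1 n2
    have hd : nr lam tau (X - Y) ≤ M * ε := by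
      refine (hM lam tau hg _).1.trans ?_
      rw [dist_eq_norm] at hXY
      gcongr
    refine ⟨Y, hY, hd, hb, n1, n2, ?_, n3, n4⟩
    calc nr lam tau X = nr lam tau ((X - Y) + Y) := by rw [sub_add_cancel]
      _ ≤ nr lam tau (X - Y) + nr lam tau Y := map_add_le_add _ _ _
      _ ≤ K + 1 := by linarith
  have hHR : H ≤ RR := by
    have : 0 ≤ (LL + L3) * E + S * (‖e‖ + 1) := by positivity
    linarith
  have far : ∀ lam tau, Grid N lam tau → ∀ α β : ℝ, 1 ≤ α → α ≤ 2 → 1 ≤ β → β ≤ 2 →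
      ∀ X ∈ C', α * pF m l δ X / lam + β * wF m l δ X / tau ≤ Θ → ‖X‖ ≤ H := by
    intro lam tau hg α β hα hα2 hβ hβ2 X hX hXg
    obtain ⟨hl, ht, hl2, ht2, hl3, ht3⟩ := hg.facts
    have h0C : (0 : WW m D) ∈ C := h.sub 0 h.cone.R_zero 0 le_rfl
    obtain ⟨a0, ha0, hda⟩ := hcl1 0 h0C (by simpa using hRR0.le)
    have hna : ‖a0‖ < ε := by rwa [dist_comm, dist_zero_right] at hda
    have key := BClose.norm_le_half_of_affine hC' (gs m l δ α β lam tau) 0 ha0 (θ := Θ)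
      (R0 := 2 * H) ?_ (by positivity) ?_ ?_ X hX ?_
    · linarith
    · -- `g a0 ≤ Θ`
      have e1 := hdP 0 a0 hda
      have e2 := hdW 0 a0 hda
      rw [map_zero, zero_sub, abs_neg] at e1 e2
      rw [add_zero, gs_apply]
      have e3 : α * pF m l δ a0 / lam ≤ 2 * (2 * (Λ * ε)) * 2 ^ N := by
        rw [div_le_iff₀ hl]
        have f1 : α * pF m l δ a0 ≤ 2 * (2 * (Λ * ε)) :=
          (mul_le_mul_of_nonneg_left (le_abs_self _) (by linarith)).trans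
            (mul_le_mul hα2 e1 (abs_nonneg _) (by norm_num))
        have f2 : 2 * (2 * (Λ * ε)) ≤ 2 * (2 * (Λ * ε)) * 2 ^ N * lam := by
          rw [mul_assoc (2 * (2 * (Λ * ε)))]
          exact le_mul_of_one_le_right (by positivity) hl3
        linarith
      have e4 : β * wF m l δ a0 / tau ≤ 2 * (2 * (Λ * ε)) * 2 ^ N := by
        rw [div_le_iff₀ ht]
        have f1 : β * wF m l δ a0 ≤ 2 * (2 * (Λ * ε)) :=
          (mul_le_mul_of_nonneg_left (le_abs_self _) (by linarith)).trans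
            (mul_le_mul hβ2 e2 (abs_nonneg _) (by norm_num))
        have f2 : 2 * (2 * (Λ * ε)) ≤ 2 * (2 * (Λ * ε)) * 2 ^ N * tau := by
          rw [mul_assoc (2 * (2 * (Λ * ε)))]
          exact le_mul_of_one_le_right (by positivity) ht3
        linarith
      linarith
    · intro y hy hyR hyg
      rw [add_zero, gs_apply] at hyg
      obtain ⟨Y, hY, q1, q2, q3, q4, q5, q6, q7⟩ := loc lam tau hg α β hα hα2 hβ hβ2 y hy (by
        have : 0 ≤ (LL + L3) * E + S * (‖e‖ + 1) := by positivity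
        linarith) hyg
      have := (hM lam tau hg y).2
      have : M * nr lam tau y ≤ M * (K + 1) := by gcongr
      linarith
    · have : 0 ≤ M * (K + 1) := by positivity
      linarith
    · rw [add_zero, gs_apply]; exact hXg
  -- deep points
  have deep : ∀ lam tau, Grid N lam tau → ∀ X ∈ C', pF m l δ X / lam + wF m l δ X / tau ≤ Θ →
      ∀ V0 : WW m D, ‖V0‖ ≤ (LL + L3) * E + S * (‖e‖ + 1) →
        (∃ a b : ℝ, 0 ≤ a ∧ 0 ≤ b ∧ V0 = L2 • est m e lam tau + ((0 : EE m), a • e, b)) →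
          ∀ v, nr lam tau v ≤ ρ / 2 → X + V0 + v ∈ C' := by
    intro lam tau hg X hX hXg V0 hV0 hab
    obtain ⟨hl, ht, hl2, ht2, hl3, ht3⟩ := hg.facts
    have hXg' : 1 * pF m l δ X / lam + 1 * wF m l δ X / tau ≤ Θ := by
      rw [one_mul, one_mul]; exact hXg
    have hXH := far lam tau hg 1 1 le_rfl one_le_two le_rfl one_le_two X hX hXg'
    obtain ⟨Y, hY, q1, q2, q3, q4, q5, q6, q7⟩ := loc lam tau hg 1 1 le_rfl one_le_two le_rfl
      one_le_two X hX (hXH.trans hHR) hXg'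
    obtain ⟨a, b, ha, hb, hab⟩ := hab
    refine transfer hC' hε hM0.le (hM lam tau hg) hε2 hcl1 (p0 := Y + V0) ?_ ?_ ?_
    · intro v hv
      have f1 := G.dp lam tau hl ht Y hY q3 q4 v hv
      have f2 := add_cone h f1 ha hb
      rw [hab]
      convert f2 using 1
      abel
    · rwa [add_sub_add_right_eq_sub]
    · have f1 : ‖X + V0‖ ≤ ‖X‖ + ‖V0‖ := norm_add_le _ _
      have f2 : M * (ρ / 2) ≤ M := by nlinarith
      have f3 : 0 ≤ H := hH0.le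
      linarith
  have hestE : ∀ lam tau, Grid N lam tau → ‖est m e lam tau‖ ≤ E := fun lam tau hg =>
    norm_est_le m e hg
  constructor
  · -- bdd
    intro lam tau hg α β hα hα2 hβ hβ2 X hX hXg
    have hXH := far lam tau hg α β hα hα2 hβ hβ2 X hX hXg
    obtain ⟨Y, hY, q1, q2, q3, q4, q5, q6, q7⟩ := loc lam tau hg α β hα hα2 hβ hβ2 X hX
      (hXH.trans hHR) hXg
    exact ⟨q5, q6, q7⟩
  · -- deep2
    intro lam tau hg X hX hXg v hv
    refine deep lam tau hg X hX hXg (L2 • est m e lam tau) ?_ ⟨0, 0, le_rfl, le_rfl, ?_⟩ v hv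
    · rw [norm_smul, Real.norm_eq_abs, abs_of_nonneg (by linarith)]
      have f1 := hestE lam tau hg
      have f2 : L2 * ‖est m e lam tau‖ ≤ LL * E :=
        mul_le_mul hLL f1 (norm_nonneg _) (by linarith)
      have f3 : 0 ≤ L3 * E + S * (‖e‖ + 1) := by positivity
      linarith
    · rw [zero_smul]
      exact (add_zero _).symm
  · -- deepL
    intro lam tau hg X hX hXg v hv
    obtain ⟨hl, ht, -⟩ := hg.facts
    refine deep lam tau hg X hX hXg (LL • est m e lam tau) ?_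
      ⟨(LL - L2) * tau, (LL - L2) * lam, ?_, ?_, ?_⟩ v hv
    · rw [norm_smul, Real.norm_eq_abs, abs_of_nonneg (by linarith)]
      have f1 := hestE lam tau hg
      have f2 : LL * ‖est m e lam tau‖ ≤ LL * E :=
        mul_le_mul le_rfl f1 (norm_nonneg _) (by linarith)
      have f3 : 0 ≤ L3 * E + S * (‖e‖ + 1) := by positivity
      linarith
    · exact mul_nonneg (by linarith) ht.le
    · exact mul_nonneg (by linarith) hl.le
    · have f1 : ((0 : EE m), ((LL - L2) * tau) • e, (LL - L2) * lam) =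
          (LL - L2) • est m e lam tau := by
        rw [est, Prod.smul_mk, Prod.smul_mk, smul_zero, smul_smul, smul_eq_mul]
      rw [f1, ← add_smul, add_sub_cancel]
  · -- deepP
    refine ⟨S, hS0, ?_⟩
    intro lam tau hg X hX hXg v hv
    obtain ⟨hl, ht, hl2, ht2, hl3, ht3⟩ := hg.facts
    refine deep lam tau hg X hX hXg (S • wP m e δ) ?_
      ⟨S * δ - L2 * tau, S - L2 * lam, ?_, ?_, ?_⟩ v hv
    · rw [norm_smul, Real.norm_eq_abs, abs_of_pos hS0]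
      have f2 : S * ‖wP m e δ‖ ≤ S * (‖e‖ + 1) :=
        mul_le_mul_of_nonneg_left (norm_wP_le m e hδ0 hδ8) hS0.le
      have f3 : 0 ≤ (LL + L3) * E := by positivity
      linarith
    · rw [hSδ]; nlinarith
    · nlinarith
    · rw [est, wP, Prod.smul_mk, Prod.smul_mk, Prod.smul_mk, Prod.smul_mk, Prod.mk_add_mk,
        Prod.mk_add_mk, smul_zero, smul_smul, smul_smul, ← add_smul, smul_zero, add_zero,
        smul_eq_mul, smul_eq_mul, add_sub_cancel, add_sub_cancel, mul_one]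
  · -- deepW
    refine ⟨S, hS0, ?_⟩
    intro lam tau hg X hX hXg v hv
    obtain ⟨hl, ht, hl2, ht2, hl3, ht3⟩ := hg.facts
    refine deep lam tau hg X hX hXg (S • wW m e δ) ?_
      ⟨S - L2 * tau, S * δ - L2 * lam, ?_, ?_, ?_⟩ v hv
    · rw [norm_smul, Real.norm_eq_abs, abs_of_pos hS0]
      have f2 : S * ‖wW m e δ‖ ≤ S * (‖e‖ + 1) :=
        mul_le_mul_of_nonneg_left (norm_wW_le m e hδ0 hδ8) hS0.le
      have f3 : 0 ≤ (LL + L3) * E := by positivity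
      linarith
    · nlinarith
    · rw [hSδ]; nlinarith
    · rw [est, wW, Prod.smul_mk, Prod.smul_mk, Prod.smul_mk, Prod.smul_mk, Prod.mk_add_mk,
        Prod.mk_add_mk, smul_zero, smul_smul, ← add_smul, smul_zero, add_zero,
        smul_eq_mul, smul_eq_mul, add_sub_cancel, add_sub_cancel]
  · -- Qm
    intro lam tau hg v hv
    obtain ⟨hl, ht, hl2, ht2, hl3, ht3⟩ := hg.facts
    constructor
    · refine transfer hC' hε hM0.le (hM lam tau hg) hε2 hcl1 (p0 := L3 • est m e lam tau)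
        (fun v hv => G.dq lam tau hl ht v hv) ?_ ?_ v hv
      · rw [sub_self, map_zero]; positivity
      · rw [norm_smul, Real.norm_eq_abs, abs_of_nonneg (by linarith)]
        have f1 : L3 * ‖est m e lam tau‖ ≤ L3 * E :=
          mul_le_mul le_rfl (hestE lam tau hg) (norm_nonneg _) (by linarith)
        have f2 : M * (ρ / 2) ≤ M := by nlinarith
        have f3 : 0 ≤ LL * E + S * (‖e‖ + 1) := by positivity
        linarith
    · obtain ⟨hκ1, hκ2⟩ := kappa_bounds hδ0 hδ8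
      have hvz := G.z_le lam tau hl ht v
      have hvy := G.y_le lam tau hl ht v
      have hz1 : |v.2.2| ≤ lam * (1 / 2) := by
        refine hvz.trans (mul_le_mul_of_nonneg_left (by linarith) hl.le)
      have hw1 : |l v.2.1| ≤ tau * (1 / 2) := by
        calc |l v.2.1| ≤ ‖l‖ * ‖v.2.1‖ := l.le_opNorm _
          _ ≤ ‖l‖ * (tau * (ρ / 2)) := by
            apply mul_le_mul_of_nonneg_left _ (norm_nonneg _)
            exact hvy.trans (mul_le_mul_of_nonneg_left hv ht.le)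
          _ = tau * ((ρ * ‖l‖) / 2) := by ring
          _ ≤ tau * (1 / 2) := by gcongr
      rw [pF_apply, wF_apply]
      have ez : (L3 • est m e lam tau + v : WW m D).2.2 = L3 * lam + v.2.2 := rfl
      have ew : l (L3 • est m e lam tau + v : WW m D).2.1 = L3 * tau + l v.2.1 := by
        have : (L3 • est m e lam tau + v : WW m D).2.1 = L3 • (tau • e) + v.2.1 := rfl
        rw [this, map_add, map_smul, map_smul, h.cone.l_e, smul_eq_mul, smul_eq_mul, mul_one]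
      rw [ez, ew]
      have z0 : 0 ≤ L3 * lam + v.2.2 := by nlinarith [(abs_le.1 hz1).1]
      have w0 : 0 ≤ L3 * tau + l v.2.1 := by nlinarith [(abs_le.1 hw1).1]
      have z1 : L3 * lam + v.2.2 ≤ (L3 + 1 / 2) * lam := by linarith [(abs_le.1 hz1).2]
      have w1 : L3 * tau + l v.2.1 ≤ (L3 + 1 / 2) * tau := by linarith [(abs_le.1 hw1).2]
      have a1 : 1 / (1 - δ ^ 2) * (L3 * lam + v.2.2 - δ * (L3 * tau + l v.2.1)) / lam ≤
          64 / 63 * (L3 + 1 / 2) := by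
        rw [div_le_iff₀ hl]
        have b1 : L3 * lam + v.2.2 - δ * (L3 * tau + l v.2.1) ≤ (L3 + 1 / 2) * lam := by
          have : 0 ≤ δ * (L3 * tau + l v.2.1) := mul_nonneg hδ0.le w0
          linarith
        have b2 : 0 ≤ (L3 + 1 / 2) * lam := by positivity
        calc 1 / (1 - δ ^ 2) * (L3 * lam + v.2.2 - δ * (L3 * tau + l v.2.1))
            ≤ 1 / (1 - δ ^ 2) * ((L3 + 1 / 2) * lam) :=
              mul_le_mul_of_nonneg_left b1 (by linarith)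
          _ ≤ 64 / 63 * ((L3 + 1 / 2) * lam) := mul_le_mul_of_nonneg_right hκ2 b2
          _ = _ := by ring
      have a2 : 1 / (1 - δ ^ 2) * (L3 * tau + l v.2.1 - δ * (L3 * lam + v.2.2)) / tau ≤
          64 / 63 * (L3 + 1 / 2) := by
        rw [div_le_iff₀ ht]
        have b1 : L3 * tau + l v.2.1 - δ * (L3 * lam + v.2.2) ≤ (L3 + 1 / 2) * tau := by
          have : 0 ≤ δ * (L3 * lam + v.2.2) := mul_nonneg hδ0.le z0
          linarith
        have b2 : 0 ≤ (L3 + 1 / 2) * tau := by positivity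
        calc 1 / (1 - δ ^ 2) * (L3 * tau + l v.2.1 - δ * (L3 * lam + v.2.2))
            ≤ 1 / (1 - δ ^ 2) * ((L3 + 1 / 2) * tau) :=
              mul_le_mul_of_nonneg_left b1 (by linarith)
          _ ≤ 64 / 63 * ((L3 + 1 / 2) * tau) := mul_le_mul_of_nonneg_right hκ2 b2
          _ = _ := by ring
      linarith

end main

end Crest.Agent.R236.B
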