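import Crest.Agent.R236.BGeoDefs

/-! Row 236, Part B, B0: geometry of the limit `C` at every scale: proof of `GeoStmt`. (helper247) -/

set_option autoImplicit false
open scoped ContDiff Topology
open Set Filter

noncomputable section

namespace Crest.Agent.R236.B

open Crest.Agent.R236.A (EE epi SOL STRUCT IsStruct ConeData Appr)

/-- the scaling map -/
def scl {m D : ℕ} (B : EE m ≃L[ℝ] EE m) (lam tau : ℝ) : WW m D →ₗ[ℝ] WW m D where
  toFun X := (B X.1, (1 / tau) • X.2.1, (1 / lam) * X.2.2)
  map_add' X Y := by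
    simp [mul_add]
  map_smul' r X := by
    ext
    · simp
    · simp only [Prod.smul_fst, Prod.smul_snd, RingHom.id_apply, PiLp.smul_apply, smul_eq_mul]
      ring
    · simp only [Prod.smul_snd, RingHom.id_apply, smul_eq_mul]
      ring

/-- the scaled norm -/
def nrm {m D : ℕ} (B : EE m ≃L[ℝ] EE m) (lam tau : ℝ) : Seminorm ℝ (WW m D) :=
  (normSeminorm ℝ (WW m D)).comp (scl B lam tau)

lemma nrm_le_iff {m D : ℕ} (B : EE m ≃L[ℝ] EE m) {lam tau : ℝ} (hl : 0 < lam) (ht : 0 < tau)
    (v : WW m D) (k : ℝ) :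
    nrm B lam tau v ≤ k ↔ ‖B v.1‖ ≤ k ∧ ‖v.2.1‖ ≤ k * tau ∧ |v.2.2| ≤ k * lam := by
  have h1 : nrm B lam tau v = ‖((B v.1, (1 / tau) • v.2.1, (1 / lam) * v.2.2) : WW m D)‖ := rfl
  rw [h1, Prod.norm_def, Prod.norm_def, max_le_iff, max_le_iff]
  simp only
  have h2 : ‖(1 / tau) • v.2.1‖ = ‖v.2.1‖ / tau := by
    rw [norm_smul, Real.norm_eq_abs, abs_of_pos (by positivity)]; ring
  have h3 : ‖(1 / lam) * v.2.2‖ = |v.2.2| / lam := by
    rw [norm_mul, Real.norm_eq_abs, Real.norm_eq_abs, abs_of_pos (by positivity)]; ring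
  rw [h2, h3, div_le_iff₀ ht, div_le_iff₀ hl]

theorem geo : GeoStmt := by
  intro n m D C R l e c0 L c h
  have hL : 1 ≤ L := h.L_ge
  have hc : 0 < c := h.c_pos
  have hc0 : 0 < c0 := h.cone.c0_pos
  have hL0 : 0 < L := by linarith
  refine ⟨L + 1, by linarith, fun Θ hLΘ hΘ ρ1 hρ1 => ?_⟩
  have hex : ∀ lam tau : ℝ, ∃ B : EE m ≃L[ℝ] EE m, 0 < lam → 0 < tau →
      ∀ X ∈ C, l X.2.1 ≤ tau → X.2.2 ≤ lam → ‖B X.1‖ ≤ L ∧
        ∀ w : EE m, ‖B w‖ ≤ c → X + (w, (L * tau) • e, L * lam) ∈ C := by
    intro lam tau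
    by_cases hp : 0 < lam ∧ 0 < tau
    · obtain ⟨B, hB⟩ := h.lemX lam tau hp.1 hp.2
      exact ⟨B, fun _ _ => hB⟩
    · exact ⟨ContinuousLinearEquiv.refl ℝ _, fun h1 h2 => absurd ⟨h1, h2⟩ hp⟩
  choose BB hBB using hex
  have h0C : (0 : WW m D) ∈ C := h.sub 0 h.cone.R_zero 0 le_rfl
  have hcv : Convex ℝ C := h.appr.2.1
  obtain ⟨re, hre, hball⟩ := Metric.mem_nhds_iff.1 (mem_interior_iff_mem_nhds.1 h.cone.e_int)
  set q : ℝ := 2 * Θ with hq
  have hq1 : 1 ≤ q := by linarith
  have hq0 : 0 < q := by linarith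
  have hLq : L ≤ q := by linarith
  set K : ℝ := max (q * L) (max (q / c0) q) with hK
  set ρ : ℝ := min ρ1 (min (c ^ 2 / L) (min c (min (re / 2) 1))) with hρ
  have hρpos : 0 < ρ := by
    refine lt_min hρ1 (lt_min (by positivity) (lt_min hc (lt_min (by positivity) one_pos)))
  have hρρ1 : ρ ≤ ρ1 := min_le_left _ _
  have hρ2 : ρ ≤ c ^ 2 / L := (min_le_right _ _).trans (min_le_left _ _)
  have hρ3 : ρ ≤ c := (min_le_right _ _).trans ((min_le_right _ _).trans (min_le_left _ _))
  have hρ4 : ρ ≤ re / 2 := (min_le_right _ _).trans ((min_le_right _ _).trans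
    ((min_le_right _ _).trans (min_le_left _ _)))
  have hρ5 : ρ ≤ 1 := (min_le_right _ _).trans ((min_le_right _ _).trans
    ((min_le_right _ _).trans (min_le_right _ _)))
  -- the recession increment
  have hinc : ∀ lam tau : ℝ, 0 < lam → 0 < tau → ∀ v : WW m D, ‖v.2.1‖ ≤ ρ * tau →
      |v.2.2| ≤ ρ * lam → ∀ Y ∈ C, Y + ((0 : EE m), tau • e + v.2.1, lam + v.2.2) ∈ C := by
    intro lam tau hlam htau v hy hz Y hY
    refine h.add Y hY _ ?_ _ ?_
    · have e1 : tau • e + v.2.1 = tau • (e + (1 / tau) • v.2.1) := by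
        rw [smul_add, smul_smul, mul_one_div, div_self htau.ne', one_smul]
      rw [e1]
      refine h.cone.R_smul _ (hball ?_) _ htau.le
      rw [Metric.mem_ball, dist_eq_norm, add_sub_cancel_left, norm_smul, Real.norm_eq_abs,
        abs_of_pos (by positivity : (0:ℝ) < 1 / tau)]
      calc 1 / tau * ‖v.2.1‖ ≤ 1 / tau * (ρ * tau) := by gcongr
        _ = ρ := by field_simp
        _ < re := by linarith
    · have := (abs_le.1 hz).1
      nlinarith
  refine ⟨K, q * L + 1, ρ, ?_, ?_, hρpos, hρρ1, fun lam tau => nrm (BB lam tau) lam tau, ?_⟩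
  · exact hq1.trans ((le_max_right _ _).trans (le_max_right _ _))
  · have : 0 ≤ q * L := by positivity
    linarith
  · refine ⟨?_, ?_, ?_, ?_, ?_, ?_, ?_⟩
    · -- definite
      intro lam tau hlam htau v hv
      obtain ⟨h1, h2, h3⟩ := (nrm_le_iff (BB lam tau) hlam htau v 0).1 hv.le
      rw [zero_mul] at h2 h3
      have e1 : v.1 = 0 := by
        have := norm_le_zero_iff.1 h1
        simpa using this
      have e2 : v.2.1 = 0 := norm_le_zero_iff.1 h2
      have e3 : v.2.2 = 0 := abs_nonpos_iff.1 h3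
      exact Prod.ext e1 (Prod.ext e2 e3)
    · intro lam tau hlam htau v
      have := ((nrm_le_iff (BB lam tau) hlam htau v _).1 le_rfl).2.1
      linarith
    · intro lam tau hlam htau v
      have := ((nrm_le_iff (BB lam tau) hlam htau v _).1 le_rfl).2.2
      linarith
    · -- le_yz
      intro lam tau hlam htau y z k hy hz
      have hk : 0 ≤ k := by
        have h1 : 0 ≤ k * tau := (norm_nonneg _).trans hy
        exact nonneg_of_mul_nonneg_left h1 htau
      refine (nrm_le_iff (BB lam tau) hlam htau _ k).2 ⟨?_, hy, hz⟩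
      simpa using hk
    · -- bd
      intro lam tau hlam htau X hX hl hz
      have hXR := h.le X hX
      refine (nrm_le_iff (BB lam tau) hlam htau X K).2 ⟨?_, ?_, ?_⟩
      · have hX' : (1 / q) • X ∈ C := by
          have := hcv h0C hX (by have : 1 / q ≤ 1 := (div_le_one hq0).2 hq1
                                 linarith : 0 ≤ 1 - 1 / q) (by positivity : 0 ≤ 1 / q) (by ring)
          simpa using this
        have h1 := (hBB lam tau hlam htau _ hX' (by
          simp only [Prod.smul_snd, Prod.smul_fst, map_smul, smul_eq_mul]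
          rw [one_div, inv_mul_le_iff₀ hq0]; exact hl) (by
          simp only [Prod.smul_snd, smul_eq_mul]
          rw [one_div, inv_mul_le_iff₀ hq0]; exact hz)).1
        simp only [Prod.smul_fst, map_smul] at h1
        rw [norm_smul, Real.norm_eq_abs, abs_of_pos (by positivity : (0:ℝ) < 1 / q), one_div,
          inv_mul_le_iff₀ hq0] at h1
        exact h1.trans (le_max_left _ _)
      · have h1 := h.cone.l_ge _ hXR.1
        have h2 : ‖X.2.1‖ ≤ q / c0 * tau := by
          rw [div_mul_eq_mul_div, le_div_iff₀ hc0]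
          linarith
        refine h2.trans (mul_le_mul_of_nonneg_right ?_ htau.le)
        exact (le_max_left _ _).trans (le_max_right _ _)
      · rw [abs_of_nonneg hXR.2]
        refine hz.trans (mul_le_mul_of_nonneg_right ?_ hlam.le)
        exact (le_max_right _ _).trans (le_max_right _ _)
    · -- dp
      intro lam tau hlam htau X hX hl hz v hv
      obtain ⟨h1, h2, h3⟩ := (nrm_le_iff (BB lam tau) hlam htau v ρ).1 hv
      -- comparison of the two scales
      have h4 : ‖BB (q * lam) (q * tau) v.1‖ ≤ c := by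
        have h5 : ‖BB lam tau ((L / c) • v.1)‖ ≤ c := by
          rw [map_smul, norm_smul, Real.norm_eq_abs, abs_of_pos (by positivity)]
          calc L / c * ‖BB lam tau v.1‖ ≤ L / c * (c ^ 2 / L) := by
                gcongr; exact h1.trans hρ2
            _ = c := by field_simp
        have h6 := (hBB lam tau hlam htau 0 h0C (by simpa using htau.le) (by simpa using hlam.le)).2
          _ h5
        rw [zero_add] at h6
        have h7 := (hBB (q * lam) (q * tau) (by positivity) (by positivity) _ h6 (by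
          simp only [map_smul, smul_eq_mul, h.cone.l_e, mul_one]
          exact mul_le_mul_of_nonneg_right hLq htau.le)
          (mul_le_mul_of_nonneg_right hLq hlam.le)).1
        simp only at h7
        rw [map_smul, norm_smul, Real.norm_eq_abs, abs_of_pos (by positivity : 0 < L / c),
          div_mul_eq_mul_div, div_le_iff₀ hc] at h7
        exact le_of_mul_le_mul_left h7 hL0
      have h8 := (hBB (q * lam) (q * tau) (by positivity) (by positivity) X hX hl hz).2 _ h4
      have h9 := hinc lam tau hlam htau v h2 h3 _ h8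
      convert h9 using 1
      refine Prod.ext ?_ (Prod.ext ?_ ?_)
      · simp [est]
      · simp only [est, Prod.snd_add, Prod.fst_add, Prod.smul_snd, Prod.smul_fst]
        module
      · simp only [est, Prod.snd_add, Prod.smul_snd, smul_eq_mul]
        ring
    · -- dq
      intro lam tau hlam htau v hv
      obtain ⟨h1, h2, h3⟩ := (nrm_le_iff (BB lam tau) hlam htau v ρ).1 hv
      have h6 := (hBB lam tau hlam htau 0 h0C (by simpa using htau.le) (by simpa using hlam.le)).2
          _ (h1.trans hρ3)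
      have h9 := hinc lam tau hlam htau v h2 h3 _ h6
      convert h9 using 1
      refine Prod.ext ?_ (Prod.ext ?_ ?_)
      · simp [est]
      · simp only [est, Prod.snd_add, Prod.fst_add, Prod.smul_snd, Prod.smul_fst, Prod.fst_zero,
          Prod.snd_zero]
        module
      · simp only [est, Prod.snd_add, Prod.smul_snd, smul_eq_mul, Prod.snd_zero]
        ring

end Crest.Agent.R236.B
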