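import Crest.Agent.R236.BApx
import Crest.Agent.R236.BGeo
import Crest.Agent.R236.BApxW

/-! Row 236, Part B: `ApxStmt` (helper660, 247, 734, 868) -/

set_option autoImplicit false

namespace Crest.Agent.R236.B

theorem apx : ApxStmt := apx_of_stmts geo apxW

end Crest.Agent.R236.B
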