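import Crest.Agent.R236.BApxWDefs
import Crest.Agent.R236.B2Apx

/-! Row 236, Part B, B1: auxiliary lemmas for the pull-back (helper660) -/

set_option autoImplicit false
open scoped ContDiff Topology
open Crest.GeometryTopology.CoordMetric Crest.GeometryTopology.AffineMaximal
open Set Filter

noncomputable section

namespace Crest.Agent.R236.B

open Crest.Agent.R236.A (EE epi SOL STRUCT IsStruct ConeData Appr)

/-- the grid is positive -/
theorem Grid.pos {N : ℕ} {lam tau : ℝ} (h : Grid N lam tau) : 0 < lam ∧ 0 < tau := by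
  obtain ⟨a, b, -, -, rfl, rfl⟩ := h
  exact ⟨by positivity, by positivity⟩

/-- ratio bound on the grid -/
theorem Grid.ratio {N : ℕ} {lam tau : ℝ} (h : Grid N lam tau) :
    lam ≤ 4 ^ N * tau ∧ tau ≤ 4 ^ N * lam := by
  obtain ⟨a, b, ha, hb, rfl, rfl⟩ := h
  have h4 : (4 : ℝ) ^ N = 2 ^ (2 * (N : ℤ)) := by
    rw [zpow_mul, zpow_natCast]
    norm_num
  rw [abs_le] at ha hb
  constructor
  · rw [h4, ← zpow_add₀ (by norm_num)]
    exact zpow_le_zpow_right₀ (by norm_num) (by linarith)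
  · rw [h4, ← zpow_add₀ (by norm_num)]
    exact zpow_le_zpow_right₀ (by norm_num) (by linarith)

theorem Grid.dl {N : ℕ} {lam tau δ : ℝ} (h : Grid N lam tau) (hδ : 0 < δ) (hN : δ * 4 ^ N ≤ 1 / 8) :
    δ * lam ≤ tau / 8 ∧ δ * tau ≤ lam / 8 := by
  obtain ⟨h1, h2⟩ := h.ratio
  obtain ⟨h3, h4⟩ := h.pos
  constructor
  · calc δ * lam ≤ δ * (4 ^ N * tau) := by gcongr
      _ = (δ * 4 ^ N) * tau := by ring
      _ ≤ 1 / 8 * tau := by gcongr
      _ = tau / 8 := by ring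
  · calc δ * tau ≤ δ * (4 ^ N * lam) := by gcongr
      _ = (δ * 4 ^ N) * lam := by ring
      _ ≤ 1 / 8 * lam := by gcongr
      _ = lam / 8 := by ring

/-- a definite seminorm on a finite dimensional space dominates the norm -/
theorem seminorm_dom {V : Type*} [NormedAddCommGroup V] [NormedSpace ℝ V] [FiniteDimensional ℝ V]
    (p : Seminorm ℝ V) (hp : ∀ v, p v = 0 → v = 0) : ∃ M : ℝ, 0 < M ∧ ∀ v, ‖v‖ ≤ M * p v := by
  have hcont : Continuous p := by
    have := (p.convexOn).continuousOn isOpen_univ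
    exact continuousOn_univ.1 this
  by_cases hne : (Metric.sphere (0 : V) 1).Nonempty
  · obtain ⟨v0, hv0, hmin⟩ := (isCompact_sphere (0 : V) 1).exists_isMinOn hne hcont.continuousOn
    have hv1 : ‖v0‖ = 1 := by simpa using hv0
    have hpos : 0 < p v0 := by
      rcases (apply_nonneg p v0).eq_or_lt with h | h
      · have := hp v0 h.symm
        rw [this, norm_zero] at hv1
        norm_num at hv1
      · exact h
    refine ⟨(p v0)⁻¹, inv_pos.2 hpos, fun v => ?_⟩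
    by_cases hv : v = 0
    · simp [hv]
    have hvn : 0 < ‖v‖ := norm_pos_iff.2 hv
    have h1 : p v0 ≤ p (‖v‖⁻¹ • v) := hmin (by
      simp [norm_smul, hvn.ne'])
    rw [map_smul_eq_mul, norm_inv, norm_norm] at h1
    rw [inv_mul_eq_div, le_div_iff₀ hpos]
    calc ‖v‖ * p v0 ≤ ‖v‖ * (‖v‖⁻¹ * p v) := by gcongr
      _ = p v := by field_simp
  · refine ⟨1, one_pos, fun v => ?_⟩
    have hv : ‖v‖ = 0 := by
      by_contra h
      have hvn : 0 < ‖v‖ := lt_of_le_of_ne (norm_nonneg _) (Ne.symm h)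
      exact hne ⟨‖v‖⁻¹ • v, by simp [norm_smul, hvn.ne']⟩
    rw [hv]
    simpa using apply_nonneg p v

/-- vertical rays of the epigraph -/
theorem epi_up {n : ℕ} {Ω : Set (EE n)} {u : EE n → ℝ} {X : VV n} (hX : X ∈ epi Ω u) {t : ℝ}
    (ht : 0 ≤ t) : X + t • ((0 : EE n), (1 : ℝ)) ∈ epi Ω u := by
  obtain ⟨h1, h2⟩ := hX
  refine ⟨?_, ?_⟩
  · simpa using h1
  · simp only [Prod.fst_add, Prod.smul_fst, smul_zero, add_zero, Prod.snd_add, Prod.smul_snd,
      smul_eq_mul, mul_one]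
    linarith

/-- positivity of the vertical coefficient -/
theorem up_of_bdd {n : ℕ} {Ω : Set (EE n)} {u : EE n → ℝ} (F : VV n →L[ℝ] ℝ) {c θ K : ℝ}
    (p : Seminorm ℝ (VV n)) (hp : ∀ v, p v = 0 → v = 0) {O Q : VV n}
    (hb : ∀ X ∈ epi Ω u, F X + c ≤ θ → p (X - O) ≤ K) (hQ : Q ∈ epi Ω u) (hQ2 : F Q + c ≤ θ) :
    0 < F ((0 : EE n), (1 : ℝ)) := by
  by_contra hcon
  push Not at hcon
  set e : VV n := ((0 : EE n), (1 : ℝ)) with he
  have h1 : ∀ t : ℝ, 0 ≤ t → p (Q + t • e - O) ≤ K := by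
    intro t ht
    refine hb _ (epi_up hQ ht) ?_
    rw [map_add, map_smul, smul_eq_mul]
    nlinarith
  have h2 : 0 < p e := by
    rcases (apply_nonneg p e).eq_or_lt with h | h
    · have := hp e h.symm
      rw [he, Prod.ext_iff] at this
      simp at this
    · exact h
  have h3 := hb Q hQ hQ2
  have hK : 0 ≤ K := (apply_nonneg p _).trans h3
  have h4 := h1 ((2 * K + 1) / p e) (by positivity)
  have h5 : p (((2 * K + 1) / p e) • e) ≤ p (Q + ((2 * K + 1) / p e) • e - O) + p (Q - O) := by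
    have : ((2 * K + 1) / p e) • e = (Q + ((2 * K + 1) / p e) • e - O) - (Q - O) := by abel
    conv_lhs => rw [this]
    exact map_sub_le_add p _ _
  rw [map_smul_eq_mul, Real.norm_eq_abs, abs_of_nonneg (by positivity),
    div_mul_cancel₀ _ h2.ne'] at h5
  linarith

/-- compactness of the sublevel sets -/
theorem cpt_of_bdd {n : ℕ} {Ω : Set (EE n)} {u : EE n → ℝ} (hS : SOL Ω u) (F : VV n →L[ℝ] ℝ)
    {c θ K : ℝ} (p : Seminorm ℝ (VV n)) (hp : ∀ v, p v = 0 → v = 0) {O : VV n}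
    (hb : ∀ X ∈ epi Ω u, F X + c ≤ θ → p (X - O) ≤ K) (hup : 0 < F ((0 : EE n), (1 : ℝ))) :
    IsCompact {x | x ∈ Ω ∧ F (x, u x) + c ≤ θ} := by
  obtain ⟨M, hM, hMv⟩ := seminorm_dom p hp
  have hcl : IsClosed {X | X ∈ epi Ω u ∧ F X + c ≤ θ} :=
    hS.closed.inter (isClosed_le (F.continuous.add continuous_const) continuous_const)
  have hbd : {X | X ∈ epi Ω u ∧ F X + c ≤ θ} ⊆ Metric.closedBall O (M * K) := by
    rintro X ⟨h1, h2⟩
    rw [Metric.mem_closedBall, dist_eq_norm]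
    calc ‖X - O‖ ≤ M * p (X - O) := hMv _
      _ ≤ M * K := by
        have := hb X h1 h2
        gcongr
  have hcp : IsCompact {X | X ∈ epi Ω u ∧ F X + c ≤ θ} :=
    (isCompact_closedBall O (M * K)).of_isClosed_subset hcl hbd
  have himg : {x | x ∈ Ω ∧ F (x, u x) + c ≤ θ} = Prod.fst '' {X | X ∈ epi Ω u ∧ F X + c ≤ θ} := by
    ext x
    constructor
    · rintro ⟨h1, h2⟩
      exact ⟨(x, u x), ⟨⟨h1, le_rfl⟩, h2⟩, rfl⟩
    · rintro ⟨X, ⟨⟨h1, h2⟩, h3⟩, rfl⟩
      refine ⟨h1, ?_⟩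
      have h4 : X = (X.1, u X.1) + (X.2 - u X.1) • ((0 : EE n), (1 : ℝ)) := by
        ext <;> simp
      have h5 : F X = F (X.1, u X.1) + (X.2 - u X.1) * F ((0 : EE n), (1 : ℝ)) := by
        conv_lhs => rw [h4]
        rw [map_add, map_smul, smul_eq_mul]
      have h6 : 0 ≤ (X.2 - u X.1) * F ((0 : EE n), (1 : ℝ)) :=
        mul_nonneg (by linarith) hup.le
      linarith
  rw [himg]
  exact hcp.image continuous_fst

end Crest.Agent.R236.B
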