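import Crest.Agent.R236.BApx

/-! Row 236, Part B, B1: geometry of `C` w.r.t. `P`, `W` (helper660) -/

set_option autoImplicit false
open scoped ContDiff Topology
open Set Filter

noncomputable section

namespace Crest.Agent.R236.B

open Crest.Agent.R236.A (EE epi SOL STRUCT IsStruct ConeData Appr)

variable {n m D : ℕ} {C : Set (WW m D)} {R : Set (EE D)} {l : EE D →L[ℝ] ℝ} {e : EE D}
  {c0 L c : ℝ}

theorem l_nonneg (hI : IsStruct n C R l e c0 L c) {X : WW m D} (hX : X ∈ C) : 0 ≤ l X.2.1 := by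
  have h1 := (hI.le X hX).1
  have h2 := hI.cone.l_ge _ h1
  have h3 : 0 ≤ c0 * ‖X.2.1‖ := mul_nonneg hI.cone.c0_pos.le (norm_nonneg _)
  linarith

/-- (1): sublevel of `α P / lam + β W / tau` on `C` -/
theorem onC (hI : IsStruct n C R l e c0 L c) {δ : ℝ} {N : ℕ} (hδ : 0 < δ)
    (hδN : δ * 4 ^ N ≤ 1 / 8) {lam tau : ℝ} (hg : Grid N lam tau) {α β : ℝ} (hα : 1 ≤ α)
    (hα2 : α ≤ 2) (hβ : 1 ≤ β) (hβ2 : β ≤ 2) {X : WW m D} (hX : X ∈ C) {q : ℝ}
    (h : α * pF m l δ X / lam + β * wF m l δ X / tau ≤ q) :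
    X.2.2 ≤ 4 / 3 * q * lam ∧ l X.2.1 ≤ 4 / 3 * q * tau ∧
      -(2 * δ * (4 / 3 * q * tau)) ≤ pF m l δ X ∧ -(2 * δ * (4 / 3 * q * lam)) ≤ wF m l δ X := by
  have hδ8 : δ ≤ 1 / 8 := by
    have : (1 : ℝ) ≤ 4 ^ N := one_le_pow₀ (by norm_num)
    nlinarith
  obtain ⟨h1, h2⟩ := hg.pos
  obtain ⟨h3, h4⟩ := hg.dl hδ hδN
  obtain ⟨h5, h6⟩ := inv_bd hδ hδ8
  have hz := (hI.le X hX).2
  have hl := l_nonneg hI hX
  rw [pF_apply, wF_apply] at *
  set i : ℝ := 1 / (1 - δ ^ 2) with hi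
  set z : ℝ := X.2.2
  set w : ℝ := l X.2.1
  have hi1 : 1 ≤ i := by
    rw [hi, le_div_iff₀ (by nlinarith)]
    nlinarith
  -- `α (z - δ w)/lam + β (w - δ z)/tau ≥ (3/4) (z/lam + w/tau)`
  have k1 : δ * w * α / lam ≤ 1 / 4 * (w / tau) := by
    rw [div_le_iff₀ h1]
    have e1 : 1 / 4 * (w / tau) * lam = w * (lam / (4 * tau)) := by
      field_simp
    rw [e1]
    have e2 : δ * α ≤ lam / (4 * tau) := by
      rw [le_div_iff₀ (by positivity)]
      nlinarith
    nlinarith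
  have k2 : δ * z * β / tau ≤ 1 / 4 * (z / lam) := by
    rw [div_le_iff₀ h2]
    have e1 : 1 / 4 * (z / lam) * tau = z * (tau / (4 * lam)) := by
      field_simp
    rw [e1]
    have e2 : δ * β ≤ tau / (4 * lam) := by
      rw [le_div_iff₀ (by positivity)]
      nlinarith
    nlinarith
  have k3 : z / lam ≤ α * z / lam := by
    rw [mul_div_assoc]
    have : 0 ≤ z / lam := by positivity
    nlinarith
  have k4 : w / tau ≤ β * w / tau := by
    rw [mul_div_assoc]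
    have : 0 ≤ w / tau := by positivity
    nlinarith
  have k5 : 3 / 4 * (z / lam + w / tau) ≤ α * (z - δ * w) / lam + β * (w - δ * z) / tau := by
    have e1 : α * (z - δ * w) / lam + β * (w - δ * z) / tau
        = α * z / lam - δ * w * α / lam + (β * w / tau - δ * z * β / tau) := by ring
    rw [e1]
    linarith
  have k6 : 3 / 4 * (z / lam + w / tau) ≤ q := by
    have hs : 0 ≤ 3 / 4 * (z / lam + w / tau) := by positivity
    have e1 : α * (i * (z - δ * w)) / lam + β * (i * (w - δ * z)) / tau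
        = i * (α * (z - δ * w) / lam + β * (w - δ * z) / tau) := by ring
    rw [e1] at h
    refine le_trans ?_ h
    calc 3 / 4 * (z / lam + w / tau) ≤ 1 * (α * (z - δ * w) / lam + β * (w - δ * z) / tau) := by
          rw [one_mul]; exact k5
      _ ≤ i * (α * (z - δ * w) / lam + β * (w - δ * z) / tau) := by
          have := hs.trans k5
          gcongr
  have kz : z ≤ 4 / 3 * q * lam := by
    have : z / lam ≤ 4 / 3 * q := by
      have : 0 ≤ w / tau := by positivity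
      linarith
    rwa [div_le_iff₀ h1] at this
  have kw : w ≤ 4 / 3 * q * tau := by
    have : w / tau ≤ 4 / 3 * q := by
      have : 0 ≤ z / lam := by positivity
      linarith
    rwa [div_le_iff₀ h2] at this
  refine ⟨kz, kw, ?_, ?_⟩
  · have e1 : i * (z - δ * w) = i * z - i * (δ * w) := by ring
    rw [e1]
    have e2 : 0 ≤ i * z := by positivity
    have e3 : i * (δ * w) ≤ 2 * (δ * (4 / 3 * q * tau)) := by gcongr
    linarith
  · have e1 : i * (w - δ * z) = i * w - i * (δ * z) := by ring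
    rw [e1]
    have e2 : 0 ≤ i * w := by positivity
    have e3 : i * (δ * z) ≤ 2 * (δ * (4 / 3 * q * lam)) := by gcongr
    linarith

/-- (5) -/
theorem Qlt {Θ K L2 L3 ρ : ℝ} {nr : ℝ → ℝ → Seminorm ℝ (WW m D)} (hl : l e = 1)
    (hG : Geo C l e Θ K L2 L3 ρ nr) (hL3 : 1 ≤ L3) (hΘ : 18 * (L3 + 2) ≤ Θ) (hρ : 0 < ρ)
    (hρ1 : ρ ≤ 1) (hρl : ρ * ‖l‖ ≤ 1) {δ : ℝ} {N : ℕ} (hδ : 0 < δ)
    (hδN : δ * 4 ^ N ≤ 1 / 8) {lam tau : ℝ} (hg : Grid N lam tau) {v : WW m D}
    (hv : nr lam tau v ≤ ρ) :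
    pF m l δ (L3 • est m e lam tau + v) / lam + wF m l δ (L3 • est m e lam tau + v) / tau
      < Θ / 8 := by
  have hδ8 : δ ≤ 1 / 8 := by
    have : (1 : ℝ) ≤ 4 ^ N := one_le_pow₀ (by norm_num)
    nlinarith
  obtain ⟨h1, h2⟩ := hg.pos
  obtain ⟨h3, h4⟩ := hg.dl hδ hδN
  obtain ⟨h5, h6⟩ := inv_bd hδ hδ8
  have hi : 1 / (1 - δ ^ 2) ≤ 16 / 15 := by
    rw [div_le_div_iff₀ (by nlinarith) (by norm_num)]
    nlinarith
  have hy : ‖v.2.1‖ ≤ tau * ρ := (hG.y_le lam tau h1 h2 v).trans (by gcongr)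
  have hz : |v.2.2| ≤ lam * ρ := (hG.z_le lam tau h1 h2 v).trans (by gcongr)
  have hly : |l v.2.1| ≤ tau := by
    calc |l v.2.1| ≤ ‖l‖ * ‖v.2.1‖ := l.le_opNorm _
      _ ≤ ‖l‖ * (tau * ρ) := by gcongr
      _ = tau * (ρ * ‖l‖) := by ring
      _ ≤ tau * 1 := by gcongr
      _ = tau := mul_one _
  have hz1 : |v.2.2| ≤ lam := hz.trans (by nlinarith)
  rw [abs_le] at hly hz1
  have e1 : pF m l δ (L3 • est m e lam tau + v) ≤ 16 / 15 * (L3 + 2) * lam := by
    rw [pF_apply]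
    simp only [est, Prod.smul_snd, Prod.smul_fst, Prod.snd_add, Prod.fst_add, map_add, map_smul, hl,
      smul_eq_mul, mul_one]
    have e2 : L3 * lam + v.2.2 - δ * (L3 * tau + l v.2.1) ≤ (L3 + 2) * lam := by
      have e3 : -(δ * l v.2.1) ≤ lam := by nlinarith
      have e4 : 0 ≤ δ * (L3 * tau) := by positivity
      linarith
    have e5 : 0 ≤ (L3 + 2) * lam := by positivity
    calc 1 / (1 - δ ^ 2) * (L3 * lam + v.2.2 - δ * (L3 * tau + l v.2.1))
        ≤ 1 / (1 - δ ^ 2) * ((L3 + 2) * lam) := by gcongr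
      _ ≤ 16 / 15 * ((L3 + 2) * lam) := by gcongr
      _ = _ := by ring
  have e2 : wF m l δ (L3 • est m e lam tau + v) ≤ 16 / 15 * (L3 + 2) * tau := by
    rw [wF_apply]
    simp only [est, Prod.smul_snd, Prod.smul_fst, Prod.snd_add, Prod.fst_add, map_add, map_smul, hl,
      smul_eq_mul, mul_one]
    have e2 : L3 * tau + l v.2.1 - δ * (L3 * lam + v.2.2) ≤ (L3 + 2) * tau := by
      have e3 : -(δ * v.2.2) ≤ tau := by nlinarith
      have e4 : 0 ≤ δ * (L3 * lam) := by positivity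
      linarith
    have e5 : 0 ≤ (L3 + 2) * tau := by positivity
    calc 1 / (1 - δ ^ 2) * (L3 * tau + l v.2.1 - δ * (L3 * lam + v.2.2))
        ≤ 1 / (1 - δ ^ 2) * ((L3 + 2) * tau) := by gcongr
      _ ≤ 16 / 15 * ((L3 + 2) * tau) := by gcongr
      _ = _ := by ring
  have e3 : pF m l δ (L3 • est m e lam tau + v) / lam ≤ 16 / 15 * (L3 + 2) := by
    rwa [div_le_iff₀ h1]
  have e4 : wF m l δ (L3 • est m e lam tau + v) / tau ≤ 16 / 15 * (L3 + 2) := by
    rwa [div_le_iff₀ h2]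
  linarith

/-- adding `R × R₊` -/
theorem addC (hI : IsStruct n C R l e c0 L c) {X : WW m D} (hX : X ∈ C) {a b : ℝ} (ha : 0 ≤ a)
    (hb : 0 ≤ b) : X + ((0 : EE m), a • e, b) ∈ C :=
  hI.add X hX _ (hI.cone.R_smul _ (interior_subset hI.cone.e_int) a ha) b hb

/-- depth in `C` along `e_*`, any constant `≥ L2` -/
theorem dpL (hI : IsStruct n C R l e c0 L c) {Θ K L2 L3 ρ : ℝ}
    {nr : ℝ → ℝ → Seminorm ℝ (WW m D)} (hG : Geo C l e Θ K L2 L3 ρ nr) {LL : ℝ} (hLL : L2 ≤ LL)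
    {lam tau : ℝ} (h1 : 0 < lam) (h2 : 0 < tau) {X : WW m D} (hX : X ∈ C)
    (hy : l X.2.1 ≤ 2 * Θ * tau) (hz : X.2.2 ≤ 2 * Θ * lam) {v : WW m D} (hv : nr lam tau v ≤ ρ) :
    X + LL • est m e lam tau + v ∈ C := by
  have h3 := addC hI (hG.dp lam tau h1 h2 X hX hy hz v hv) (a := (LL - L2) * tau)
    (b := (LL - L2) * lam) (mul_nonneg (by linarith) h2.le) (mul_nonneg (by linarith) h1.le)
  have e1 : X + L2 • est m e lam tau + v + ((0 : EE m), ((LL - L2) * tau) • e, (LL - L2) * lam)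
      = X + LL • est m e lam tau + v := by
    have : LL • est m e lam tau = L2 • est m e lam tau
        + ((0 : EE m), ((LL - L2) * tau) • e, (LL - L2) * lam) := by
      simp only [est, Prod.smul_mk, smul_zero, smul_eq_mul, Prod.mk_add_mk, add_zero, smul_smul,
        ← add_smul]
      congr 2
      · congr 1
        ring
      · ring
    rw [this]
    abel
  rwa [e1] at h3

/-- depth in `C` along `e_P` -/
theorem dpP (hI : IsStruct n C R l e c0 L c) {Θ K L2 L3 ρ : ℝ}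
    {nr : ℝ → ℝ → Seminorm ℝ (WW m D)} (hG : Geo C l e Θ K L2 L3 ρ nr) {δ S : ℝ}
    {lam tau : ℝ} (h1 : 0 < lam) (h2 : 0 < tau) (hS1 : L2 * tau ≤ S * δ) (hS2 : L2 * lam ≤ S)
    {X : WW m D} (hX : X ∈ C)
    (hy : l X.2.1 ≤ 2 * Θ * tau) (hz : X.2.2 ≤ 2 * Θ * lam) {v : WW m D} (hv : nr lam tau v ≤ ρ) :
    X + S • wP m e δ + v ∈ C := by
  have h3 := addC hI (hG.dp lam tau h1 h2 X hX hy hz v hv) (a := S * δ - L2 * tau)
    (b := S - L2 * lam) (by linarith) (by linarith)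
  have e1 : X + L2 • est m e lam tau + v + ((0 : EE m), (S * δ - L2 * tau) • e, S - L2 * lam)
      = X + S • wP m e δ + v := by
    have : S • wP m e δ = L2 • est m e lam tau
        + ((0 : EE m), (S * δ - L2 * tau) • e, S - L2 * lam) := by
      simp only [wP, est, Prod.smul_mk, smul_zero, smul_eq_mul, Prod.mk_add_mk, add_zero, smul_smul,
        ← add_smul, mul_one]
      congr 2
      · congr 1
        ring
      · ring
    rw [this]
    abel
  rwa [e1] at h3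

/-- depth in `C` along `e_W` -/
theorem dpW (hI : IsStruct n C R l e c0 L c) {Θ K L2 L3 ρ : ℝ}
    {nr : ℝ → ℝ → Seminorm ℝ (WW m D)} (hG : Geo C l e Θ K L2 L3 ρ nr) {δ S : ℝ}
    {lam tau : ℝ} (h1 : 0 < lam) (h2 : 0 < tau) (hS1 : L2 * lam ≤ S * δ) (hS2 : L2 * tau ≤ S)
    {X : WW m D} (hX : X ∈ C)
    (hy : l X.2.1 ≤ 2 * Θ * tau) (hz : X.2.2 ≤ 2 * Θ * lam) {v : WW m D} (hv : nr lam tau v ≤ ρ) :
    X + S • wW m e δ + v ∈ C := by
  have h3 := addC hI (hG.dp lam tau h1 h2 X hX hy hz v hv) (a := S - L2 * tau)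
    (b := S * δ - L2 * lam) (by linarith) (by linarith)
  have e1 : X + L2 • est m e lam tau + v + ((0 : EE m), (S - L2 * tau) • e, S * δ - L2 * lam)
      = X + S • wW m e δ + v := by
    have : S • wW m e δ = L2 • est m e lam tau
        + ((0 : EE m), (S - L2 * tau) • e, S * δ - L2 * lam) := by
      simp only [wW, est, Prod.smul_mk, smul_zero, smul_eq_mul, Prod.mk_add_mk, add_zero, smul_smul,
        ← add_smul]
      congr 2
      · congr 1
        ring
      · ring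
    rw [this]
    abel
  rwa [e1] at h3

end Crest.Agent.R236.B
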