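import Crest.Agent.R236.BApxW1

/-! Row 236, Part B, B1: uniform norm equivalence on the grid (helper660) -/

set_option autoImplicit false
open scoped ContDiff Topology
open Set Filter

noncomputable section

namespace Crest.Agent.R236.B

open Crest.Agent.R236.A (EE epi SOL STRUCT IsStruct ConeData Appr)

/-- uniform equivalence of a finite family of definite seminorms with the norm -/
theorem exists_M {V : Type*} [NormedAddCommGroup V] [NormedSpace ℝ V] [FiniteDimensional ℝ V]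
    (nr : ℝ → ℝ → Seminorm ℝ V)
    (hd : ∀ lam tau : ℝ, 0 < lam → 0 < tau → ∀ v, nr lam tau v = 0 → v = 0) (N : ℕ) :
    ∃ M : ℝ, 1 ≤ M ∧ ∀ lam tau, Grid N lam tau → ∀ v, nr lam tau v ≤ M * ‖v‖ ∧
      ‖v‖ ≤ M * nr lam tau v := by
  have key : ∀ ab : ℤ × ℤ, ∃ M : ℝ, 0 < M ∧ ∀ v,
      nr ((2:ℝ) ^ ab.1) ((2:ℝ) ^ ab.2) v ≤ M * ‖v‖ ∧
      ‖v‖ ≤ M * nr ((2:ℝ) ^ ab.1) ((2:ℝ) ^ ab.2) v := by
    intro ab
    set p := nr ((2:ℝ) ^ ab.1) ((2:ℝ) ^ ab.2) with hp
    obtain ⟨M1, hM1, h1⟩ := seminorm_dom p (hd _ _ (by positivity) (by positivity))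
    have hcont : Continuous p := by
      have := (p.convexOn).continuousOn isOpen_univ
      exact continuousOn_univ.1 this
    obtain ⟨M2, hM2, h2⟩ := p.bound_of_continuous_normedSpace hcont
    refine ⟨M1 + M2, by positivity, fun v => ⟨?_, ?_⟩⟩
    · calc p v ≤ M2 * ‖v‖ := h2 v
        _ ≤ (M1 + M2) * ‖v‖ := by gcongr; linarith
    · calc ‖v‖ ≤ M1 * p v := h1 v
        _ ≤ (M1 + M2) * p v := by
          have := apply_nonneg p v
          gcongr
          linarith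
  choose M hM hMv using key
  set I : Finset (ℤ × ℤ) := Finset.Icc (-(N:ℤ)) N ×ˢ Finset.Icc (-(N:ℤ)) N with hI
  refine ⟨1 + ∑ ab ∈ I, M ab, ?_, ?_⟩
  · have : 0 ≤ ∑ ab ∈ I, M ab := Finset.sum_nonneg fun ab _ => (hM ab).le
    linarith
  · rintro lam tau ⟨a, b, ha, hb, rfl, rfl⟩ v
    rw [abs_le] at ha hb
    have hmem : (a, b) ∈ I := by
      rw [hI, Finset.mem_product, Finset.mem_Icc, Finset.mem_Icc]
      exact ⟨ha, hb⟩
    have hle : M (a, b) ≤ 1 + ∑ ab ∈ I, M ab := by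
      have := Finset.single_le_sum (f := M) (fun ab _ => (hM ab).le) hmem
      linarith
    obtain ⟨h1, h2⟩ := hMv (a, b) v
    constructor
    · refine h1.trans ?_
      gcongr
    · refine h2.trans ?_
      have := apply_nonneg (nr ((2:ℝ) ^ a) ((2:ℝ) ^ b)) v
      gcongr

end Crest.Agent.R236.B
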