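import Mathlib

/-! Row 236, B4' (helper418): the box energy bound from the energy inequality, abstract form. -/

set_option autoImplicit false
open MeasureTheory Set

namespace Crest.Agent.R236.BCor

/-- one use of the energy inequality: lower bound of the left side, upper bound of the right side. -/
theorem one_phi {X : Type*} [MeasurableSpace X] {μ : Measure X} {f V r A : X → ℝ} {n : ℕ}
    {c q B κ : ℝ} {G D : Set X} (hG : MeasurableSet G) (hD : MeasurableSet D) (hκ : 0 < κ)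
    (hB : 0 ≤ B) {q' : ℝ} (hq' : 0 ≤ q')
    (hVG : ∀ x ∈ G, 0 < V x) (hr : ∀ x, 0 ≤ r x)
    (hVD : ∀ x ∈ D, 0 < V x)
    (hA : ∀ x, 0 ≤ A x)
    (hGf : ∀ x ∈ G, κ ≤ c - f x)
    (hfD : ∀ x, f x < c → x ∈ D)
    (hfB : ∀ x, f x < c → c - f x ≤ B)
    (hfq : ∀ x, f x < c → q - f x ≤ q')
    (hM : IntegrableOn (fun x => V x ^ (-(n : ℝ) / 2) * r x) D μ)
    (h1 : Integrable (fun x => V x ^ (1 - (n : ℝ) / 2) * max (c - f x) 0 * A x) μ)
    (h2 : Integrable (fun x => max (c - f x) 0 ^ 3 * V x ^ (-(n : ℝ) / 2) * r x) μ)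
    (h3 : Integrable (fun x => V x ^ (-(n : ℝ) / 2) * max (c - f x) 0 ^ 2 * (q - f x) * r x) μ)
    (hG1 : IntegrableOn (fun x => V x ^ (1 - (n : ℝ) / 2) * A x) G μ)
    (hE : 6 * ∫ x, V x ^ (1 - (n : ℝ) / 2) * max (c - f x) 0 * A x ∂μ ≤
      n * (1 + (n : ℝ) / 2) * (∫ x, max (c - f x) 0 ^ 3 * V x ^ (-(n : ℝ) / 2) * r x ∂μ) +
      3 * n * ∫ x, V x ^ (-(n : ℝ) / 2) * max (c - f x) 0 ^ 2 * (q - f x) * r x ∂μ) :
    6 * κ * ∫ x in G, V x ^ (1 - (n : ℝ) / 2) * A x ∂μ ≤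
      (n * (1 + (n : ℝ) / 2) * B ^ 3 + 3 * n * (B ^ 2 * q')) *
        ∫ x in D, V x ^ (-(n : ℝ) / 2) * r x ∂μ := by
  have hnn : ∀ x, 0 ≤ V x ^ (1 - (n : ℝ) / 2) * max (c - f x) 0 * A x := by
    intro x
    by_cases hx : f x < c
    · have hV := hVD x (hfD x hx)
      exact mul_nonneg (mul_nonneg (Real.rpow_nonneg hV.le _) (le_max_right _ _)) (hA x)
    · rw [max_eq_right (by linarith)]; simp
  have e1 : κ * ∫ x in G, V x ^ (1 - (n : ℝ) / 2) * A x ∂μ ≤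
      ∫ x, V x ^ (1 - (n : ℝ) / 2) * max (c - f x) 0 * A x ∂μ := by
    rw [← integral_const_mul]
    calc ∫ x in G, κ * (V x ^ (1 - (n : ℝ) / 2) * A x) ∂μ
        ≤ ∫ x in G, V x ^ (1 - (n : ℝ) / 2) * max (c - f x) 0 * A x ∂μ := by
          refine setIntegral_mono_on (hG1.const_mul κ) h1.integrableOn hG ?_
          intro x hx
          have a1 : κ ≤ max (c - f x) 0 := (hGf x hx).trans (le_max_left _ _)
          have a2 : 0 ≤ V x ^ (1 - (n : ℝ) / 2) * A x :=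
            mul_nonneg (Real.rpow_nonneg (hVG x hx).le _) (hA x)
          nlinarith
      _ ≤ ∫ x, V x ^ (1 - (n : ℝ) / 2) * max (c - f x) 0 * A x ∂μ :=
          setIntegral_le_integral h1 (Filter.Eventually.of_forall hnn)
  have hMi : Integrable (D.indicator (fun x => V x ^ (-(n : ℝ) / 2) * r x)) μ :=
    (integrable_indicator_iff hD).mpr hM
  have e2 : ∫ x, max (c - f x) 0 ^ 3 * V x ^ (-(n : ℝ) / 2) * r x ∂μ ≤
      B ^ 3 * ∫ x in D, V x ^ (-(n : ℝ) / 2) * r x ∂μ := by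
    rw [← integral_const_mul, ← integral_indicator hD]
    refine integral_mono h2 ?_ ?_
    · exact (integrable_indicator_iff hD).mpr (hM.const_mul _)
    · intro x
      by_cases hx : f x < c
      · have hxD := hfD x hx
        have hV := hVD x hxD
        simp only [indicator_of_mem hxD]
        rw [max_eq_left (by linarith), mul_assoc]
        refine mul_le_mul_of_nonneg_right ?_ (mul_nonneg (Real.rpow_nonneg hV.le _) (hr x))
        exact pow_le_pow_left₀ (by linarith) (hfB x hx) 3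
      · simp only
        rw [max_eq_right (by linarith)]
        simp only [ne_eq, OfNat.ofNat_ne_zero, not_false_eq_true, zero_pow, zero_mul]
        by_cases hxD : x ∈ D
        · rw [indicator_of_mem hxD]
          have hV := hVD x hxD
          exact mul_nonneg (pow_nonneg hB 3) (mul_nonneg (Real.rpow_nonneg hV.le _) (hr x))
        · rw [indicator_of_notMem hxD]
  have e3 : ∫ x, V x ^ (-(n : ℝ) / 2) * max (c - f x) 0 ^ 2 * (q - f x) * r x ∂μ ≤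
      B ^ 2 * q' * ∫ x in D, V x ^ (-(n : ℝ) / 2) * r x ∂μ := by
    rw [← integral_const_mul, ← integral_indicator hD]
    refine integral_mono h3 ?_ ?_
    · exact (integrable_indicator_iff hD).mpr (hM.const_mul _)
    · intro x
      by_cases hx : f x < c
      · have hxD := hfD x hx
        have hV := hVD x hxD
        simp only [indicator_of_mem hxD]
        rw [max_eq_left (by linarith)]
        have b1 : (c - f x) ^ 2 * (q - f x) ≤ B ^ 2 * q' := by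
          have b2 : (c - f x) ^ 2 ≤ B ^ 2 := pow_le_pow_left₀ (by linarith) (hfB x hx) 2
          have b3 := hfq x hx
          have b4 : 0 ≤ (c - f x) ^ 2 := sq_nonneg _
          calc (c - f x) ^ 2 * (q - f x) ≤ (c - f x) ^ 2 * q' := mul_le_mul_of_nonneg_left b3 b4
            _ ≤ B ^ 2 * q' := mul_le_mul_of_nonneg_right b2 hq'
        have b5 : 0 ≤ V x ^ (-(n : ℝ) / 2) * r x := mul_nonneg (Real.rpow_nonneg hV.le _) (hr x)
        calc V x ^ (-(n : ℝ) / 2) * (c - f x) ^ 2 * (q - f x) * r x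
            = (c - f x) ^ 2 * (q - f x) * (V x ^ (-(n : ℝ) / 2) * r x) := by ring
          _ ≤ B ^ 2 * q' * (V x ^ (-(n : ℝ) / 2) * r x) := mul_le_mul_of_nonneg_right b1 b5
      · simp only
        rw [max_eq_right (by linarith)]
        simp only [ne_eq, OfNat.ofNat_ne_zero, not_false_eq_true, zero_pow, zero_mul, mul_zero]
        by_cases hxD : x ∈ D
        · rw [indicator_of_mem hxD]
          have hV := hVD x hxD
          exact mul_nonneg (mul_nonneg (pow_nonneg hB 2) hq')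
            (mul_nonneg (Real.rpow_nonneg hV.le _) (hr x))
        · rw [indicator_of_notMem hxD]
  have hn : (0 : ℝ) ≤ n := Nat.cast_nonneg n
  have e4 : n * (1 + (n : ℝ) / 2) * (∫ x, max (c - f x) 0 ^ 3 * V x ^ (-(n : ℝ) / 2) * r x ∂μ)
      ≤ n * (1 + (n : ℝ) / 2) * (B ^ 3 * ∫ x in D, V x ^ (-(n : ℝ) / 2) * r x ∂μ) :=
    mul_le_mul_of_nonneg_left e2 (by positivity)
  have e5 : 3 * n * ∫ x, V x ^ (-(n : ℝ) / 2) * max (c - f x) 0 ^ 2 * (q - f x) * r x ∂μ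
      ≤ 3 * n * (B ^ 2 * q' * ∫ x in D, V x ^ (-(n : ℝ) / 2) * r x ∂μ) :=
    mul_le_mul_of_nonneg_left e3 (by positivity)
  calc 6 * κ * ∫ x in G, V x ^ (1 - (n : ℝ) / 2) * A x ∂μ
      = 6 * (κ * ∫ x in G, V x ^ (1 - (n : ℝ) / 2) * A x ∂μ) := by ring
    _ ≤ 6 * ∫ x, V x ^ (1 - (n : ℝ) / 2) * max (c - f x) 0 * A x ∂μ := by linarith
    _ ≤ _ := hE
    _ ≤ n * (1 + (n : ℝ) / 2) * (B ^ 3 * ∫ x in D, V x ^ (-(n : ℝ) / 2) * r x ∂μ)
        + 3 * n * (B ^ 2 * q' * ∫ x in D, V x ^ (-(n : ℝ) / 2) * r x ∂μ) := add_le_add e4 e5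
    _ = _ := by ring

/-- The constant of the box energy bound. -/
noncomputable def Cbox (n : ℕ) (Θ K : ℝ) : ℝ :=
  (26 / 3) * (n * (1 + (n : ℝ) / 2) * Θ ^ 2 + 3 * n * (Θ * (K + Θ)))

/-- box energy bound, abstract form: `p = P/λ`, `w = W/τ`, `A1 = AA(p+w,p+w)`, `A2 = AA(p+2w,p+2w)`,
`Ap = AA(p,p)`, `Aw = AA(w,w)`. -/
theorem box_abstract {X : Type*} [MeasurableSpace X] {μ : Measure X} {p w V r Ap Aw A1 A2 : X → ℝ}
    {n : ℕ} {Θ K ε q1 q2 : ℝ} (hΘ : 0 < Θ) (hε : 0 ≤ ε) (hεΘ : ε ≤ Θ / 16) (hK : 0 ≤ K)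
    (hDm : MeasurableSet {x | p x + w x < Θ}) (hGm : MeasurableSet {x | p x + w x < Θ / 4})
    (hp : ∀ x, p x + w x < Θ → -ε ≤ p x) (hw : ∀ x, p x + w x < Θ → -ε ≤ w x)
    (hV : ∀ x, p x + w x < Θ → 0 < V x) (hr : ∀ x, 0 ≤ r x)
    (hA1 : ∀ x, 0 ≤ A1 x) (hA2 : ∀ x, 0 ≤ A2 x) (hAle : ∀ x, Ap x + Aw x ≤ 10 * A1 x + 4 * A2 x)
    (hw2 : ∀ x, p x + 2 * w x < 3 * Θ / 4 → p x + w x < Θ)
    (hq1 : q1 ≤ K) (hq2 : q2 ≤ K)
    (hM : IntegrableOn (fun x => V x ^ (-(n : ℝ) / 2) * r x) {x | p x + w x < Θ} μ)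
    (h11 : Integrable (fun x => V x ^ (1 - (n : ℝ) / 2) * max (3 * Θ / 4 - (p x + w x)) 0 * A1 x) μ)
    (h12 : Integrable (fun x => max (3 * Θ / 4 - (p x + w x)) 0 ^ 3 * V x ^ (-(n : ℝ) / 2) * r x) μ)
    (h13 : Integrable (fun x => V x ^ (-(n : ℝ) / 2) * max (3 * Θ / 4 - (p x + w x)) 0 ^ 2 *
      (q1 - (p x + w x)) * r x) μ)
    (hE1 : 6 * ∫ x, V x ^ (1 - (n : ℝ) / 2) * max (3 * Θ / 4 - (p x + w x)) 0 * A1 x ∂μ ≤
      n * (1 + (n : ℝ) / 2) *
        (∫ x, max (3 * Θ / 4 - (p x + w x)) 0 ^ 3 * V x ^ (-(n : ℝ) / 2) * r x ∂μ) +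
      3 * n * ∫ x, V x ^ (-(n : ℝ) / 2) * max (3 * Θ / 4 - (p x + w x)) 0 ^ 2 *
        (q1 - (p x + w x)) * r x ∂μ)
    (h21 : Integrable (fun x => V x ^ (1 - (n : ℝ) / 2) *
      max (3 * Θ / 4 - (p x + 2 * w x)) 0 * A2 x) μ)
    (h22 : Integrable (fun x => max (3 * Θ / 4 - (p x + 2 * w x)) 0 ^ 3 *
      V x ^ (-(n : ℝ) / 2) * r x) μ)
    (h23 : Integrable (fun x => V x ^ (-(n : ℝ) / 2) * max (3 * Θ / 4 - (p x + 2 * w x)) 0 ^ 2 *
      (q2 - (p x + 2 * w x)) * r x) μ)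
    (hE2 : 6 * ∫ x, V x ^ (1 - (n : ℝ) / 2) * max (3 * Θ / 4 - (p x + 2 * w x)) 0 * A2 x ∂μ ≤
      n * (1 + (n : ℝ) / 2) *
        (∫ x, max (3 * Θ / 4 - (p x + 2 * w x)) 0 ^ 3 * V x ^ (-(n : ℝ) / 2) * r x ∂μ) +
      3 * n * ∫ x, V x ^ (-(n : ℝ) / 2) * max (3 * Θ / 4 - (p x + 2 * w x)) 0 ^ 2 *
        (q2 - (p x + 2 * w x)) * r x ∂μ)
    (hG1 : IntegrableOn (fun x => V x ^ (1 - (n : ℝ) / 2) * A1 x) {x | p x + w x < Θ / 4} μ)
    (hG2 : IntegrableOn (fun x => V x ^ (1 - (n : ℝ) / 2) * A2 x) {x | p x + w x < Θ / 4} μ)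
    (hG3 : IntegrableOn (fun x => V x ^ (1 - (n : ℝ) / 2) * (Ap x + Aw x))
      {x | p x + w x < Θ / 4} μ) :
    ∫ x in {x | p x + w x < Θ / 4}, V x ^ (1 - (n : ℝ) / 2) * (Ap x + Aw x) ∂μ ≤
      Cbox n Θ K * ∫ x in {x | p x + w x < Θ}, V x ^ (-(n : ℝ) / 2) * r x ∂μ := by
  have hVG : ∀ x ∈ {x | p x + w x < Θ / 4}, 0 < V x := fun x hx => hV x (by
    have : p x + w x < Θ / 4 := hx
    linarith)
  have hMnn : 0 ≤ ∫ x in {x | p x + w x < Θ}, V x ^ (-(n : ℝ) / 2) * r x ∂μ := by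
    refine setIntegral_nonneg hDm ?_
    intro x hx
    exact mul_nonneg (Real.rpow_nonneg (hV x hx).le _) (hr x)
  have E1 := one_phi (μ := μ) (f := fun x => p x + w x) (V := V) (r := r) (A := A1) (n := n)
    (c := 3 * Θ / 4) (q := q1) (B := Θ) (κ := Θ / 2) (q' := K + Θ) hGm hDm (by linarith) hΘ.le
    (by linarith) hVG hr (fun x hx => hV x hx) hA1
    (fun x hx => by have : p x + w x < Θ / 4 := hx; linarith)
    (fun x hx => by show p x + w x < Θ; linarith)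
    (fun x hx => by
      have a := hp x (by linarith); have b := hw x (by linarith); linarith)
    (fun x hx => by
      have a := hp x (by linarith); have b := hw x (by linarith); linarith)
    hM h11 h12 h13 hG1 hE1
  have E2 := one_phi (μ := μ) (f := fun x => p x + 2 * w x) (V := V) (r := r) (A := A2) (n := n)
    (c := 3 * Θ / 4) (q := q2) (B := Θ) (κ := Θ / 8) (q' := K + Θ) hGm hDm (by linarith) hΘ.le
    (by linarith) hVG hr (fun x hx => hV x hx) hA2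
    (fun x hx => by
      have hx' : p x + w x < Θ / 4 := hx
      have a := hp x (by linarith)
      linarith)
    (fun x hx => hw2 x hx)
    (fun x hx => by
      have hx' := hw2 x hx
      have a := hp x hx'; have b := hw x hx'; linarith)
    (fun x hx => by
      have hx' := hw2 x hx
      have a := hp x hx'; have b := hw x hx'; linarith)
    hM h21 h22 h23 hG2 hE2
  set M := ∫ x in {x | p x + w x < Θ}, V x ^ (-(n : ℝ) / 2) * r x ∂μ with hMdef
  set I1 := ∫ x in {x | p x + w x < Θ / 4}, V x ^ (1 - (n : ℝ) / 2) * A1 x ∂μ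
  set I2 := ∫ x in {x | p x + w x < Θ / 4}, V x ^ (1 - (n : ℝ) / 2) * A2 x ∂μ
  have h3 : ∫ x in {x | p x + w x < Θ / 4}, V x ^ (1 - (n : ℝ) / 2) * (Ap x + Aw x) ∂μ
      ≤ 10 * I1 + 4 * I2 := by
    have : 10 * I1 + 4 * I2 = ∫ x in {x | p x + w x < Θ / 4},
        (10 * (V x ^ (1 - (n : ℝ) / 2) * A1 x) + 4 * (V x ^ (1 - (n : ℝ) / 2) * A2 x)) ∂μ := by
      rw [integral_add (hG1.const_mul 10) (hG2.const_mul 4), integral_const_mul,
        integral_const_mul]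
    rw [this]
    refine setIntegral_mono_on hG3 ((hG1.const_mul 10).add (hG2.const_mul 4)) hGm ?_
    intro x hx
    have a1 := hAle x
    have a2 : 0 ≤ V x ^ (1 - (n : ℝ) / 2) := Real.rpow_nonneg (hVG x hx).le _
    calc V x ^ (1 - (n : ℝ) / 2) * (Ap x + Aw x)
        ≤ V x ^ (1 - (n : ℝ) / 2) * (10 * A1 x + 4 * A2 x) := mul_le_mul_of_nonneg_left a1 a2
      _ = _ := by ring
  have h4 : 10 * I1 + 4 * I2 ≤ Cbox n Θ K * M := by
    have e1 : 10 * I1 ≤ 10 / (3 * Θ) *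
        ((n * (1 + (n : ℝ) / 2) * Θ ^ 3 + 3 * n * (Θ ^ 2 * (K + Θ))) * M) := by
      rw [div_mul_eq_mul_div, le_div_iff₀ (by positivity)]
      linarith
    have e2 : 4 * I2 ≤ 16 / (3 * Θ) *
        ((n * (1 + (n : ℝ) / 2) * Θ ^ 3 + 3 * n * (Θ ^ 2 * (K + Θ))) * M) := by
      rw [div_mul_eq_mul_div, le_div_iff₀ (by positivity)]
      linarith
    have e3 : 10 / (3 * Θ) * ((n * (1 + (n : ℝ) / 2) * Θ ^ 3 + 3 * n * (Θ ^ 2 * (K + Θ))) * M)
        + 16 / (3 * Θ) * ((n * (1 + (n : ℝ) / 2) * Θ ^ 3 + 3 * n * (Θ ^ 2 * (K + Θ))) * M)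
        = Cbox n Θ K * M := by
      unfold Cbox
      field_simp
      ring
    linarith
  linarith

end Crest.Agent.R236.BCor
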