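import Crest.Agent.R236.BCor
import Crest.Agent.R236.P1

/-! Row 236, B4' (helper418): the box energy bound for a solution (affine functionals `P`, `W`
pulled back to the graph), from the one-functional energy inequality. -/

set_option autoImplicit false
open MeasureTheory Set
open Crest.GeometryTopology.CoordMetric Crest.GeometryTopology.AffineMaximal

namespace Crest.Agent.R236.BCor

variable {n : ℕ}

/-- `Σ A i j ∂ᵢf ∂ⱼg` -/
noncomputable def bil (A : EuclideanSpace ℝ (Fin n) → Matrix (Fin n) (Fin n) ℝ)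
    (f g : EuclideanSpace ℝ (Fin n) → ℝ) (x : EuclideanSpace ℝ (Fin n)) : ℝ :=
  ∑ i, ∑ j, A x i j * pderiv i f x * pderiv j g x

/-- quadratic form of a matrix -/
theorem quad_nonneg {A : Matrix (Fin n) (Fin n) ℝ} (hA : A.PosSemidef) (v : Fin n → ℝ) :
    0 ≤ ∑ i, ∑ j, A i j * v i * v j := by
  have h := hA.dotProduct_mulVec_nonneg v
  simp only [star_trivial, dotProduct, Matrix.mulVec] at h
  refine h.trans_eq ?_
  refine Finset.sum_congr rfl fun i _ => ?_
  rw [Finset.mul_sum]
  refine Finset.sum_congr rfl fun j _ => ?_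
  ring

theorem quad_ineq {A : Matrix (Fin n) (Fin n) ℝ} (hA : A.PosSemidef) (v w : Fin n → ℝ) :
    (∑ i, ∑ j, A i j * v i * v j) + (∑ i, ∑ j, A i j * w i * w j) ≤
      10 * (∑ i, ∑ j, A i j * (v i + w i) * (v j + w j)) +
      4 * (∑ i, ∑ j, A i j * (v i + 2 * w i) * (v j + 2 * w j)) := by
  have h1 := quad_nonneg hA (fun i => 2 * v i + 3 * w i)
  have h2 := quad_nonneg hA (fun i => 3 * v i + 4 * w i)
  have key : 10 * (∑ i, ∑ j, A i j * (v i + w i) * (v j + w j)) +
      4 * (∑ i, ∑ j, A i j * (v i + 2 * w i) * (v j + 2 * w j))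
      - ((∑ i, ∑ j, A i j * v i * v j) + (∑ i, ∑ j, A i j * w i * w j))
      = (∑ i, ∑ j, A i j * (2 * v i + 3 * w i) * (2 * v j + 3 * w j)) +
        (∑ i, ∑ j, A i j * (3 * v i + 4 * w i) * (3 * v j + 4 * w j)) := by
    simp only [Finset.mul_sum, ← Finset.sum_add_distrib, ← Finset.sum_sub_distrib]
    refine Finset.sum_congr rfl fun i _ => Finset.sum_congr rfl fun j _ => ?_
    ring
  linarith

theorem pderiv_comb {P W : EuclideanSpace ℝ (Fin n) → ℝ} {x : EuclideanSpace ℝ (Fin n)}
    (hP : DifferentiableAt ℝ P x) (hW : DifferentiableAt ℝ W x) (s t : ℝ) (i : Fin n) :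
    pderiv i (fun y => s * P y + t * W y) x = s * pderiv i P x + t * pderiv i W x := by
  unfold pderiv
  rw [fderiv_fun_add (hP.const_mul s) (hW.const_mul t), fderiv_const_mul hP, fderiv_const_mul hW]
  simp

theorem bil_comb {A : EuclideanSpace ℝ (Fin n) → Matrix (Fin n) (Fin n) ℝ}
    {P W : EuclideanSpace ℝ (Fin n) → ℝ} {x : EuclideanSpace ℝ (Fin n)}
    (hA : (A x).PosSemidef)
    (hP : DifferentiableAt ℝ P x) (hW : DifferentiableAt ℝ W x) (s t : ℝ) :
    s ^ 2 * bil A P P x + t ^ 2 * bil A W W x ≤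
      10 * bil A (fun y => s * P y + t * W y) (fun y => s * P y + t * W y) x +
      4 * bil A (fun y => s * P y + (2 * t) * W y) (fun y => s * P y + (2 * t) * W y) x := by
  have h := quad_ineq hA (fun i => s * pderiv i P x) (fun i => t * pderiv i W x)
  unfold bil
  simp only [pderiv_comb hP hW]
  refine le_trans (le_of_eq ?_) (h.trans (le_of_eq ?_))
  · rw [Finset.mul_sum, Finset.mul_sum, ← Finset.sum_add_distrib, ← Finset.sum_add_distrib]
    refine Finset.sum_congr rfl fun i _ => ?_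
    rw [Finset.mul_sum, Finset.mul_sum, ← Finset.sum_add_distrib, ← Finset.sum_add_distrib]
    refine Finset.sum_congr rfl fun j _ => ?_
    ring
  · simp only [mul_assoc]

theorem bil_nonneg {A : EuclideanSpace ℝ (Fin n) → Matrix (Fin n) (Fin n) ℝ}
    {f : EuclideanSpace ℝ (Fin n) → ℝ} {x : EuclideanSpace ℝ (Fin n)} (hA : (A x).PosSemidef) :
    0 ≤ bil A f f x := quad_nonneg hA _

theorem bil_continuousOn {Ω : Set (EuclideanSpace ℝ (Fin n))} (hΩ : IsOpen Ω)
    {A : EuclideanSpace ℝ (Fin n) → Matrix (Fin n) (Fin n) ℝ}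
    (hAc : ∀ i j, ContinuousOn (fun x => A x i j) Ω)
    {f g : EuclideanSpace ℝ (Fin n) → ℝ} (hf : ContDiffOn ℝ 1 f Ω) (hg : ContDiffOn ℝ 1 g Ω) :
    ContinuousOn (bil A f g) Ω := by
  have h1 : ∀ {f : EuclideanSpace ℝ (Fin n) → ℝ}, ContDiffOn ℝ 1 f Ω → ∀ i,
      ContinuousOn (pderiv i f) Ω := fun hf i =>
    (hf.continuousOn_fderiv_of_isOpen hΩ le_rfl).clm_apply continuousOn_const
  exact continuousOn_finset_sum _ fun i _ => continuousOn_finset_sum _ fun j _ =>
    ((hAc i j).mul (h1 hf i)).mul (h1 hg j)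

/-- The one-functional energy inequality for `f` (with value `q` at the point `Q`) at level `c`. -/
structure EnIneq (Ω : Set (EuclideanSpace ℝ (Fin n)))
    (A : EuclideanSpace ℝ (Fin n) → Matrix (Fin n) (Fin n) ℝ)
    (V r f : EuclideanSpace ℝ (Fin n) → ℝ) (q c : ℝ) : Prop where
  int1 : IntegrableOn (fun x => V x ^ (1 - (n : ℝ) / 2) * max (c - f x) 0 * bil A f f x) Ω
  int2 : IntegrableOn (fun x => max (c - f x) 0 ^ 3 * V x ^ (-(n : ℝ) / 2) * r x) Ω
  int3 : IntegrableOn (fun x => V x ^ (-(n : ℝ) / 2) * max (c - f x) 0 ^ 2 * (q - f x) * r x) Ω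
  ineq : 6 * ∫ x in Ω, V x ^ (1 - (n : ℝ) / 2) * max (c - f x) 0 * bil A f f x ≤
      n * (1 + (n : ℝ) / 2) * (∫ x in Ω, max (c - f x) 0 ^ 3 * V x ^ (-(n : ℝ) / 2) * r x) +
      3 * n * ∫ x in Ω, V x ^ (-(n : ℝ) / 2) * max (c - f x) 0 ^ 2 * (q - f x) * r x

/-- indicator rewriting of an integral over `Ω` -/
theorem restr_int {Ω : Set (EuclideanSpace ℝ (Fin n))} (hΩ : MeasurableSet Ω)
    {F G : EuclideanSpace ℝ (Fin n) → ℝ} (hF : ∀ x ∈ Ω, G x = F x) (hG : ∀ x ∉ Ω, G x = 0)
    (hi : IntegrableOn F Ω) : Integrable G ∧ ∫ x, G x = ∫ x in Ω, F x := by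
  have h1 : G = Ω.indicator F := by
    ext x
    by_cases hx : x ∈ Ω
    · rw [indicator_of_mem hx, hF x hx]
    · rw [indicator_of_notMem hx, hG x hx]
  rw [h1]
  exact ⟨(integrable_indicator_iff hΩ).mpr hi, integral_indicator hΩ⟩

/-- the box energy bound -/
theorem energy_box {Ω : Set (EuclideanSpace ℝ (Fin n))} (hΩ : IsOpen Ω)
    {A : EuclideanSpace ℝ (Fin n) → Matrix (Fin n) (Fin n) ℝ}
    (hA : ∀ x ∈ Ω, (A x).PosSemidef) (hAc : ∀ i j, ContinuousOn (fun x => A x i j) Ω)
    {P W V r : EuclideanSpace ℝ (Fin n) → ℝ} (hP : ContDiffOn ℝ 1 P Ω) (hW : ContDiffOn ℝ 1 W Ω)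
    (hVc : ContinuousOn V Ω) (hrc : ContinuousOn r Ω) (hr : ∀ x ∈ Ω, 0 ≤ r x)
    {lam tau Θ K ε qP qW M0 : ℝ} (hlam : 0 < lam) (htau : 0 < tau) (hΘ : 0 < Θ) (hε : 0 ≤ ε)
    (hεΘ : ε ≤ Θ / 16) (hK : 0 ≤ K)
    (hD : IsCompact (closure {x | x ∈ Ω ∧ P x / lam + W x / tau < Θ}))
    (hDΩ : closure {x | x ∈ Ω ∧ P x / lam + W x / tau < Θ} ⊆ Ω)
    (hVD : ∀ x ∈ Ω, P x / lam + W x / tau < Θ → 0 < V x)
    (hp : ∀ x ∈ Ω, P x / lam + W x / tau < Θ → -ε ≤ P x / lam)
    (hw : ∀ x ∈ Ω, P x / lam + W x / tau < Θ → -ε ≤ W x / tau)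
    (hw2 : ∀ x ∈ Ω, P x / lam + 2 * (W x / tau) ≤ 3 * Θ / 4 → P x / lam + W x / tau < Θ)
    (hq1 : qP / lam + qW / tau ≤ K) (hq2 : qP / lam + 2 * (qW / tau) ≤ K)
    (EN : ∀ s t c : ℝ, IsCompact (closure {x | x ∈ Ω ∧ s * P x + t * W x < c}) →
      closure {x | x ∈ Ω ∧ s * P x + t * W x < c} ⊆ Ω →
      (∀ x ∈ closure {x | x ∈ Ω ∧ s * P x + t * W x < c}, 0 < V x) →
      EnIneq Ω A V r (fun x => s * P x + t * W x) (s * qP + t * qW) c)
    (hM0 : 0 ≤ M0)
    (hM : ∫⁻ x in {x | x ∈ Ω ∧ P x / lam + W x / tau < Θ},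
      ENNReal.ofReal (V x ^ (-(n : ℝ) / 2) * r x) ≤ ENNReal.ofReal M0) :
    ∫⁻ x in {x | x ∈ Ω ∧ P x / lam + W x / tau < Θ / 4},
      ENNReal.ofReal (V x ^ (1 - (n : ℝ) / 2) * (bil A P P x / lam ^ 2 + bil A W W x / tau ^ 2))
      ≤ ENNReal.ofReal (Cbox n Θ K * M0) := by
  classical
  have hPc : ContinuousOn P Ω := hP.continuousOn
  have hWc : ContinuousOn W Ω := hW.continuousOn
  have hφc : ContinuousOn (fun x => P x / lam + W x / tau) Ω :=
    (hPc.div_const _).add (hWc.div_const _)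
  have hφ2c : ContinuousOn (fun x => P x / lam + 2 * (W x / tau)) Ω :=
    (hPc.div_const _).add (continuousOn_const.mul (hWc.div_const _))
  set D : Set (EuclideanSpace ℝ (Fin n)) := {x | x ∈ Ω ∧ P x / lam + W x / tau < Θ} with hDdef
  set G : Set (EuclideanSpace ℝ (Fin n)) := {x | x ∈ Ω ∧ P x / lam + W x / tau < Θ / 4} with hGdef
  have hDo : IsOpen D := hφc.isOpen_inter_preimage hΩ isOpen_Iio
  have hGo : IsOpen G := hφc.isOpen_inter_preimage hΩ isOpen_Iio
  have hGD : G ⊆ D := fun x hx => ⟨hx.1, by have := hx.2; linarith⟩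
  -- closures of sublevels
  have hcl : ∀ (f : EuclideanSpace ℝ (Fin n) → ℝ) (c c' : ℝ), ContinuousOn f Ω → c ≤ c' →
      (∀ x ∈ Ω, f x ≤ c' → P x / lam + W x / tau < Θ) →
      closure {x | x ∈ Ω ∧ f x < c} ⊆ D ∧ IsCompact (closure {x | x ∈ Ω ∧ f x < c}) := by
    intro f c c' hf hcc' hfD
    have h0 : {x | x ∈ Ω ∧ f x < c} ⊆ D := fun x hx => ⟨hx.1, hfD x hx.1 (by have := hx.2; linarith)⟩
    have h1 : closure {x | x ∈ Ω ∧ f x < c} ⊆ closure D := closure_mono h0
    refine ⟨fun x hx => ?_, hD.of_isClosed_subset isClosed_closure h1⟩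
    have hxΩ := hDΩ (h1 hx)
    refine ⟨hxΩ, hfD x hxΩ ?_⟩
    have h2 : f x ∈ closure (Iio c) := by
      have h3 : ContinuousWithinAt f {x | x ∈ Ω ∧ f x < c} x :=
        (hf x hxΩ).mono (fun y hy => hy.1)
      exact h3.mem_closure hx (fun y hy => hy.2)
    have h4 : f x ≤ c := by
      have := closure_mono (Iio_subset_Iic_self (a := c)) h2
      rwa [closure_Iic] at this
    linarith
  have hsD : ∀ s t c : ℝ, (∀ x ∈ Ω, s * P x + t * W x ≤ c → P x / lam + W x / tau < Θ) →
      EnIneq Ω A V r (fun x => s * P x + t * W x) (s * qP + t * qW) c := by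
    intro s t c h
    have h1 := hcl (fun x => s * P x + t * W x) c c
      ((continuousOn_const.mul hPc).add (continuousOn_const.mul hWc)) le_rfl h
    exact EN s t c h1.2 (h1.1.trans fun x hx => hx.1) fun x hx => hVD x (h1.1 hx).1 (h1.1 hx).2
  have en1 := hsD (1 / lam) (1 / tau) (3 * Θ / 4) (fun x hx h => by
    have : 1 / lam * P x + 1 / tau * W x = P x / lam + W x / tau := by ring
    linarith)
  have en2 := hsD (1 / lam) (2 * (1 / tau)) (3 * Θ / 4) (fun x hx h => by
    have : 1 / lam * P x + 2 * (1 / tau) * W x = P x / lam + 2 * (W x / tau) := by ring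
    exact hw2 x hx (by linarith))
  set f1 : EuclideanSpace ℝ (Fin n) → ℝ := fun x => 1 / lam * P x + 1 / tau * W x with hf1
  set f2 : EuclideanSpace ℝ (Fin n) → ℝ := fun x => 1 / lam * P x + 2 * (1 / tau) * W x with hf2
  set p : EuclideanSpace ℝ (Fin n) → ℝ := fun x => if x ∈ Ω then P x / lam else Θ with hpdef
  set w : EuclideanSpace ℝ (Fin n) → ℝ := fun x => if x ∈ Ω then W x / tau else Θ with hwdef
  have hpin : ∀ x ∈ Ω, p x = P x / lam := fun x hx => if_pos hx
  have hwin : ∀ x ∈ Ω, w x = W x / tau := fun x hx => if_pos hx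
  have hpout : ∀ x ∉ Ω, p x = Θ := fun x hx => if_neg hx
  have hwout : ∀ x ∉ Ω, w x = Θ := fun x hx => if_neg hx
  have hDeq : {x | p x + w x < Θ} = D := by
    ext x
    by_cases hx : x ∈ Ω
    · simp only [mem_setOf_eq, hpin x hx, hwin x hx, hDdef, hx, true_and]
    · simp only [mem_setOf_eq, hpout x hx, hwout x hx, hDdef, hx, false_and, iff_false]
      linarith
  have hGeq : {x | p x + w x < Θ / 4} = G := by
    ext x
    by_cases hx : x ∈ Ω
    · simp only [mem_setOf_eq, hpin x hx, hwin x hx, hGdef, hx, true_and]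
    · simp only [mem_setOf_eq, hpout x hx, hwout x hx, hGdef, hx, false_and, iff_false]
      linarith
  have hf1in : ∀ x ∈ Ω, f1 x = p x + w x := fun x hx => by
    rw [hpin x hx, hwin x hx, hf1]; ring
  have hf2in : ∀ x ∈ Ω, f2 x = p x + 2 * w x := fun x hx => by
    rw [hpin x hx, hwin x hx, hf2]; ring
  -- integrability of the mass
  have hMint : IntegrableOn (fun x => V x ^ (-(n : ℝ) / 2) * r x) D := by
    refine ⟨?_, ?_⟩
    · apply ContinuousOn.aestronglyMeasurable _ hDo.measurableSet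
      apply ContinuousOn.mul
      · exact ContinuousOn.rpow_const (hVc.mono fun x hx => hx.1)
          fun x hx => Or.inl (hVD x hx.1 hx.2).ne'
      · exact hrc.mono fun x hx => hx.1
    · rw [hasFiniteIntegral_iff_ofReal]
      · exact hM.trans_lt ENNReal.ofReal_lt_top
      · filter_upwards [ae_restrict_mem hDo.measurableSet] with x hx
        exact mul_nonneg (Real.rpow_nonneg (hVD x hx.1 hx.2).le _) (hr x hx.1)
  have hMle : ∫ x in D, V x ^ (-(n : ℝ) / 2) * r x ≤ M0 := by
    rw [integral_eq_lintegral_of_nonneg_ae]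
    · exact ENNReal.toReal_le_of_le_ofReal hM0 hM
    · filter_upwards [ae_restrict_mem hDo.measurableSet] with x hx
      exact mul_nonneg (Real.rpow_nonneg (hVD x hx.1 hx.2).le _) (hr x hx.1)
    · exact hMint.1
  -- closure of G
  have hGcl := hcl (fun x => P x / lam + W x / tau) (Θ / 4) (Θ / 4) hφc le_rfl
    (fun x _ h => by linarith)
  have hGint : ∀ F : EuclideanSpace ℝ (Fin n) → ℝ, ContinuousOn F Ω →
      IntegrableOn (fun x => V x ^ (1 - (n : ℝ) / 2) * F x) G := by
    intro F hF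
    have h1 : ContinuousOn (fun x => V x ^ (1 - (n : ℝ) / 2) * F x) (closure G) := by
      apply ContinuousOn.mul
      · exact ContinuousOn.rpow_const (hVc.mono fun x hx => (hGcl.1 hx).1)
          fun x hx => Or.inl (hVD x (hGcl.1 hx).1 (hGcl.1 hx).2).ne'
      · exact hF.mono fun x hx => (hGcl.1 hx).1
    exact (h1.integrableOn_compact hGcl.2).mono_set subset_closure
  have cf : ∀ s t : ℝ, ContDiffOn ℝ 1 (fun x => s * P x + t * W x) Ω := fun s t =>
    (contDiffOn_const.mul hP).add (contDiffOn_const.mul hW)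
  have cb : ∀ f : EuclideanSpace ℝ (Fin n) → ℝ, ContDiffOn ℝ 1 f Ω → ContinuousOn (bil A f f) Ω :=
    fun f hf => bil_continuousOn hΩ hAc hf hf
  have hbox := box_abstract (μ := (volume : Measure (EuclideanSpace ℝ (Fin n)))) (p := p) (w := w)
    (V := V) (r := Ω.indicator r)
    (Ap := Ω.indicator fun x => bil A P P x / lam ^ 2)
    (Aw := Ω.indicator fun x => bil A W W x / tau ^ 2)
    (A1 := Ω.indicator (bil A f1 f1)) (A2 := Ω.indicator (bil A f2 f2))
    (n := n) (Θ := Θ) (K := K) (ε := ε) (q1 := 1 / lam * qP + 1 / tau * qW)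
    (q2 := 1 / lam * qP + 2 * (1 / tau) * qW) hΘ hε hεΘ hK
    (by rw [hDeq]; exact hDo.measurableSet) (by rw [hGeq]; exact hGo.measurableSet)
    (fun x hx => by
      have hx' : x ∈ D := by rw [← hDeq]; exact hx
      rw [hpin x hx'.1]; exact hp x hx'.1 hx'.2)
    (fun x hx => by
      have hx' : x ∈ D := by rw [← hDeq]; exact hx
      rw [hwin x hx'.1]; exact hw x hx'.1 hx'.2)
    (fun x hx => by
      have hx' : x ∈ D := by rw [← hDeq]; exact hx
      exact hVD x hx'.1 hx'.2)
    (fun x => indicator_nonneg hr x)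
    (fun x => indicator_nonneg (fun y hy => bil_nonneg (hA y hy)) x)
    (fun x => indicator_nonneg (fun y hy => bil_nonneg (hA y hy)) x)
    (fun x => by
      by_cases hx : x ∈ Ω
      · simp only [indicator_of_mem hx]
        have h := bil_comb (hA x hx) ((hP.contDiffAt (hΩ.mem_nhds hx)).differentiableAt one_ne_zero)
          ((hW.contDiffAt (hΩ.mem_nhds hx)).differentiableAt one_ne_zero) (1 / lam) (1 / tau)
        refine le_trans (le_of_eq ?_) h
        ring
      · simp only [indicator_of_notMem hx]; norm_num)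
    (fun x hx => by
      by_cases hxΩ : x ∈ Ω
      · rw [hpin x hxΩ, hwin x hxΩ] at hx ⊢
        exact hw2 x hxΩ hx.le
      · rw [hpout x hxΩ, hwout x hxΩ] at hx
        exfalso; linarith)
    (by refine le_trans (le_of_eq ?_) hq1; ring) (by refine le_trans (le_of_eq ?_) hq2; ring)
    (by
      rw [hDeq]
      refine hMint.congr_fun (fun x hx => ?_) hDo.measurableSet
      simp only [indicator_of_mem hx.1])
    (restr_int hΩ.measurableSet (fun x hx => by
        simp only [indicator_of_mem hx, ← hf1in x hx]) (fun x hx => by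
        simp only [indicator_of_notMem hx, mul_zero]) en1.int1).1
    (restr_int hΩ.measurableSet (fun x hx => by
        simp only [indicator_of_mem hx, ← hf1in x hx]) (fun x hx => by
        simp only [indicator_of_notMem hx, mul_zero]) en1.int2).1
    (restr_int hΩ.measurableSet (fun x hx => by
        simp only [indicator_of_mem hx, ← hf1in x hx]) (fun x hx => by
        simp only [indicator_of_notMem hx, mul_zero]) en1.int3).1
    (by
      have a1 := (restr_int (G := fun x => V x ^ (1 - (n : ℝ) / 2) *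
        max (3 * Θ / 4 - (p x + w x)) 0 * Ω.indicator (bil A f1 f1) x) hΩ.measurableSet
        (fun x hx => by
        simp only [indicator_of_mem hx, ← hf1in x hx]) (fun x hx => by
        simp only [indicator_of_notMem hx, mul_zero]) en1.int1).2
      have a2 := (restr_int (G := fun x => max (3 * Θ / 4 - (p x + w x)) 0 ^ 3 *
        V x ^ (-(n : ℝ) / 2) * Ω.indicator r x) hΩ.measurableSet (fun x hx => by
        simp only [indicator_of_mem hx, ← hf1in x hx]) (fun x hx => by
        simp only [indicator_of_notMem hx, mul_zero]) en1.int2).2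
      have a3 := (restr_int (G := fun x => V x ^ (-(n : ℝ) / 2) *
        max (3 * Θ / 4 - (p x + w x)) 0 ^ 2 * (1 / lam * qP + 1 / tau * qW - (p x + w x)) *
        Ω.indicator r x) hΩ.measurableSet (fun x hx => by
        simp only [indicator_of_mem hx, ← hf1in x hx]) (fun x hx => by
        simp only [indicator_of_notMem hx, mul_zero]) en1.int3).2
      rw [a1, a2, a3]
      exact en1.ineq)
    (restr_int hΩ.measurableSet (fun x hx => by
        simp only [indicator_of_mem hx, ← hf2in x hx]) (fun x hx => by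
        simp only [indicator_of_notMem hx, mul_zero]) en2.int1).1
    (restr_int hΩ.measurableSet (fun x hx => by
        simp only [indicator_of_mem hx, ← hf2in x hx]) (fun x hx => by
        simp only [indicator_of_notMem hx, mul_zero]) en2.int2).1
    (restr_int hΩ.measurableSet (fun x hx => by
        simp only [indicator_of_mem hx, ← hf2in x hx]) (fun x hx => by
        simp only [indicator_of_notMem hx, mul_zero]) en2.int3).1
    (by
      have a1 := (restr_int (G := fun x => V x ^ (1 - (n : ℝ) / 2) *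
        max (3 * Θ / 4 - (p x + 2 * w x)) 0 * Ω.indicator (bil A f2 f2) x) hΩ.measurableSet
        (fun x hx => by
        simp only [indicator_of_mem hx, ← hf2in x hx]) (fun x hx => by
        simp only [indicator_of_notMem hx, mul_zero]) en2.int1).2
      have a2 := (restr_int (G := fun x => max (3 * Θ / 4 - (p x + 2 * w x)) 0 ^ 3 *
        V x ^ (-(n : ℝ) / 2) * Ω.indicator r x) hΩ.measurableSet (fun x hx => by
        simp only [indicator_of_mem hx, ← hf2in x hx]) (fun x hx => by
        simp only [indicator_of_notMem hx, mul_zero]) en2.int2).2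
      have a3 := (restr_int (G := fun x => V x ^ (-(n : ℝ) / 2) *
        max (3 * Θ / 4 - (p x + 2 * w x)) 0 ^ 2 *
        (1 / lam * qP + 2 * (1 / tau) * qW - (p x + 2 * w x)) *
        Ω.indicator r x) hΩ.measurableSet (fun x hx => by
        simp only [indicator_of_mem hx, ← hf2in x hx]) (fun x hx => by
        simp only [indicator_of_notMem hx, mul_zero]) en2.int3).2
      rw [a1, a2, a3]
      exact en2.ineq)
    (by
      rw [hGeq]
      have hh := hGint (bil A f1 f1) (cb _ (cf _ _))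
      refine hh.congr_fun (fun x hx => ?_) hGo.measurableSet
      simp only [indicator_of_mem hx.1])
    (by
      rw [hGeq]
      have hh := hGint (bil A f2 f2) (cb _ (cf _ _))
      refine hh.congr_fun (fun x hx => ?_) hGo.measurableSet
      simp only [indicator_of_mem hx.1])
    (by
      rw [hGeq]
      have hh := hGint (fun x => bil A P P x / lam ^ 2 + bil A W W x / tau ^ 2)
        (((cb _ hP).div_const (lam ^ 2)).add ((cb _ hW).div_const (tau ^ 2)))
      refine hh.congr_fun (fun x hx => ?_) hGo.measurableSet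
      simp only [indicator_of_mem hx.1])
  rw [hDeq, hGeq] at hbox
  have hGI : IntegrableOn (fun x => V x ^ (1 - (n : ℝ) / 2) *
      (bil A P P x / lam ^ 2 + bil A W W x / tau ^ 2)) G :=
    hGint _ (((cb _ hP).div_const (lam ^ 2)).add ((cb _ hW).div_const (tau ^ 2)))
  have hGnn : ∀ x ∈ G, 0 ≤ V x ^ (1 - (n : ℝ) / 2) *
      (bil A P P x / lam ^ 2 + bil A W W x / tau ^ 2) := by
    intro x hx
    refine mul_nonneg (Real.rpow_nonneg (hVD x hx.1 (hGD hx).2).le _) (add_nonneg ?_ ?_)
    · exact div_nonneg (bil_nonneg (hA x hx.1)) (by positivity)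
    · exact div_nonneg (bil_nonneg (hA x hx.1)) (by positivity)
  rw [← ofReal_integral_eq_lintegral_ofReal hGI
    (by filter_upwards [ae_restrict_mem hGo.measurableSet] with x hx using hGnn x hx)]
  apply ENNReal.ofReal_le_ofReal
  have e1 : ∫ x in G, V x ^ (1 - (n : ℝ) / 2) *
      ((Ω.indicator fun x => bil A P P x / lam ^ 2) x +
        (Ω.indicator fun x => bil A W W x / tau ^ 2) x)
      = ∫ x in G, V x ^ (1 - (n : ℝ) / 2) * (bil A P P x / lam ^ 2 + bil A W W x / tau ^ 2) :=
    setIntegral_congr_fun hGo.measurableSet fun x hx => by simp only [indicator_of_mem hx.1]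
  have e2 : ∫ x in D, V x ^ (-(n : ℝ) / 2) * Ω.indicator r x
      = ∫ x in D, V x ^ (-(n : ℝ) / 2) * r x :=
    setIntegral_congr_fun hDo.measurableSet fun x hx => by simp only [indicator_of_mem hx.1]
  rw [e1, e2] at hbox
  refine hbox.trans ?_
  apply mul_le_mul_of_nonneg_left hMle
  unfold Cbox
  positivity

end Crest.Agent.R236.BCor
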