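import Mathlib
import Crest.Prelude.Def_AffineMaximal
import Crest.Agent.R236.P1
import Crest.Agent.R236.CalcA

/-! Row 236, part B4: Green's formula for `C¹` fields with compact support and the energy
inequality (abstract form). (helper272) -/

set_option autoImplicit false
open scoped ContDiff Topology
open Crest.GeometryTopology.CoordMetric Crest.GeometryTopology.AffineMaximal
open Set Filter MeasureTheory Finset

noncomputable section

namespace Crest.Agent.R236.BEn

variable {n : ℕ}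

/-! ### integral of a derivative -/

/-- the extension by zero of a `C¹` function on an open set which vanishes off a compact subset -/
lemma contDiff_indicator {Ω K : Set (EuclideanSpace ℝ (Fin n))} (hΩ : IsOpen Ω) (hK : IsCompact K)
    (hKΩ : K ⊆ Ω) {g : EuclideanSpace ℝ (Fin n) → ℝ} {m : WithTop ℕ∞} (hg : ContDiffOn ℝ m g Ω)
    (hz : ∀ x ∈ Ω, x ∉ K → g x = 0) : ContDiff ℝ m (Ω.indicator g) := by
  rw [contDiff_iff_contDiffAt]
  intro x
  by_cases hx : x ∈ Ω
  · have h1 : Ω.indicator g =ᶠ[𝓝 x] g :=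
      Filter.eventually_of_mem (hΩ.mem_nhds hx) fun y hy => Set.indicator_of_mem hy g
    exact (hg.contDiffAt (hΩ.mem_nhds hx)).congr_of_eventuallyEq h1
  · have hxK : x ∈ Kᶜ := fun h => hx (hKΩ h)
    have h1 : Ω.indicator g =ᶠ[𝓝 x] fun _ => 0 := by
      refine Filter.eventually_of_mem (hK.isClosed.isOpen_compl.mem_nhds hxK) fun y hy => ?_
      by_cases hyΩ : y ∈ Ω
      · rw [Set.indicator_of_mem hyΩ]; exact hz y hyΩ hy
      · exact Set.indicator_of_notMem hyΩ g
    exact contDiffAt_const.congr_of_eventuallyEq h1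

/-- a continuous function on an open set vanishing off a compact subset is integrable. -/
lemma integrableOn_of_zero {Ω K : Set (EuclideanSpace ℝ (Fin n))} (hΩ : IsOpen Ω)
    (hK : IsCompact K) (hKΩ : K ⊆ Ω) {g : EuclideanSpace ℝ (Fin n) → ℝ} (hg : ContinuousOn g K)
    (hz : ∀ x ∈ Ω, x ∉ K → g x = 0) : IntegrableOn g Ω := by
  have h1 : IntegrableOn g K := hg.integrableOn_compact hK
  have h2 : IntegrableOn g (Ω \ K) := by
    have : IntegrableOn (fun _ : EuclideanSpace ℝ (Fin n) => (0:ℝ)) (Ω \ K) := integrableOn_zero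
    refine this.congr_fun (fun x hx => ?_) (hΩ.measurableSet.diff hK.measurableSet)
    exact (hz x hx.1 hx.2).symm
  have h3 : Ω = K ∪ (Ω \ K) := by rw [Set.union_sdiff_cancel hKΩ]
  rw [h3]
  exact h1.union h2

lemma setIntegral_eq_of_zero {Ω K : Set (EuclideanSpace ℝ (Fin n))} (hΩ : MeasurableSet Ω)
    (hKΩ : K ⊆ Ω) {g : EuclideanSpace ℝ (Fin n) → ℝ} (hz : ∀ x ∈ Ω, x ∉ K → g x = 0) :
    ∫ x in Ω, g x = ∫ x in K, g x :=
  (setIntegral_eq_of_subset_of_forall_sdiff_eq_zero hΩ hKΩ (fun x hx => hz x hx.1 hx.2))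

/-- the integral of a partial derivative of a `C¹` function with compact support in `Ω` vanishes -/
theorem integral_pderiv_eq_zero {Ω K : Set (EuclideanSpace ℝ (Fin n))} (hΩ : IsOpen Ω)
    (hK : IsCompact K) (hKΩ : K ⊆ Ω) {g : EuclideanSpace ℝ (Fin n) → ℝ} (hg : ContDiffOn ℝ 1 g Ω)
    (hz : ∀ x ∈ Ω, x ∉ K → g x = 0) (i : Fin n) :
    IntegrableOn (pderiv i g) Ω ∧ ∫ x in Ω, pderiv i g x = 0 := by
  set g0 := Ω.indicator g with hg0
  have hc : ContDiff ℝ 1 g0 := contDiff_indicator hΩ hK hKΩ hg hz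
  have hsupp : HasCompactSupport g0 := by
    refine HasCompactSupport.intro hK fun x hx => ?_
    by_cases hxΩ : x ∈ Ω
    · rw [hg0, Set.indicator_of_mem hxΩ]; exact hz x hxΩ hx
    · exact Set.indicator_of_notMem hxΩ g
  set v : EuclideanSpace ℝ (Fin n) := EuclideanSpace.single i 1 with hv
  have hcont : Continuous fun x => fderiv ℝ g0 x v :=
    (hc.continuous_fderiv one_ne_zero).clm_apply continuous_const
  have hsupp' : HasCompactSupport fun x => fderiv ℝ g0 x v :=
    (hsupp.fderiv (𝕜 := ℝ)).comp_left (g := fun L : EuclideanSpace ℝ (Fin n) →L[ℝ] ℝ => L v) (by simp)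
  have hint : Integrable fun x => fderiv ℝ g0 x v := hcont.integrable_of_hasCompactSupport hsupp'
  have hint0 : Integrable g0 := hc.continuous.integrable_of_hasCompactSupport hsupp
  have hfull : ∫ x, fderiv ℝ g0 x v = 0 := by
    have := integral_mul_fderiv_eq_neg_fderiv_mul_of_integrable (𝕜 := ℝ)
      (μ := (volume : Measure (EuclideanSpace ℝ (Fin n))))
      (f := fun _ => (1:ℝ)) (g := g0) (v := v) (by simp) (by simpa using hint) (by simpa using hint0)
      (by intro x _; exact differentiableAt_const _) (by intro x _; exact (hc.differentiable one_ne_zero) x)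
    simpa using this
  have heq : ∀ x ∈ Ω, fderiv ℝ g0 x v = pderiv i g x := by
    intro x hx
    have h1 : g0 =ᶠ[𝓝 x] g :=
      Filter.eventually_of_mem (hΩ.mem_nhds hx) fun y hy => Set.indicator_of_mem hy g
    unfold pderiv
    rw [h1.fderiv_eq]
  have hout : ∀ x, x ∉ Ω → fderiv ℝ g0 x v = 0 := by
    intro x hx
    have hxK : x ∈ Kᶜ := fun h => hx (hKΩ h)
    have h1 : g0 =ᶠ[𝓝 x] fun _ => 0 := by
      refine Filter.eventually_of_mem (hK.isClosed.isOpen_compl.mem_nhds hxK) fun y hy => ?_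
      by_cases hyΩ : y ∈ Ω
      · rw [hg0, Set.indicator_of_mem hyΩ]; exact hz y hyΩ hy
      · exact Set.indicator_of_notMem hyΩ g
    rw [h1.fderiv_eq]; simp
  constructor
  · exact (hint.integrableOn (s := Ω)).congr_fun heq hΩ.measurableSet
  · rw [← hfull, ← setIntegral_congr_fun hΩ.measurableSet heq]
    exact setIntegral_eq_integral_of_forall_compl_eq_zero hout

/-! ### Green's formula -/

/-- the bilinear form `A(∇f, ∇g)` -/
def bil (A : EuclideanSpace ℝ (Fin n) → Matrix (Fin n) (Fin n) ℝ)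
    (f g : EuclideanSpace ℝ (Fin n) → ℝ) (x : EuclideanSpace ℝ (Fin n)) : ℝ :=
  ∑ i, ∑ j, A x i j * pderiv i f x * pderiv j g x

/-- the divergence `div (A ∇f)` -/
def dv (A : EuclideanSpace ℝ (Fin n) → Matrix (Fin n) (Fin n) ℝ)
    (f : EuclideanSpace ℝ (Fin n) → ℝ) (x : EuclideanSpace ℝ (Fin n)) : ℝ :=
  ∑ i, pderiv i (fun y => ∑ j, A y i j * pderiv j f y) x

/-- divergence theorem for a product `w F` with compact support -/
theorem green_field {Ω K : Set (EuclideanSpace ℝ (Fin n))} (hΩ : IsOpen Ω)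
    (hK : IsCompact K) (hKΩ : K ⊆ Ω) {w : EuclideanSpace ℝ (Fin n) → ℝ}
    {F : Fin n → EuclideanSpace ℝ (Fin n) → ℝ}
    (hw : ContDiffOn ℝ 1 w Ω) (hz : ∀ x ∈ Ω, x ∉ K → w x = 0)
    (hF : ∀ i, ContDiffOn ℝ 1 (F i) Ω) :
    IntegrableOn (fun x => w x * (∑ i, pderiv i (F i) x) + ∑ i, pderiv i w x * F i x) Ω ∧
      ∫ x in Ω, (w x * (∑ i, pderiv i (F i) x) + ∑ i, pderiv i w x * F i x) = 0 := by
  have hg : ∀ i, ContDiffOn ℝ 1 (fun x => w x * F i x) Ω := fun i => hw.mul (hF i)
  have hz' : ∀ i, ∀ x ∈ Ω, x ∉ K → w x * F i x = 0 := fun i x hx hxK => by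
    rw [hz x hx hxK, zero_mul]
  have h1 := fun i => integral_pderiv_eq_zero hΩ hK hKΩ (hg i) (hz' i) i
  have heq : ∀ x ∈ Ω, ∑ i, pderiv i (fun x => w x * F i x) x =
      w x * (∑ i, pderiv i (F i) x) + ∑ i, pderiv i w x * F i x := by
    intro x hx
    rw [Finset.mul_sum, ← Finset.sum_add_distrib]
    refine Finset.sum_congr rfl fun i _ => ?_
    rw [pderiv_mul ((hw.contDiffAt (hΩ.mem_nhds hx)).differentiableAt one_ne_zero)
      (((hF i).contDiffAt (hΩ.mem_nhds hx)).differentiableAt one_ne_zero)]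
    ring
  have hint : IntegrableOn (fun x => ∑ i, pderiv i (fun x => w x * F i x) x) Ω :=
    integrable_finsetSum _ fun i _ => (h1 i).1
  refine ⟨hint.congr_fun heq hΩ.measurableSet, ?_⟩
  rw [← setIntegral_congr_fun hΩ.measurableSet heq, integral_finsetSum _ fun i _ => (h1 i).1]
  exact Finset.sum_eq_zero fun i _ => (h1 i).2

/-- Green's formula `∫ w div(A∇f) + A(∇w,∇f) = 0`. -/
theorem green {Ω K : Set (EuclideanSpace ℝ (Fin n))} (hΩ : IsOpen Ω)
    (hK : IsCompact K) (hKΩ : K ⊆ Ω) {A : EuclideanSpace ℝ (Fin n) → Matrix (Fin n) (Fin n) ℝ}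
    {w f : EuclideanSpace ℝ (Fin n) → ℝ} (hA : ∀ i j, ContDiffOn ℝ 1 (fun x => A x i j) Ω)
    (hf : ContDiffOn ℝ 2 f Ω) (hw : ContDiffOn ℝ 1 w Ω) (hz : ∀ x ∈ Ω, x ∉ K → w x = 0) :
    IntegrableOn (fun x => w x * dv A f x + bil A w f x) Ω ∧
      ∫ x in Ω, (w x * dv A f x + bil A w f x) = 0 := by
  have hF : ∀ i, ContDiffOn ℝ 1 (fun y => ∑ j, A y i j * pderiv j f y) Ω := fun i =>
    ContDiffOn.sum fun j _ => (hA i j).mul (contDiffOn_pderiv hΩ hf (by norm_num) j)
  have h := green_field hΩ hK hKΩ hw hz hF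
  have heq : (fun x => w x * (∑ i, pderiv i (fun y => ∑ j, A y i j * pderiv j f y) x) +
      ∑ i, pderiv i w x * ∑ j, A x i j * pderiv j f x) =
      fun x => w x * dv A f x + bil A w f x := by
    funext x
    unfold dv bil
    congr 1
    refine Finset.sum_congr rfl fun i _ => ?_
    rw [Finset.mul_sum]
    refine Finset.sum_congr rfl fun j _ => ?_
    ring
  rw [heq] at h
  exact h

/-! ### powers of the positive part -/

lemma hasDerivAt_posPow (k : ℕ) (hk : 1 ≤ k) (t : ℝ) :
    HasDerivAt (fun s : ℝ => (max s 0) ^ (k + 1)) ((k + 1 : ℕ) * (max t 0) ^ k) t := by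
  rcases lt_trichotomy t 0 with ht | ht | ht
  · have h1 : (fun s : ℝ => (max s 0) ^ (k + 1)) =ᶠ[𝓝 t] fun _ => 0 := by
      filter_upwards [Iio_mem_nhds ht] with s hs
      rw [max_eq_right (le_of_lt hs)]
      simp
    rw [max_eq_right ht.le, zero_pow (by omega), mul_zero]
    exact (hasDerivAt_const t (0:ℝ)).congr_of_eventuallyEq h1
  · subst ht
    rw [max_self, zero_pow (by omega), mul_zero]
    rw [hasDerivAt_iff_tendsto_slope]
    have h1 : ∀ s : ℝ, s ≠ 0 → slope (fun s : ℝ => (max s 0) ^ (k + 1)) 0 s = (max s 0) ^ k := by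
      intro s hs
      rw [slope_def_field]
      simp only [max_self, sub_zero]
      rw [zero_pow (by omega), sub_zero]
      rcases le_or_gt s 0 with h | h
      · rw [max_eq_right h, zero_pow (by omega), zero_pow (by omega), zero_div]
      · rw [max_eq_left h.le, pow_succ]
        field_simp
    have h2 : Tendsto (fun s : ℝ => (max s 0) ^ k) (𝓝[≠] 0) (𝓝 0) := by
      have hc : Continuous fun s : ℝ => (max s 0) ^ k := by fun_prop
      have := hc.tendsto 0
      simp only [max_self] at this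
      rw [zero_pow (by omega)] at this
      exact this.mono_left nhdsWithin_le_nhds
    refine h2.congr' ?_
    filter_upwards [self_mem_nhdsWithin] with s hs
    exact (h1 s hs).symm
  · have h1 : (fun s : ℝ => (max s 0) ^ (k + 1)) =ᶠ[𝓝 t] fun s => s ^ (k + 1) := by
      filter_upwards [Ioi_mem_nhds ht] with s hs
      rw [max_eq_left (le_of_lt hs)]
    rw [max_eq_left ht.le]
    have := (hasDerivAt_pow (k + 1) t).congr_of_eventuallyEq h1
    simpa using this

lemma contDiff_posPow (k : ℕ) (hk : 1 ≤ k) : ContDiff ℝ 1 (fun s : ℝ => (max s 0) ^ (k + 1)) := by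
  rw [contDiff_one_iff_deriv]
  refine ⟨fun t => (hasDerivAt_posPow k hk t).differentiableAt, ?_⟩
  have : deriv (fun s : ℝ => (max s 0) ^ (k + 1)) = fun t => ((k + 1 : ℕ) : ℝ) * (max t 0) ^ k := by
    funext t; exact (hasDerivAt_posPow k hk t).deriv
  rw [this]
  fun_prop

end Crest.Agent.R236.BEn
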