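import Mathlib
import Crest.Prelude.Def_AffineMaximal
import Crest.Agent.R236.P1
import Crest.Agent.R236.CalcA
import Crest.Agent.R236.BEn

/-! Row 236, part B4: the energy inequality (abstract form). (helper272) -/

set_option autoImplicit false
open scoped ContDiff Topology
open Crest.GeometryTopology.CoordMetric Crest.GeometryTopology.AffineMaximal
open Set Filter MeasureTheory Finset

noncomputable section

namespace Crest.Agent.R236.BEn

variable {n : ℕ}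

lemma bil_comm {A : EuclideanSpace ℝ (Fin n) → Matrix (Fin n) (Fin n) ℝ}
    {f g : EuclideanSpace ℝ (Fin n) → ℝ} {x : EuclideanSpace ℝ (Fin n)}
    (hs : ∀ i j, A x i j = A x j i) : bil A f g x = bil A g f x := by
  unfold bil
  rw [Finset.sum_comm]
  refine Finset.sum_congr rfl fun i _ => Finset.sum_congr rfl fun j _ => ?_
  rw [hs j i]; ring

lemma bil_left {A : EuclideanSpace ℝ (Fin n) → Matrix (Fin n) (Fin n) ℝ}
    {w f g h : EuclideanSpace ℝ (Fin n) → ℝ} {x : EuclideanSpace ℝ (Fin n)} {a b : ℝ}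
    (hw : ∀ i, pderiv i w x = a * pderiv i f x + b * pderiv i g x) :
    bil A w h x = a * bil A f h x + b * bil A g h x := by
  unfold bil
  rw [Finset.mul_sum, Finset.mul_sum, ← Finset.sum_add_distrib]
  refine Finset.sum_congr rfl fun i _ => ?_
  rw [Finset.mul_sum, Finset.mul_sum, ← Finset.sum_add_distrib]
  refine Finset.sum_congr rfl fun j _ => ?_
  rw [hw i]; ring

/-- derivative of the weight `v^(k+1) V^a`, `v = (c - f)_+` -/
lemma pderiv_weight {f V : EuclideanSpace ℝ (Fin n) → ℝ} {x : EuclideanSpace ℝ (Fin n)}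
    (hf : DifferentiableAt ℝ f x) (hV : DifferentiableAt ℝ V x) (hpos : 0 < V x) (c a : ℝ) (k : ℕ)
    (hk : 1 ≤ k) (i : Fin n) :
    pderiv i (fun y => (max (c - f y) 0) ^ (k + 1) * V y ^ a) x =
      (-((k + 1 : ℕ) : ℝ) * (max (c - f x) 0) ^ k * V x ^ a) * pderiv i f x +
        ((max (c - f x) 0) ^ (k + 1) * a * V x ^ (a - 1)) * pderiv i V x := by
  have h1 : HasDerivAt (fun s : ℝ => (max (c - s) 0) ^ (k + 1))
      (-((k + 1 : ℕ) : ℝ) * (max (c - f x) 0) ^ k) (f x) := by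
    have h2 := (hasDerivAt_posPow k hk (c - f x)).comp (f x) ((hasDerivAt_id (f x)).const_sub c)
    have h3 : ((k + 1 : ℕ) : ℝ) * (max (c - f x) 0) ^ k * -1 =
      -((k + 1 : ℕ) : ℝ) * (max (c - f x) 0) ^ k := by ring
    rw [h3] at h2
    exact h2
  have h4 : HasDerivAt (fun s : ℝ => s ^ a) (a * V x ^ (a - 1)) (V x) :=
    Real.hasDerivAt_rpow_const (Or.inl hpos.ne')
  have d1 : DifferentiableAt ℝ (fun y => (max (c - f y) 0) ^ (k + 1)) x :=
    h1.differentiableAt.comp x hf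
  have d2 : DifferentiableAt ℝ (fun y => V y ^ a) x := h4.differentiableAt.comp x hV
  rw [pderiv_mul d1 d2, pderiv_comp h1 hf, pderiv_comp h4 hV]
  ring

lemma contDiffOn_weight {Ω : Set (EuclideanSpace ℝ (Fin n))}
    {f V : EuclideanSpace ℝ (Fin n) → ℝ} (hf : ContDiffOn ℝ 1 f Ω) (hV : ContDiffOn ℝ 1 V Ω)
    (hpos : ∀ x ∈ Ω, 0 < V x) (c a : ℝ) (k : ℕ) (hk : 1 ≤ k) :
    ContDiffOn ℝ 1 (fun y => (max (c - f y) 0) ^ (k + 1) * V y ^ a) Ω := by
  refine ContDiffOn.mul ?_ (hV.rpow_const_of_ne fun x hx => (hpos x hx).ne')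
  exact (contDiff_posPow k hk).comp_contDiffOn (contDiffOn_const.sub hf)

/-- **Energy inequality**, abstract form. -/
theorem energy_abstract {Ω K : Set (EuclideanSpace ℝ (Fin n))} (hΩ : IsOpen Ω) (hK : IsCompact K)
    (hKΩ : K ⊆ Ω) {A : EuclideanSpace ℝ (Fin n) → Matrix (Fin n) (Fin n) ℝ}
    (hA : ∀ i j, ContDiffOn ℝ 1 (fun x => A x i j) Ω)
    (hsymm : ∀ x ∈ Ω, ∀ i j, A x i j = A x j i)
    {f V r : EuclideanSpace ℝ (Fin n) → ℝ}
    (hpos : ∀ x ∈ Ω, 0 ≤ bil A V V x)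
    (hf : ContDiffOn ℝ 2 f Ω) (hV : ContDiffOn ℝ 2 V Ω) (hr : ContinuousOn r Ω)
    (hVpos : ∀ x ∈ K, 0 < V x) {c q : ℝ} (hfc : ∀ x ∈ Ω, x ∉ K → c ≤ f x)
    (hdV : ∀ x ∈ Ω, dv A V x = n * r x)
    (hdf : ∀ x ∈ Ω, V x * dv A f x = n * (bil A V f x + (q - f x) * r x)) :
    IntegrableOn (fun x => V x ^ (1 - (n:ℝ) / 2) * max (c - f x) 0 * bil A f f x) Ω ∧
    IntegrableOn (fun x => (max (c - f x) 0) ^ 3 * V x ^ (-((n:ℝ) / 2)) * r x) Ω ∧
    IntegrableOn (fun x => V x ^ (-((n:ℝ) / 2)) * (max (c - f x) 0) ^ 2 * (q - f x) * r x) Ω ∧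
    6 * ∫ x in Ω, V x ^ (1 - (n:ℝ) / 2) * max (c - f x) 0 * bil A f f x ≤
      n * (1 + (n:ℝ) / 2) * (∫ x in Ω, (max (c - f x) 0) ^ 3 * V x ^ (-((n:ℝ) / 2)) * r x) +
      3 * n * ∫ x in Ω, V x ^ (-((n:ℝ) / 2)) * (max (c - f x) 0) ^ 2 * (q - f x) * r x := by
  set N : ℝ := (n : ℝ) with hN
  have hv0 : ∀ x ∈ Ω, x ∉ K → max (c - f x) 0 = 0 := fun x hx hxK =>
    max_eq_right (by linarith [hfc x hx hxK])
  set Ω' : Set (EuclideanSpace ℝ (Fin n)) := Ω ∩ V ⁻¹' (Ioi 0) with hΩ'def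
  have hΩ' : IsOpen Ω' := hV.continuousOn.isOpen_inter_preimage hΩ isOpen_Ioi
  have hsub : Ω' ⊆ Ω := inter_subset_left
  have hKΩ' : K ⊆ Ω' := fun x hx => ⟨hKΩ hx, hVpos x hx⟩
  have hV' : ∀ x ∈ Ω', 0 < V x := fun x hx => hx.2
  -- continuity on `K`
  have cpd : ∀ {g : EuclideanSpace ℝ (Fin n) → ℝ}, ContDiffOn ℝ 2 g Ω → ∀ i,
      ContinuousOn (pderiv i g) K := fun hg i =>
    ((contDiffOn_pderiv (m := 1) hΩ hg (by norm_num) i).continuousOn).mono hKΩ
  have cbil : ∀ {g h : EuclideanSpace ℝ (Fin n) → ℝ}, ContDiffOn ℝ 2 g Ω → ContDiffOn ℝ 2 h Ω →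
      ContinuousOn (bil A g h) K := by
    intro g h hg hh
    refine continuousOn_finsetSum _ fun i _ => continuousOn_finsetSum _ fun j _ => ?_
    exact (((hA i j).continuousOn.mono hKΩ).mul (cpd hg i)).mul (cpd hh j)
  have cf : ContinuousOn f K := hf.continuousOn.mono hKΩ
  have cV : ContinuousOn V K := hV.continuousOn.mono hKΩ
  have cr : ContinuousOn r K := hr.mono hKΩ
  have cv : ContinuousOn (fun x => max (c - f x) 0) K :=
    (continuousOn_const.sub cf).sup continuousOn_const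
  have cVp : ∀ a : ℝ, ContinuousOn (fun x => V x ^ a) K := fun a =>
    cV.rpow_const fun x hx => Or.inl (hVpos x hx).ne'
  -- the three integrands
  have c1 : ContinuousOn (fun x => V x ^ (1 - N / 2) * max (c - f x) 0 * bil A f f x) K :=
    ((cVp _).mul cv).mul (cbil hf hf)
  have z1 : ∀ x ∈ Ω, x ∉ K → V x ^ (1 - N / 2) * max (c - f x) 0 * bil A f f x = 0 :=
    fun x hx hxK => by rw [hv0 x hx hxK]; ring
  have c2 : ContinuousOn (fun x => (max (c - f x) 0) ^ 3 * V x ^ (-(N / 2)) * r x) K :=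
    ((cv.pow 3).mul (cVp _)).mul cr
  have z2 : ∀ x ∈ Ω, x ∉ K → (max (c - f x) 0) ^ 3 * V x ^ (-(N / 2)) * r x = 0 :=
    fun x hx hxK => by rw [hv0 x hx hxK]; ring
  have c3 : ContinuousOn
      (fun x => V x ^ (-(N / 2)) * (max (c - f x) 0) ^ 2 * (q - f x) * r x) K :=
    (((cVp _).mul (cv.pow 2)).mul (continuousOn_const.sub cf)).mul cr
  have z3 : ∀ x ∈ Ω, x ∉ K → V x ^ (-(N / 2)) * (max (c - f x) 0) ^ 2 * (q - f x) * r x = 0 :=
    fun x hx hxK => by rw [hv0 x hx hxK]; ring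
  have i1 := integrableOn_of_zero hΩ hK hKΩ c1 z1
  have i2 := integrableOn_of_zero hΩ hK hKΩ c2 z2
  have i3 := integrableOn_of_zero hΩ hK hKΩ c3 z3
  refine ⟨i1, i2, i3, ?_⟩
  -- fields
  have hA' : ∀ i j, ContDiffOn ℝ 1 (fun x => A x i j) Ω' := fun i j => (hA i j).mono hsub
  have hf' : ContDiffOn ℝ 2 f Ω' := hf.mono hsub
  have hVs' : ContDiffOn ℝ 2 V Ω' := hV.mono hsub
  have hf1 : ContDiffOn ℝ 1 f Ω' := hf'.of_le (by norm_num)
  have hV1 : ContDiffOn ℝ 1 V Ω' := hVs'.of_le (by norm_num)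
  have G1 := green hΩ' hK hKΩ' hA' hf' (contDiffOn_weight hf1 hV1 hV' c (1 - N / 2) 1 le_rfl)
    (fun x hx hxK => by rw [hv0 x (hsub hx) hxK]; ring)
  have G2 := green hΩ' hK hKΩ' hA' hVs' (contDiffOn_weight hf1 hV1 hV' c (-(N / 2)) 2 (by norm_num))
    (fun x hx hxK => by rw [hv0 x (hsub hx) hxK]; ring)
  have hpt : ∀ x ∈ Ω',
      3 * ((max (c - f x) 0) ^ (1 + 1) * V x ^ (1 - N / 2) * dv A f x +
        bil A (fun y => (max (c - f y) 0) ^ (1 + 1) * V y ^ (1 - N / 2)) f x) +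
      (1 + N / 2) * ((max (c - f x) 0) ^ (2 + 1) * V x ^ (-(N / 2)) * dv A V x +
        bil A (fun y => (max (c - f y) 0) ^ (2 + 1) * V y ^ (-(N / 2))) V x) ≤
      -6 * (V x ^ (1 - N / 2) * max (c - f x) 0 * bil A f f x) +
      N * (1 + N / 2) * ((max (c - f x) 0) ^ 3 * V x ^ (-(N / 2)) * r x) +
      3 * N * (V x ^ (-(N / 2)) * (max (c - f x) 0) ^ 2 * (q - f x) * r x) := by
    intro x hx
    have hxΩ := hsub hx
    have hVx := hV' x hx
    have dfx : DifferentiableAt ℝ f x :=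
      (hf.contDiffAt (hΩ.mem_nhds hxΩ)).differentiableAt (by norm_num)
    have dVx : DifferentiableAt ℝ V x :=
      (hV.contDiffAt (hΩ.mem_nhds hxΩ)).differentiableAt (by norm_num)
    rw [bil_left (A := A) (h := f) (fun i => pderiv_weight dfx dVx hVx c (1 - N / 2) 1 le_rfl i),
      bil_left (A := A) (h := V)
        (fun i => pderiv_weight dfx dVx hVx c (-(N / 2)) 2 (by norm_num) i),
      hdV x hxΩ, bil_comm (A := A) (f := f) (g := V) (hsymm x hxΩ)]
    set v := max (c - f x) 0 with hv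
    have hv_nonneg : 0 ≤ v := le_max_right _ _
    have e1 : V x ^ (1 - N / 2) = V x ^ (-(N / 2)) * V x := by
      rw [show (1 - N / 2 : ℝ) = -(N / 2) + 1 by ring, Real.rpow_add_one hVx.ne']
    have e2 : (1 - N / 2 - 1 : ℝ) = -(N / 2) := by ring
    have hd := hdf x hxΩ
    have hnn : 0 ≤ (1 + N / 2) * (N / 2) * (v ^ 3 * V x ^ (-(N / 2) - 1) * bil A V V x) := by
      have hN0 : 0 ≤ N := Nat.cast_nonneg n
      have := hpos x hxΩ
      have hr1 : 0 ≤ V x ^ (-(N / 2) - 1) := Real.rpow_nonneg hVx.le _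
      positivity
    rw [e2]
    have key : 3 * (v ^ (1 + 1) * V x ^ (1 - N / 2) * dv A f x) =
        3 * (v ^ 2 * V x ^ (-(N / 2)) * (N * (bil A V f x + (q - f x) * r x))) := by
      rw [← hd, e1]; ring
    push_cast
    nlinarith [key, hnn]
  have hint1 : ∫ x in Ω', (3 * ((max (c - f x) 0) ^ (1 + 1) * V x ^ (1 - N / 2) * dv A f x +
        bil A (fun y => (max (c - f y) 0) ^ (1 + 1) * V y ^ (1 - N / 2)) f x) +
      (1 + N / 2) * ((max (c - f x) 0) ^ (2 + 1) * V x ^ (-(N / 2)) * dv A V x +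
        bil A (fun y => (max (c - f y) 0) ^ (2 + 1) * V y ^ (-(N / 2))) V x)) = 0 := by
    rw [integral_add (G1.1.const_mul 3) (G2.1.const_mul _), integral_const_mul, integral_const_mul,
      G1.2, G2.2]
    ring
  have i1' := i1.mono_set hsub
  have i2' := i2.mono_set hsub
  have i3' := i3.mono_set hsub
  have hmono := setIntegral_mono_on ((G1.1.const_mul 3).add (G2.1.const_mul (1 + N / 2)))
    (((i1'.const_mul (-6)).add (i2'.const_mul (N * (1 + N / 2)))).add (i3'.const_mul (3 * N)))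
    hΩ'.measurableSet hpt
  have hmono2 : 0 ≤ -6 * (∫ x in Ω', V x ^ (1 - N / 2) * max (c - f x) 0 * bil A f f x) +
      N * (1 + N / 2) * (∫ x in Ω', (max (c - f x) 0) ^ 3 * V x ^ (-(N / 2)) * r x) +
      3 * N * ∫ x in Ω', V x ^ (-(N / 2)) * (max (c - f x) 0) ^ 2 * (q - f x) * r x := by
    have i12 : IntegrableOn (fun x => -6 * (V x ^ (1 - N / 2) * max (c - f x) 0 * bil A f f x) +
        N * (1 + N / 2) * ((max (c - f x) 0) ^ 3 * V x ^ (-(N / 2)) * r x)) Ω' :=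
      (i1'.const_mul _).add (i2'.const_mul _)
    rw [← integral_const_mul, ← integral_const_mul, ← integral_const_mul,
      ← integral_add (i1'.const_mul _) (i2'.const_mul _),
      ← integral_add i12 (i3'.const_mul _)]
    refine le_trans (le_of_eq ?_) hmono
    exact hint1.symm
  have t1 : ∀ {g : EuclideanSpace ℝ (Fin n) → ℝ}, (∀ x ∈ Ω, x ∉ K → g x = 0) →
      ∫ x in Ω', g x = ∫ x in Ω, g x := by
    intro g hg
    rw [setIntegral_eq_of_zero hΩ.measurableSet hKΩ hg,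
      setIntegral_eq_of_zero hΩ'.measurableSet hKΩ' fun x hx => hg x (hsub hx)]
  rw [t1 z1, t1 z2, t1 z3] at hmono2
  linarith

end Crest.Agent.R236.BEn
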