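import Crest.Agent.R236.BCor2
import Crest.Agent.R236.BEnE
import Crest.Agent.R236.Bla
import Crest.Agent.R236.BApxDefs

/-! Row 236, B4' (helper418): the box energy bound on an approximant `APX`. -/

set_option autoImplicit false
open scoped ContDiff
open MeasureTheory Set
open Crest.GeometryTopology.CoordMetric Crest.GeometryTopology.AffineMaximal

namespace Crest.Agent.R236.BCor

open Crest.Agent.R236.B (VV APX Grid sg)
open Crest.Agent.R236.A (EE epi SOL)

variable {n : ℕ} {Ω : Set (EE n)} {u : EE n → ℝ}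

/-- the matrix `ρⁿ cof(D²u)` -/
noncomputable def Am (u : EE n → ℝ) (x : EE n) : Matrix (Fin n) (Fin n) ℝ :=
  (Bla.rho u x ^ n) • cof u x

theorem Am_apply (x : EE n) (i j : Fin n) : Am u x i j = Bla.rho u x ^ n * cof u x i j := rfl

theorem bil_Am (f g : EE n → ℝ) (x : EE n) : bil (Am u) f g x = Bla.AA u f g x := by
  unfold bil Bla.AA
  rw [Finset.mul_sum]
  refine Finset.sum_congr rfl fun i _ => ?_
  rw [Finset.mul_sum]
  refine Finset.sum_congr rfl fun j _ => ?_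
  rw [Am_apply]; ring

theorem dv_Am (f : EE n → ℝ) (x : EE n) (hx : 0 < Bla.rho u x) :
    BEn.dv (Am u) f x = Bla.lap u f x / Bla.rho u x := by
  unfold Bla.lap BEn.dv
  rw [mul_div_cancel_left₀ _ hx.ne']
  refine Finset.sum_congr rfl fun i _ => ?_
  congr 1
  ext y
  unfold Bla.AAg
  rw [Finset.mul_sum]
  refine Finset.sum_congr rfl fun j _ => ?_
  rw [Am_apply]; ring

theorem Am_posSemidef (h : SC Ω u) {x : EE n} (hx : x ∈ Ω) : (Am u x).PosSemidef :=
  (h.cof_posDef hx).posSemidef.smul (pow_nonneg (Bla.rho_pos h hx).le _)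

theorem contDiffOn_Am (h : SC Ω u) (i j : Fin n) : ContDiffOn ℝ ∞ (fun x => Am u x i j) Ω :=
  ((Bla.contDiffOn_rho h).pow n).mul (h.contDiffOn_cof i j)

/-- the energy inequality for one affine functional -/
theorem enIneq (h : SC Ω u) (hpde : ∀ x ∈ Ω, affineMaximalOp n u x = 0)
    (φ : VV n →L[ℝ] ℝ) (b c : ℝ) (Q : VV n)
    (hK : IsCompact (closure {x | x ∈ Ω ∧ Bla.aff u φ b x < c}))
    (hKΩ : closure {x | x ∈ Ω ∧ Bla.aff u φ b x < c} ⊆ Ω)
    (hV : ∀ x ∈ closure {x | x ∈ Ω ∧ Bla.aff u φ b x < c}, 0 < Bla.VQ u Q x) :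
    EnIneq Ω (Am u) (Bla.VQ u Q) (fun x => 1 / Bla.rho u x) (Bla.aff u φ b) (φ Q + b) c := by
  have hle : (2 : WithTop ℕ∞) ≤ (∞ : WithTop ℕ∞) := WithTop.coe_le_coe.mpr le_top
  have hle1 : (1 : WithTop ℕ∞) ≤ (∞ : WithTop ℕ∞) := WithTop.coe_le_coe.mpr le_top
  have key := BEn.energy_abstract (Ω := Ω) (K := closure {x | x ∈ Ω ∧ Bla.aff u φ b x < c})
    h.isOpen hK hKΩ (A := Am u) (fun i j => (contDiffOn_Am h i j).of_le hle1)
    (fun x hx i j => by rw [Am_apply, Am_apply, h.cof_symm hx])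
    (f := Bla.aff u φ b) (V := Bla.VQ u Q) (r := fun x => 1 / Bla.rho u x)
    (fun x hx => bil_nonneg (Am_posSemidef h hx))
    ((Bla.contDiffOn_aff h φ b).of_le hle) ((Bla.contDiffOn_VQ h Q).of_le hle)
    (continuousOn_const.div (Bla.contDiffOn_rho h).continuousOn
      fun x hx => (Bla.rho_pos h hx).ne')
    hV (c := c) (q := φ Q + b)
    (fun x hx hxK => by
      by_contra hlt
      exact hxK (subset_closure ⟨hx, not_le.mp hlt⟩))
    (fun x hx => by
      rw [dv_Am _ _ (Bla.rho_pos h hx), Bla.I3a h hx (hpde x hx)]; ring)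
    (fun x hx => by
      have h3 := Bla.I3 h hx Q φ b
      have hr := Bla.rho_pos h hx
      rw [dv_Am _ _ hr]
      have e1 : BEn.bil (Am u) (Bla.VQ u Q) (Bla.aff u φ b) x
          = Bla.AA u (Bla.aff u φ b) (Bla.VQ u Q) x := by
        rw [BEn.bil_comm (fun i j => by rw [Am_apply, Am_apply, h.cof_symm hx])]
        exact bil_Am _ _ _
      rw [e1]
      field_simp
      rw [h3])
  obtain ⟨k1, k2, k3, k4⟩ := key
  have e : (-(n : ℝ) / 2) = -((n : ℝ) / 2) := by ring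
  refine ⟨k1, ?_, ?_, ?_⟩
  · rw [e]; exact k2
  · rw [e]; exact k3
  · rw [e]; exact k4

/-- the box energy bound on an approximant, from the mass bound -/
theorem energy_apx {Θ K c2 C0 : ℝ} {N : ℕ} {ε0 : ℝ} {P0 W0 : VV n →L[ℝ] ℝ} {pc wc : ℝ}
    {eP eW O : VV n} {es Q : ℝ → ℝ → VV n} {nrm : ℝ → ℝ → Seminorm ℝ (VV n)}
    (h : APX n Θ K c2 C0 N ε0 Ω u P0 W0 pc wc eP eW O es Q nrm) (hε0 : 0 ≤ ε0) (hε1 : ε0 ≤ 1)
    {lam tau : ℝ} (hg : Grid N lam tau) {Cm : ℝ} (hCm : 0 ≤ Cm)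
    (hm : ∫⁻ x in {x | x ∈ Ω ∧ B.aff P0 pc (x, u x) / lam + B.aff W0 wc (x, u x) / tau < Θ},
      ENNReal.ofReal (Bla.Nv u (es lam tau) x ^ (-(n : ℝ) / 2) * (1 / Bla.rho u x))
        ≤ ENNReal.ofReal Cm) :
    ∫⁻ x in {x | x ∈ Ω ∧ B.aff P0 pc (x, u x) / lam + B.aff W0 wc (x, u x) / tau < Θ / 4},
      ENNReal.ofReal (Bla.VQ u (Q lam tau) x ^ (1 - (n : ℝ) / 2) *
        (Bla.AA u (Bla.aff u P0 pc) (Bla.aff u P0 pc) x / lam ^ 2 +
          Bla.AA u (Bla.aff u W0 wc) (Bla.aff u W0 wc) x / tau ^ 2))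
      ≤ ENNReal.ofReal (Cbox n Θ Θ * (C0 ^ ((n : ℝ) / 2) * Cm)) := by
  have hlam : 0 < lam := by
    obtain ⟨a, b, _, _, rfl, _⟩ := hg; positivity
  have htau : 0 < tau := by
    obtain ⟨a, b, _, _, _, rfl⟩ := hg; positivity
  have hΘ : 16 ≤ Θ := h.Θ_ge
  have hsc : SC Ω u := h.sol.sc
  have hpde := h.sol.pde
  have hC0 : 0 < C0 := lt_of_lt_of_le one_pos h.C0_ge
  have hle1 : (1 : WithTop ℕ∞) ≤ (∞ : WithTop ℕ∞) := WithTop.coe_le_coe.mpr le_top
  have hepi : ∀ x ∈ Ω, ((x, u x) : VV n) ∈ epi Ω u := fun x hx => ⟨hx, le_rfl⟩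
  -- lower bounds
  have hb1 : ∀ X ∈ epi Ω u, B.aff P0 pc X / lam + B.aff W0 wc X / tau ≤ Θ →
      -ε0 ≤ B.aff P0 pc X / lam ∧ -ε0 ≤ B.aff W0 wc X / tau := by
    intro X hX hle
    have := h.bdd lam tau hg 1 1 le_rfl (by norm_num) le_rfl (by norm_num) X hX
      (by rw [one_mul, one_mul]; exact hle)
    refine ⟨?_, ?_⟩
    · rw [le_div_iff₀ hlam]; linarith [this.2.1]
    · rw [le_div_iff₀ htau]; linarith [this.2.2]
  have hb2 : ∀ X ∈ epi Ω u, B.aff P0 pc X / lam + 2 * (B.aff W0 wc X / tau) ≤ Θ →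
      -ε0 ≤ B.aff W0 wc X / tau := by
    intro X hX hle
    have := h.bdd lam tau hg 1 2 le_rfl (by norm_num) (by norm_num) le_rfl X hX
      (by rw [one_mul, mul_div_assoc]; exact hle)
    rw [le_div_iff₀ htau]; linarith [this.2.2]
  -- compactness
  have hcpt := h.cpt lam tau hg 1 1 le_rfl (by norm_num) le_rfl (by norm_num) Θ le_rfl
  have hsub : {x | x ∈ Ω ∧ B.aff P0 pc (x, u x) / lam + B.aff W0 wc (x, u x) / tau < Θ} ⊆
      {x | x ∈ Ω ∧ 1 * B.aff P0 pc (x, u x) / lam + 1 * B.aff W0 wc (x, u x) / tau ≤ Θ} := by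
    intro x hx
    refine ⟨hx.1, ?_⟩
    rw [one_mul, one_mul]; exact hx.2.le
  have hclsub := closure_minimal hsub hcpt.isClosed
  -- positivity of V
  have hVeq : ∀ x, Bla.VQ u (Q lam tau) x = Bla.rho u x * sg u (Q lam tau - (x, u x)) x := by
    intro x
    unfold Bla.VQ sg
    simp
  have hNeq : ∀ x, Bla.Nv u (es lam tau) x = Bla.rho u x * sg u (es lam tau) x := fun x => rfl
  have hNpos : ∀ x ∈ Ω, B.aff P0 pc (x, u x) / lam + B.aff W0 wc (x, u x) / tau < Θ →
      0 < Bla.Nv u (es lam tau) x := by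
    intro x hx hlt
    rw [hNeq]
    exact mul_pos (Bla.rho_pos hsc hx) (h.sg_es lam tau hg x hx hlt.le)
  have hVge : ∀ x ∈ Ω, B.aff P0 pc (x, u x) / lam + B.aff W0 wc (x, u x) / tau < Θ →
      Bla.Nv u (es lam tau) x / C0 ≤ Bla.VQ u (Q lam tau) x := by
    intro x hx hlt
    have h2 := h.V_ge lam tau hg x hx hlt.le
    rw [hNeq, hVeq, mul_div_assoc]
    refine mul_le_mul_of_nonneg_left ?_ (Bla.rho_pos hsc hx).le
    rw [div_le_iff₀ hC0]; linarith
  have hVpos : ∀ x ∈ Ω, B.aff P0 pc (x, u x) / lam + B.aff W0 wc (x, u x) / tau < Θ →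
      0 < Bla.VQ u (Q lam tau) x := fun x hx hlt =>
    lt_of_lt_of_le (div_pos (hNpos x hx hlt) hC0) (hVge x hx hlt)
  have hDm : MeasurableSet {x | x ∈ Ω ∧ B.aff P0 pc (x, u x) / lam +
      B.aff W0 wc (x, u x) / tau < Θ} := by
    have hc : ContinuousOn (fun x => Bla.aff u P0 pc x / lam + Bla.aff u W0 wc x / tau) Ω :=
      ((Bla.contDiffOn_aff hsc P0 pc).continuousOn.div_const _).add
        ((Bla.contDiffOn_aff hsc W0 wc).continuousOn.div_const _)
    exact (hc.isOpen_inter_preimage hsc.isOpen isOpen_Iio).measurableSet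
  -- the point Q
  have hQm := h.Q_mem lam tau hg 0 (by rw [map_zero]; exact h.c2_pos.le)
  rw [add_zero] at hQm
  have hQb := hb1 _ hQm.1 (by linarith [hQm.2])
  have main := energy_box (Ω := Ω) hsc.isOpen (A := Am u) (fun x hx => Am_posSemidef hsc hx)
    (fun i j => (contDiffOn_Am hsc i j).continuousOn)
    (P := Bla.aff u P0 pc) (W := Bla.aff u W0 wc) (V := Bla.VQ u (Q lam tau))
    (r := fun x => 1 / Bla.rho u x)
    ((Bla.contDiffOn_aff hsc P0 pc).of_le hle1) ((Bla.contDiffOn_aff hsc W0 wc).of_le hle1)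
    (Bla.contDiffOn_VQ hsc _).continuousOn
    (continuousOn_const.div (Bla.contDiffOn_rho hsc).continuousOn
      fun x hx => (Bla.rho_pos hsc hx).ne')
    (fun x hx => (one_div_pos.mpr (Bla.rho_pos hsc hx)).le)
    (lam := lam) (tau := tau) (Θ := Θ) (K := Θ) (ε := ε0)
    (qP := B.aff P0 pc (Q lam tau)) (qW := B.aff W0 wc (Q lam tau))
    (M0 := C0 ^ ((n : ℝ) / 2) * Cm)
    hlam htau (by linarith) hε0 (by linarith) (by linarith)
    (hcpt.of_isClosed_subset isClosed_closure hclsub)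
    (hclsub.trans fun x hx => hx.1)
    hVpos
    (fun x hx hlt => (hb1 _ (hepi x hx) hlt.le).1)
    (fun x hx hlt => (hb1 _ (hepi x hx) hlt.le).2)
    (fun x hx hle => by
      have := hb2 _ (hepi x hx) (le_trans hle (by linarith))
      change B.aff P0 pc (x, u x) / lam + 2 * (B.aff W0 wc (x, u x) / tau) ≤ 3 * Θ / 4 at hle
      change B.aff P0 pc (x, u x) / lam + B.aff W0 wc (x, u x) / tau < Θ
      linarith)
    (by linarith [hQm.2])
    (by linarith [hQm.2, hQb.1, hQb.2])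
    (fun s t c hc1 hc2 hc3 => by
      have e1 : (fun x => s * Bla.aff u P0 pc x + t * Bla.aff u W0 wc x)
          = Bla.aff u (s • P0 + t • W0) (s * pc + t * wc) := by
        ext x
        unfold Bla.aff
        simp only [ContinuousLinearMap.add_apply, ContinuousLinearMap.smul_apply, smul_eq_mul]
        ring
      have e2 : s * B.aff P0 pc (Q lam tau) + t * B.aff W0 wc (Q lam tau)
          = (s • P0 + t • W0) (Q lam tau) + (s * pc + t * wc) := by
        unfold B.aff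
        simp only [ContinuousLinearMap.add_apply, ContinuousLinearMap.smul_apply, smul_eq_mul]
        ring
      have e3 : {x | x ∈ Ω ∧ s * Bla.aff u P0 pc x + t * Bla.aff u W0 wc x < c}
          = {x | x ∈ Ω ∧ Bla.aff u (s • P0 + t • W0) (s * pc + t * wc) x < c} := by
        ext x
        simp only [mem_setOf_eq, ← e1]
      rw [e3] at hc1 hc2 hc3
      rw [e1, e2]
      exact enIneq hsc hpde _ _ _ _ hc1 hc2 hc3)
    (by positivity)
    (by
      refine le_trans ?_ ((mul_le_mul_right hm (ENNReal.ofReal (C0 ^ ((n : ℝ) / 2)))).trans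
        (le_of_eq ?_))
      · rw [← lintegral_const_mul' _ _ ENNReal.ofReal_ne_top]
        refine setLIntegral_mono' hDm (fun x hx => ?_)
        · rw [← ENNReal.ofReal_mul (by positivity)]
          apply ENNReal.ofReal_le_ofReal
          have hN := hNpos x hx.1 hx.2
          have hV := hVge x hx.1 hx.2
          have hr : 0 ≤ 1 / Bla.rho u x := (one_div_pos.mpr (Bla.rho_pos hsc hx.1)).le
          rw [← mul_assoc]
          refine mul_le_mul_of_nonneg_right ?_ hr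
          calc Bla.VQ u (Q lam tau) x ^ (-(n : ℝ) / 2)
              ≤ (Bla.Nv u (es lam tau) x / C0) ^ (-(n : ℝ) / 2) := by
                apply Real.rpow_le_rpow_of_nonpos (div_pos hN hC0) hV
                have : (0 : ℝ) ≤ n := Nat.cast_nonneg n
                linarith
            _ = C0 ^ ((n : ℝ) / 2) * Bla.Nv u (es lam tau) x ^ (-(n : ℝ) / 2) := by
                rw [Real.div_rpow hN.le hC0.le, neg_div, Real.rpow_neg hC0.le]
                rw [div_inv_eq_mul, mul_comm]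
      · rw [← ENNReal.ofReal_mul (by positivity)])
  simp only [bil_Am] at main
  exact main

end Crest.Agent.R236.BCor
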