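import Crest.Agent.R236.BTop1
import Crest.Agent.R236.BApxDefs
import Crest.Agent.R236.Bla

/-!
Row 236, Part B: the non-integral fields of `BTop.BDat` for an approximant `APX` (helper868).

`P x = Bla.aff u P0 pc x`, `W x = Bla.aff u W0 wc x`, `NP = Bla.Nv u eP`, `NW = Bla.Nv u eW`,
`rho = Bla.rho u`, `V a b = Bla.VQ u (Q (2^a) (2^b))`, `AA x ξ = AAx u x ξ`.
-/

set_option autoImplicit false
open scoped ContDiff Topology ENNReal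
open Crest.GeometryTopology.CoordMetric Crest.GeometryTopology.AffineMaximal
open Set Filter MeasureTheory

noncomputable section

namespace Crest.Agent.R236.B

open Crest.Agent.R236.A (EE epi SOL)
open Crest.Agent.R236.BTop (BDat)

/-- `ρⁿ Σ cof_ij ξ(e_i) ξ(e_j)` -/
def AAx {n : ℕ} (u : EE n → ℝ) (x : EE n) (ξ : EE n →L[ℝ] ℝ) : ℝ :=
  Bla.rho u x ^ n * ∑ i, ∑ j, cof u x i j * ξ (EuclideanSpace.single i 1) *
    ξ (EuclideanSpace.single j 1)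

theorem AAx_fderiv {n : ℕ} (u f : EE n → ℝ) (x : EE n) :
    AAx u x (fderiv ℝ f x) = Bla.AA u f f x := rfl

theorem AAx_zero {n : ℕ} (u : EE n → ℝ) (x : EE n) : AAx u x 0 = 0 := by
  unfold AAx
  simp

section
variable {n : ℕ} {Ω : Set (EE n)} {u : EE n → ℝ} {x : EE n}

theorem quad_nonneg (h : SC Ω u) (hx : x ∈ Ω) (a : Fin n → ℝ) :
    0 ≤ ∑ i, ∑ j, cof u x i j * a i * a j := by
  have h1 := (h.cof_posDef hx).posSemidef.dotProduct_mulVec_nonneg a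
  have e : star a ⬝ᵥ (cof u x).mulVec a = ∑ i, ∑ j, cof u x i j * a i * a j := by
    simp only [dotProduct, Matrix.mulVec, Pi.star_apply, star_trivial, Finset.mul_sum]
    refine Finset.sum_congr rfl fun i _ => Finset.sum_congr rfl fun j _ => ?_
    ring
  rwa [e] at h1

theorem AAx_nonneg (h : SC Ω u) (hx : x ∈ Ω) (ξ : EE n →L[ℝ] ℝ) : 0 ≤ AAx u x ξ := by
  unfold AAx
  exact mul_nonneg (pow_nonneg (Bla.rho_pos h hx).le _)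
    (quad_nonneg h hx (fun i => ξ (EuclideanSpace.single i 1)))

theorem AAx_comb (h : SC Ω u) (hx : x ∈ Ω) (s t : ℝ) (ξ η : EE n →L[ℝ] ℝ) :
    AAx u x (s • ξ + t • η) ≤ 2 * (s ^ 2 * AAx u x ξ + t ^ 2 * AAx u x η) := by
  have h1 := AAx_nonneg h hx (s • ξ - t • η)
  have e : 2 * (s ^ 2 * AAx u x ξ + t ^ 2 * AAx u x η) =
      AAx u x (s • ξ + t • η) + AAx u x (s • ξ - t • η) := by
    unfold AAx
    rw [← mul_add, ← Finset.sum_add_distrib]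
    simp_rw [← Finset.sum_add_distrib]
    rw [mul_left_comm (s ^ 2), mul_left_comm (t ^ 2), ← mul_add, mul_left_comm]
    congr 1
    rw [mul_add, Finset.mul_sum, Finset.mul_sum, Finset.mul_sum, Finset.mul_sum,
      ← Finset.sum_add_distrib]
    refine Finset.sum_congr rfl fun i _ => ?_
    rw [Finset.mul_sum, Finset.mul_sum, Finset.mul_sum, Finset.mul_sum,
      ← Finset.sum_add_distrib]
    refine Finset.sum_congr rfl fun j _ => ?_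
    simp only [ContinuousLinearMap.add_apply, ContinuousLinearMap.sub_apply,
      ContinuousLinearMap.smul_apply, smul_eq_mul]
    ring
  rw [e]
  linarith

end

section
variable {n : ℕ} {Θ K c2 C0 : ℝ} {N : ℕ} {ε0 : ℝ} {Ω : Set (EE n)} {u : EE n → ℝ}
  {P0 W0 : VV n →L[ℝ] ℝ} {pc wc : ℝ} {eP eW O : VV n} {es Q : ℝ → ℝ → VV n}
  {nrm : ℝ → ℝ → Seminorm ℝ (VV n)}

theorem grid_pow {N : ℕ} {a b : ℤ} (ha : |a| ≤ (N : ℤ)) (hb : |b| ≤ (N : ℤ)) :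
    Grid N ((2 : ℝ) ^ a) ((2 : ℝ) ^ b) := ⟨a, b, ha, hb, rfl, rfl⟩

theorem aff_eq (u : EE n → ℝ) (F : VV n →L[ℝ] ℝ) (c : ℝ) (x : EE n) :
    Bla.aff u F c x = aff F c (x, u x) := rfl

theorem Nv_sg (u : EE n → ℝ) (v : VV n) (x : EE n) : Bla.Nv u v x = Bla.rho u x * sg u v x := rfl

theorem VQ_sg (u : EE n → ℝ) (Q : VV n) (x : EE n) :
    Bla.VQ u Q x = Bla.rho u x * sg u (Q - (x, u x)) x := by
  unfold Bla.VQ sg
  simp only [Prod.snd_sub, Prod.fst_sub]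

theorem APX.comp (h : APX n Θ K c2 C0 N ε0 Ω u P0 W0 pc wc eP eW O es Q nrm) :
    IsCompact {x | x ∈ Ω ∧ (2:ℝ)^(-(N:ℤ)) ≤ Bla.aff u P0 pc x ∧ Bla.aff u P0 pc x ≤ (2:ℝ)^(N:ℤ) ∧
      (2:ℝ)^(-(N:ℤ)) ≤ Bla.aff u W0 wc x ∧ Bla.aff u W0 wc x ≤ (2:ℝ)^(N:ℤ)} := by
  have hg : Grid N ((2 : ℝ) ^ (N : ℤ)) ((2 : ℝ) ^ (N : ℤ)) :=
    grid_pow (by rw [abs_of_nonneg (by positivity)]) (by rw [abs_of_nonneg (by positivity)])
  have hK := h.cpt _ _ hg 1 1 le_rfl one_le_two le_rfl one_le_two Θ le_rfl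
  set S := {x | x ∈ Ω ∧ 1 * aff P0 pc (x, u x) / (2:ℝ)^(N:ℤ) + 1 * aff W0 wc (x, u x) / (2:ℝ)^(N:ℤ)
    ≤ Θ} with hS
  have hSO : S ⊆ Ω := fun x hx => hx.1
  have cP : ContinuousOn (Bla.aff u P0 pc) S :=
    (Bla.contDiffOn_aff h.sol.sc P0 pc).continuousOn.mono hSO
  have cW : ContinuousOn (Bla.aff u W0 wc) S :=
    (Bla.contDiffOn_aff h.sol.sc W0 wc).continuousOn.mono hSO
  have c1 : IsClosed (S ∩ Bla.aff u P0 pc ⁻¹' (Icc ((2:ℝ)^(-(N:ℤ))) ((2:ℝ)^(N:ℤ)))) :=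
    cP.preimage_isClosed_of_isClosed hK.isClosed isClosed_Icc
  have c2 : IsClosed (S ∩ Bla.aff u W0 wc ⁻¹' (Icc ((2:ℝ)^(-(N:ℤ))) ((2:ℝ)^(N:ℤ)))) :=
    cW.preimage_isClosed_of_isClosed hK.isClosed isClosed_Icc
  have e : {x | x ∈ Ω ∧ (2:ℝ)^(-(N:ℤ)) ≤ Bla.aff u P0 pc x ∧ Bla.aff u P0 pc x ≤ (2:ℝ)^(N:ℤ) ∧
      (2:ℝ)^(-(N:ℤ)) ≤ Bla.aff u W0 wc x ∧ Bla.aff u W0 wc x ≤ (2:ℝ)^(N:ℤ)} =
      (S ∩ Bla.aff u P0 pc ⁻¹' (Icc ((2:ℝ)^(-(N:ℤ))) ((2:ℝ)^(N:ℤ)))) ∩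
      (S ∩ Bla.aff u W0 wc ⁻¹' (Icc ((2:ℝ)^(-(N:ℤ))) ((2:ℝ)^(N:ℤ)))) := by
    ext x
    simp only [mem_setOf_eq, mem_inter_iff, mem_preimage, mem_Icc]
    constructor
    · rintro ⟨hx, a1, a2, a3, a4⟩
      have hxS : x ∈ S := by
        refine ⟨hx, ?_⟩
        have p : (0 : ℝ) < (2:ℝ)^(N:ℤ) := by positivity
        have b1 : 1 * aff P0 pc (x, u x) / (2:ℝ)^(N:ℤ) ≤ 1 := by
          rw [one_mul, div_le_one p]
          exact a2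
        have b2 : 1 * aff W0 wc (x, u x) / (2:ℝ)^(N:ℤ) ≤ 1 := by
          rw [one_mul, div_le_one p]
          exact a4
        have := h.Θ_ge
        linarith
      exact ⟨⟨hxS, a1, a2⟩, hxS, a3, a4⟩
    · rintro ⟨⟨hxS, a1, a2⟩, -, a3, a4⟩
      exact ⟨hxS.1, a1, a2, a3, a4⟩
  rw [e]
  exact hK.of_isClosed_subset (c1.inter c2) (fun x hx => hx.1.1)

theorem APX.posN (h : APX n Θ K c2 C0 N ε0 Ω u P0 W0 pc wc eP eW O es Q nrm) {x : EE n}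
    (hx : x ∈ Ω) (a2 : Bla.aff u P0 pc x ≤ (2:ℝ)^(N:ℤ)) (a4 : Bla.aff u W0 wc x ≤ (2:ℝ)^(N:ℤ)) :
    0 < Bla.Nv u eP x ∧ 0 < Bla.Nv u eW x := by
  have hg : Grid N ((2 : ℝ) ^ (N : ℤ)) ((2 : ℝ) ^ (N : ℤ)) :=
    grid_pow (by rw [abs_of_nonneg (by positivity)]) (by rw [abs_of_nonneg (by positivity)])
  have hle : aff P0 pc (x, u x) / (2:ℝ)^(N:ℤ) + aff W0 wc (x, u x) / (2:ℝ)^(N:ℤ) ≤ Θ := by
    have p : (0 : ℝ) < (2:ℝ)^(N:ℤ) := by positivity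
    have b1 : aff P0 pc (x, u x) / (2:ℝ)^(N:ℤ) ≤ 1 := by
      rw [div_le_one p]
      exact a2
    have b2 : aff W0 wc (x, u x) / (2:ℝ)^(N:ℤ) ≤ 1 := by
      rw [div_le_one p]
      exact a4
    have := h.Θ_ge
    linarith
  have hr := Bla.rho_pos h.sol.sc hx
  exact ⟨mul_pos hr (h.sg_eP _ _ hg x hx hle), mul_pos hr (h.sg_eW _ _ hg x hx hle)⟩

/-- comparison of `V_s` with `lam N_P + tau N_W` -/
theorem APX.comparison (h : APX n Θ K c2 C0 N ε0 Ω u P0 W0 pc wc eP eW O es Q nrm)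
    {lam tau : ℝ} (hg : Grid N lam tau) {x : EE n} (hx : x ∈ Ω)
    (hle : Bla.aff u P0 pc x / lam + Bla.aff u W0 wc x / tau ≤ Θ) :
    0 < Bla.VQ u (Q lam tau) x ∧
      1 / (2 * C0) * Bla.VQ u (Q lam tau) x ≤ lam * Bla.Nv u eP x + tau * Bla.Nv u eW x := by
  have hr := Bla.rho_pos h.sol.sc hx
  have C0p : 0 < C0 := lt_of_lt_of_le one_pos h.C0_ge
  have h1 := h.sg_es _ _ hg x hx hle
  have h2 := h.V_ge _ _ hg x hx hle
  have h3 := h.V_le _ _ hg x hx hle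
  have h4 := h.es_sg_le _ _ hg x hx hle
  have h5 : 0 < sg u (Q lam tau - (x, u x)) x := by
    have h6 : 0 < C0 * sg u (Q lam tau - (x, u x)) x := lt_of_lt_of_le h1 h2
    exact pos_of_mul_pos_right h6 C0p.le
  rw [VQ_sg]
  refine ⟨mul_pos hr h5, ?_⟩
  rw [Nv_sg, Nv_sg]
  have h6 : sg u (Q lam tau - (x, u x)) x ≤ 2 * C0 * (lam * sg u eP x + tau * sg u eW x) := by
    calc sg u (Q lam tau - (x, u x)) x ≤ C0 * sg u (es lam tau) x := h3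
      _ ≤ C0 * (2 * (lam * sg u eP x + tau * sg u eW x)) := mul_le_mul_of_nonneg_left h4 C0p.le
      _ = _ := by ring
  have h7 : 1 / (2 * C0) * sg u (Q lam tau - (x, u x)) x ≤ lam * sg u eP x + tau * sg u eW x := by
    rw [one_div, inv_mul_le_iff₀ (by positivity)]
    exact h6
  calc 1 / (2 * C0) * (Bla.rho u x * sg u (Q lam tau - (x, u x)) x)
      = Bla.rho u x * (1 / (2 * C0) * sg u (Q lam tau - (x, u x)) x) := by ring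
    _ ≤ Bla.rho u x * (lam * sg u eP x + tau * sg u eW x) := mul_le_mul_of_nonneg_left h7 hr.le
    _ = _ := by ring

/-- `BDat` from `APX` and the three integral inputs -/
theorem APX.bdat (h : APX n Θ K c2 C0 N ε0 Ω u P0 W0 pc wc eP eW O es Q nrm)
    {κ C4 CE c4 eps0 Th : ℝ}
    (cert : ∀ ζ : EE n → ℝ, ContDiff ℝ 1 ζ → HasCompactSupport ζ →
      tsupport ζ ⊆ {x | x ∈ Ω ∧ 0 < Bla.aff u P0 pc x ∧ 0 < Bla.aff u W0 wc x ∧
        0 < Bla.Nv u eP x ∧ 0 < Bla.Nv u eW x} →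
      ∫⁻ x, ENNReal.ofReal (ζ x ^ 2 * ((Bla.aff u P0 pc x * Bla.Nv u eP x +
          Bla.aff u W0 wc x * Bla.Nv u eW x) ^ κ *
          (1 / (Bla.aff u P0 pc x * Bla.Nv u eP x) + 1 / (Bla.aff u W0 wc x * Bla.Nv u eW x))
          / Bla.rho u x)) ≤
        ENNReal.ofReal C4 * ∫⁻ x, ENNReal.ofReal ((Bla.aff u P0 pc x * Bla.Nv u eP x +
          Bla.aff u W0 wc x * Bla.Nv u eW x) ^ κ * AAx u x (fderiv ℝ ζ x)))
    (energy : ∀ a b : ℤ, |a| ≤ N → |b| ≤ N →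
      ∫⁻ x in {x | x ∈ Ω ∧ Bla.aff u P0 pc x / (2:ℝ)^a + Bla.aff u W0 wc x / (2:ℝ)^b ≤ 2},
        ENNReal.ofReal (Bla.VQ u (Q ((2:ℝ)^a) ((2:ℝ)^b)) x ^ κ *
          (AAx u x (fderiv ℝ (Bla.aff u P0 pc) x) / ((2:ℝ)^a) ^ 2 +
            AAx u x (fderiv ℝ (Bla.aff u W0 wc) x) / ((2:ℝ)^b) ^ 2)) ≤ ENNReal.ofReal CE)
    (lower : ∀ a b : ℤ, |a| ≤ N → |b| ≤ N →
      ENNReal.ofReal c4 ≤ ∫⁻ x in {x | x ∈ Ω ∧ eps0 * (2:ℝ)^a ≤ Bla.aff u P0 pc x ∧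
        Bla.aff u P0 pc x ≤ Th * (2:ℝ)^a ∧ eps0 * (2:ℝ)^b ≤ Bla.aff u W0 wc x ∧
        Bla.aff u W0 wc x ≤ Th * (2:ℝ)^b},
        ENNReal.ofReal ((Bla.aff u P0 pc x * Bla.Nv u eP x + Bla.aff u W0 wc x * Bla.Nv u eW x) ^ κ *
          (1 / (Bla.aff u P0 pc x * Bla.Nv u eP x) + 1 / (Bla.aff u W0 wc x * Bla.Nv u eW x))
          / Bla.rho u x)) :
    BDat (volume : Measure (EE n)) κ C4 CE (1 / (2 * C0)) c4 eps0 Th N Ω (Bla.aff u P0 pc)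
      (Bla.aff u W0 wc) (Bla.Nv u eP) (Bla.Nv u eW) (Bla.rho u) (AAx u)
      (fun a b => Bla.VQ u (Q ((2:ℝ)^a) ((2:ℝ)^b))) where
  isOpen := h.sol.sc.isOpen
  P_smooth := (Bla.contDiffOn_aff h.sol.sc P0 pc).of_le (by exact_mod_cast le_top)
  W_smooth := (Bla.contDiffOn_aff h.sol.sc W0 wc).of_le (by exact_mod_cast le_top)
  comp := h.comp
  pos := fun x hx _ a2 _ a4 => h.posN hx a2 a4
  AA_zero := fun x => AAx_zero u x
  AA_nonneg := fun x hx ξ => AAx_nonneg h.sol.sc hx ξ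
  AA_comb := fun x hx s t ξ η => AAx_comb h.sol.sc hx s t ξ η
  cert := cert
  energy := energy
  comparison := fun a b ha hb x hx hle =>
    h.comparison (grid_pow ha hb) hx (hle.trans (by have := h.Θ_ge; linarith))
  lower := lower

end

end Crest.Agent.R236.B
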