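import Mathlib
import Crest.Prelude.Def_AffineMaximal
import Crest.Agent.R236.P1
import Crest.Agent.R236.CalcA
import Crest.Agent.R236.BEn
import Crest.Agent.R236.BEnE
import Crest.Agent.R236.Bla

/-! Row 236, part B4: the energy inequality for solutions of the affine maximal equation.
(helper272) -/

set_option autoImplicit false
open scoped ContDiff Topology
open Crest.GeometryTopology.CoordMetric Crest.GeometryTopology.AffineMaximal
open Set Filter MeasureTheory Finset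

noncomputable section

namespace Crest.Agent.R236.BEn

open Crest.Agent.R236.Bla

variable {n : ℕ} {Ω : Set (EuclideanSpace ℝ (Fin n))} {u : EuclideanSpace ℝ (Fin n) → ℝ}

/-- the matrix field `ρⁿ cof D²u` -/
def Amat (u : EuclideanSpace ℝ (Fin n) → ℝ) (x : EuclideanSpace ℝ (Fin n)) :
    Matrix (Fin n) (Fin n) ℝ := rho u x ^ n • cof u x

lemma Amat_apply (x : EuclideanSpace ℝ (Fin n)) (i j : Fin n) :
    Amat u x i j = rho u x ^ n * cof u x i j := rfl

lemma bil_Amat (f g : EuclideanSpace ℝ (Fin n) → ℝ) (x : EuclideanSpace ℝ (Fin n)) :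
    bil (Amat u) f g x = AA u f g x := by
  unfold bil AA
  rw [Finset.mul_sum]
  refine Finset.sum_congr rfl fun i _ => ?_
  rw [Finset.mul_sum]
  refine Finset.sum_congr rfl fun j _ => ?_
  rw [Amat_apply]
  ring

lemma lap_eq_dv (f : EuclideanSpace ℝ (Fin n) → ℝ) (x : EuclideanSpace ℝ (Fin n)) :
    lap u f x = rho u x * dv (Amat u) f x := by
  unfold lap dv
  congr 1
  refine Finset.sum_congr rfl fun i _ => ?_
  congr 1
  funext y
  unfold AAg
  rw [Finset.mul_sum]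
  refine Finset.sum_congr rfl fun j _ => ?_
  rw [Amat_apply]
  ring

lemma AA_nonneg (h : SC Ω u) {x : EuclideanSpace ℝ (Fin n)} (hx : x ∈ Ω)
    (f : EuclideanSpace ℝ (Fin n) → ℝ) : 0 ≤ AA u f f x := by
  unfold AA
  refine mul_nonneg (pow_nonneg (rho_pos h hx).le n) ?_
  have h1 := (h.cof_posDef hx).posSemidef.dotProduct_mulVec_nonneg (fun i => pderiv i f x)
  simp only [star_trivial, dotProduct, Matrix.mulVec] at h1
  refine h1.trans (le_of_eq ?_)
  refine Finset.sum_congr rfl fun i _ => ?_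
  rw [Finset.mul_sum]
  refine Finset.sum_congr rfl fun j _ => ?_
  ring

lemma AA_comm (h : SC Ω u) {x : EuclideanSpace ℝ (Fin n)} (hx : x ∈ Ω)
    (f g : EuclideanSpace ℝ (Fin n) → ℝ) : AA u f g x = AA u g f x := by
  rw [← bil_Amat, ← bil_Amat]
  exact bil_comm fun i j => by rw [Amat_apply, Amat_apply, h.cof_symm hx]

lemma contDiffOn_Amat (h : SC Ω u) (i j : Fin n) : ContDiffOn ℝ ∞ (fun x => Amat u x i j) Ω :=
  ((contDiffOn_rho h).pow n).mul (h.contDiffOn_cof i j)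

/-- **Energy inequality (B4)**, `f = φ(x,u(x)) + b`, `V = V_Q`, `v = (c - f)_+`. -/
theorem energy (h : SC Ω u) (hm : ∀ x ∈ Ω, affineMaximalOp n u x = 0)
    {K : Set (EuclideanSpace ℝ (Fin n))} (hK : IsCompact K) (hKΩ : K ⊆ Ω)
    (φ : (EuclideanSpace ℝ (Fin n) × ℝ) →L[ℝ] ℝ) (b c : ℝ) (Q : EuclideanSpace ℝ (Fin n) × ℝ)
    (hfc : ∀ x ∈ Ω, x ∉ K → c ≤ aff u φ b x) (hV : ∀ x ∈ K, 0 < VQ u Q x) :
    IntegrableOn (fun x => VQ u Q x ^ (1 - (n:ℝ) / 2) * max (c - aff u φ b x) 0 *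
      AA u (aff u φ b) (aff u φ b) x) Ω ∧
    IntegrableOn (fun x => (max (c - aff u φ b x) 0) ^ 3 * VQ u Q x ^ (-(n:ℝ) / 2) *
      (rho u x)⁻¹) Ω ∧
    IntegrableOn (fun x => VQ u Q x ^ (-(n:ℝ) / 2) * (max (c - aff u φ b x) 0) ^ 2 *
      (φ Q + b - aff u φ b x) * (rho u x)⁻¹) Ω ∧
    6 * ∫ x in Ω, VQ u Q x ^ (1 - (n:ℝ) / 2) * max (c - aff u φ b x) 0 *
        AA u (aff u φ b) (aff u φ b) x ≤
      n * (1 + (n:ℝ) / 2) *
        (∫ x in Ω, (max (c - aff u φ b x) 0) ^ 3 * VQ u Q x ^ (-(n:ℝ) / 2) * (rho u x)⁻¹) +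
      3 * n * ∫ x in Ω, VQ u Q x ^ (-(n:ℝ) / 2) * (max (c - aff u φ b x) 0) ^ 2 *
        (φ Q + b - aff u φ b x) * (rho u x)⁻¹ := by
  have hA : ∀ i j, ContDiffOn ℝ 1 (fun x => Amat u x i j) Ω := fun i j =>
    (contDiffOn_Amat h i j).of_le (by norm_cast)
  have hf : ContDiffOn ℝ 2 (aff u φ b) Ω := (contDiffOn_aff h φ b).of_le (by norm_cast)
  have hVs : ContDiffOn ℝ 2 (VQ u Q) Ω := (contDiffOn_VQ h Q).of_le (by norm_cast)
  have hr : ContinuousOn (fun x => (rho u x)⁻¹) Ω :=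
    (contDiffOn_rho h).continuousOn.inv₀ fun x hx => (rho_pos h hx).ne'
  have hsymm : ∀ x ∈ Ω, ∀ i j, Amat u x i j = Amat u x j i := by
    intro x hx i j
    rw [Amat_apply, Amat_apply, h.cof_symm hx]
  have hpos : ∀ x ∈ Ω, 0 ≤ bil (Amat u) (VQ u Q) (VQ u Q) x := fun x hx => by
    rw [bil_Amat]; exact AA_nonneg h hx _
  have hen : ∀ a : ℝ, -a / 2 = -(a / 2) := fun a => by ring
  have E := energy_abstract h.isOpen hK hKΩ hA hsymm hpos hf hVs hr hV (c := c) (q := φ Q + b) hfc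
    (fun x hx => by
      have h1 := I3a h hx (hm x hx) Q
      rw [lap_eq_dv] at h1
      have h2 := (rho_pos h hx).ne'
      field_simp
      linarith)
    (fun x hx => by
      have h1 := I3 h hx Q φ b
      rw [lap_eq_dv, AA_comm h hx] at h1
      have h2 := (rho_pos h hx).ne'
      rw [bil_Amat]
      field_simp
      linarith)
  simp only [bil_Amat] at E
  rw [hen]
  exact E

end Crest.Agent.R236.BEn
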