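import Crest.Agent.R236.BTop3

set_option autoImplicit false
set_option linter.unusedSectionVars false
set_option linter.deprecated false
open scoped ContDiff Topology ENNReal
open Set Filter MeasureTheory

noncomputable section

namespace Crest.Agent.R236.BTop

section
variable {E : Type*} [NormedAddCommGroup E] [NormedSpace ℝ E] [MeasurableSpace E] [BorelSpace E]
  {μ : Measure E} {κ C4 CE cV c4 eps0 Th : ℝ} {N : ℕ}
  {Ω : Set E} {P W NP NW rho : E → ℝ} {AA : E → (E →L[ℝ] ℝ) → ℝ} {V : ℤ → ℤ → E → ℝ}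

/-- the mass boxes of B6 -/
def GG (Ω : Set E) (P W : E → ℝ) (eps0 Th : ℝ) (a b : ℤ) : Set E :=
  {x | x ∈ Ω ∧ eps0 * (2:ℝ)^a ≤ P x ∧ P x ≤ Th * (2:ℝ)^a ∧
      eps0 * (2:ℝ)^b ≤ W x ∧ W x ≤ Th * (2:ℝ)^b}

/-- the sparse grid -/
def Grid (J : ℕ) : Finset (ℤ × ℤ) := Finset.Icc (-(J:ℤ)) J ×ˢ Finset.Icc (-(J:ℤ)) J

lemma card_Grid (J : ℕ) : (Grid J).card = (2 * J + 1) ^ 2 := by
  unfold Grid
  have h2 : (Finset.Icc (-(J:ℤ)) J).card = 2 * J + 1 := by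
    rw [Int.card_Icc]; omega
  rw [Finset.card_product, h2, sq]

/-- lower bound for the left-hand side of the certificate inequality -/
lemma total_lower {k0 m0 J : ℕ} (hk0 : Th < eps0 * 2 ^ k0) (he : 0 < eps0)
    (_hT : 0 < Th) (hm1 : 1 ≤ eps0 * 2 ^ (m0 - 1)) (hm2 : Th ≤ 2 ^ (m0 - 1)) (hm0 : 1 ≤ m0)
    (hN : N = k0 * J + m0)
    (D : BDat μ κ C4 CE cV c4 eps0 Th N Ω P W NP NW rho AA V) :
    (((2 * J + 1) ^ 2 : ℕ) : ℝ≥0∞) * ENNReal.ofReal c4 ≤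
    ∫⁻ x, ENNReal.ofReal (zeta Ω P W N x ^ 2 * ((P x * NP x + W x * NW x) ^ κ *
        (1 / (P x * NP x) + 1 / (W x * NW x)) / rho x)) ∂μ := by
  set F : E → ℝ≥0∞ := fun x => ENNReal.ofReal ((P x * NP x + W x * NW x) ^ κ *
        (1 / (P x * NP x) + 1 / (W x * NW x)) / rho x) with hF
  set B : ℤ × ℤ → Set E := fun i => GG Ω P W eps0 Th (k0 * i.1) (k0 * i.2) with hBdef
  have hmeas : ∀ i, MeasurableSet (B i) := fun i =>
    measurableSet_box D.isOpen D.P_smooth D.W_smooth _ _ _ _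
  -- exponents
  have hgrid : ∀ i ∈ Finset.Icc (-(J:ℤ)) J, |(k0:ℤ) * i| + m0 ≤ N := by
    intro i hi
    rw [Finset.mem_Icc, ← abs_le] at hi
    rw [abs_mul, hN, Nat.abs_cast]
    push_cast
    have : (k0:ℤ) * |i| ≤ k0 * J := mul_le_mul_of_nonneg_left hi (by positivity)
    linarith
  -- separation
  have hsep : ∀ i j : ℤ, i < j → Th * (2:ℝ)^((k0:ℤ) * i) < eps0 * (2:ℝ)^((k0:ℤ) * j) := by
    intro i j hij
    have h1 : (2:ℝ)^((k0:ℤ) * i) * 2 ^ k0 ≤ (2:ℝ)^((k0:ℤ) * j) := by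
      rw [← zpow_natCast, ← zpow_add₀ (by norm_num)]
      apply zpow_le_zpow_right₀ (by norm_num)
      have : (k0:ℤ) * i + k0 = k0 * (i + 1) := by ring
      rw [this]
      exact mul_le_mul_of_nonneg_left (by omega) (by positivity)
    have h2 : (0:ℝ) < (2:ℝ)^((k0:ℤ) * i) := by positivity
    calc Th * (2:ℝ)^((k0:ℤ) * i) < eps0 * 2 ^ k0 * (2:ℝ)^((k0:ℤ) * i) := by gcongr
      _ = eps0 * ((2:ℝ)^((k0:ℤ) * i) * 2 ^ k0) := by ring
      _ ≤ _ := by gcongr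
  have hdisj : Set.PairwiseDisjoint (↑(Grid J)) B := by
    intro i _ j _ hij
    rw [Function.onFun, Set.disjoint_left]
    rintro x ⟨-, h1, h2, h3, h4⟩ ⟨-, h5, h6, h7, h8⟩
    apply hij
    ext
    · rcases lt_trichotomy i.1 j.1 with h | h | h
      · exact absurd (h5.trans h2) (not_le.mpr (hsep _ _ h))
      · exact h
      · exact absurd (h1.trans h6) (not_le.mpr (hsep _ _ h))
    · rcases lt_trichotomy i.2 j.2 with h | h | h
      · exact absurd (h7.trans h4) (not_le.mpr (hsep _ _ h))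
      · exact h
      · exact absurd (h3.trans h8) (not_le.mpr (hsep _ _ h))
  -- the cut-off is one on the boxes
  have hrange : ∀ (i : ℤ) (t : ℝ), i ∈ Finset.Icc (-(J:ℤ)) J → eps0 * (2:ℝ)^((k0:ℤ) * i) ≤ t →
      t ≤ Th * (2:ℝ)^((k0:ℤ) * i) → (2:ℝ)^(-(N:ℤ)+1) ≤ t ∧ t ≤ (2:ℝ)^((N:ℤ)-1) := by
    intro i t hi h1 h2
    have hg := hgrid i hi
    have hg1 := abs_le.mp (show |(k0:ℤ) * i| ≤ (N:ℤ) - m0 by linarith)
    constructor
    · refine le_trans ?_ h1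
      have h3 : (2:ℝ)^(-(N:ℤ)+1) ≤ (2:ℝ)^((k0:ℤ) * i) / 2 ^ (m0 - 1) := by
        rw [le_div_iff₀ (by positivity), ← zpow_natCast, ← zpow_add₀ (by norm_num)]
        apply zpow_le_zpow_right₀ (by norm_num)
        omega
      refine h3.trans ?_
      rw [div_le_iff₀ (by positivity)]
      have h2 : (0:ℝ) < (2:ℝ)^((k0:ℤ) * i) := by positivity
      nlinarith
    · refine h2.trans ?_
      calc Th * (2:ℝ)^((k0:ℤ) * i) ≤ 2 ^ (m0 - 1) * (2:ℝ)^((k0:ℤ) * i) := by gcongr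
        _ = (2:ℝ)^(((m0 - 1 : ℕ) : ℤ) + (k0:ℤ) * i) := by
          rw [← zpow_natCast, ← zpow_add₀ (by norm_num)]
        _ ≤ _ := by
          apply zpow_le_zpow_right₀ (by norm_num)
          omega
  have hone : ∀ i ∈ Grid J, ∀ x ∈ B i, zeta Ω P W N x = 1 := by
    intro i hi x hx
    unfold Grid at hi
    rw [Finset.mem_product] at hi
    obtain ⟨h0, h1, h2, h3, h4⟩ := hx
    obtain ⟨a1, a2⟩ := hrange _ _ hi.1 h1 h2
    obtain ⟨a3, a4⟩ := hrange _ _ hi.2 h3 h4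
    exact zeta_one h0 a1 a2 a3 a4
  calc (((2 * J + 1) ^ 2 : ℕ) : ℝ≥0∞) * ENNReal.ofReal c4 = ∑ _i ∈ Grid J, ENNReal.ofReal c4 := by
        rw [Finset.sum_const, card_Grid, nsmul_eq_mul]
    _ ≤ ∑ i ∈ Grid J, ∫⁻ x in B i, F x ∂μ := by
        apply Finset.sum_le_sum
        intro i hi
        unfold Grid at hi
        rw [Finset.mem_product] at hi
        have g1 := hgrid _ hi.1
        have g2 := hgrid _ hi.2
        exact D.lower _ _ (by omega) (by omega)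
    _ = ∫⁻ x in ⋃ i ∈ Grid J, B i, F x ∂μ :=
        (lintegral_biUnion_finset hdisj (fun i _ => hmeas i) F).symm
    _ ≤ ∫⁻ x in ⋃ i ∈ Grid J, B i, ENNReal.ofReal (zeta Ω P W N x ^ 2 *
        ((P x * NP x + W x * NW x) ^ κ * (1 / (P x * NP x) + 1 / (W x * NW x)) / rho x)) ∂μ := by
        apply setLIntegral_mono' ((Grid J).measurableSet_biUnion fun i _ => hmeas i)
        intro x hx
        simp only [mem_iUnion] at hx
        obtain ⟨i, hi, hx⟩ := hx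
        rw [hone i hi x hx, one_pow, one_mul]
    _ ≤ _ := setLIntegral_le_lintegral _ _

/-- **B7**: no data for large grids. -/
theorem no_BDat (κ C4 CE cV c4 eps0 Th : ℝ) (hκ : κ ≤ 0) (hcV : 0 < cV) (hc4 : 0 < c4)
    (he : 0 < eps0) (hT : 0 < Th) :
    ∃ N : ℕ, ∀ (μ : Measure E) (Ω : Set E) (P W NP NW rho : E → ℝ) (AA : E → (E →L[ℝ] ℝ) → ℝ)
      (V : ℤ → ℤ → E → ℝ), ¬ BDat μ κ C4 CE cV c4 eps0 Th N Ω P W NP NW rho AA V := by
  obtain ⟨B, hB0, hB⟩ := exists_deriv_bound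
  obtain ⟨k0, hk0⟩ := pow_unbounded_of_one_lt (Th / eps0) (one_lt_two (α := ℝ))
  obtain ⟨m, hm⟩ := pow_unbounded_of_one_lt (max Th (1 / eps0)) (one_lt_two (α := ℝ))
  set m0 := m + 1 with hm0
  have hk0' : Th < eps0 * 2 ^ k0 := by
    rw [div_lt_iff₀ he] at hk0; linarith
  have hm1 : 1 ≤ eps0 * 2 ^ (m0 - 1) := by
    have := (le_max_right Th (1 / eps0)).trans hm.le
    rw [div_le_iff₀ he] at this
    simpa [hm0, mul_comm] using this
  have hm2 : Th ≤ 2 ^ (m0 - 1) := by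
    simpa [hm0] using (le_max_left Th (1 / eps0)).trans hm.le
  set Q : ℝ := max C4 0 * (((cV / 2) ^ κ * (32 * (B / Real.log 2) ^ 2)) * max CE 0) with hQ
  have hQ0 : 0 ≤ Q := by
    have : 0 ≤ (cV / 2) ^ κ := Real.rpow_nonneg (by positivity) _
    positivity
  obtain ⟨J, hJ⟩ := exists_nat_gt (Q * (8 * (k0 + 2 * m0 + 1)) / c4)
  refine ⟨k0 * J + m0, ?_⟩
  intro μ Ω P W NP NW rho AA V D
  have hK : IsClosed (KK Ω P W (k0 * J + m0)) := D.comp.isClosed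
  have hN : 1 ≤ k0 * J + m0 := by omega
  have hpos := fun x (hx : x ∈ KK Ω P W (k0 * J + m0)) =>
    D.pos x hx.1 hx.2.1 hx.2.2.1 hx.2.2.2.1 hx.2.2.2.2
  have hsub : tsupport (zeta Ω P W (k0 * J + m0)) ⊆
      {x | x ∈ Ω ∧ 0 < P x ∧ 0 < W x ∧ 0 < NP x ∧ 0 < NW x} := by
    intro x hx
    have hx' := zeta_tsupport hK hx
    obtain ⟨h1, h2, h3⟩ := KK_pos hx'
    exact ⟨h1, h2, h3, (hpos x hx').1, (hpos x hx').2⟩
  have hcs : HasCompactSupport (zeta Ω P W (k0 * J + m0)) :=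
    D.comp.of_isClosed_subset (isClosed_tsupport _) (zeta_tsupport hK)
  have h1 := D.cert _ (zeta_contDiff D.isOpen D.P_smooth D.W_smooth hK) hcs hsub
  have h2 := total_lower hk0' he hT hm1 hm2 (by omega) rfl D
  have h3 := total_energy hN hκ hcV hK hB D
  have h4 : (((2 * J + 1) ^ 2 : ℕ) : ℝ≥0∞) * ENNReal.ofReal c4 ≤
      ENNReal.ofReal C4 * (((8 * (2 * (k0 * J + m0) + 1) : ℕ) : ℝ≥0∞) *
      (ENNReal.ofReal ((cV / 2) ^ κ * (32 * (B / Real.log 2) ^ 2)) * ENNReal.ofReal CE)) :=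
    h2.trans (h1.trans (by gcongr))
  have hcc : 0 ≤ (cV / 2) ^ κ * (32 * (B / Real.log 2) ^ 2) :=
    mul_nonneg (Real.rpow_nonneg (by positivity) _) (by positivity)
  have h5 : ENNReal.ofReal ((2 * J + 1) ^ 2 * c4) ≤
      ENNReal.ofReal (max C4 0 * ((8 * (2 * (k0 * J + m0) + 1)) *
      (((cV / 2) ^ κ * (32 * (B / Real.log 2) ^ 2)) * max CE 0))) := by
    rw [ENNReal.ofReal_mul (by positivity), ENNReal.ofReal_mul (le_max_right _ _),
      ENNReal.ofReal_mul (by positivity), ENNReal.ofReal_mul hcc]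
    have e1 : ENNReal.ofReal (max C4 0) = ENNReal.ofReal C4 := by
      rw [ENNReal.ofReal_max]; simp
    have e2 : ENNReal.ofReal (max CE 0) = ENNReal.ofReal CE := by
      rw [ENNReal.ofReal_max]; simp
    have e3 : ENNReal.ofReal ((2 * (J:ℝ) + 1) ^ 2) = (((2 * J + 1) ^ 2 : ℕ) : ℝ≥0∞) := by
      rw [← ENNReal.ofReal_natCast]; push_cast; rfl
    have e4 : ENNReal.ofReal (8 * (2 * ((k0:ℝ) * J + m0) + 1)) =
        ((8 * (2 * (k0 * J + m0) + 1) : ℕ) : ℝ≥0∞) := by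
      rw [← ENNReal.ofReal_natCast]; push_cast; rfl
    rw [e1, e2, e3, e4]
    exact h4
  rw [ENNReal.ofReal_le_ofReal_iff (by positivity)] at h5
  have h6 : max C4 0 * ((8 * (2 * ((k0:ℝ) * J + m0) + 1)) *
      (((cV / 2) ^ κ * (32 * (B / Real.log 2) ^ 2)) * max CE 0)) ≤
      Q * (8 * ((2 * J + 1) * (k0 + 2 * m0 + 1))) := by
    have : (8 * (2 * ((k0:ℝ) * J + m0) + 1)) ≤ 8 * ((2 * J + 1) * (k0 + 2 * m0 + 1)) := by
      have hk : (0:ℝ) ≤ k0 := by positivity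
      have hm : (0:ℝ) ≤ m0 := by positivity
      have hJ0 : (0:ℝ) ≤ J := by positivity
      nlinarith [mul_nonneg hJ0 hm, mul_nonneg hJ0 hk]
    calc _ = Q * (8 * (2 * ((k0:ℝ) * J + m0) + 1)) := by rw [hQ]; ring
      _ ≤ _ := by gcongr
  rw [div_lt_iff₀ hc4] at hJ
  have hJ0 : (0:ℝ) ≤ J := by positivity
  have h7 : (2 * (J:ℝ) + 1) * ((2 * J + 1) * c4) ≤
      (2 * J + 1) * (Q * (8 * (k0 + 2 * m0 + 1))) := by nlinarith
  have h8 := le_of_mul_le_mul_left h7 (by positivity)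
  nlinarith

end

end Crest.Agent.R236.BTop
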