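import Crest.Agent.R236.BApxDefs
import Crest.Agent.R236.CalcA
import Crest.Agent.R236.BTop4

/-! Row 236, Part B, final assembly (helper14): the three analytic node statements
(`CertStmt`, `EnergyStmt`, `LowerStmt`) and `STRUCT n → False`. -/

set_option autoImplicit false
set_option linter.unusedSectionVars false
set_option linter.deprecated false
open scoped ContDiff Topology ENNReal
open Crest.GeometryTopology.CoordMetric Crest.GeometryTopology.AffineMaximal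
open Set Filter MeasureTheory

noncomputable section

namespace Crest.Agent.R236.BF

open Crest.Agent.R236.A (EE epi SOL STRUCT)
open Crest.Agent.R236.B (VV aff sg Grid APX ApxStmt)
open Crest.Agent.R236.BTop (BDat no_BDat)

variable {n : ℕ}

/-- `ρ = det(D²u)^{-1/(n+2)}` (the same as `Bl.rho`, `Bla.rho`) -/
def rho (u : EE n → ℝ) (x : EE n) : ℝ := (hessianMat u x).det ^ (-(1:ℝ) / ((n:ℝ) + 2))

/-- `AA_x(ξ,ξ) = ρⁿ Σ cof_ij ξ(e_i) ξ(e_j)` -/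
def AA (u : EE n → ℝ) (x : EE n) (ξ : EE n →L[ℝ] ℝ) : ℝ :=
  rho u x ^ n * ∑ i, ∑ j, cof u x i j * ξ (EuclideanSpace.single i 1) * ξ (EuclideanSpace.single j 1)

/-- the certificate inequality (C4), constant depending only on `n` -/
def CertStmt (n : ℕ) : Prop := ∃ C4 : ℝ, ∀ (Ω : Set (EE n)) (u : EE n → ℝ), SC Ω u →
  (∀ x ∈ Ω, affineMaximalOp n u x = 0) →
  ∀ (P0 W0 : VV n →L[ℝ] ℝ) (pc wc : ℝ) (eP eW : VV n),
  P0 eP = 1 → P0 eW = 0 → W0 eP = 0 → W0 eW = 1 →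
  ∀ ζ : EE n → ℝ, ContDiff ℝ 1 ζ → HasCompactSupport ζ →
    tsupport ζ ⊆ {x | x ∈ Ω ∧ 0 < aff P0 pc (x, u x) ∧ 0 < aff W0 wc (x, u x) ∧
      0 < rho u x * sg u eP x ∧ 0 < rho u x * sg u eW x} →
    ∫⁻ x, ENNReal.ofReal (ζ x ^ 2 * ((aff P0 pc (x, u x) * (rho u x * sg u eP x) +
        aff W0 wc (x, u x) * (rho u x * sg u eW x)) ^ (1 - (n:ℝ) / 2) *
        (1 / (aff P0 pc (x, u x) * (rho u x * sg u eP x)) +
          1 / (aff W0 wc (x, u x) * (rho u x * sg u eW x))) / rho u x)) ≤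
      ENNReal.ofReal C4 * ∫⁻ x, ENNReal.ofReal ((aff P0 pc (x, u x) * (rho u x * sg u eP x) +
        aff W0 wc (x, u x) * (rho u x * sg u eW x)) ^ (1 - (n:ℝ) / 2) * AA u x (fderiv ℝ ζ x))

/-- the box energy bound (B4 + B3), constant depending only on `n, Θ, K, c2, C0` -/
def EnergyStmt (n : ℕ) : Prop := ∀ Θ K c2 C0 : ℝ, 16 ≤ Θ → 0 < K → 0 < c2 → 1 ≤ C0 → ∃ CE : ℝ,
  ∀ (N : ℕ) (ε0 : ℝ), 0 < ε0 → ε0 ≤ 1 → ∀ (Ω : Set (EE n)) (u : EE n → ℝ) (P0 W0 : VV n →L[ℝ] ℝ)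
    (pc wc : ℝ) (eP eW O : VV n) (es Q : ℝ → ℝ → VV n) (nrm : ℝ → ℝ → Seminorm ℝ (VV n)),
    APX n Θ K c2 C0 N ε0 Ω u P0 W0 pc wc eP eW O es Q nrm →
    ∀ a b : ℤ, |a| ≤ (N:ℤ) → |b| ≤ (N:ℤ) →
    ∫⁻ x in {x | x ∈ Ω ∧ aff P0 pc (x, u x) / (2:ℝ)^a + aff W0 wc (x, u x) / (2:ℝ)^b ≤ 2},
      ENNReal.ofReal ((rho u x * sg u (Q ((2:ℝ)^a) ((2:ℝ)^b) - (x, u x)) x) ^ (1 - (n:ℝ) / 2) *
        (AA u x (fderiv ℝ (fun y => aff P0 pc (y, u y)) x) / ((2:ℝ)^a) ^ 2 +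
         AA u x (fderiv ℝ (fun y => aff W0 wc (y, u y)) x) / ((2:ℝ)^b) ^ 2))
      ≤ ENNReal.ofReal CE

/-- the lower mass bound (B6), constants depending only on `n, Θ, K, c2, C0` -/
def LowerStmt (n : ℕ) : Prop := ∀ Θ K c2 C0 : ℝ, 16 ≤ Θ → 0 < K → 0 < c2 → 1 ≤ C0 →
  ∃ ε0 c4 Th : ℝ, 0 < ε0 ∧ ε0 ≤ 1 ∧ 0 < c4 ∧ 0 < Th ∧
  ∀ (N : ℕ) (Ω : Set (EE n)) (u : EE n → ℝ) (P0 W0 : VV n →L[ℝ] ℝ)
    (pc wc : ℝ) (eP eW O : VV n) (es Q : ℝ → ℝ → VV n) (nrm : ℝ → ℝ → Seminorm ℝ (VV n)),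
    APX n Θ K c2 C0 N ε0 Ω u P0 W0 pc wc eP eW O es Q nrm →
    ∀ a b : ℤ, |a| ≤ (N:ℤ) → |b| ≤ (N:ℤ) →
    ENNReal.ofReal c4 ≤ ∫⁻ x in {x | x ∈ Ω ∧ ε0 * (2:ℝ)^a ≤ aff P0 pc (x, u x) ∧
        aff P0 pc (x, u x) ≤ Th * (2:ℝ)^a ∧ ε0 * (2:ℝ)^b ≤ aff W0 wc (x, u x) ∧
        aff W0 wc (x, u x) ≤ Th * (2:ℝ)^b},
      ENNReal.ofReal ((aff P0 pc (x, u x) * (rho u x * sg u eP x) +
        aff W0 wc (x, u x) * (rho u x * sg u eW x)) ^ (1 - (n:ℝ) / 2) *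
        (1 / (aff P0 pc (x, u x) * (rho u x * sg u eP x)) +
          1 / (aff W0 wc (x, u x) * (rho u x * sg u eW x))) / rho u x)

/-! ### elementary facts -/

lemma rho_pos {Ω : Set (EE n)} {u : EE n → ℝ} (h : SC Ω u) {x : EE n} (hx : x ∈ Ω) :
    0 < rho u x := Real.rpow_pos_of_pos (h.posDef x hx).det_pos _

lemma AA_zero (u : EE n → ℝ) (x : EE n) : AA u x 0 = 0 := by
  unfold AA; simp

lemma quad_nonneg {Ω : Set (EE n)} {u : EE n → ℝ} (h : SC Ω u) {x : EE n} (hx : x ∈ Ω)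
    (v : Fin n → ℝ) : 0 ≤ ∑ i, ∑ j, cof u x i j * v i * v j := by
  have h1 := (h.cof_posDef hx).posSemidef.dotProduct_mulVec_nonneg v
  simp only [star_trivial, dotProduct, Matrix.mulVec] at h1
  refine h1.trans (le_of_eq ?_)
  refine Finset.sum_congr rfl fun i _ => ?_
  rw [Finset.mul_sum]
  refine Finset.sum_congr rfl fun j _ => ?_
  ring

lemma AA_nonneg {Ω : Set (EE n)} {u : EE n → ℝ} (h : SC Ω u) {x : EE n} (hx : x ∈ Ω)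
    (ξ : EE n →L[ℝ] ℝ) : 0 ≤ AA u x ξ :=
  mul_nonneg (pow_nonneg (rho_pos h hx).le _)
    (quad_nonneg h hx fun i => ξ (EuclideanSpace.single i 1))

lemma AA_comb {Ω : Set (EE n)} {u : EE n → ℝ} (h : SC Ω u) {x : EE n} (hx : x ∈ Ω)
    (s t : ℝ) (ξ η : EE n →L[ℝ] ℝ) :
    AA u x (s • ξ + t • η) ≤ 2 * (s ^ 2 * AA u x ξ + t ^ 2 * AA u x η) := by
  have h0 := AA_nonneg h hx (s • ξ - t • η)
  have key : AA u x (s • ξ + t • η) + AA u x (s • ξ - t • η) =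
      2 * (s ^ 2 * AA u x ξ + t ^ 2 * AA u x η) := by
    unfold AA
    rw [← mul_add, ← Finset.sum_add_distrib]
    have : ∀ i, (∑ j, cof u x i j * (s • ξ + t • η) (EuclideanSpace.single i 1) *
        (s • ξ + t • η) (EuclideanSpace.single j 1)) + (∑ j, cof u x i j *
        (s • ξ - t • η) (EuclideanSpace.single i 1) *
        (s • ξ - t • η) (EuclideanSpace.single j 1)) =
        2 * s ^ 2 * (∑ j, cof u x i j * ξ (EuclideanSpace.single i 1) *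
          ξ (EuclideanSpace.single j 1)) +
        2 * t ^ 2 * (∑ j, cof u x i j * η (EuclideanSpace.single i 1) *
          η (EuclideanSpace.single j 1)) := by
      intro i
      rw [← Finset.sum_add_distrib, Finset.mul_sum, Finset.mul_sum, ← Finset.sum_add_distrib]
      refine Finset.sum_congr rfl fun j _ => ?_
      simp only [add_apply, sub_apply, smul_apply, smul_eq_mul]
      ring
    rw [Finset.sum_congr rfl fun i _ => this i, Finset.sum_add_distrib, ← Finset.mul_sum,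
      ← Finset.mul_sum]
    ring
  linarith

lemma contDiffOn_aff {Ω : Set (EE n)} {u : EE n → ℝ} (h : SC Ω u) (F : VV n →L[ℝ] ℝ) (c : ℝ) :
    ContDiffOn ℝ 1 (fun y => aff F c (y, u y)) Ω := by
  unfold aff
  have h1 : ContDiffOn ℝ 1 u Ω := h.smooth.of_le (by simp)
  exact (F.contDiff.comp_contDiffOn (contDiffOn_id.prodMk h1)).add contDiffOn_const

/-- **Part B**: the structure theorem is contradictory. -/
theorem struct_false {n : ℕ} (hn : 2 ≤ n) (hApx : ApxStmt) (hC : CertStmt n) (hE : EnergyStmt n)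
    (hL : LowerStmt n) : ¬ STRUCT n := by
  intro hS
  obtain ⟨Θ, K, c2, C0, hΘ, hK, hc2, hC0, H⟩ := hApx n (by omega) hS
  obtain ⟨C4, hC4⟩ := hC
  obtain ⟨CE, hCE⟩ := hE Θ K c2 C0 hΘ hK hc2 hC0
  obtain ⟨ε0, c4, Th, hε0, hε1, hc4, hTh, hlow⟩ := hL Θ K c2 C0 hΘ hK hc2 hC0
  have hκ : (1 - (n:ℝ) / 2) ≤ 0 := by
    have : (2:ℝ) ≤ n := by exact_mod_cast hn
    linarith
  obtain ⟨N, hN⟩ := no_BDat (E := EE n) (1 - (n:ℝ) / 2) C4 CE (1 / (2 * C0)) c4 ε0 Th hκ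
    (by positivity) hc4 hε0 hTh
  obtain ⟨Ω, u, P0, W0, pc, wc, eP, eW, O, es, Q, nrm, A⟩ := H N ε0 hε0
  have hsc := A.sol.sc
  refine hN volume Ω (fun x => aff P0 pc (x, u x)) (fun x => aff W0 wc (x, u x))
    (fun x => rho u x * sg u eP x) (fun x => rho u x * sg u eW x) (rho u) (AA u)
    (fun a b x => rho u x * sg u (Q ((2:ℝ)^a) ((2:ℝ)^b) - (x, u x)) x) ?_
  have hgrid : ∀ a b : ℤ, |a| ≤ (N:ℤ) → |b| ≤ (N:ℤ) → Grid N ((2:ℝ)^a) ((2:ℝ)^b) :=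
    fun a b ha hb => ⟨a, b, ha, hb, rfl, rfl⟩
  have hNN : Grid N ((2:ℝ)^(N:ℤ)) ((2:ℝ)^(N:ℤ)) :=
    hgrid _ _ (by rw [Nat.abs_cast]) (by rw [Nat.abs_cast])
  have hle2 : ∀ x : EE n, aff P0 pc (x, u x) ≤ (2:ℝ)^(N:ℤ) → aff W0 wc (x, u x) ≤ (2:ℝ)^(N:ℤ) →
      aff P0 pc (x, u x) / (2:ℝ)^(N:ℤ) + aff W0 wc (x, u x) / (2:ℝ)^(N:ℤ) ≤ 2 := by
    intro x h1 h2
    have h3 : aff P0 pc (x, u x) / (2:ℝ)^(N:ℤ) ≤ 1 := (div_le_one (by positivity)).mpr h1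
    have h4 : aff W0 wc (x, u x) / (2:ℝ)^(N:ℤ) ≤ 1 := (div_le_one (by positivity)).mpr h2
    linarith
  refine
    { isOpen := hsc.isOpen
      P_smooth := contDiffOn_aff hsc P0 pc
      W_smooth := contDiffOn_aff hsc W0 wc
      comp := ?_
      pos := ?_
      AA_zero := AA_zero u
      AA_nonneg := fun x hx ξ => AA_nonneg hsc hx ξ
      AA_comb := fun x hx s t ξ η => AA_comb hsc hx s t ξ η
      cert := fun ζ h1 h2 h3 => hC4 Ω u hsc A.sol.pde P0 W0 pc wc eP eW A.PP A.PW A.WP A.WW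
        ζ h1 h2 h3
      energy := fun a b ha hb => hCE N ε0 hε0 hε1 Ω u P0 W0 pc wc eP eW O es Q nrm A a b ha hb
      comparison := ?_
      lower := fun a b ha hb => hlow N Ω u P0 W0 pc wc eP eW O es Q nrm A a b ha hb }
  · have hcpt := A.cpt _ _ hNN 1 1 le_rfl (by norm_num) le_rfl (by norm_num) 2 (by linarith)
    simp only [one_mul] at hcpt
    set K1 := {x | x ∈ Ω ∧ aff P0 pc (x, u x) / (2:ℝ)^(N:ℤ) + aff W0 wc (x, u x) / (2:ℝ)^(N:ℤ) ≤ 2}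
      with hK1
    have hsub : K1 ⊆ Ω := fun x hx => hx.1
    have c1 := ((contDiffOn_aff hsc P0 pc).continuousOn.mono hsub).preimage_isClosed_of_isClosed
      hcpt.isClosed (isClosed_Icc (a := (2:ℝ)^(-(N:ℤ))) (b := (2:ℝ)^(N:ℤ)))
    have c2 := ((contDiffOn_aff hsc W0 wc).continuousOn.mono hsub).preimage_isClosed_of_isClosed
      hcpt.isClosed (isClosed_Icc (a := (2:ℝ)^(-(N:ℤ))) (b := (2:ℝ)^(N:ℤ)))
    have hEq : {x | x ∈ Ω ∧ (2:ℝ)^(-(N:ℤ)) ≤ aff P0 pc (x, u x) ∧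
        aff P0 pc (x, u x) ≤ (2:ℝ)^(N:ℤ) ∧ (2:ℝ)^(-(N:ℤ)) ≤ aff W0 wc (x, u x) ∧
        aff W0 wc (x, u x) ≤ (2:ℝ)^(N:ℤ)} =
        (K1 ∩ (fun y => aff P0 pc (y, u y)) ⁻¹' Icc ((2:ℝ)^(-(N:ℤ))) ((2:ℝ)^(N:ℤ))) ∩
        (K1 ∩ (fun y => aff W0 wc (y, u y)) ⁻¹' Icc ((2:ℝ)^(-(N:ℤ))) ((2:ℝ)^(N:ℤ))) := by
      ext x
      simp only [hK1, mem_setOf_eq, mem_inter_iff, mem_preimage, mem_Icc]
      constructor
      · rintro ⟨h1, h2, h3, h4, h5⟩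
        have := hle2 x h3 h5
        tauto
      · tauto
    rw [hEq]
    exact hcpt.of_isClosed_subset (c1.inter c2) (fun x hx => hx.1.1)
  · intro x hx _ h2 _ h4
    have h5 : aff P0 pc (x, u x) / (2:ℝ)^(N:ℤ) + aff W0 wc (x, u x) / (2:ℝ)^(N:ℤ) ≤ Θ :=
      (hle2 x h2 h4).trans (by linarith)
    exact ⟨mul_pos (rho_pos hsc hx) (A.sg_eP _ _ hNN x hx h5),
      mul_pos (rho_pos hsc hx) (A.sg_eW _ _ hNN x hx h5)⟩
  · intro a b ha hb x hx hx2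
    have g := hgrid a b ha hb
    have h5 : aff P0 pc (x, u x) / (2:ℝ)^a + aff W0 wc (x, u x) / (2:ℝ)^b ≤ Θ := by
      have : aff P0 pc (x, u x) / (2:ℝ)^a + aff W0 wc (x, u x) / (2:ℝ)^b ≤ 2 := hx2
      linarith
    have hr := rho_pos hsc hx
    have s1 := A.sg_es _ _ g x hx h5
    have s2 := A.V_ge _ _ g x hx h5
    have s3 := A.V_le _ _ g x hx h5
    have s4 := A.es_sg_le _ _ g x hx h5
    have hC0' : 0 < C0 := by linarith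
    have hVpos : 0 < sg u (Q ((2:ℝ)^a) ((2:ℝ)^b) - (x, u x)) x := by
      by_contra hcon
      push Not at hcon
      have : C0 * sg u (Q ((2:ℝ)^a) ((2:ℝ)^b) - (x, u x)) x ≤ 0 :=
        mul_nonpos_of_nonneg_of_nonpos hC0'.le hcon
      linarith
    refine ⟨mul_pos hr hVpos, ?_⟩
    have h6 : sg u (Q ((2:ℝ)^a) ((2:ℝ)^b) - (x, u x)) x ≤
        2 * C0 * ((2:ℝ)^a * sg u eP x + (2:ℝ)^b * sg u eW x) := by nlinarith
    have h7 : 1 / (2 * C0) * (rho u x * sg u (Q ((2:ℝ)^a) ((2:ℝ)^b) - (x, u x)) x) ≤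
        rho u x * ((2:ℝ)^a * sg u eP x + (2:ℝ)^b * sg u eW x) := by
      rw [one_div, inv_mul_le_iff₀ (by positivity)]
      calc _ ≤ rho u x * (2 * C0 * ((2:ℝ)^a * sg u eP x + (2:ℝ)^b * sg u eW x)) := by gcongr
        _ = _ := by ring
    calc _ ≤ _ := h7
      _ = _ := by ring

end Crest.Agent.R236.BF
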