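import Crest.Agent.R236.BApxDefs

/-! Row 236, Part B, B0: geometry of the limit `C` at every scale (statement only). (helper660) -/

set_option autoImplicit false
open scoped ContDiff Topology
open Set Filter

noncomputable section

namespace Crest.Agent.R236.B

open Crest.Agent.R236.A (EE epi SOL STRUCT IsStruct ConeData Appr)

/-- the space `T × Y × ℝ` -/
abbrev WW (m D : ℕ) := EE m × EE D × ℝ

/-- `e_* = (0, tau e, lam)` -/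
def est {D : ℕ} (m : ℕ) (e : EE D) (lam tau : ℝ) : WW m D := ((0 : EE m), tau • e, lam)

/-- geometry of `C` at all scales; `nr lam tau` is the norm `max(‖B_s t‖, ‖y‖/tau, |z|/lam)` -/
structure Geo {m D : ℕ} (C : Set (WW m D)) (l : EE D →L[ℝ] ℝ) (e : EE D)
    (Θ K L2 L3 ρ : ℝ) (nr : ℝ → ℝ → Seminorm ℝ (WW m D)) : Prop where
  definite : ∀ lam tau : ℝ, 0 < lam → 0 < tau → ∀ v, nr lam tau v = 0 → v = 0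
  y_le : ∀ lam tau : ℝ, 0 < lam → 0 < tau → ∀ v, ‖v.2.1‖ ≤ tau * nr lam tau v
  z_le : ∀ lam tau : ℝ, 0 < lam → 0 < tau → ∀ v, |v.2.2| ≤ lam * nr lam tau v
  le_yz : ∀ lam tau : ℝ, 0 < lam → 0 < tau → ∀ (y : EE D) (z k : ℝ), ‖y‖ ≤ k * tau → |z| ≤ k * lam →
    nr lam tau ((0 : EE m), y, z) ≤ k
  bd : ∀ lam tau : ℝ, 0 < lam → 0 < tau → ∀ X ∈ C, l X.2.1 ≤ 2 * Θ * tau → X.2.2 ≤ 2 * Θ * lam →
    nr lam tau X ≤ K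
  dp : ∀ lam tau : ℝ, 0 < lam → 0 < tau → ∀ X ∈ C, l X.2.1 ≤ 2 * Θ * tau → X.2.2 ≤ 2 * Θ * lam →
    ∀ v, nr lam tau v ≤ ρ → X + L2 • est m e lam tau + v ∈ C
  dq : ∀ lam tau : ℝ, 0 < lam → 0 < tau → ∀ v, nr lam tau v ≤ ρ → L3 • est m e lam tau + v ∈ C

/-- B0 -/
def GeoStmt : Prop := ∀ (n m D : ℕ) (C : Set (WW m D)) (R : Set (EE D))
  (l : EE D →L[ℝ] ℝ) (e : EE D) (c0 L c : ℝ), IsStruct n C R l e c0 L c →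
  ∃ L3 : ℝ, 1 ≤ L3 ∧ ∀ Θ : ℝ, L ≤ Θ → 1 ≤ Θ → ∀ ρ1 : ℝ, 0 < ρ1 → ∃ K L2 ρ : ℝ,
    1 ≤ K ∧ 1 ≤ L2 ∧ 0 < ρ ∧ ρ ≤ ρ1 ∧
    ∃ nr : ℝ → ℝ → Seminorm ℝ (WW m D), Geo C l e Θ K L2 L3 ρ nr

end Crest.Agent.R236.B
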