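import Crest.Agent.R236.ADefs
import Crest.Agent.R236.BClose

/-!
# Row 236, Part B, B0: the structured convex set `C` itself
-/

set_option autoImplicit false

open Set Metric

noncomputable section

namespace Crest.Agent.R236.BModel

open Crest.Agent.R236.A (EE epi SOL STRUCT IsStruct ConeData Appr)

/-- the ambient space -/
abbrev WW (m D : ℕ) := EE m × EE D × ℝ

variable {n m D : ℕ}

/-- rescaling map of scale `(lam, tau)` -/
def Ts (B : EE m ≃L[ℝ] EE m) (lam tau : ℝ) : WW m D →L[ℝ] WW m D :=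
  (B : EE m →L[ℝ] EE m).prodMap
    ((tau⁻¹ • ContinuousLinearMap.id ℝ (EE D)).prodMap (lam⁻¹ • ContinuousLinearMap.id ℝ ℝ))

/-- the norm `|.|_s` -/
def nrmW (B : EE m ≃L[ℝ] EE m) (lam tau : ℝ) : Seminorm ℝ (WW m D) :=
  (normSeminorm ℝ (WW m D)).comp (Ts B lam tau : WW m D →L[ℝ] WW m D).toLinearMap

lemma nrmW_apply (B : EE m ≃L[ℝ] EE m) (lam tau : ℝ) (v : WW m D) :
    nrmW B lam tau v = max ‖B v.1‖ (max ‖tau⁻¹ • v.2.1‖ ‖lam⁻¹ * v.2.2‖) := rfl

lemma nrmW_le_iff (B : EE m ≃L[ℝ] EE m) {lam tau : ℝ} (hl : 0 < lam) (ht : 0 < tau)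
    (v : WW m D) (r : ℝ) :
    nrmW B lam tau v ≤ r ↔ ‖B v.1‖ ≤ r ∧ ‖v.2.1‖ ≤ r * tau ∧ |v.2.2| ≤ r * lam := by
  rw [nrmW_apply, max_le_iff, max_le_iff, norm_smul, norm_mul, Real.norm_eq_abs, Real.norm_eq_abs,
    Real.norm_eq_abs, abs_of_pos (inv_pos.2 hl), abs_of_pos (inv_pos.2 ht), inv_mul_le_iff₀ ht,
    inv_mul_le_iff₀ hl, mul_comm tau, mul_comm lam]

lemma nrmW_definite (B : EE m ≃L[ℝ] EE m) {lam tau : ℝ} (hl : 0 < lam) (ht : 0 < tau)
    (v : WW m D) (hv : nrmW B lam tau v = 0) : v = 0 := by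
  have h := (nrmW_le_iff B hl ht v 0).1 hv.le
  obtain ⟨h1, h2, h3⟩ := h
  rw [zero_mul] at h2 h3
  have h1' : B v.1 = 0 := norm_le_zero_iff.1 h1
  have h1'' : v.1 = 0 := by simpa using h1'
  have h2' : v.2.1 = 0 := norm_le_zero_iff.1 h2
  have h3' : v.2.2 = 0 := abs_nonpos_iff.1 h3
  exact Prod.ext h1'' (Prod.ext h2' h3')

lemma nrmW_le_norm (B : EE m ≃L[ℝ] EE m) (lam tau : ℝ) (v : WW m D) :
    nrmW B lam tau v ≤ ‖(Ts B lam tau : WW m D →L[ℝ] WW m D)‖ * ‖v‖ :=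
  (Ts B lam tau).le_opNorm v

lemma norm_le_nrmW (B : EE m ≃L[ℝ] EE m) {lam tau : ℝ} (hl : 0 < lam) (ht : 0 < tau) :
    ∃ M : ℝ, 0 < M ∧ ∀ v : WW m D, ‖v‖ ≤ M * nrmW B lam tau v := by
  refine ⟨‖(B.symm : EE m →L[ℝ] EE m)‖ + tau + lam, by positivity, fun v => ?_⟩
  set r := nrmW B lam tau v with hr
  have hr0 : 0 ≤ r := apply_nonneg _ _
  obtain ⟨h1, h2, h3⟩ := (nrmW_le_iff B hl ht v r).1 le_rfl
  have h4 : ‖v.1‖ ≤ ‖(B.symm : EE m →L[ℝ] EE m)‖ * r := by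
    calc ‖v.1‖ = ‖(B.symm : EE m →L[ℝ] EE m) (B v.1)‖ := by simp
      _ ≤ ‖(B.symm : EE m →L[ℝ] EE m)‖ * ‖B v.1‖ := ContinuousLinearMap.le_opNorm _ _
      _ ≤ _ := by gcongr
  have h5 : 0 ≤ ‖(B.symm : EE m →L[ℝ] EE m)‖ := norm_nonneg _
  rw [Prod.norm_def, Prod.norm_def, Real.norm_eq_abs]
  refine max_le ?_ (max_le ?_ ?_)
  · nlinarith
  · nlinarith
  · nlinarith [mul_nonneg h5 hr0, mul_nonneg ht.le hr0]

section model

variable {C : Set (WW m D)} {R : Set (EE D)} {l : EE D →L[ℝ] ℝ} {e : EE D} {c0 L c : ℝ}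

lemma zero_mem (h : IsStruct n C R l e c0 L c) : (0 : WW m D) ∈ C :=
  h.sub 0 h.cone.R_zero 0 le_rfl

lemma l_nonneg (h : IsStruct n C R l e c0 L c) {y : EE D} (hy : y ∈ R) : 0 ≤ l y :=
  (mul_nonneg h.cone.c0_pos.le (norm_nonneg _)).trans (h.cone.l_ge y hy)

/-- **B0**. -/
theorem exists_model (h : IsStruct n C R l e c0 L c) {Θ : ℝ} (hΘ1 : 1 ≤ Θ) (hΘL : L ≤ Θ) :
    ∃ (K c2 L2 : ℝ) (B : ℝ → ℝ → (EE m ≃L[ℝ] EE m)), 1 ≤ K ∧ 0 < c2 ∧ c2 ≤ 1 ∧ 1 ≤ L2 ∧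
      ∀ lam tau : ℝ, 0 < lam → 0 < tau →
        (∀ X ∈ C, l X.2.1 ≤ 2 * Θ * tau → X.2.2 ≤ 2 * Θ * lam →
          nrmW (B lam tau) lam tau X ≤ K ∧
            ∀ y : EE D, y - (L2 * tau) • e ∈ R → ∀ z : ℝ, L2 * lam ≤ z →
              ∀ v : WW m D, nrmW (B lam tau) lam tau v ≤ c2 →
                X + ((0 : EE m), y, z) + v ∈ C) ∧
        (∀ v : WW m D, nrmW (B lam tau) lam tau v ≤ c2 →
          ((0 : EE m), ((L + 1) * tau) • e, (L + 1) * lam) + v ∈ C) := by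
  obtain ⟨re, hre, hball⟩ := Metric.mem_nhds_iff.1 (mem_interior_iff_mem_nhds.1 h.cone.e_int)
  have hL := h.L_ge
  have hc := h.c_pos
  have hc0 := h.cone.c0_pos
  choose B hB using fun p : {p : ℝ × ℝ // 0 < p.1 ∧ 0 < p.2} => h.lemX p.1.1 p.1.2 p.2.1 p.2.2
  let Bf : ℝ → ℝ → (EE m ≃L[ℝ] EE m) := fun lam tau =>
    if hp : 0 < lam ∧ 0 < tau then B ⟨(lam, tau), hp⟩ else ContinuousLinearEquiv.refl ℝ _
  have hBf : ∀ lam tau : ℝ, 0 < lam → 0 < tau → ∀ X ∈ C, l X.2.1 ≤ tau → X.2.2 ≤ lam →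
      ‖Bf lam tau X.1‖ ≤ L ∧ ∀ w : EE m, ‖Bf lam tau w‖ ≤ c →
        X + (w, (L * tau) • e, L * lam) ∈ C := by
    intro lam tau hl ht
    have h1 : Bf lam tau = B ⟨(lam, tau), hl, ht⟩ := by simp [Bf, hl, ht]
    rw [h1]
    exact hB ⟨(lam, tau), hl, ht⟩
  clear_value Bf
  set c2 : ℝ := min (min (c ^ 2 / L) c) (min (re / 2) 1) with hc2
  have hc2pos : 0 < c2 := by
    rw [hc2]; refine lt_min (lt_min (by positivity) hc) (lt_min (by positivity) one_pos)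
  have hc2a : c2 ≤ c ^ 2 / L := (min_le_left _ _).trans (min_le_left _ _)
  have hc2b : c2 ≤ c := (min_le_left _ _).trans (min_le_right _ _)
  have hc2c : c2 ≤ re / 2 := (min_le_right _ _).trans (min_le_left _ _)
  have hc2d : c2 ≤ 1 := (min_le_right _ _).trans (min_le_right _ _)
  have hΘ0 : 0 < Θ := by linarith
  -- adding a small vector to the cone part
  have hcone : ∀ lam tau : ℝ, 0 < lam → 0 < tau → ∀ X ∈ C, ∀ y : EE D, y - tau • e ∈ R →
      ∀ z : ℝ, lam ≤ z → ∀ v : WW m D, nrmW (Bf lam tau) lam tau v ≤ c2 →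
        X + ((0 : EE m), y + v.2.1, z + v.2.2) ∈ C := by
    intro lam tau hl ht X hX y hy z hz v hv
    obtain ⟨-, hv2, hv3⟩ := (nrmW_le_iff _ hl ht v c2).1 hv
    refine h.add X hX _ ?_ _ ?_
    · have h1 : e + tau⁻¹ • v.2.1 ∈ R := by
        apply hball
        rw [mem_ball, dist_eq_norm, add_sub_cancel_left, norm_smul, Real.norm_eq_abs,
          abs_of_pos (inv_pos.2 ht), inv_mul_lt_iff₀ ht]
        nlinarith
      have h2 := h.cone.R_smul _ h1 tau ht.le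
      have h3 := h.cone.R_add _ hy _ h2
      have h4 : y - tau • e + tau • (e + tau⁻¹ • v.2.1) = y + v.2.1 := by
        rw [smul_add, smul_smul, mul_inv_cancel₀ ht.ne', one_smul]; abel
      rwa [h4] at h3
    · have := (abs_le.1 hv3).1
      nlinarith
  refine ⟨max (2 * Θ * L) (2 * Θ / c0), c2, 2 * Θ * L + 1, Bf, ?_, hc2pos, hc2d, ?_, ?_⟩
  · refine le_trans ?_ (le_max_left _ _)
    nlinarith
  · nlinarith
  intro lam tau hl ht
  have h0 := zero_mem h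
  refine ⟨fun X hX hX1 hX2 => ⟨?_, ?_⟩, ?_⟩
  · rw [nrmW_le_iff _ hl ht]
    have hXs : (2 * Θ)⁻¹ • X ∈ C := by
      have h1 : (2 * Θ)⁻¹ ≤ 1 := inv_le_one_of_one_le₀ (by linarith)
      have h2 := h.appr.2.1 h0 hX (sub_nonneg.2 h1)
        (inv_nonneg.2 (by linarith : (0:ℝ) ≤ 2 * Θ)) (sub_add_cancel _ _)
      rw [smul_zero, zero_add] at h2
      exact h2
    have h2 := (hBf lam tau hl ht _ hXs (by
      show l ((2 * Θ)⁻¹ • X.2.1) ≤ tau
      rw [map_smul, smul_eq_mul, inv_mul_le_iff₀ (by linarith)]; exact hX1) (by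
      show (2 * Θ)⁻¹ • X.2.2 ≤ lam
      rw [smul_eq_mul, inv_mul_le_iff₀ (by linarith)]; exact hX2)).1
    have h3 : ‖Bf lam tau X.1‖ ≤ 2 * Θ * L := by
      have h4 : ((2 * Θ)⁻¹ • X : WW m D).1 = (2 * Θ)⁻¹ • X.1 := rfl
      rw [h4, map_smul, norm_smul, Real.norm_eq_abs, abs_of_pos (inv_pos.2 (by linarith)),
        inv_mul_le_iff₀ (by linarith)] at h2
      exact h2
    obtain ⟨hXR, hXz⟩ := h.le X hX
    refine ⟨h3.trans (le_max_left _ _), ?_, ?_⟩
    · have h5 := h.cone.l_ge _ hXR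
      have h6 : ‖X.2.1‖ ≤ 2 * Θ / c0 * tau := by
        rw [div_mul_eq_mul_div, le_div_iff₀ hc0]
        linarith
      exact h6.trans (mul_le_mul_of_nonneg_right (le_max_right _ _) ht.le)
    · rw [abs_of_nonneg hXz]
      have h7 : 2 * Θ * lam ≤ max (2 * Θ * L) (2 * Θ / c0) * lam := by
        apply mul_le_mul_of_nonneg_right _ hl.le
        refine le_trans ?_ (le_max_left _ _)
        nlinarith
      linarith
  · intro y hy z hz v hv
    have hv1 := ((nrmW_le_iff _ hl ht v c2).1 hv).1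
    -- move `v.1` with the structure at scale `2Θs`
    have hw : ‖Bf (2 * Θ * lam) (2 * Θ * tau) v.1‖ ≤ c := by
      have hk : ‖Bf lam tau ((L / c) • v.1)‖ ≤ c := by
        rw [map_smul, norm_smul, Real.norm_eq_abs, abs_of_pos (by positivity), div_mul_eq_mul_div,
          div_le_iff₀ hc]
        have : L * ‖Bf lam tau v.1‖ ≤ L * (c ^ 2 / L) := by
          gcongr; exact hv1.trans hc2a
        rw [mul_div_cancel₀ _ (by positivity : L ≠ 0)] at this
        nlinarith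
      have h1 := (hBf lam tau hl ht 0 h0 (by simpa using ht.le) (by simpa using hl.le)).2 _ hk
      rw [zero_add] at h1
      have h2 := (hBf (2 * Θ * lam) (2 * Θ * tau) (by positivity) (by positivity) _ h1 (by
        show l ((L * tau) • e) ≤ 2 * Θ * tau
        rw [map_smul, h.cone.l_e, smul_eq_mul, mul_one]
        nlinarith) (by
        show L * lam ≤ 2 * Θ * lam
        nlinarith)).1
      have h3 : ‖Bf (2 * Θ * lam) (2 * Θ * tau) ((L / c) • v.1)‖ ≤ L := h2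
      rw [map_smul, norm_smul, Real.norm_eq_abs, abs_of_pos (by positivity), div_mul_eq_mul_div,
          div_le_iff₀ hc] at h3
      have hL0 : 0 < L := by linarith
      exact le_of_mul_le_mul_left h3 hL0
    have h1 := (hBf (2 * Θ * lam) (2 * Θ * tau) (by positivity) (by positivity) X hX hX1 hX2).2 _ hw
    have h2 := hcone lam tau hl ht _ h1 (y - (L * (2 * Θ * tau)) • e) (by
      have : y - (L * (2 * Θ * tau)) • e - tau • e = y - ((2 * Θ * L + 1) * tau) • e := by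
        rw [sub_sub, ← add_smul]; congr 2; ring
      rw [this]; exact hy) (z - L * (2 * Θ * lam)) (by nlinarith) v hv
    convert h2 using 1
    refine Prod.ext ?_ (Prod.ext ?_ ?_)
    · simp
    · show X.2.1 + y + v.2.1 = X.2.1 + (L * (2 * Θ * tau)) • e + (y - (L * (2 * Θ * tau)) • e + v.2.1)
      abel
    · show X.2.2 + z + v.2.2 = X.2.2 + L * (2 * Θ * lam) + (z - L * (2 * Θ * lam) + v.2.2)
      ring
  · intro v hv
    have hv1 := ((nrmW_le_iff _ hl ht v c2).1 hv).1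
    have h1 := (hBf lam tau hl ht 0 h0 (by simpa using ht.le) (by simpa using hl.le)).2 _
      (hv1.trans hc2b)
    have h2 := hcone lam tau hl ht _ h1 (tau • e) (by simpa using h.cone.R_zero) lam le_rfl v hv
    convert h2 using 1
    refine Prod.ext ?_ (Prod.ext ?_ ?_)
    · simp
    · simp only [Prod.snd_add, Prod.fst_add, Prod.fst_zero, Prod.snd_zero, zero_add]
      rw [add_mul, one_mul, add_smul, add_assoc]
    · simp only [Prod.snd_add, Prod.snd_zero, zero_add]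
      ring

end model

end Crest.Agent.R236.BModel
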