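import Mathlib

/-! Row 236, Part B7 (helper14): the abstract conclusion.  On an approximant with a grid of size `N`
the certificate inequality, the energy bounds and the lower mass bounds are contradictory
for large `N`. -/

set_option autoImplicit false
open scoped ContDiff Topology ENNReal
open Set Filter MeasureTheory

noncomputable section

namespace Crest.Agent.R236.BTop

/-- The inputs of B7 for one approximant on the grid `|a|,|b| ≤ N` (`lam = 2^a`, `tau = 2^b`):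
`κ = 1 - n/2`, `C4` from the certificate, `CE` from the energy bound, `cV` from the conormal
comparison, `c4` from the lower mass bound on the boxes
`eps0*lam ≤ P ≤ Th*lam, eps0*tau ≤ W ≤ Th*tau`. -/
structure BDat {E : Type*} [NormedAddCommGroup E] [NormedSpace ℝ E] [MeasurableSpace E]
    (μ : Measure E) (κ C4 CE cV c4 eps0 Th : ℝ) (N : ℕ)
    (Ω : Set E) (P W NP NW rho : E → ℝ) (AA : E → (E →L[ℝ] ℝ) → ℝ) (V : ℤ → ℤ → E → ℝ) :
    Prop where
  isOpen : IsOpen Ω
  P_smooth : ContDiffOn ℝ 1 P Ω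
  W_smooth : ContDiffOn ℝ 1 W Ω
  comp : IsCompact {x | x ∈ Ω ∧ (2:ℝ)^(-(N:ℤ)) ≤ P x ∧ P x ≤ (2:ℝ)^(N:ℤ) ∧
    (2:ℝ)^(-(N:ℤ)) ≤ W x ∧ W x ≤ (2:ℝ)^(N:ℤ)}
  pos : ∀ x ∈ Ω, (2:ℝ)^(-(N:ℤ)) ≤ P x → P x ≤ (2:ℝ)^(N:ℤ) →
    (2:ℝ)^(-(N:ℤ)) ≤ W x → W x ≤ (2:ℝ)^(N:ℤ) → 0 < NP x ∧ 0 < NW x
  AA_zero : ∀ x, AA x 0 = 0
  AA_nonneg : ∀ x ∈ Ω, ∀ ξ, 0 ≤ AA x ξ
  AA_comb : ∀ x ∈ Ω, ∀ (s t : ℝ) (ξ η : E →L[ℝ] ℝ),
    AA x (s • ξ + t • η) ≤ 2 * (s ^ 2 * AA x ξ + t ^ 2 * AA x η)
  cert : ∀ ζ : E → ℝ, ContDiff ℝ 1 ζ → HasCompactSupport ζ →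
    tsupport ζ ⊆ {x | x ∈ Ω ∧ 0 < P x ∧ 0 < W x ∧ 0 < NP x ∧ 0 < NW x} →
    ∫⁻ x, ENNReal.ofReal (ζ x ^ 2 * ((P x * NP x + W x * NW x) ^ κ *
        (1 / (P x * NP x) + 1 / (W x * NW x)) / rho x)) ∂μ ≤
      ENNReal.ofReal C4 * ∫⁻ x, ENNReal.ofReal ((P x * NP x + W x * NW x) ^ κ *
        AA x (fderiv ℝ ζ x)) ∂μ
  energy : ∀ a b : ℤ, |a| ≤ N → |b| ≤ N →
    ∫⁻ x in {x | x ∈ Ω ∧ P x / (2:ℝ)^a + W x / (2:ℝ)^b ≤ 2}, ENNReal.ofReal
      (V a b x ^ κ * (AA x (fderiv ℝ P x) / ((2:ℝ)^a) ^ 2 + AA x (fderiv ℝ W x) / ((2:ℝ)^b) ^ 2)) ∂μ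
      ≤ ENNReal.ofReal CE
  comparison : ∀ a b : ℤ, |a| ≤ N → |b| ≤ N → ∀ x ∈ Ω, P x / (2:ℝ)^a + W x / (2:ℝ)^b ≤ 2 →
    0 < V a b x ∧ cV * V a b x ≤ (2:ℝ)^a * NP x + (2:ℝ)^b * NW x
  lower : ∀ a b : ℤ, |a| ≤ N → |b| ≤ N →
    ENNReal.ofReal c4 ≤ ∫⁻ x in {x | x ∈ Ω ∧ eps0 * (2:ℝ)^a ≤ P x ∧ P x ≤ Th * (2:ℝ)^a ∧
      eps0 * (2:ℝ)^b ≤ W x ∧ W x ≤ Th * (2:ℝ)^b},
      ENNReal.ofReal ((P x * NP x + W x * NW x) ^ κ *
        (1 / (P x * NP x) + 1 / (W x * NW x)) / rho x) ∂μ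

/-! ### the one-dimensional cut-off -/

/-- the cut-off on the log scale: `1` on `[-N+1,N-1]`, `0` outside `(-N,N)` -/
def eta (N : ℝ) (t : ℝ) : ℝ := Real.smoothTransition (t + N) * Real.smoothTransition (N - t)

lemma eta_nonneg (N t : ℝ) : 0 ≤ eta N t :=
  mul_nonneg (Real.smoothTransition.nonneg _) (Real.smoothTransition.nonneg _)

lemma eta_le_one (N t : ℝ) : eta N t ≤ 1 :=
  mul_le_one₀ (Real.smoothTransition.le_one _) (Real.smoothTransition.nonneg _)
    (Real.smoothTransition.le_one _)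

lemma eta_contDiff (N : ℝ) : ContDiff ℝ 1 (eta N) := by
  unfold eta
  have h := Real.smoothTransition.contDiff (n := 1)
  exact (h.comp (contDiff_id.add contDiff_const)).mul (h.comp (contDiff_const.sub contDiff_id))

lemma eta_eq_one {N t : ℝ} (h1 : -N + 1 ≤ t) (h2 : t ≤ N - 1) : eta N t = 1 := by
  unfold eta
  rw [Real.smoothTransition.one_of_one_le (by linarith),
    Real.smoothTransition.one_of_one_le (by linarith), one_mul]

lemma eta_eq_zero {N t : ℝ} (h : t ≤ -N ∨ N ≤ t) : eta N t = 0 := by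
  unfold eta
  rcases h with h | h
  · rw [Real.smoothTransition.zero_of_nonpos (by linarith), zero_mul]
  · rw [Real.smoothTransition.zero_of_nonpos (x := N - t) (by linarith), mul_zero]

/-- a universal bound for the derivative of the smooth transition -/
lemma exists_deriv_bound : ∃ B : ℝ, 0 ≤ B ∧ ∀ t : ℝ, |deriv Real.smoothTransition t| ≤ B := by
  have hcont : Continuous (deriv Real.smoothTransition) :=
    (Real.smoothTransition.contDiff (n := 1)).continuous_deriv le_rfl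
  obtain ⟨B, hB⟩ := (isCompact_Icc (a := (0:ℝ)) (b := 1)).exists_bound_of_continuousOn
    hcont.continuousOn
  refine ⟨B, (norm_nonneg _).trans (hB 0 (by simp)), fun t => ?_⟩
  by_cases ht : t ∈ Icc (0:ℝ) 1
  · exact hB t ht
  · have : deriv Real.smoothTransition t = 0 := by
      rw [mem_Icc, not_and_or, not_le, not_le] at ht
      rcases ht with ht | ht
      · have : Real.smoothTransition =ᶠ[𝓝 t] fun _ => 0 := by
          filter_upwards [Iio_mem_nhds ht] with s hs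
          exact Real.smoothTransition.zero_of_nonpos (le_of_lt hs)
        rw [this.deriv_eq]; simp
      · have : Real.smoothTransition =ᶠ[𝓝 t] fun _ => 1 := by
          filter_upwards [Ioi_mem_nhds ht] with s hs
          exact Real.smoothTransition.one_of_one_le (le_of_lt hs)
        rw [this.deriv_eq]; simp
    rw [this, abs_zero]
    exact (norm_nonneg _).trans (hB 0 (by simp))

lemma deriv_eta_bound {B : ℝ} (hB : ∀ t : ℝ, |deriv Real.smoothTransition t| ≤ B) (N t : ℝ) :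
    |deriv (eta N) t| ≤ 2 * B := by
  have hd : Differentiable ℝ Real.smoothTransition :=
    (Real.smoothTransition.contDiff (n := 1)).differentiable (by simp)
  have h1 : HasDerivAt (fun t => Real.smoothTransition (t + N))
      (deriv Real.smoothTransition (t + N)) t := by
    have h := (hd (t + N)).hasDerivAt.comp t ((hasDerivAt_id' t).add_const N)
    simpa [Function.comp_def] using h
  have h2 : HasDerivAt (fun t => Real.smoothTransition (N - t))
      (-deriv Real.smoothTransition (N - t)) t := by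
    have h := (hd (N - t)).hasDerivAt.comp t ((hasDerivAt_id' t).const_sub N)
    simpa [Function.comp_def] using h
  have h3 := h1.mul h2
  have : deriv (eta N) t = deriv Real.smoothTransition (t + N) * Real.smoothTransition (N - t) +
      Real.smoothTransition (t + N) * -deriv Real.smoothTransition (N - t) := h3.deriv
  rw [this]
  have a1 := hB (t + N)
  have a2 := hB (N - t)
  have b1 := Real.smoothTransition.nonneg (t + N)
  have b2 := Real.smoothTransition.nonneg (N - t)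
  have b3 := Real.smoothTransition.le_one (t + N)
  have b4 := Real.smoothTransition.le_one (N - t)
  have hB0 : 0 ≤ B := (abs_nonneg _).trans a1
  calc _ ≤ |deriv Real.smoothTransition (t + N) * Real.smoothTransition (N - t)| +
      |Real.smoothTransition (t + N) * -deriv Real.smoothTransition (N - t)| := abs_add_le _ _
    _ = |deriv Real.smoothTransition (t + N)| * Real.smoothTransition (N - t) +
      Real.smoothTransition (t + N) * |deriv Real.smoothTransition (N - t)| := by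
        rw [abs_mul, abs_mul, abs_neg, abs_of_nonneg b1, abs_of_nonneg b2]
    _ ≤ B * 1 + 1 * B := by
        gcongr
    _ = 2 * B := by ring

lemma deriv_eta_zero {N t : ℝ} (h : t < -N ∨ N < t ∨ (-N + 1 < t ∧ t < N - 1)) :
    deriv (eta N) t = 0 := by
  rcases h with h | h | ⟨h, h'⟩
  · have : eta N =ᶠ[𝓝 t] fun _ => 0 := by
      filter_upwards [Iio_mem_nhds h] with s hs
      exact eta_eq_zero (Or.inl (le_of_lt hs))
    rw [this.deriv_eq]; simp
  · have : eta N =ᶠ[𝓝 t] fun _ => 0 := by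
      filter_upwards [Ioi_mem_nhds h] with s hs
      exact eta_eq_zero (Or.inr (le_of_lt hs))
    rw [this.deriv_eq]; simp
  · have : eta N =ᶠ[𝓝 t] fun _ => 1 := by
      filter_upwards [Ioo_mem_nhds h h'] with s hs
      exact eta_eq_one (le_of_lt hs.1) (le_of_lt hs.2)
    rw [this.deriv_eq]; simp

end Crest.Agent.R236.BTop
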