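import Crest.Agent.R236.BTop1

set_option autoImplicit false
set_option linter.unusedSectionVars false
set_option linter.deprecated false
open scoped ContDiff Topology ENNReal
open Set Filter MeasureTheory

noncomputable section

namespace Crest.Agent.R236.BTop

/-- log base 2 -/
def lg (t : ℝ) : ℝ := Real.log t / Real.log 2

lemma log2_pos : 0 < Real.log 2 := Real.log_pos (by norm_num)

lemma lg_le_iff {t : ℝ} (ht : 0 < t) (a : ℤ) : lg t ≤ a ↔ t ≤ (2:ℝ)^a := by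
  unfold lg
  rw [div_le_iff₀ log2_pos, ← Real.log_zpow, Real.log_le_log_iff ht (by positivity)]

lemma le_lg_iff {t : ℝ} (ht : 0 < t) (a : ℤ) : (a:ℝ) ≤ lg t ↔ (2:ℝ)^a ≤ t := by
  unfold lg
  rw [le_div_iff₀ log2_pos, ← Real.log_zpow, Real.log_le_log_iff (by positivity) ht]

lemma lt_lg_iff {t : ℝ} (ht : 0 < t) (a : ℤ) : (a:ℝ) < lg t ↔ (2:ℝ)^a < t := by
  rw [← not_le, lg_le_iff ht, not_le]

lemma lg_lt_iff {t : ℝ} (ht : 0 < t) (a : ℤ) : lg t < a ↔ t < (2:ℝ)^a := by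
  rw [← not_le, le_lg_iff ht, not_le]

section
variable {E : Type*} [NormedAddCommGroup E] [NormedSpace ℝ E]

open Classical in
/-- the two-dimensional cut-off -/
def zeta (Ω : Set E) (P W : E → ℝ) (N : ℕ) (x : E) : ℝ :=
  if x ∈ Ω ∧ 0 < P x ∧ 0 < W x then eta N (lg (P x)) * eta N (lg (W x)) else 0

def KK (Ω : Set E) (P W : E → ℝ) (N : ℕ) : Set E :=
  {x | x ∈ Ω ∧ (2:ℝ)^(-(N:ℤ)) ≤ P x ∧ P x ≤ (2:ℝ)^(N:ℤ) ∧
    (2:ℝ)^(-(N:ℤ)) ≤ W x ∧ W x ≤ (2:ℝ)^(N:ℤ)}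

variable {Ω : Set E} {P W : E → ℝ} {N : ℕ}

lemma KK_pos {x : E} (hx : x ∈ KK Ω P W N) : x ∈ Ω ∧ 0 < P x ∧ 0 < W x :=
  ⟨hx.1, lt_of_lt_of_le (by positivity) hx.2.1, lt_of_lt_of_le (by positivity) hx.2.2.2.1⟩

lemma zeta_zero {x : E} (hx : x ∉ KK Ω P W N) : zeta Ω P W N x = 0 := by
  unfold zeta
  split_ifs with h
  · obtain ⟨h1, h2, h3⟩ := h
    have hh : ∀ t : ℝ, 0 < t → ¬ ((2:ℝ)^(-(N:ℤ)) ≤ t ∧ t ≤ (2:ℝ)^(N:ℤ)) → eta N (lg t) = 0 := by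
      intro t ht hn
      apply eta_eq_zero
      rw [not_and_or, not_le, not_le] at hn
      rcases hn with hn | hn
      · left
        have := (lg_lt_iff ht _).mpr hn
        push_cast at this
        exact this.le
      · right
        have := (lt_lg_iff ht _).mpr hn
        push_cast at this
        exact this.le
    by_cases hP : (2:ℝ)^(-(N:ℤ)) ≤ P x ∧ P x ≤ (2:ℝ)^(N:ℤ)
    · have hW : ¬ ((2:ℝ)^(-(N:ℤ)) ≤ W x ∧ W x ≤ (2:ℝ)^(N:ℤ)) := by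
        intro hW
        exact hx ⟨h1, hP.1, hP.2, hW.1, hW.2⟩
      rw [hh _ h3 hW, mul_zero]
    · rw [hh _ h2 hP, zero_mul]
  · rfl

lemma zeta_nonneg (x : E) : 0 ≤ zeta Ω P W N x := by
  unfold zeta
  split_ifs
  · exact mul_nonneg (eta_nonneg _ _) (eta_nonneg _ _)
  · exact le_rfl

lemma zeta_one {x : E} (hx : x ∈ Ω) (hP : (2:ℝ)^(-(N:ℤ)+1) ≤ P x) (hP' : P x ≤ (2:ℝ)^((N:ℤ)-1))
    (hW : (2:ℝ)^(-(N:ℤ)+1) ≤ W x) (hW' : W x ≤ (2:ℝ)^((N:ℤ)-1)) : zeta Ω P W N x = 1 := by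
  have h2 : 0 < P x := lt_of_lt_of_le (by positivity) hP
  have h3 : 0 < W x := lt_of_lt_of_le (by positivity) hW
  unfold zeta
  rw [if_pos ⟨hx, h2, h3⟩]
  have hh : ∀ t : ℝ, 0 < t → (2:ℝ)^(-(N:ℤ)+1) ≤ t → t ≤ (2:ℝ)^((N:ℤ)-1) →
      eta N (lg t) = 1 := by
    intro t ht h4 h5
    apply eta_eq_one
    · have := (le_lg_iff ht _).mpr h4
      push_cast at this
      exact this
    · have := (lg_le_iff ht _).mpr h5
      push_cast at this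
      exact this
  rw [hh _ h2 hP hP', hh _ h3 hW hW', one_mul]

lemma isOpen_gt (hΩ : IsOpen Ω) (hP : ContDiffOn ℝ 1 P Ω) (c : ℝ) : IsOpen {x | x ∈ Ω ∧ c < P x} := by
  have := hP.continuousOn.isOpen_inter_preimage hΩ (isOpen_Ioi (a := c))
  exact this

lemma isOpen_lt' (hΩ : IsOpen Ω) (hP : ContDiffOn ℝ 1 P Ω) (c : ℝ) : IsOpen {x | x ∈ Ω ∧ P x < c} := by
  have := hP.continuousOn.isOpen_inter_preimage hΩ (isOpen_Iio (a := c))
  exact this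

lemma isOpen_UU (hΩ : IsOpen Ω) (hP : ContDiffOn ℝ 1 P Ω) (hW : ContDiffOn ℝ 1 W Ω) :
    IsOpen {x | x ∈ Ω ∧ 0 < P x ∧ 0 < W x} := by
  have : {x | x ∈ Ω ∧ 0 < P x ∧ 0 < W x} = {x | x ∈ Ω ∧ 0 < P x} ∩ {x | x ∈ Ω ∧ 0 < W x} := by
    ext x; simp only [mem_setOf_eq, mem_inter_iff]; tauto
  rw [this]
  exact (isOpen_gt hΩ hP 0).inter (isOpen_gt hΩ hW 0)

lemma zeta_eventuallyEq (hΩ : IsOpen Ω) (hP : ContDiffOn ℝ 1 P Ω) (hW : ContDiffOn ℝ 1 W Ω)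
    {x : E} (hx : x ∈ Ω ∧ 0 < P x ∧ 0 < W x) :
    zeta Ω P W N =ᶠ[𝓝 x] fun y => eta N (lg (P y)) * eta N (lg (W y)) := by
  filter_upwards [(isOpen_UU hΩ hP hW).mem_nhds hx] with y hy
  unfold zeta
  rw [if_pos hy]

lemma contDiffAt_lg {f : E → ℝ} {x : E} (hf : ContDiffAt ℝ 1 f x) (hx : 0 < f x) :
    ContDiffAt ℝ 1 (fun y => lg (f y)) x := by
  unfold lg
  exact (hf.log hx.ne').div_const _

lemma zeta_contDiff (hΩ : IsOpen Ω) (hP : ContDiffOn ℝ 1 P Ω) (hW : ContDiffOn ℝ 1 W Ω)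
    (hK : IsClosed (KK Ω P W N)) : ContDiff ℝ 1 (zeta Ω P W N) := by
  rw [contDiff_iff_contDiffAt]
  intro x
  by_cases hx : x ∈ KK Ω P W N
  · have hx' := KK_pos hx
    refine ContDiffAt.congr_of_eventuallyEq ?_ (zeta_eventuallyEq hΩ hP hW hx')
    have h1 := contDiffAt_lg (hP.contDiffAt (hΩ.mem_nhds hx'.1)) hx'.2.1
    have h2 := contDiffAt_lg (hW.contDiffAt (hΩ.mem_nhds hx'.1)) hx'.2.2
    exact ((eta_contDiff N).contDiffAt.comp x h1).mul ((eta_contDiff N).contDiffAt.comp x h2)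
  · have : zeta Ω P W N =ᶠ[𝓝 x] fun _ => 0 := by
      filter_upwards [hK.isOpen_compl.mem_nhds hx] with y hy
      exact zeta_zero hy
    exact contDiffAt_const.congr_of_eventuallyEq this

lemma zeta_tsupport (hK : IsClosed (KK Ω P W N)) : tsupport (zeta Ω P W N) ⊆ KK Ω P W N := by
  apply closure_minimal _ hK
  intro x hx
  by_contra h
  exact hx (zeta_zero h)

/-- the coefficients of the differential of the cut-off -/
lemma fderiv_zeta (hΩ : IsOpen Ω) (hP : ContDiffOn ℝ 1 P Ω) (hW : ContDiffOn ℝ 1 W Ω)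
    {x : E} (hx : x ∈ Ω ∧ 0 < P x ∧ 0 < W x) :
    fderiv ℝ (zeta Ω P W N) x =
      (eta N (lg (W x)) * deriv (eta N) (lg (P x)) / (P x * Real.log 2)) • fderiv ℝ P x +
      (eta N (lg (P x)) * deriv (eta N) (lg (W x)) / (W x * Real.log 2)) • fderiv ℝ W x := by
  rw [(zeta_eventuallyEq hΩ hP hW hx).fderiv_eq]
  have key : ∀ f : E → ℝ, ContDiffOn ℝ 1 f Ω → 0 < f x → HasFDerivAt (fun y => eta N (lg (f y)))
      ((deriv (eta N) (lg (f x)) / (f x * Real.log 2)) • fderiv ℝ f x) x := by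
    intro f hf hfx
    have h1 : HasFDerivAt f (fderiv ℝ f x) x :=
      ((hf.contDiffAt (hΩ.mem_nhds hx.1)).differentiableAt (by simp)).hasFDerivAt
    have h2 : HasDerivAt lg ((f x)⁻¹ / Real.log 2) (f x) :=
      (Real.hasDerivAt_log hfx.ne').div_const _
    have h3 : HasDerivAt (eta N) (deriv (eta N) (lg (f x))) (lg (f x)) :=
      ((eta_contDiff N).differentiable (by simp) _).hasDerivAt
    have h4 := (h3.comp (f x) h2).comp_hasFDerivAt x h1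
    refine h4.congr_fderiv ?_
    congr 1
    have := log2_pos.ne'
    field_simp
  have h5 := (key P hP hx.2.1).mul (key W hW hx.2.2)
  refine (show fderiv ℝ (fun y => eta N (lg (P y)) * eta N (lg (W y))) x = _ from h5.fderiv).trans ?_
  ext v
  simp only [add_apply, smul_apply, smul_eq_mul]
  ring

lemma fderiv_zeta_zero (hK : IsClosed (KK Ω P W N)) {x : E} (hx : x ∉ KK Ω P W N) :
    fderiv ℝ (zeta Ω P W N) x = 0 := by
  have : zeta Ω P W N =ᶠ[𝓝 x] fun _ => 0 := by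
    filter_upwards [hK.isOpen_compl.mem_nhds hx] with y hy
    exact zeta_zero hy
  rw [this.fderiv_eq]
  simp

/-- dyadic boxes -/
def TT (Ω : Set E) (P W : E → ℝ) (a b : ℤ) : Set E :=
  {x | x ∈ Ω ∧ (2:ℝ)^(a-1) ≤ P x ∧ P x ≤ (2:ℝ)^a ∧ (2:ℝ)^(b-1) ≤ W x ∧ W x ≤ (2:ℝ)^b}

/-- the grid near the boundary -/
def Edge (N : ℕ) : Finset ℤ := {-(N:ℤ), -(N:ℤ)+1, (N:ℤ)-1, (N:ℤ)}

def Trans (N : ℕ) : Finset (ℤ × ℤ) :=
  (Edge N ×ˢ Finset.Icc (-(N:ℤ)) N) ∪ (Finset.Icc (-(N:ℤ)) N ×ˢ Edge N)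

lemma card_Trans (N : ℕ) : (Trans N).card ≤ 8 * (2 * N + 1) := by
  unfold Trans
  refine (Finset.card_union_le _ _).trans ?_
  rw [Finset.card_product, Finset.card_product]
  have h1 : (Edge N).card ≤ 4 := by
    unfold Edge
    exact Finset.card_le_four
  have h2 : (Finset.Icc (-(N:ℤ)) N).card = 2 * N + 1 := by
    rw [Int.card_Icc]; omega
  rw [h2]
  nlinarith

lemma Trans_abs {N : ℕ} (hN : 1 ≤ N) {a b : ℤ} (h : (a, b) ∈ Trans N) : |a| ≤ N ∧ |b| ≤ N := by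
  unfold Trans Edge at h
  simp only [Finset.mem_union, Finset.mem_product, Finset.mem_insert, Finset.mem_singleton,
    Finset.mem_Icc] at h
  rw [abs_le, abs_le]
  omega

lemma ceil_mem_Edge {N : ℕ} {t : ℝ} (h1 : -(N:ℝ) ≤ t) (h2 : t ≤ N)
    (hd : deriv (eta N) t ≠ 0) : ⌈t⌉ ∈ Edge N := by
  have h3 : ¬ (-(N:ℝ) + 1 < t ∧ t < N - 1) := fun h => hd (deriv_eta_zero (Or.inr (Or.inr h)))
  rw [not_and_or, not_lt, not_lt] at h3
  unfold Edge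
  simp only [Finset.mem_insert, Finset.mem_singleton]
  have h4 : -(N:ℤ) ≤ ⌈t⌉ := by
    have : (-(N:ℝ)) ≤ (⌈t⌉ : ℝ) := h1.trans (Int.le_ceil t)
    exact_mod_cast this
  have h5 : ⌈t⌉ ≤ (N:ℤ) := Int.ceil_le.mpr (by exact_mod_cast h2)
  rcases h3 with h3 | h3
  · have : ⌈t⌉ ≤ -(N:ℤ) + 1 := Int.ceil_le.mpr (by push_cast; exact h3)
    omega
  · have : (N:ℤ) - 1 ≤ ⌈t⌉ := by
      have : ((N:ℝ) - 1) ≤ (⌈t⌉ : ℝ) := h3.trans (Int.le_ceil t)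
      exact_mod_cast this
    omega

lemma mem_TT_ceil {x : E} (hx : x ∈ KK Ω P W N) : x ∈ TT Ω P W ⌈lg (P x)⌉ ⌈lg (W x)⌉ := by
  obtain ⟨h1, h2, h3⟩ := KK_pos hx
  have key : ∀ t : ℝ, 0 < t → (2:ℝ)^(⌈lg t⌉ - 1) ≤ t ∧ t ≤ (2:ℝ)^⌈lg t⌉ := by
    intro t ht
    refine ⟨(le_lg_iff ht _).mp ?_, (lg_le_iff ht _).mp (Int.le_ceil _)⟩
    push_cast
    linarith [Int.ceil_lt_add_one (lg t)]
  exact ⟨h1, (key _ h2).1, (key _ h2).2, (key _ h3).1, (key _ h3).2⟩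

end

end Crest.Agent.R236.BTop
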