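import Crest.Agent.R236.BTop2

set_option autoImplicit false
set_option linter.unusedSectionVars false
set_option linter.deprecated false
open scoped ContDiff Topology ENNReal
open Set Filter MeasureTheory

noncomputable section

namespace Crest.Agent.R236.BTop

section
variable {E : Type*} [NormedAddCommGroup E] [NormedSpace ℝ E] [MeasurableSpace E] [BorelSpace E]
  {μ : Measure E} {κ C4 CE cV c4 eps0 Th : ℝ} {N : ℕ}
  {Ω : Set E} {P W NP NW rho : E → ℝ} {AA : E → (E →L[ℝ] ℝ) → ℝ} {V : ℤ → ℤ → E → ℝ}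

lemma measurableSet_le (hΩ : IsOpen Ω) (hP : ContDiffOn ℝ 1 P Ω) (c : ℝ) :
    MeasurableSet {x | x ∈ Ω ∧ P x ≤ c} := by
  have : {x | x ∈ Ω ∧ P x ≤ c} = Ω \ {x | x ∈ Ω ∧ c < P x} := by
    ext x
    simp only [mem_setOf_eq, mem_diff, not_and, not_lt]
    tauto
  rw [this]
  exact hΩ.measurableSet.diff (isOpen_gt hΩ hP c).measurableSet

lemma measurableSet_ge (hΩ : IsOpen Ω) (hP : ContDiffOn ℝ 1 P Ω) (c : ℝ) :
    MeasurableSet {x | x ∈ Ω ∧ c ≤ P x} := by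
  have : {x | x ∈ Ω ∧ c ≤ P x} = Ω \ {x | x ∈ Ω ∧ P x < c} := by
    ext x
    simp only [mem_setOf_eq, mem_diff, not_and, not_lt]
    tauto
  rw [this]
  exact hΩ.measurableSet.diff (isOpen_lt' hΩ hP c).measurableSet

lemma measurableSet_box (hΩ : IsOpen Ω) (hP : ContDiffOn ℝ 1 P Ω) (hW : ContDiffOn ℝ 1 W Ω)
    (c1 c2 c3 c4 : ℝ) :
    MeasurableSet {x | x ∈ Ω ∧ c1 ≤ P x ∧ P x ≤ c2 ∧ c3 ≤ W x ∧ W x ≤ c4} := by
  have : {x | x ∈ Ω ∧ c1 ≤ P x ∧ P x ≤ c2 ∧ c3 ≤ W x ∧ W x ≤ c4} =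
      ({x | x ∈ Ω ∧ c1 ≤ P x} ∩ {x | x ∈ Ω ∧ P x ≤ c2}) ∩
      ({x | x ∈ Ω ∧ c3 ≤ W x} ∩ {x | x ∈ Ω ∧ W x ≤ c4}) := by
    ext x
    simp only [mem_setOf_eq, mem_inter_iff]
    tauto
  rw [this]
  exact ((measurableSet_ge hΩ hP _).inter (measurableSet_le hΩ hP _)).inter
    ((measurableSet_ge hΩ hW _).inter (measurableSet_le hΩ hW _))

/-- pointwise bound of the right-hand integrand on a dyadic box -/
lemma pointwise_bound (hκ : κ ≤ 0) (hcV : 0 < cV) {B : ℝ}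
    (hB : ∀ t : ℝ, |deriv Real.smoothTransition t| ≤ B)
    (D : BDat μ κ C4 CE cV c4 eps0 Th N Ω P W NP NW rho AA V) {a b : ℤ} (ha : |a| ≤ N)
    (hb : |b| ≤ N) {x : E} (hx : x ∈ TT Ω P W a b) (hxK : x ∈ KK Ω P W N) :
    (P x * NP x + W x * NW x) ^ κ * AA x (fderiv ℝ (zeta Ω P W N) x) ≤
      ((cV / 2) ^ κ * (32 * (B / Real.log 2) ^ 2)) * (V a b x ^ κ *
        (AA x (fderiv ℝ P x) / ((2:ℝ)^a) ^ 2 + AA x (fderiv ℝ W x) / ((2:ℝ)^b) ^ 2)) := by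
  obtain ⟨hΩx, hP0, hW0⟩ := KK_pos hxK
  obtain ⟨hNP, hNW⟩ := D.pos x hΩx hxK.2.1 hxK.2.2.1 hxK.2.2.2.1 hxK.2.2.2.2
  obtain ⟨-, p1, p2, w1, w2⟩ := hx
  have ta : (0:ℝ) < 2^a := by positivity
  have tb : (0:ℝ) < 2^b := by positivity
  have e1 : (2:ℝ)^(a-1) = 2^a / 2 := by rw [zpow_sub_one₀ (by norm_num)]; ring
  have e2 : (2:ℝ)^(b-1) = 2^b / 2 := by rw [zpow_sub_one₀ (by norm_num)]; ring
  rw [e1] at p1
  rw [e2] at w1
  have hle : P x / (2:ℝ)^a + W x / (2:ℝ)^b ≤ 2 := by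
    have h1 : P x / (2:ℝ)^a ≤ 1 := (div_le_one ta).mpr p2
    have h2 : W x / (2:ℝ)^b ≤ 1 := (div_le_one tb).mpr w2
    linarith
  obtain ⟨hV, hV'⟩ := D.comparison a b ha hb x hΩx hle
  -- the weight
  have hw : (P x * NP x + W x * NW x) ^ κ ≤ (cV / 2) ^ κ * V a b x ^ κ := by
    rw [← Real.mul_rpow (by positivity) hV.le]
    apply Real.rpow_le_rpow_of_nonpos (by positivity) _ hκ
    have h1 : (2:ℝ)^a / 2 * NP x ≤ P x * NP x := mul_le_mul_of_nonneg_right p1 hNP.le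
    have h2 : (2:ℝ)^b / 2 * NW x ≤ W x * NW x := mul_le_mul_of_nonneg_right w1 hNW.le
    nlinarith
  -- the differential
  have hd : AA x (fderiv ℝ (zeta Ω P W N) x) ≤ (32 * (B / Real.log 2) ^ 2) *
      (AA x (fderiv ℝ P x) / ((2:ℝ)^a) ^ 2 + AA x (fderiv ℝ W x) / ((2:ℝ)^b) ^ 2) := by
    rw [fderiv_zeta D.isOpen D.P_smooth D.W_smooth ⟨hΩx, hP0, hW0⟩]
    refine (D.AA_comb x hΩx _ _ _ _).trans ?_
    have hB0 : 0 ≤ B := (abs_nonneg _).trans (hB 0)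
    have key : ∀ (p q t w : ℝ), 0 < t → t / 2 ≤ p → 0 ≤ w → w ≤ 1 →
        (w * deriv (eta N) q / (p * Real.log 2)) ^ 2 ≤ 16 * (B / Real.log 2) ^ 2 / t ^ 2 := by
      intro p q t w ht htp hw0 hw1
      have hp : 0 < p := by linarith
      have h1 : |w * deriv (eta N) q| ≤ 2 * B := by
        rw [abs_mul, abs_of_nonneg hw0]
        calc w * |deriv (eta N) q| ≤ 1 * (2 * B) := by
              gcongr
              exact deriv_eta_bound hB _ _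
          _ = 2 * B := one_mul _
      have h2 : (w * deriv (eta N) q) ^ 2 ≤ (2 * B) ^ 2 := by
        rw [← sq_abs]; gcongr
      have hl := log2_pos
      rw [div_pow, div_pow, div_le_div_iff₀ (by positivity) (by positivity)]
      have h3 : t ^ 2 ≤ 4 * p ^ 2 := by nlinarith
      calc (w * deriv (eta N) q) ^ 2 * t ^ 2 ≤ (2 * B) ^ 2 * (4 * p ^ 2) := by gcongr
        _ = 16 * (B ^ 2 / Real.log 2 ^ 2) * (p * Real.log 2) ^ 2 := by field_simp; ring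
    have k1 := key (P x) (lg (P x)) (2^a) (eta N (lg (W x))) ta p1 (eta_nonneg _ _) (eta_le_one _ _)
    have k2 := key (W x) (lg (W x)) (2^b) (eta N (lg (P x))) tb w1 (eta_nonneg _ _) (eta_le_one _ _)
    have n1 := D.AA_nonneg x hΩx (fderiv ℝ P x)
    have n2 := D.AA_nonneg x hΩx (fderiv ℝ W x)
    calc _ ≤ 2 * (16 * (B / Real.log 2) ^ 2 / ((2:ℝ)^a) ^ 2 * AA x (fderiv ℝ P x) +
          16 * (B / Real.log 2) ^ 2 / ((2:ℝ)^b) ^ 2 * AA x (fderiv ℝ W x)) := by gcongr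
      _ = _ := by ring
  have hA0 := D.AA_nonneg x hΩx (fderiv ℝ (zeta Ω P W N) x)
  have hV0 : 0 ≤ V a b x ^ κ := Real.rpow_nonneg hV.le _
  have hc0 : 0 ≤ (cV / 2) ^ κ := Real.rpow_nonneg (by positivity) _
  calc _ ≤ ((cV / 2) ^ κ * V a b x ^ κ) * ((32 * (B / Real.log 2) ^ 2) *
      (AA x (fderiv ℝ P x) / ((2:ℝ)^a) ^ 2 + AA x (fderiv ℝ W x) / ((2:ℝ)^b) ^ 2)) := by
        gcongr
    _ = _ := by ring

/-- energy of the cut-off on one dyadic box -/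
lemma box_energy (hκ : κ ≤ 0) (hcV : 0 < cV) {B : ℝ} (hK : IsClosed (KK Ω P W N))
    (hB : ∀ t : ℝ, |deriv Real.smoothTransition t| ≤ B)
    (D : BDat μ κ C4 CE cV c4 eps0 Th N Ω P W NP NW rho AA V) {a b : ℤ} (ha : |a| ≤ N)
    (hb : |b| ≤ N) :
    ∫⁻ x in TT Ω P W a b, ENNReal.ofReal ((P x * NP x + W x * NW x) ^ κ *
        AA x (fderiv ℝ (zeta Ω P W N) x)) ∂μ ≤
      ENNReal.ofReal ((cV / 2) ^ κ * (32 * (B / Real.log 2) ^ 2)) * ENNReal.ofReal CE := by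
  have hc0 : 0 ≤ (cV / 2) ^ κ * (32 * (B / Real.log 2) ^ 2) :=
    mul_nonneg (Real.rpow_nonneg (by positivity) _) (by positivity)
  have hsub : TT Ω P W a b ⊆ {x | x ∈ Ω ∧ P x / (2:ℝ)^a + W x / (2:ℝ)^b ≤ 2} := by
    intro x hx
    refine ⟨hx.1, ?_⟩
    have h1 : P x / (2:ℝ)^a ≤ 1 := (div_le_one (by positivity)).mpr hx.2.2.1
    have h2 : W x / (2:ℝ)^b ≤ 1 := (div_le_one (by positivity)).mpr hx.2.2.2.2
    linarith
  calc _ ≤ ∫⁻ x in TT Ω P W a b, ENNReal.ofReal ((cV / 2) ^ κ * (32 * (B / Real.log 2) ^ 2)) *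
        ENNReal.ofReal (V a b x ^ κ *
        (AA x (fderiv ℝ P x) / ((2:ℝ)^a) ^ 2 + AA x (fderiv ℝ W x) / ((2:ℝ)^b) ^ 2)) ∂μ := by
        apply setLIntegral_mono' (measurableSet_box D.isOpen D.P_smooth D.W_smooth _ _ _ _)
        intro x hx
        rw [← ENNReal.ofReal_mul hc0]
        by_cases hxK : x ∈ KK Ω P W N
        · exact ENNReal.ofReal_le_ofReal (pointwise_bound hκ hcV hB D ha hb hx hxK)
        · rw [fderiv_zeta_zero hK hxK, D.AA_zero, mul_zero, ENNReal.ofReal_zero]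
          exact zero_le
    _ ≤ ∫⁻ x in {x | x ∈ Ω ∧ P x / (2:ℝ)^a + W x / (2:ℝ)^b ≤ 2},
        ENNReal.ofReal ((cV / 2) ^ κ * (32 * (B / Real.log 2) ^ 2)) *
        ENNReal.ofReal (V a b x ^ κ *
        (AA x (fderiv ℝ P x) / ((2:ℝ)^a) ^ 2 + AA x (fderiv ℝ W x) / ((2:ℝ)^b) ^ 2)) ∂μ :=
        lintegral_mono_set hsub
    _ = ENNReal.ofReal ((cV / 2) ^ κ * (32 * (B / Real.log 2) ^ 2)) *
        ∫⁻ x in {x | x ∈ Ω ∧ P x / (2:ℝ)^a + W x / (2:ℝ)^b ≤ 2},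
        ENNReal.ofReal (V a b x ^ κ *
        (AA x (fderiv ℝ P x) / ((2:ℝ)^a) ^ 2 + AA x (fderiv ℝ W x) / ((2:ℝ)^b) ^ 2)) ∂μ :=
        lintegral_const_mul' _ _ ENNReal.ofReal_ne_top
    _ ≤ _ := by
        gcongr
        exact D.energy a b ha hb

/-- a finite-union bound for `∫⁻` without measurability -/
lemma setLIntegral_biUnion_le {ι : Type*} (s : Finset ι) (T : ι → Set E) (f : E → ℝ≥0∞)
    {c : ℝ≥0∞} (h : ∀ i ∈ s, ∫⁻ x in T i, f x ∂μ ≤ c) :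
    ∫⁻ x in ⋃ i ∈ s, T i, f x ∂μ ≤ s.card * c := by
  classical
  induction s using Finset.induction_on with
  | empty => simp
  | insert i s hi ih =>
    rw [Finset.set_biUnion_insert, Finset.card_insert_of_notMem hi]
    refine (lintegral_union_le _ _ _).trans ?_
    have h1 := h i (Finset.mem_insert_self _ _)
    have h2 := ih fun j hj => h j (Finset.mem_insert_of_mem hj)
    calc _ ≤ c + s.card * c := add_le_add h1 h2
      _ = _ := by push_cast; ring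

/-- the total energy of the cut-off -/
lemma total_energy (hN : 1 ≤ N) (hκ : κ ≤ 0) (hcV : 0 < cV) {B : ℝ} (hK : IsClosed (KK Ω P W N))
    (hB : ∀ t : ℝ, |deriv Real.smoothTransition t| ≤ B)
    (D : BDat μ κ C4 CE cV c4 eps0 Th N Ω P W NP NW rho AA V) :
    ∫⁻ x, ENNReal.ofReal ((P x * NP x + W x * NW x) ^ κ *
        AA x (fderiv ℝ (zeta Ω P W N) x)) ∂μ ≤
      ((8 * (2 * N + 1) : ℕ) : ℝ≥0∞) *
      (ENNReal.ofReal ((cV / 2) ^ κ * (32 * (B / Real.log 2) ^ 2)) * ENNReal.ofReal CE) := by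
  have hsupp : (Function.support fun x => ENNReal.ofReal ((P x * NP x + W x * NW x) ^ κ *
        AA x (fderiv ℝ (zeta Ω P W N) x))) ⊆ ⋃ i ∈ Trans N, TT Ω P W i.1 i.2 := by
    intro x hx
    rw [Function.mem_support] at hx
    have hd : fderiv ℝ (zeta Ω P W N) x ≠ 0 := by
      intro h0
      apply hx
      rw [h0, D.AA_zero, mul_zero, ENNReal.ofReal_zero]
    have hxK : x ∈ KK Ω P W N := by
      by_contra h
      exact hd (fderiv_zeta_zero hK h)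
    obtain ⟨h1, h2, h3⟩ := KK_pos hxK
    rw [fderiv_zeta D.isOpen D.P_smooth D.W_smooth ⟨h1, h2, h3⟩] at hd
    have hrange : ∀ t : ℝ, 0 < t → (2:ℝ)^(-(N:ℤ)) ≤ t → t ≤ (2:ℝ)^(N:ℤ) →
        -(N:ℝ) ≤ lg t ∧ lg t ≤ N := by
      intro t ht h4 h5
      have h6 := (le_lg_iff ht _).mpr h4
      have h7 := (lg_le_iff ht _).mpr h5
      push_cast at h6 h7
      exact ⟨h6, h7⟩
    obtain ⟨r1, r2⟩ := hrange _ h2 hxK.2.1 hxK.2.2.1
    obtain ⟨r3, r4⟩ := hrange _ h3 hxK.2.2.2.1 hxK.2.2.2.2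
    have hIcc : ∀ t : ℝ, -(N:ℝ) ≤ t → t ≤ N → ⌈t⌉ ∈ Finset.Icc (-(N:ℤ)) N := by
      intro t h6 h7
      rw [Finset.mem_Icc]
      constructor
      · have : (-(N:ℝ)) ≤ (⌈t⌉ : ℝ) := h6.trans (Int.le_ceil t)
        exact_mod_cast this
      · exact Int.ceil_le.mpr (by exact_mod_cast h7)
    have hor : deriv (eta N) (lg (P x)) ≠ 0 ∨ deriv (eta N) (lg (W x)) ≠ 0 := by
      by_contra hcon
      push Not at hcon
      apply hd
      rw [hcon.1, hcon.2]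
      simp
    simp only [mem_iUnion]
    refine ⟨(⌈lg (P x)⌉, ⌈lg (W x)⌉), ?_, mem_TT_ceil hxK⟩
    unfold Trans
    rw [Finset.mem_union, Finset.mem_product, Finset.mem_product]
    rcases hor with h | h
    · left
      exact ⟨ceil_mem_Edge r1 r2 h, hIcc _ r3 r4⟩
    · right
      exact ⟨hIcc _ r1 r2, ceil_mem_Edge r3 r4 h⟩
  rw [← setLIntegral_eq_of_support_subset hsupp]
  refine (setLIntegral_biUnion_le (Trans N) _ _ (c := ENNReal.ofReal ((cV / 2) ^ κ *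
    (32 * (B / Real.log 2) ^ 2)) * ENNReal.ofReal CE) ?_).trans ?_
  · intro i hi
    obtain ⟨ha, hb⟩ := Trans_abs hN (a := i.1) (b := i.2) hi
    exact box_energy hκ hcV hK hB D ha hb
  · gcongr
    exact card_Trans N

end

end Crest.Agent.R236.BTop
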