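import Mathlib
import Crest.Agent.R236.P1
import Crest.Agent.R236.ABP

/-! Row 236, B3: the two volume inequalities (V1), (V2). (helper303) -/

set_option autoImplicit false
noncomputable section
open MeasureTheory Set
open scoped ContDiff ENNReal
open Crest.GeometryTopology.CoordMetric Crest.GeometryTopology.AffineMaximal

namespace Crest.Agent.R236.BVol

open Crest.Agent.R236 Crest.Agent.R236.ABP

/-- Determinant of a linear endomorphism of `E × ℝ` in block form. -/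
lemma det_block {n : ℕ}
    (f : (EuclideanSpace ℝ (Fin n) × ℝ) →ₗ[ℝ] (EuclideanSpace ℝ (Fin n) × ℝ)) :
    LinearMap.det f = (Matrix.fromBlocks
      (Matrix.of fun i j => (f (EuclideanSpace.single j 1, 0)).1 i)
      (Matrix.of fun i (_ : Unit) => (f (0, 1)).1 i)
      (Matrix.of fun (_ : Unit) j => (f (EuclideanSpace.single j 1, 0)).2)
      (Matrix.of fun (_ : Unit) (_ : Unit) => (f (0, 1)).2)).det := by
  rw [← LinearMap.det_toMatrix
    (((EuclideanSpace.basisFun (Fin n) ℝ).toBasis).prod (Module.Basis.singleton Unit ℝ)) f]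
  congr 1
  ext i j
  rcases i with i | i <;> rcases j with j | j <;>
    simp [LinearMap.toMatrix_apply, Matrix.fromBlocks]

instance instHaar {n : ℕ} : (volume : Measure (EuclideanSpace ℝ (Fin n) × ℝ)).IsAddHaarMeasure := by
  rw [Measure.volume_eq_prod]
  infer_instance

/-- The conormal pairing `v_z - Du(x) v_x`. -/
def sig {n : ℕ} (u : EuclideanSpace ℝ (Fin n) → ℝ) (v : EuclideanSpace ℝ (Fin n) × ℝ)
    (x : EuclideanSpace ℝ (Fin n)) : ℝ := v.2 - fderiv ℝ u x v.1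

variable {n : ℕ} {Ω : Set (EuclideanSpace ℝ (Fin n))} {u : EuclideanSpace ℝ (Fin n) → ℝ}

lemma continuousOn_sig (h : SC Ω u) (v : EuclideanSpace ℝ (Fin n) × ℝ) :
    ContinuousOn (sig u v) Ω := by
  unfold sig
  exact continuousOn_const.sub (h.continuousOn_fderiv.clm_apply continuousOn_const)

/-- Injectivity of `(x, r) ↦ (x, u x) - r v`. -/
lemma injOn_V1 (h : SC Ω u) {B : Set (EuclideanSpace ℝ (Fin n))} (hBΩ : B ⊆ Ω)
    {v : EuclideanSpace ℝ (Fin n) × ℝ} (hpos : ∀ x ∈ B, 0 < sig u v x) :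
    InjOn (fun p : EuclideanSpace ℝ (Fin n) × ℝ =>
      ((p.1, u p.1) : EuclideanSpace ℝ (Fin n) × ℝ) - p.2 • v) (B ×ˢ (univ : Set ℝ)) := by
  -- key: no two points of the graph over `B` differ by a positive multiple of `v`
  have key : ∀ x ∈ B, ∀ y ∈ B, ∀ t : ℝ, 0 < t →
      ((x, u x) : EuclideanSpace ℝ (Fin n) × ℝ) - (y, u y) ≠ t • v := by
    intro x hx y hy t ht he
    have h1 : x - y = t • v.1 := congrArg Prod.fst he
    have h2 : u x - u y = t * v.2 := congrArg Prod.snd he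
    have h3 := h.tangent_le (hBΩ hx) (hBΩ hy)
    have h4 : y - x = -(t • v.1) := by rw [← h1]; abel
    rw [h4, map_neg, map_smul, smul_eq_mul] at h3
    have h5 := hpos x hx
    unfold sig at h5
    nlinarith
  rintro ⟨x, r⟩ ⟨hx, -⟩ ⟨y, s⟩ ⟨hy, -⟩ he
  simp only at hx hy he
  rcases lt_trichotomy r s with hrs | hrs | hrs
  · exfalso
    refine key y hy x hx (s - r) (sub_pos.mpr hrs) ?_
    rw [sub_smul]
    have : ((y, u y) : EuclideanSpace ℝ (Fin n) × ℝ) = ((x, u x) - r • v) + s • v := by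
      rw [he]; abel
    rw [this]; abel
  · subst hrs
    have h1 : ((x, u x) : EuclideanSpace ℝ (Fin n) × ℝ) = (y, u y) := sub_left_injective he
    have h2 : x = y := congrArg (fun q : EuclideanSpace ℝ (Fin n) × ℝ => q.1) h1
    rw [h2]
  · exfalso
    refine key x hx y hy (r - s) (sub_pos.mpr hrs) ?_
    rw [sub_smul]
    have : ((x, u x) : EuclideanSpace ℝ (Fin n) × ℝ) = ((y, u y) - s • v) + r • v := by
      rw [← he]; abel
    rw [this]; abel

/-- the derivative of `(x, r) ↦ (x, u x) - r v`. -/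
def dV1 (u : EuclideanSpace ℝ (Fin n) → ℝ) (v : EuclideanSpace ℝ (Fin n) × ℝ)
    (p : EuclideanSpace ℝ (Fin n) × ℝ) :
    (EuclideanSpace ℝ (Fin n) × ℝ) →L[ℝ] (EuclideanSpace ℝ (Fin n) × ℝ) :=
  (ContinuousLinearMap.fst ℝ (EuclideanSpace ℝ (Fin n)) ℝ).prod
    ((fderiv ℝ u p.1).comp (ContinuousLinearMap.fst ℝ (EuclideanSpace ℝ (Fin n)) ℝ)) -
  (ContinuousLinearMap.snd ℝ (EuclideanSpace ℝ (Fin n)) ℝ).smulRight v

lemma dV1_apply (v : EuclideanSpace ℝ (Fin n) × ℝ) (p w : EuclideanSpace ℝ (Fin n) × ℝ) :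
    dV1 u v p w = (w.1 - w.2 • v.1, fderiv ℝ u p.1 w.1 - w.2 * v.2) := by
  unfold dV1
  ext <;> simp

lemma det_dV1 (v : EuclideanSpace ℝ (Fin n) × ℝ) (p : EuclideanSpace ℝ (Fin n) × ℝ) :
    (dV1 u v p).det = - sig u v p.1 := by
  unfold ContinuousLinearMap.det
  rw [det_block]
  have hA : (Matrix.of fun i j => ((dV1 u v p : (EuclideanSpace ℝ (Fin n) × ℝ) →ₗ[ℝ]
      (EuclideanSpace ℝ (Fin n) × ℝ)) (EuclideanSpace.single j 1, 0)).1 i) =
      (1 : Matrix (Fin n) (Fin n) ℝ) := by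
    ext i j
    simp [dV1_apply, Matrix.one_apply]
  rw [hA, Matrix.det_fromBlocks_one₁₁]
  simp only [Matrix.det_unique, Matrix.sub_apply, Matrix.mul_apply, Matrix.of_apply,
    ContinuousLinearMap.coe_coe, dV1_apply, sig]
  rw [fderiv_apply_eq_sum u p.1 v.1]
  simp [pderiv, Finset.sum_neg_distrib]
  ring

theorem V1 (h : SC Ω u) {B : Set (EuclideanSpace ℝ (Fin n))} (hB : MeasurableSet B)
    (hBΩ : B ⊆ Ω) {v : EuclideanSpace ℝ (Fin n) × ℝ} (hpos : ∀ x ∈ B, 0 < sig u v x)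
    {S : Set (EuclideanSpace ℝ (Fin n) × ℝ)}
    (hS : ∀ x ∈ B, ∀ r ∈ Ioo (0 : ℝ) 1,
      ((x, u x) : EuclideanSpace ℝ (Fin n) × ℝ) - r • v ∈ S) :
    ∫⁻ x in B, ENNReal.ofReal (sig u v x) ≤ volume S := by
  set D : Set (EuclideanSpace ℝ (Fin n) × ℝ) := B ×ˢ Ioo (0 : ℝ) 1 with hD
  have hDm : MeasurableSet D := hB.prod measurableSet_Ioo
  have hf' : ∀ p ∈ D, HasFDerivWithinAt (fun p : EuclideanSpace ℝ (Fin n) × ℝ =>
      ((p.1, u p.1) : EuclideanSpace ℝ (Fin n) × ℝ) - p.2 • v) (dV1 u v p) D p := by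
    intro p hp
    have hx : p.1 ∈ Ω := hBΩ hp.1
    have h1 : HasFDerivAt u (fderiv ℝ u p.1) p.1 := (h.differentiableAt hx).hasFDerivAt
    have h2 : HasFDerivAt (fun p : EuclideanSpace ℝ (Fin n) × ℝ => u p.1)
        ((fderiv ℝ u p.1).comp (ContinuousLinearMap.fst ℝ (EuclideanSpace ℝ (Fin n)) ℝ)) p :=
      h1.comp p hasFDerivAt_fst
    have h3 := (hasFDerivAt_fst (𝕜 := ℝ) (p := p)).prodMk h2
    have h4 : HasFDerivAt (fun p : EuclideanSpace ℝ (Fin n) × ℝ => p.2 • v)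
        ((ContinuousLinearMap.snd ℝ (EuclideanSpace ℝ (Fin n)) ℝ).smulRight v) p :=
      (hasFDerivAt_snd (𝕜 := ℝ) (p := p)).smul_const v
    exact (h3.sub h4).hasFDerivWithinAt
  have hinj : InjOn (fun p : EuclideanSpace ℝ (Fin n) × ℝ =>
      ((p.1, u p.1) : EuclideanSpace ℝ (Fin n) × ℝ) - p.2 • v) D :=
    (injOn_V1 h hBΩ hpos).mono (prod_mono subset_rfl (subset_univ _))
  have harea := lintegral_abs_det_fderiv_eq_addHaar_image
    (volume : Measure (EuclideanSpace ℝ (Fin n) × ℝ)) hDm hf' hinj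
  have himg : (fun p : EuclideanSpace ℝ (Fin n) × ℝ =>
      ((p.1, u p.1) : EuclideanSpace ℝ (Fin n) × ℝ) - p.2 • v) '' D ⊆ S := by
    rintro _ ⟨p, hp, rfl⟩
    exact hS p.1 hp.1 p.2 hp.2
  refine le_trans (le_of_eq ?_) (measure_mono himg)
  rw [← harea]
  have hF : ∫⁻ p in D, ENNReal.ofReal |(dV1 u v p).det| =
      ∫⁻ p in D, ENNReal.ofReal (sig u v p.1) * (fun _ => 1 : ℝ → ℝ≥0∞) p.2 := by
    refine setLIntegral_congr_fun hDm fun p hp => ?_
    simp only [mul_one]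
    rw [det_dV1, abs_neg, abs_of_pos (hpos p.1 hp.1)]
  rw [hF, hD, Measure.volume_eq_prod, ← Measure.prod_restrict,
    lintegral_prod_mul
      (((continuousOn_sig h v).mono hBΩ).aemeasurable hB).ennreal_ofReal aemeasurable_const]
  simp

/-- the derivative of `(x, r) ↦ (-r ∇u(x), r)`. -/
def dV2 (u : EuclideanSpace ℝ (Fin n) → ℝ) (p : EuclideanSpace ℝ (Fin n) × ℝ) :
    (EuclideanSpace ℝ (Fin n) × ℝ) →L[ℝ] (EuclideanSpace ℝ (Fin n) × ℝ) :=
  (p.2 • (-(hessL u p.1).comp (ContinuousLinearMap.fst ℝ (EuclideanSpace ℝ (Fin n)) ℝ)) +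
    (ContinuousLinearMap.snd ℝ (EuclideanSpace ℝ (Fin n)) ℝ).smulRight (-gradE u p.1)).prod
  (ContinuousLinearMap.snd ℝ (EuclideanSpace ℝ (Fin n)) ℝ)

lemma dV2_apply (p w : EuclideanSpace ℝ (Fin n) × ℝ) :
    dV2 u p w = (p.2 • (-(hessL u p.1 w.1)) + w.2 • (-gradE u p.1), w.2) := by
  unfold dV2
  rfl

lemma det_dV2 (p : EuclideanSpace ℝ (Fin n) × ℝ) :
    (dV2 u p).det = (-p.2) ^ n * (hessianMat u p.1).det := by
  unfold ContinuousLinearMap.det
  rw [det_block]
  have hA : (Matrix.of fun i j => ((dV2 u p : (EuclideanSpace ℝ (Fin n) × ℝ) →ₗ[ℝ]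
      (EuclideanSpace ℝ (Fin n) × ℝ)) (EuclideanSpace.single j 1, 0)).1 i) =
      (-p.2) • (hessianMat u p.1).transpose := by
    ext i j
    simp [dV2_apply, hessL_apply]
  have hC : (Matrix.of fun (_ : Unit) j => ((dV2 u p : (EuclideanSpace ℝ (Fin n) × ℝ) →ₗ[ℝ]
      (EuclideanSpace ℝ (Fin n) × ℝ)) (EuclideanSpace.single j 1, 0)).2) =
      (0 : Matrix Unit (Fin n) ℝ) := by
    ext i j
    simp [dV2_apply]
  have hD : (Matrix.of fun (_ : Unit) (_ : Unit) => ((dV2 u p :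
      (EuclideanSpace ℝ (Fin n) × ℝ) →ₗ[ℝ] (EuclideanSpace ℝ (Fin n) × ℝ)) (0, 1)).2) =
      (1 : Matrix Unit Unit ℝ) := by
    ext i j
    simp [dV2_apply]
  rw [hA, hC, hD, Matrix.det_fromBlocks_zero₂₁, Matrix.det_one, mul_one, Matrix.det_smul,
    Matrix.det_transpose, Fintype.card_fin]

lemma gradE_injOn (h : SC Ω u) : InjOn (gradE u) Ω := by
  intro x hx y hy he
  by_contra hne
  have h1 := h.grad_mono hx hy hne
  have h2 : fderiv ℝ u x = fderiv ℝ u y := by
    ext w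
    rw [fderiv_apply_eq_sum, fderiv_apply_eq_sum]
    refine Finset.sum_congr rfl fun j _ => ?_
    have := congrArg (fun q : EuclideanSpace ℝ (Fin n) => q j) he
    simp only [gradE] at this
    rw [this]
  rw [h2, sub_self] at h1
  simp at h1

lemma continuousOn_det (h : SC Ω u) : ContinuousOn (fun x => (hessianMat u x).det) Ω := by
  have h2 : ContDiffOn ℝ ∞ (fderiv ℝ u) Ω := h.smooth.fderiv_of_isOpen (m := ∞) h.isOpen (by simp)
  have h3 : ContinuousOn (fderiv ℝ (fderiv ℝ u)) Ω :=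
    (h2.continuousOn_fderiv_of_isOpen h.isOpen (by simp))
  have h4 : ContinuousOn (fun x => Matrix.of fun i j : Fin n =>
      fderiv ℝ (fderiv ℝ u) x (EuclideanSpace.single i 1) (EuclideanSpace.single j 1)) Ω := by
    refine continuousOn_pi.mpr fun i => continuousOn_pi.mpr fun j => ?_
    exact (h3.clm_apply continuousOn_const).clm_apply continuousOn_const
  have h5 : ContinuousOn (fun x => (Matrix.of fun i j : Fin n =>
      fderiv ℝ (fderiv ℝ u) x (EuclideanSpace.single i 1) (EuclideanSpace.single j 1)).det) Ω :=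
    (Continuous.matrix_det continuous_id).comp_continuousOn h4
  refine h5.congr fun x hx => ?_
  have : hessianMat u x = Matrix.of fun i j : Fin n =>
      fderiv ℝ (fderiv ℝ u) x (EuclideanSpace.single i 1) (EuclideanSpace.single j 1) := by
    ext i j
    exact hessianMat_eq (h.differentiableAt_fderiv hx) i j
  rw [this]

/-- one-dimensional integral -/
lemma lintegral_pow (d s : ℝ) (hd : 0 ≤ d) (hs : 0 < s) :
    ∫⁻ r in Ioo 0 (1 / s), ENNReal.ofReal (r ^ n * d) =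
      ENNReal.ofReal (d / s ^ (n + 1) / (n + 1)) := by
  have h1 : 0 ≤ 1 / s := by positivity
  have hint : IntegrableOn (fun r : ℝ => r ^ n * d) (Ioo 0 (1 / s)) volume :=
    (Continuous.integrableOn_Icc (by fun_prop)).mono_set Ioo_subset_Icc_self
  rw [← ofReal_integral_eq_lintegral_ofReal hint]
  · congr 1
    rw [← integral_Ioc_eq_integral_Ioo, ← intervalIntegral.integral_of_le h1,
      intervalIntegral.integral_mul_const, integral_pow]
    have hs' : s ≠ 0 := hs.ne'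
    have hn : (n : ℝ) + 1 ≠ 0 := by positivity
    simp only [one_div, inv_pow, ne_eq, Nat.add_eq_zero_iff, one_ne_zero, and_false,
      not_false_eq_true, zero_pow, sub_zero]
    field_simp
  · filter_upwards [ae_restrict_mem measurableSet_Ioo] with r hr
    exact mul_nonneg (pow_nonneg hr.1.le _) hd

theorem V2 (h : SC Ω u) {B : Set (EuclideanSpace ℝ (Fin n))} (hB : MeasurableSet B)
    (hBΩ : B ⊆ Ω) {v : EuclideanSpace ℝ (Fin n) × ℝ} (hpos : ∀ x ∈ B, 0 < sig u v x)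
    {S : Set (EuclideanSpace ℝ (Fin n) × ℝ)}
    (hS : ∀ x ∈ B, ∀ r : ℝ, 0 < r → r * sig u v x < 1 → (r • (-(gradE u x)), r) ∈ S) :
    ∫⁻ x in B, ENNReal.ofReal ((hessianMat u x).det / (sig u v x) ^ (n + 1)) ≤
      (n + 1) * volume S := by
  set D : Set (EuclideanSpace ℝ (Fin n) × ℝ) :=
    {p | p.1 ∈ B ∧ 0 < p.2 ∧ p.2 * sig u v p.1 < 1} with hD
  have hcont : ContinuousOn (fun p : EuclideanSpace ℝ (Fin n) × ℝ => p.2 * sig u v p.1)
      (Ω ×ˢ (univ : Set ℝ)) :=
    continuousOn_snd.mul ((continuousOn_sig h v).comp continuousOn_fst (fun p hp => hp.1))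
  have hDm : MeasurableSet D := by
    have h1 : IsOpen ((Ω ×ˢ (univ : Set ℝ)) ∩
        (fun p : EuclideanSpace ℝ (Fin n) × ℝ => p.2 * sig u v p.1) ⁻¹' Iio 1) :=
      hcont.isOpen_inter_preimage (h.isOpen.prod isOpen_univ) isOpen_Iio
    have h2 : D = (B ×ˢ Ioi (0 : ℝ)) ∩ ((Ω ×ˢ (univ : Set ℝ)) ∩
        (fun p : EuclideanSpace ℝ (Fin n) × ℝ => p.2 * sig u v p.1) ⁻¹' Iio 1) := by
      ext p
      simp only [hD, mem_ofPred_eq, mem_inter_iff, mem_prod, mem_Ioi, mem_univ, and_true,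
        mem_preimage, mem_Iio]
      constructor
      · rintro ⟨a, b, c⟩
        exact ⟨⟨a, b⟩, hBΩ a, c⟩
      · rintro ⟨⟨a, b⟩, -, c⟩
        exact ⟨a, b, c⟩
    rw [h2]
    exact (hB.prod measurableSet_Ioi).inter h1.measurableSet
  have hf' : ∀ p ∈ D, HasFDerivWithinAt (fun p : EuclideanSpace ℝ (Fin n) × ℝ =>
      ((p.2 • (-(gradE u p.1)), p.2) : EuclideanSpace ℝ (Fin n) × ℝ)) (dV2 u p) D p := by
    intro p hp
    have hx : p.1 ∈ Ω := hBΩ hp.1
    have h1 : HasFDerivAt (gradE u) (hessL u p.1) p.1 :=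
      hasFDerivAt_gradE h.isOpen (h.smooth.of_le (by norm_cast)) hx
    have h2 : HasFDerivAt (fun p : EuclideanSpace ℝ (Fin n) × ℝ => -gradE u p.1)
        (-(hessL u p.1).comp (ContinuousLinearMap.fst ℝ (EuclideanSpace ℝ (Fin n)) ℝ)) p :=
      (h1.comp p hasFDerivAt_fst).neg
    have h3 := (hasFDerivAt_snd (𝕜 := ℝ) (p := p)).smul h2
    exact (h3.prodMk (hasFDerivAt_snd (𝕜 := ℝ) (p := p))).hasFDerivWithinAt
  have hinj : InjOn (fun p : EuclideanSpace ℝ (Fin n) × ℝ =>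
      ((p.2 • (-(gradE u p.1)), p.2) : EuclideanSpace ℝ (Fin n) × ℝ)) D := by
    rintro ⟨x, r⟩ ⟨hx, hr, -⟩ ⟨y, s⟩ ⟨hy, hs, -⟩ he
    simp only at hx hr hy hs
    have h1 : r = s := congrArg (fun q : EuclideanSpace ℝ (Fin n) × ℝ => q.2) he
    subst h1
    have h2 : r • (-(gradE u x)) = r • (-(gradE u y)) :=
      congrArg (fun q : EuclideanSpace ℝ (Fin n) × ℝ => q.1) he
    have h3 : gradE u x = gradE u y := by
      have := smul_right_injective (EuclideanSpace ℝ (Fin n)) hr.ne' h2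
      simpa using this
    rw [gradE_injOn h (hBΩ hx) (hBΩ hy) h3]
  have harea := lintegral_abs_det_fderiv_eq_addHaar_image
    (volume : Measure (EuclideanSpace ℝ (Fin n) × ℝ)) hDm hf' hinj
  have himg : (fun p : EuclideanSpace ℝ (Fin n) × ℝ =>
      ((p.2 • (-(gradE u p.1)), p.2) : EuclideanSpace ℝ (Fin n) × ℝ)) '' D ⊆ S := by
    rintro _ ⟨p, hp, rfl⟩
    exact hS p.1 hp.1 p.2 hp.2.1 hp.2.2
  have hle : ∫⁻ x in B, ENNReal.ofReal ((hessianMat u x).det / (sig u v x) ^ (n + 1) / (n + 1)) ≤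
      volume S := by
    refine le_trans (le_of_eq ?_) (measure_mono himg)
    rw [← harea]
    have hF : ∫⁻ p in D, ENNReal.ofReal |(dV2 u p).det| =
        ∫⁻ p in D, ENNReal.ofReal (p.2 ^ n * (hessianMat u p.1).det) := by
      refine setLIntegral_congr_fun hDm fun p hp => ?_
      rw [det_dV2, abs_mul, abs_pow, abs_neg, abs_of_pos hp.2.1,
        abs_of_pos (h.posDef p.1 (hBΩ hp.1)).det_pos]
    have hmeas : AEMeasurable (D.indicator fun p : EuclideanSpace ℝ (Fin n) × ℝ =>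
        ENNReal.ofReal (p.2 ^ n * (hessianMat u p.1).det)) volume := by
      rw [aemeasurable_indicator_iff hDm]
      refine (ContinuousOn.aemeasurable ?_ hDm).ennreal_ofReal
      refine (continuousOn_snd.pow n).mul ?_
      exact (continuousOn_det h).comp continuousOn_fst (fun p hp => hBΩ hp.1)
    rw [hF, ← lintegral_indicator hDm, Measure.volume_eq_prod,
      lintegral_prod _ (by rw [← Measure.volume_eq_prod]; exact hmeas),
      ← lintegral_indicator hB]
    refine lintegral_congr fun x => ?_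
    by_cases hx : x ∈ B
    · rw [indicator_of_mem hx]
      have hs := hpos x hx
      rw [← lintegral_pow _ _ (h.posDef x (hBΩ hx)).det_pos.le hs, ← lintegral_indicator
        measurableSet_Ioo]
      refine lintegral_congr fun r => ?_
      by_cases hr : r ∈ Ioo 0 (1 / sig u v x)
      · have hmem : (x, r) ∈ D := ⟨hx, hr.1, (lt_div_iff₀ hs).mp hr.2⟩
        rw [indicator_of_mem hr, indicator_of_mem hmem]
      · have hmem : (x, r) ∉ D := fun hm => hr ⟨hm.2.1, (lt_div_iff₀ hs).mpr hm.2.2⟩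
        rw [indicator_of_notMem hr, indicator_of_notMem hmem]
    · rw [indicator_of_notMem hx, ← lintegral_zero (μ := (volume : Measure ℝ))]
      refine lintegral_congr fun r => ?_
      rw [indicator_of_notMem (fun hm => hx hm.1)]
  have hn0 : (0 : ℝ) < (n : ℝ) + 1 := by positivity
  have hne : ((n : ℝ≥0∞) + 1) ≠ ⊤ := by
    exact ENNReal.add_ne_top.mpr ⟨ENNReal.natCast_ne_top n, ENNReal.one_ne_top⟩
  calc ∫⁻ x in B, ENNReal.ofReal ((hessianMat u x).det / (sig u v x) ^ (n + 1))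
      = ∫⁻ x in B, ((n : ℝ≥0∞) + 1) *
          ENNReal.ofReal ((hessianMat u x).det / (sig u v x) ^ (n + 1) / (n + 1)) := by
        refine lintegral_congr fun x => ?_
        have : ((n : ℝ≥0∞) + 1) = ENNReal.ofReal ((n : ℝ) + 1) := by
          rw [ENNReal.ofReal_add (by positivity) zero_le_one, ENNReal.ofReal_natCast,
            ENNReal.ofReal_one]
        rw [this, ← ENNReal.ofReal_mul hn0.le]
        congr 1
        field_simp
    _ = ((n : ℝ≥0∞) + 1) * ∫⁻ x in B,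
          ENNReal.ofReal ((hessianMat u x).det / (sig u v x) ^ (n + 1) / (n + 1)) :=
        lintegral_const_mul' _ _ hne
    _ ≤ (n + 1) * volume S := mul_le_mul_right hle _

end Crest.Agent.R236.BVol
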