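import Mathlib
import Crest.Prelude.Def_AffineMaximal
import Crest.Agent.R236.P1
import Crest.Agent.R236.ABP
import Crest.Agent.R236.Vol

/-! Row 236, B3 consequences, part A: linear algebra of `E × ℝ`, transport of volumes, boxes.
(helper143) -/

set_option autoImplicit false
open scoped ContDiff Topology ENNReal
open Crest.GeometryTopology.CoordMetric Crest.GeometryTopology.AffineMaximal
open Set Filter MeasureTheory

noncomputable section

namespace Crest.Agent.R236.BVolC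

open BVol

/-- the model space `E × ℝ`. -/
abbrev V (n : ℕ) : Type := EuclideanSpace ℝ (Fin n) × ℝ

variable {n : ℕ}

/-- standard basis of `E × ℝ`. -/
def stdB (n : ℕ) : Module.Basis (Fin n ⊕ Unit) ℝ (V n) :=
  (EuclideanSpace.basisFun (Fin n) ℝ).toBasis.prod (Module.Basis.singleton Unit ℝ)

/-- the pairing of `E × ℝ` with itself. -/
def pr (θ v : V n) : ℝ := ∑ i, θ.1 i * v.1 i + θ.2 * v.2

lemma pr_eq (θ v : V n) :
    pr θ v = dotProduct (⇑((stdB n).repr θ)) (⇑((stdB n).repr v)) := by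
  unfold pr dotProduct
  rw [Fintype.sum_sum_type]
  simp [stdB, Module.Basis.prod_repr_inl, Module.Basis.prod_repr_inr]

/-- the transposed map. -/
def tr (F : V n →ₗ[ℝ] V n) : V n →ₗ[ℝ] V n :=
  Matrix.toLin (stdB n) (stdB n) (LinearMap.toMatrix (stdB n) (stdB n) F).transpose

lemma pr_tr (F : V n →ₗ[ℝ] V n) (θ v : V n) : pr (tr F θ) v = pr θ (F v) := by
  rw [pr_eq, pr_eq]
  unfold tr
  have h1 : ⇑((stdB n).repr (Matrix.toLin (stdB n) (stdB n)
      (LinearMap.toMatrix (stdB n) (stdB n) F).transpose θ))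
      = (LinearMap.toMatrix (stdB n) (stdB n) F).transpose.mulVec ⇑((stdB n).repr θ) := by
    rw [← LinearMap.toMatrix_mulVec_repr (stdB n) (stdB n), LinearMap.toMatrix_toLin]
  have h2 : ⇑((stdB n).repr (F v))
      = (LinearMap.toMatrix (stdB n) (stdB n) F).mulVec ⇑((stdB n).repr v) := by
    rw [LinearMap.toMatrix_mulVec_repr]
  rw [h1, h2, Matrix.dotProduct_mulVec, Matrix.mulVec_transpose]

lemma det_tr (F : V n →ₗ[ℝ] V n) : LinearMap.det (tr F) = LinearMap.det F := by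
  unfold tr
  rw [LinearMap.det_toLin, Matrix.det_transpose, LinearMap.det_toMatrix]

lemma tr_fst (F : V n →ₗ[ℝ] V n) (θ : V n) (i : Fin n) :
    (tr F θ).1 i = pr θ (F (EuclideanSpace.single i 1, 0)) := by
  rw [← pr_tr]
  unfold pr
  simp

lemma tr_snd (F : V n →ₗ[ℝ] V n) (θ : V n) :
    (tr F θ).2 = pr θ (F (0, 1)) := by
  rw [← pr_tr]
  unfold pr
  simp

/-- the covector `r (-Du(x), 1)`. -/
def cov (u : EuclideanSpace ℝ (Fin n) → ℝ) (x : EuclideanSpace ℝ (Fin n)) (r : ℝ) : V n :=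
  (r • (-(ABP.gradE u x)), r)

lemma pr_cov (u : EuclideanSpace ℝ (Fin n) → ℝ) (x : EuclideanSpace ℝ (Fin n)) (r : ℝ) (v : V n) :
    pr (cov u x r) v = r * sig u v x := by
  unfold pr cov sig
  rw [fderiv_eq_sum]
  simp only [ABP.gradE, PiLp.smul_apply, PiLp.neg_apply, smul_eq_mul]
  rw [mul_sub, Finset.mul_sum]
  rw [← sub_eq_zero]
  have : ∑ i, r * -pderiv i u x * v.1 i = - ∑ i, r * (pderiv i u x * v.1 i) := by
    rw [← Finset.sum_neg_distrib]
    refine Finset.sum_congr rfl fun i _ => ?_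
    ring
  rw [this]
  ring

/-- boxes of `E × ℝ`. -/
def box (l h : Fin n → ℝ) (l0 h0 : ℝ) : Set (V n) :=
  {a | (∀ i, a.1 i ∈ Icc (l i) (h i)) ∧ a.2 ∈ Icc l0 h0}

lemma volume_box (l h : Fin n → ℝ) (l0 h0 : ℝ) :
    volume (box l h l0 h0) = (∏ i, ENNReal.ofReal (h i - l i)) * ENNReal.ofReal (h0 - l0) := by
  have h1 : box l h l0 h0 = ({a : EuclideanSpace ℝ (Fin n) | ∀ i, a i ∈ Icc (l i) (h i)} ×ˢ
      Icc l0 h0 : Set (V n)) := by
    ext a
    simp [box]
  rw [h1, Measure.volume_eq_prod, Measure.prod_prod, Real.volume_Icc]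
  congr 1
  have h2 : {a : EuclideanSpace ℝ (Fin n) | ∀ i, a i ∈ Icc (l i) (h i)}
      = (WithLp.ofLp : EuclideanSpace ℝ (Fin n) → (Fin n → ℝ)) ⁻¹' (Icc l h) := by
    ext a
    simp [Pi.le_def, forall_and]
  rw [h2]
  rw [(PiLp.volume_preserving_ofLp (Fin n)).measure_preimage
    measurableSet_Icc.nullMeasurableSet]
  rw [Real.volume_Icc_pi]

instance instHaarV : (volume : Measure (V n)).IsAddHaarMeasure := by
  rw [Measure.volume_eq_prod]; infer_instance

end Crest.Agent.R236.BVolC
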