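import Mathlib
import Crest.Prelude.Def_AffineMaximal
import Crest.Agent.R236.P1
import Crest.Agent.R236.ABP
import Crest.Agent.R236.Vol
import Crest.Agent.R236.BVolA

/-! Row 236, B3 consequences, part B: transport of V1, V2 to model coordinates. (helper143) -/

set_option autoImplicit false
open scoped ContDiff Topology ENNReal
open Crest.GeometryTopology.CoordMetric Crest.GeometryTopology.AffineMaximal
open Set Filter MeasureTheory

noncomputable section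

namespace Crest.Agent.R236.BVolC

open BVol

variable {n : ℕ} {Ω : Set (EuclideanSpace ℝ (Fin n))} {u : EuclideanSpace ℝ (Fin n) → ℝ}

/-- (V1) in model coordinates. -/
theorem m1_transport (h : SC Ω u) {B : Set (EuclideanSpace ℝ (Fin n))} (hB : MeasurableSet B)
    (hBΩ : B ⊆ Ω) {e : V n} (hσ : ∀ x ∈ B, 0 < sig u e x) (F : V n →ₗ[ℝ] V n) (X0 : V n)
    {S : Set (V n)}
    (hS : ∀ x ∈ B, ∀ r ∈ Ioo (0:ℝ) 1, ∃ a ∈ S, ((x, u x) : V n) - r • e = X0 + F a) :
    ∫⁻ x in B, ENNReal.ofReal (sig u e x) ≤ ENNReal.ofReal |LinearMap.det F| * volume S := by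
  have h1 := V1 h hB hBΩ hσ (S := (fun z => X0 + z) '' (F '' S)) (by
    intro x hx r hr
    obtain ⟨a, ha, hxa⟩ := hS x hx r hr
    exact ⟨F a, ⟨a, ha, rfl⟩, hxa.symm⟩)
  refine h1.trans (le_of_eq ?_)
  have h2 : volume ((fun z => X0 + z) '' (F '' S)) = volume (F '' S) := by
    rw [image_add_left]
    exact measure_preimage_add volume (-X0) (F '' S)
  rw [h2, Measure.addHaar_image_linearMap]

/-- (V2) in model coordinates. -/
theorem m2_transport (h : SC Ω u) {B : Set (EuclideanSpace ℝ (Fin n))} (hB : MeasurableSet B)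
    (hBΩ : B ⊆ Ω) {e : V n} (hσ : ∀ x ∈ B, 0 < sig u e x) (F : V n →ₗ[ℝ] V n)
    (hF : LinearMap.det F ≠ 0) {S : Set (V n)}
    (hS : ∀ x ∈ B, ∀ r : ℝ, 0 < r → r * sig u e x < 1 → tr F (cov u x r) ∈ S) :
    ∫⁻ x in B, ENNReal.ofReal ((hessianMat u x).det / (sig u e x) ^ (n + 1))
      ≤ (n + 1) * (ENNReal.ofReal |LinearMap.det F|⁻¹ * volume S) := by
  have h1 := V2 h hB hBΩ hσ (S := (tr F) ⁻¹' S) (by
    intro x hx r hr hr1
    exact hS x hx r hr hr1)
  refine h1.trans (le_of_eq ?_)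
  rw [Measure.addHaar_preimage_linearMap volume (by rw [det_tr]; exact hF), det_tr, abs_inv]

/-- the box `|a_i| ≤ k_i`, `|a_0| ≤ k_0`. -/
def sbox (k : Fin n → ℝ) (k0 : ℝ) : Set (V n) := {a | (∀ i, |a.1 i| ≤ k i) ∧ |a.2| ≤ k0}

lemma volume_sbox (k : Fin n → ℝ) (hk : ∀ i, 0 ≤ k i) (k0 : ℝ) :
    volume (sbox k k0) = ENNReal.ofReal ((∏ i, (2 * k i)) * (2 * k0)) := by
  have h1 : sbox k k0 = box (fun i => - k i) k (-k0) k0 := by
    ext a
    simp [sbox, box, abs_le]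
  rw [h1, volume_box, ENNReal.ofReal_mul (Finset.prod_nonneg fun i _ => by have := hk i; positivity),
    ENNReal.ofReal_prod_of_nonneg (fun i _ => by have := hk i; positivity)]
  congr 1
  · refine Finset.prod_congr rfl fun i _ => ?_
    congr 1; ring
  · congr 1; ring

theorem m1_box (h : SC Ω u) {B : Set (EuclideanSpace ℝ (Fin n))} (hB : MeasurableSet B)
    (hBΩ : B ⊆ Ω) {e : V n} (hσ : ∀ x ∈ B, 0 < sig u e x) (F : V n →ₗ[ℝ] V n) (X0 : V n)
    {k : Fin n → ℝ} (hk : ∀ i, 0 ≤ k i) {k0 : ℝ}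
    (hS : ∀ x ∈ B, ∀ r ∈ Ioo (0:ℝ) 1, ∃ a : V n, (∀ i, |a.1 i| ≤ k i) ∧ |a.2| ≤ k0 ∧
      ((x, u x) : V n) - r • e = X0 + F a) :
    ∫⁻ x in B, ENNReal.ofReal (sig u e x)
      ≤ ENNReal.ofReal (|LinearMap.det F| * ((∏ i, (2 * k i)) * (2 * k0))) := by
  refine (m1_transport h hB hBΩ hσ F X0 (S := sbox k k0) ?_).trans (le_of_eq ?_)
  · intro x hx r hr
    obtain ⟨a, ha, ha0, hxa⟩ := hS x hx r hr
    exact ⟨a, ⟨ha, ha0⟩, hxa⟩
  · rw [volume_sbox k hk, ← ENNReal.ofReal_mul (abs_nonneg _)]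

theorem m2_box (h : SC Ω u) {B : Set (EuclideanSpace ℝ (Fin n))} (hB : MeasurableSet B)
    (hBΩ : B ⊆ Ω) {e : V n} (hσ : ∀ x ∈ B, 0 < sig u e x) (F : V n →ₗ[ℝ] V n)
    (hF : LinearMap.det F ≠ 0) {k : Fin n → ℝ} (hk : ∀ i, 0 ≤ k i) {k0 : ℝ}
    (hS : ∀ x ∈ B, ∀ i, |sig u (F (EuclideanSpace.single i 1, 0)) x| ≤ k i * sig u e x)
    (hS0 : ∀ x ∈ B, |sig u (F (0, 1)) x| ≤ k0 * sig u e x) :
    ∫⁻ x in B, ENNReal.ofReal ((hessianMat u x).det / (sig u e x) ^ (n + 1))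
      ≤ ENNReal.ofReal ((n + 1) * ((∏ i, (2 * k i)) * (2 * k0)) / |LinearMap.det F|) := by
  refine (m2_transport h hB hBΩ hσ F hF (S := sbox k k0) ?_).trans (le_of_eq ?_)
  · intro x hx r hr hr1
    have key : ∀ (K : ℝ) (w : V n), |sig u w x| ≤ K * sig u e x → |pr (cov u x r) w| ≤ K := by
      intro K w hw
      rw [pr_cov, abs_mul, abs_of_pos hr]
      have hse := hσ x hx
      have hK : 0 ≤ K := by
        by_contra hK
        push Not at hK
        have := (abs_nonneg _).trans hw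
        nlinarith
      calc r * |sig u w x| ≤ r * (K * sig u e x) := mul_le_mul_of_nonneg_left hw hr.le
        _ = K * (r * sig u e x) := by ring
        _ ≤ K * 1 := mul_le_mul_of_nonneg_left hr1.le hK
        _ = K := mul_one K
    refine ⟨fun i => ?_, ?_⟩
    · rw [tr_fst]; exact key _ _ (hS x hx i)
    · rw [tr_snd]; exact key _ _ (hS0 x hx)
  · rw [volume_sbox k hk]
    have e1 : ((n:ℝ≥0∞) + 1) = ENNReal.ofReal (n + 1) := by
      rw [ENNReal.ofReal_add (Nat.cast_nonneg n) zero_le_one]; simp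
    rw [e1, ← ENNReal.ofReal_mul (by positivity), ← ENNReal.ofReal_mul (by positivity)]
    congr 1
    field_simp

end Crest.Agent.R236.BVolC
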