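import Mathlib
import Crest.Prelude.Def_AffineMaximal
import Crest.Agent.R236.P1
import Crest.Agent.R236.ABP
import Crest.Agent.R236.Vol
import Crest.Agent.R236.BVolA
import Crest.Agent.R236.BVolB
import Crest.Agent.R236.Auer

/-! Row 236, B3 consequences, part D: polar bodies and slabs. (helper143) -/

set_option autoImplicit false
open scoped ContDiff Topology ENNReal
open Crest.GeometryTopology.CoordMetric Crest.GeometryTopology.AffineMaximal
open Set Filter MeasureTheory

noncomputable section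

namespace Crest.Agent.R236.BVolC

open BVol

variable {n : ℕ}

lemma finrank_V (n : ℕ) : Module.finrank ℝ (V n) = Fintype.card (Fin n ⊕ Unit) := by
  rw [Module.finrank_eq_card_basis (stdB n)]

/-- model map of a basis: there is a linear map `F` with `F (e_i) ∈ K` for the standard vectors
and `K ⊆ F '' (unit box)`. -/
theorem exists_model {K : Set (V n)} (hK : IsCompact K) (hs : Submodule.span ℝ K = ⊤) :
    ∃ F : V n →ₗ[ℝ] V n, LinearMap.det F ≠ 0 ∧
      (∀ i, F (EuclideanSpace.single i 1, 0) ∈ K) ∧ F (0, 1) ∈ K ∧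
      K ⊆ F '' (sbox (fun _ => 1) 1) := by
  obtain ⟨b, hb, hcoord⟩ := auerbach hK hs
  let eqv : Fin (Module.finrank ℝ (V n)) ≃ Fin n ⊕ Unit :=
    Fintype.equivOfCardEq (by rw [Fintype.card_fin, finrank_V])
  let b' : Module.Basis (Fin n ⊕ Unit) ℝ (V n) := b.reindex eqv
  let F : V n ≃ₗ[ℝ] V n := (stdB n).equiv b' (Equiv.refl _)
  have hF : ∀ i, F (stdB n i) = b' i := fun i => by
    simp [F, Module.Basis.equiv_apply]
  have hb' : ∀ i, b' i ∈ K := fun i => by
    simp only [b', Module.Basis.reindex_apply]; exact hb _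
  have e1 : ∀ i, (stdB n) (Sum.inl i) = (EuclideanSpace.single i 1, 0) := by
    intro i
    simp [stdB]
  have e2 : (stdB n) (Sum.inr ()) = (0, 1) := by
    simp [stdB]
  refine ⟨F.toLinearMap, ?_, ?_, ?_, ?_⟩
  · exact (LinearEquiv.isUnit_det' F).ne_zero
  · intro i
    have := hb' (Sum.inl i)
    rw [← hF, e1] at this
    exact this
  · have := hb' (Sum.inr ())
    rw [← hF, e2] at this
    exact this
  · intro x hx
    refine ⟨F.symm x, ?_, by simp⟩
    have key : ∀ j, |(stdB n).repr (F.symm x) j| ≤ 1 := by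
      intro j
      have h3 : (stdB n).repr (F.symm x) j = b'.repr x j := by
        have : x = F (F.symm x) := by simp
        conv_rhs => rw [this]
        simp only [F, Module.Basis.equiv]
        simp
      rw [h3]
      simp only [b', Module.Basis.repr_reindex, Finsupp.mapDomain_equiv_apply]
      exact hcoord x hx _
    constructor
    · intro i
      have := key (Sum.inl i)
      simpa [stdB] using this
    · have := key (Sum.inr ())
      simpa [stdB] using this

/-- polar volume bound. -/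
theorem polar_le {K : Set (V n)} (hK : IsCompact K) (hs : Submodule.span ℝ K = ⊤) {C : ℝ}
    (hC : 0 ≤ C) {T : Set (V n)} (hT : ∀ θ ∈ T, ∀ v ∈ K, |pr θ v| ≤ C) :
    volume T * volume K ≤ ENNReal.ofReal ((4 * C) ^ (n + 1)) := by
  obtain ⟨F, hF, hF1, hF2, hKF⟩ := exists_model hK hs
  have h1 : volume K ≤ ENNReal.ofReal |LinearMap.det F| * ENNReal.ofReal (2 ^ (n + 1)) := by
    refine (measure_mono hKF).trans (le_of_eq ?_)
    rw [Measure.addHaar_image_linearMap, volume_sbox _ (fun _ => zero_le_one)]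
    congr 2
    simp [pow_succ]
  have h2 : volume T ≤ ENNReal.ofReal |LinearMap.det F|⁻¹ * ENNReal.ofReal ((2 * C) ^ (n + 1)) := by
    have hsub : T ⊆ (tr F) ⁻¹' (sbox (fun _ => C) C) := by
      intro θ hθ
      refine ⟨fun i => ?_, ?_⟩
      · rw [tr_fst]; exact hT θ hθ _ (hF1 i)
      · rw [tr_snd]; exact hT θ hθ _ hF2
    refine (measure_mono hsub).trans (le_of_eq ?_)
    rw [Measure.addHaar_preimage_linearMap volume (by rw [det_tr]; exact hF), det_tr, abs_inv,
      volume_sbox _ (fun _ => hC)]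
    congr 2
    simp [pow_succ]
  have hd : 0 < |LinearMap.det F| := abs_pos.mpr hF
  refine (mul_le_mul' h2 h1).trans (le_of_eq ?_)
  rw [← ENNReal.ofReal_mul (by positivity), ← ENNReal.ofReal_mul (by positivity),
    ← ENNReal.ofReal_mul (by positivity)]
  congr 1
  rw [show (4 * C) = 2 * C * 2 by ring, mul_pow (2 * C) 2]
  field_simp

/-- **slab trick**: a measurable set on which a linear functional takes values in `[s, s+ε)`. -/
theorem slab_le {S T : Set (V n)} (hS : MeasurableSet S) (ξ : V n →ₗ[ℝ] ℝ) {g : V n}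
    (hg : ξ g = 1) {ε : ℝ} (hε : 0 < ε) (hε1 : ε ≤ 1) (s : ℝ)
    (hξ : ∀ a ∈ S, s ≤ ξ a ∧ ξ a < s + ε)
    (hT : ∀ a ∈ S, ∀ t ∈ Icc (0:ℝ) 1, a + t • g ∈ T) :
    volume S ≤ ENNReal.ofReal (2 * ε) * volume T := by
  set M : ℕ := ⌊1 / ε⌋₊ with hM
  have hM1 : 1 ≤ M := by
    rw [hM]
    exact Nat.le_floor (by rw [Nat.cast_one, le_div_iff₀ hε]; linarith)
  have hM2 : (M:ℝ) * ε ≤ 1 := by
    have := Nat.floor_le (show (0:ℝ) ≤ 1 / ε by positivity)
    rw [← hM] at this
    calc (M:ℝ) * ε ≤ 1 / ε * ε := mul_le_mul_of_nonneg_right this hε.le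
      _ = 1 := by field_simp
  have hM3 : 1 ≤ (M:ℝ) * (2 * ε) := by
    have h1 := Nat.lt_floor_add_one (1 / ε)
    rw [← hM] at h1
    have h2 : (1:ℝ) ≤ M := by exact_mod_cast hM1
    have h3 : 1 / ε < 2 * M := by linarith
    rw [div_lt_iff₀ hε] at h3
    linarith
  have hsub : (⋃ j ∈ Finset.range M, (fun z => ((j:ℝ) * ε) • g + z) '' S) ⊆ T := by
    intro z hz
    simp only [mem_iUnion, Finset.mem_range] at hz
    obtain ⟨j, hj, a, ha, rfl⟩ := hz
    have := hT a ha ((j:ℝ) * ε) ⟨by positivity, by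
      refine le_trans ?_ hM2
      exact mul_le_mul_of_nonneg_right (by exact_mod_cast hj.le) hε.le⟩
    simpa [add_comm] using this
  have hmeas : ∀ j ∈ Finset.range M, MeasurableSet ((fun z => ((j:ℝ) * ε) • g + z) '' S) := by
    intro j _
    rw [image_add_left]
    exact measurable_const_add _ hS
  have hval : ∀ (j : ℕ) (z : V n), z ∈ (fun z => ((j:ℝ) * ε) • g + z) '' S →
      s + (j:ℝ) * ε ≤ ξ z ∧ ξ z < s + ((j:ℝ) + 1) * ε := by
    rintro j z ⟨a, ha, rfl⟩
    have := hξ a ha
    simp only [map_add, map_smul, hg, smul_eq_mul, mul_one]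
    constructor
    · linarith
    · linarith
  have hdisj : (↑(Finset.range M) : Set ℕ).PairwiseDisjoint
      (fun j => (fun z => ((j:ℝ) * ε) • g + z) '' S) := by
    intro i _ j _ hij
    rw [Function.onFun, Set.disjoint_left]
    intro z hz1 hz2
    obtain ⟨a1, a2⟩ := hval i z hz1
    obtain ⟨b1, b2⟩ := hval j z hz2
    rcases lt_or_gt_of_ne hij with h | h
    · have : (i:ℝ) + 1 ≤ j := by exact_mod_cast h
      have := mul_le_mul_of_nonneg_right this hε.le
      linarith
    · have : (j:ℝ) + 1 ≤ i := by exact_mod_cast h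
      have := mul_le_mul_of_nonneg_right this hε.le
      linarith
  have hsum : (M:ℝ≥0∞) * volume S ≤ volume T := by
    refine le_trans (le_of_eq ?_) (measure_mono hsub)
    rw [measure_biUnion_finset hdisj hmeas]
    have : ∀ j ∈ Finset.range M, volume ((fun z => ((j:ℝ) * ε) • g + z) '' S) = volume S := by
      intro j _
      rw [image_add_left]
      exact measure_preimage_add volume _ S
    rw [Finset.sum_congr rfl this]
    simp
  calc volume S = 1 * volume S := (one_mul _).symm
    _ ≤ (ENNReal.ofReal (2 * ε) * M) * volume S := by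
        refine mul_le_mul' ?_ le_rfl
        rw [show (M:ℝ≥0∞) = ENNReal.ofReal M by simp, ← ENNReal.ofReal_mul (by positivity),
          ← ENNReal.ofReal_one]
        apply ENNReal.ofReal_le_ofReal
        linarith
    _ = ENNReal.ofReal (2 * ε) * (M * volume S) := by ring
    _ ≤ ENNReal.ofReal (2 * ε) * volume T := mul_le_mul' le_rfl hsum

end Crest.Agent.R236.BVolC
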