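import Mathlib
import Crest.Prelude.Def_AffineMaximal
import Crest.Agent.R236.P1
import Crest.Agent.R236.ABP
import Crest.Agent.R236.Vol
import Crest.Agent.R236.BVolA
import Crest.Agent.R236.BVolB
import Crest.Agent.R236.BVolD

/-! Row 236, B3 consequences, part E: the four volume bounds for a seminorm. (helper143) -/

set_option autoImplicit false
open scoped ContDiff Topology ENNReal Pointwise
open Crest.GeometryTopology.CoordMetric Crest.GeometryTopology.AffineMaximal
open Set Filter MeasureTheory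

noncomputable section

namespace Crest.Agent.R236.BVolC

open BVol

variable {n : ℕ}

section seminorm

variable (p : Seminorm ℝ (V n))

lemma seminorm_continuous : Continuous p := by
  have h := p.convexOn
  have h2 := h.continuousOn_interior
  rw [interior_univ] at h2
  exact continuousOn_univ.mp h2

lemma exists_lower (hp : ∀ v, p v = 0 → v = 0) : ∃ m : ℝ, 0 < m ∧ ∀ v, m * ‖v‖ ≤ p v := by
  have hc := seminorm_continuous p
  obtain ⟨m, hm, hm'⟩ : ∃ m : ℝ, 0 < m ∧ ∀ v ∈ Metric.sphere (0 : V n) 1, m ≤ p v := by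
    rcases (Metric.sphere (0 : V n) 1).eq_empty_or_nonempty with he | hne
    · exact ⟨1, one_pos, by simp [he]⟩
    · obtain ⟨z, hz, hz'⟩ := (isCompact_sphere (0 : V n) 1).exists_isMinOn hne hc.continuousOn
      refine ⟨p z, ?_, fun x hx => hz' hx⟩
      refine lt_of_le_of_ne (apply_nonneg p z) fun h0 => ?_
      have := hp z h0.symm
      rw [this] at hz
      simp at hz
  refine ⟨m, hm, fun v => ?_⟩
  rcases eq_or_ne v 0 with rfl | hv
  · simp
  · have hn : 0 < ‖v‖ := norm_pos_iff.mpr hv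
    have h1 := hm' (‖v‖⁻¹ • v) (by
      rw [mem_sphere_zero_iff_norm, norm_smul, norm_inv, norm_norm, inv_mul_cancel₀ hn.ne'])
    rw [map_smul_eq_mul, norm_inv, norm_norm, inv_mul_eq_div, le_div_iff₀ hn] at h1
    exact h1

/-- the ball of the seminorm -/
def ball (r : ℝ) : Set (V n) := {v | p v ≤ r}

lemma isClosed_ball (r : ℝ) : IsClosed (ball p r) :=
  isClosed_le (seminorm_continuous p) continuous_const

lemma isCompact_ball (hp : ∀ v, p v = 0 → v = 0) (r : ℝ) : IsCompact (ball p r) := by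
  obtain ⟨m, hm, hm'⟩ := exists_lower p hp
  refine Metric.isCompact_of_isClosed_isBounded (isClosed_ball p r) ?_
  refine (Metric.isBounded_closedBall (x := 0) (r := r / m)).subset fun v hv => ?_
  rw [mem_closedBall_zero_iff, le_div_iff₀ hm, mul_comm]
  exact (hm' v).trans hv

lemma ball_mem_nhds : ball p 1 ∈ 𝓝 (0 : V n) := by
  have h := (seminorm_continuous p).tendsto 0
  rw [map_zero] at h
  exact h (Iic_mem_nhds one_pos)

lemma volume_ball_pos : 0 < volume (ball p 1) :=
  Measure.measure_pos_of_mem_nhds volume (ball_mem_nhds p)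

lemma volume_ball_lt_top (hp : ∀ v, p v = 0 → v = 0) : volume (ball p 1) < ⊤ :=
  (isCompact_ball p hp 1).measure_lt_top

lemma span_ball : Submodule.span ℝ (ball p 1) = ⊤ := by
  rw [eq_top_iff]
  intro v _
  have hne : (p v + 1) ≠ 0 := by have := apply_nonneg p v; positivity
  have h1 : (p v + 1)⁻¹ • v ∈ ball p 1 := by
    have h0 := apply_nonneg p v
    have h2 : (0:ℝ) < p v + 1 := by positivity
    change p _ ≤ 1
    rw [map_smul_eq_mul, norm_inv, Real.norm_eq_abs, abs_of_pos h2, inv_mul_eq_div,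
      div_le_one h2]
    linarith
  have h2 : v = (p v + 1) • ((p v + 1)⁻¹ • v) := by rw [smul_smul, mul_inv_cancel₀ hne, one_smul]
  rw [h2]
  exact Submodule.smul_mem _ _ (Submodule.subset_span h1)

lemma finrank_V' : Module.finrank ℝ (V n) = n + 1 := by
  rw [finrank_V]; simp

lemma volume_ball {r : ℝ} (hr : 0 < r) :
    volume (ball p r) = ENNReal.ofReal (r ^ (n + 1)) * volume (ball p 1) := by
  have h1 : ball p r = r • ball p 1 := by
    ext v
    rw [mem_smul_set_iff_inv_smul_mem₀ hr.ne']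
    change p v ≤ r ↔ p (r⁻¹ • v) ≤ 1
    rw [map_smul_eq_mul, norm_inv, Real.norm_eq_abs, abs_of_pos hr, inv_mul_eq_div,
      div_le_one hr]
  rw [h1, Measure.addHaar_smul, finrank_V', abs_of_pos (by positivity)]

end seminorm

/-- the number `κ v_s` -/
def kap (p : Seminorm ℝ (V n)) : ℝ := (volume (ball p 1)).toReal

lemma kap_pos (p : Seminorm ℝ (V n)) (hp : ∀ v, p v = 0 → v = 0) : 0 < kap p :=
  ENNReal.toReal_pos (volume_ball_pos p).ne' (volume_ball_lt_top p hp).ne

lemma ofReal_kap (p : Seminorm ℝ (V n)) (hp : ∀ v, p v = 0 → v = 0) :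
    ENNReal.ofReal (kap p) = volume (ball p 1) :=
  ENNReal.ofReal_toReal (volume_ball_lt_top p hp).ne

lemma volume_ball' (p : Seminorm ℝ (V n)) (hp : ∀ v, p v = 0 → v = 0) {r : ℝ} (hr : 0 < r) :
    volume (ball p r) = ENNReal.ofReal (r ^ (n + 1) * kap p) := by
  rw [volume_ball p hr, ENNReal.ofReal_mul (by positivity), ofReal_kap p hp]

variable {Ω : Set (EuclideanSpace ℝ (Fin n))} {u : EuclideanSpace ℝ (Fin n) → ℝ}

/-- **m1**. -/
theorem m1_le (h : SC Ω u) {B : Set (EuclideanSpace ℝ (Fin n))} (hB : MeasurableSet B)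
    (hBΩ : B ⊆ Ω) {e : V n} (hσ : ∀ x ∈ B, 0 < sig u e x) (p : Seminorm ℝ (V n))
    (hp : ∀ v, p v = 0 → v = 0) {O : V n} {K C : ℝ} (hK : 0 < K) (hC : 0 ≤ C) (he : p e ≤ C)
    (hX : ∀ x ∈ B, p ((x, u x) - O) ≤ K) :
    ∫⁻ x in B, ENNReal.ofReal (sig u e x) ≤ ENNReal.ofReal ((K + C) ^ (n + 1) * kap p) := by
  have h1 := V1 h hB hBΩ hσ (S := (fun z => O + z) '' (ball p (K + C))) (by
    intro x hx r hr
    refine ⟨((x, u x) : V n) - r • e - O, ?_, by simp⟩
    change p _ ≤ K + C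
    have e1 : ((x, u x) : V n) - r • e - O = ((x, u x) - O) + (-r) • e := by module
    rw [e1]
    refine (map_add_le_add p _ _).trans (add_le_add (hX x hx) ?_)
    rw [map_smul_eq_mul, norm_neg, Real.norm_eq_abs, abs_of_pos hr.1]
    calc r * p e ≤ 1 * C := mul_le_mul hr.2.le he (apply_nonneg p e) zero_le_one
      _ = C := one_mul C)
  refine h1.trans (le_of_eq ?_)
  have h2 : volume ((fun z => O + z) '' (ball p (K + C))) = volume (ball p (K + C)) := by
    rw [image_add_left]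
    exact measure_preimage_add volume (-O) _
  rw [h2, volume_ball' p hp (by positivity)]

/-- **ε-slab of m1**: the linear functional `ξ` kills `e`, and along `B` the value
`ξ (X - O)` lies in `[s, s + ε)`. -/
theorem m1_slab (h : SC Ω u) {B : Set (EuclideanSpace ℝ (Fin n))} (hB : MeasurableSet B)
    (hBΩ : B ⊆ Ω) {e : V n} (hσ : ∀ x ∈ B, 0 < sig u e x) (p : Seminorm ℝ (V n))
    (hp : ∀ v, p v = 0 → v = 0) {O : V n} {K C : ℝ} (hK : 0 < K) (hC : 0 ≤ C) (he : p e ≤ C)
    (hX : ∀ x ∈ B, p ((x, u x) - O) ≤ K) (ξ : V n →L[ℝ] ℝ) (hξe : ξ e = 0) {g : V n}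
    (hg : ξ g = 1) (hgC : p g ≤ C) {ε s : ℝ} (hε : 0 < ε)
    (hs : ∀ x ∈ B, s ≤ ξ ((x, u x) - O) ∧ ξ ((x, u x) - O) < s + ε) :
    ∫⁻ x in B, ENNReal.ofReal (sig u e x)
      ≤ ENNReal.ofReal (2 * ε * (K + 2 * C) ^ (n + 1) * kap p) := by
  have hk := kap_pos p hp
  rcases le_or_gt ε 1 with hε1 | hε1
  · set S : Set (V n) := ball p (K + C) ∩ {a | s ≤ ξ a ∧ ξ a < s + ε} with hSdef
    have hSmeas : MeasurableSet S := by
      refine (isClosed_ball p _).measurableSet.inter ?_
      have h1 : {a : V n | s ≤ ξ a ∧ ξ a < s + ε} = ξ ⁻¹' (Ico s (s + ε)) := rfl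
      rw [h1]
      exact ξ.continuous.measurable measurableSet_Ico
    have h1 := V1 h hB hBΩ hσ (S := (fun z => O + z) '' S) (by
      intro x hx r hr
      refine ⟨((x, u x) : V n) - r • e - O, ⟨?_, ?_⟩, by simp⟩
      · change p _ ≤ K + C
        have e1 : ((x, u x) : V n) - r • e - O = ((x, u x) - O) + (-r) • e := by module
        rw [e1]
        refine (map_add_le_add p _ _).trans (add_le_add (hX x hx) ?_)
        rw [map_smul_eq_mul, norm_neg, Real.norm_eq_abs, abs_of_pos hr.1]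
        calc r * p e ≤ 1 * C := mul_le_mul hr.2.le he (apply_nonneg p e) zero_le_one
          _ = C := one_mul C
      · have e1 : ξ (((x, u x) : V n) - r • e - O) = ξ ((x, u x) - O) := by
          have e2 : ((x, u x) : V n) - r • e - O = ((x, u x) - O) - r • e := by module
          rw [e2, map_sub, map_smul, hξe, smul_zero, sub_zero]
        change s ≤ ξ _ ∧ ξ _ < s + ε
        rw [e1]
        exact hs x hx)
    refine h1.trans ?_
    have h2 : volume ((fun z => O + z) '' S) = volume S := by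
      rw [image_add_left]
      exact measure_preimage_add volume (-O) _
    rw [h2]
    refine (slab_le (T := ball p (K + 2 * C)) hSmeas ξ.toLinearMap (g := g) hg hε hε1 s
      (fun a ha => ha.2) ?_).trans (le_of_eq ?_)
    · intro a ha t ht
      change p _ ≤ _
      refine (map_add_le_add p _ _).trans ?_
      rw [map_smul_eq_mul, Real.norm_eq_abs, abs_of_nonneg ht.1]
      have h3 : p a ≤ K + C := ha.1
      have h4 : t * p g ≤ 1 * C := mul_le_mul ht.2 hgC (apply_nonneg p g) zero_le_one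
      linarith
    · rw [volume_ball' p hp (by positivity), ← ENNReal.ofReal_mul (by positivity)]
      congr 1
      ring
  · refine (m1_le h hB hBΩ hσ p hp hK hC he hX).trans (ENNReal.ofReal_le_ofReal ?_)
    refine mul_le_mul_of_nonneg_right ?_ hk.le
    calc (K + C) ^ (n + 1) ≤ (K + 2 * C) ^ (n + 1) := by gcongr; linarith
      _ ≤ 2 * ε * (K + 2 * C) ^ (n + 1) := by
        have : (0:ℝ) ≤ (K + 2 * C) ^ (n + 1) := by positivity
        nlinarith

/-- polar volume in terms of `kap` -/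
theorem polar_le' (p : Seminorm ℝ (V n)) (hp : ∀ v, p v = 0 → v = 0) {C : ℝ} (hC : 0 ≤ C)
    {T : Set (V n)} (hT : ∀ θ ∈ T, ∀ v, p v ≤ 1 → |pr θ v| ≤ C) :
    volume T ≤ ENNReal.ofReal ((4 * C) ^ (n + 1) / kap p) := by
  have h1 := polar_le (isCompact_ball p hp 1) (span_ball p) hC (T := T) (fun θ hθ v hv => hT θ hθ v hv)
  have hk := kap_pos p hp
  rw [← ofReal_kap p hp] at h1
  rw [ENNReal.ofReal_div_of_pos hk]
  rw [ENNReal.le_div_iff_mul_le (Or.inl (by simpa using hk)) (Or.inl ENNReal.ofReal_ne_top)]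
  exact h1

lemma pr_cov_le {e : V n} {x : EuclideanSpace ℝ (Fin n)} (hσ : 0 < sig u e x)
    (p : Seminorm ℝ (V n)) {C : ℝ} (hv : ∀ v, |sig u v x| ≤ C * p v * sig u e x) {r : ℝ}
    (hr : 0 < r) (hr1 : r * sig u e x < 1) (v : V n) (hC : 0 ≤ C) :
    |pr (cov u x r) v| ≤ C * p v := by
  rw [pr_cov, abs_mul, abs_of_pos hr]
  have h0 : 0 ≤ C * p v := mul_nonneg hC (apply_nonneg p v)
  calc r * |sig u v x| ≤ r * (C * p v * sig u e x) := mul_le_mul_of_nonneg_left (hv v) hr.le
    _ = (C * p v) * (r * sig u e x) := by ring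
    _ ≤ (C * p v) * 1 := mul_le_mul_of_nonneg_left hr1.le h0
    _ = C * p v := mul_one _

/-- **m2**. -/
theorem m2_le (h : SC Ω u) {B : Set (EuclideanSpace ℝ (Fin n))} (hB : MeasurableSet B)
    (hBΩ : B ⊆ Ω) {e : V n} (hσ : ∀ x ∈ B, 0 < sig u e x) (p : Seminorm ℝ (V n))
    (hp : ∀ v, p v = 0 → v = 0) {C : ℝ} (hC : 0 ≤ C)
    (hv : ∀ x ∈ B, ∀ v, |sig u v x| ≤ C * p v * sig u e x) :
    ∫⁻ x in B, ENNReal.ofReal ((hessianMat u x).det / (sig u e x) ^ (n + 1))
      ≤ ENNReal.ofReal ((n + 1) * (4 * C) ^ (n + 1) / kap p) := by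
  have h1 := V2 h hB hBΩ hσ (S := {θ : V n | ∀ v, |pr θ v| ≤ C * p v}) (by
    intro x hx r hr hr1 v
    exact pr_cov_le (hσ x hx) p (hv x hx) hr hr1 v hC)
  refine h1.trans ?_
  have h2 : volume {θ : V n | ∀ v, |pr θ v| ≤ C * p v}
      ≤ ENNReal.ofReal ((4 * C) ^ (n + 1) / kap p) := by
    refine polar_le' p hp hC fun θ hθ v hv1 => (hθ v).trans ?_
    calc C * p v ≤ C * 1 := mul_le_mul_of_nonneg_left hv1 hC
      _ = C := mul_one C
  refine (mul_le_mul' le_rfl h2).trans (le_of_eq ?_)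
  have e1 : ((n:ℝ≥0∞) + 1) = ENNReal.ofReal (n + 1) := by
    rw [ENNReal.ofReal_add (Nat.cast_nonneg n) zero_le_one]; simp
  rw [e1, ← ENNReal.ofReal_mul (by positivity)]
  congr 1
  ring

lemma continuous_pr (v : V n) : Continuous fun θ : V n => pr θ v := by
  unfold pr
  fun_prop

/-- the pairing as a linear functional of the covector -/
def prL (v : V n) : V n →ₗ[ℝ] ℝ where
  toFun θ := pr θ v
  map_add' a b := by
    simp only [pr, Prod.fst_add, Prod.snd_add, PiLp.add_apply, add_mul, Finset.sum_add_distrib]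
    ring
  map_smul' c a := by
    simp only [pr, Prod.smul_fst, Prod.smul_snd, PiLp.smul_apply, smul_eq_mul, RingHom.id_apply,
      mul_add, Finset.mul_sum]
    congr 1
    · refine Finset.sum_congr rfl fun i _ => by ring
    · ring

/-- the covector of a linear functional -/
def covL (ξ : V n →L[ℝ] ℝ) : V n :=
  (WithLp.toLp 2 fun i => ξ (EuclideanSpace.single i 1, 0), ξ (0, 1))

lemma pr_covL (ξ : V n →L[ℝ] ℝ) (v : V n) : pr (covL ξ) v = ξ v := by
  have hv : v = (∑ i, v.1 i • ((EuclideanSpace.single i (1:ℝ), 0) : V n)) + v.2 • ((0, 1) : V n) := by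
    refine Prod.ext ?_ ?_
    · simp only [Prod.fst_add, Prod.fst_sum, Prod.smul_fst, smul_zero, add_zero]
      exact (sum_single v.1).symm
    · simp [Prod.snd_sum]
  conv_rhs => rw [hv]
  rw [map_add, map_sum, map_smul]
  simp only [map_smul, smul_eq_mul]
  unfold pr covL
  simp only
  congr 1
  · refine Finset.sum_congr rfl fun i _ => by ring
  · ring

/-- **δ-slab of m2**. -/
theorem m2_slab (h : SC Ω u) {B : Set (EuclideanSpace ℝ (Fin n))} (hB : MeasurableSet B)
    (hBΩ : B ⊆ Ω) {e f : V n} (hσ : ∀ x ∈ B, 0 < sig u e x) (p : Seminorm ℝ (V n))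
    (hp : ∀ v, p v = 0 → v = 0) {C : ℝ} (hC : 0 ≤ C)
    (hv : ∀ x ∈ B, ∀ v, |sig u v x| ≤ C * p v * sig u e x) (ξ : V n →L[ℝ] ℝ) (hξf : ξ f = 1)
    (hξ : ∀ v, |ξ v| ≤ C * p v) {δ : ℝ} (hδ : 0 < δ)
    (hf0 : ∀ x ∈ B, 0 < sig u f x) (hf : ∀ x ∈ B, sig u f x < δ * sig u e x) :
    ∫⁻ x in B, ENNReal.ofReal ((hessianMat u x).det / (sig u e x) ^ (n + 1))
      ≤ ENNReal.ofReal (2 * (n + 1) * (8 * C) ^ (n + 1) * δ / kap p) := by
  have hk := kap_pos p hp
  rcases le_or_gt δ 1 with hδ1 | hδ1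
  · set S : Set (V n) := {θ : V n | ∀ v, |pr θ v| ≤ C * p v} ∩ {θ | 0 ≤ pr θ f ∧ pr θ f < δ}
      with hSdef
    have hSmeas : MeasurableSet S := by
      refine MeasurableSet.inter ?_ ?_
      · have h1 : {θ : V n | ∀ v, |pr θ v| ≤ C * p v} = ⋂ v, {θ : V n | |pr θ v| ≤ C * p v} := by
          ext θ; simp
        rw [h1]
        exact (isClosed_iInter fun v => isClosed_le (continuous_pr v).abs continuous_const).measurableSet
      · have h1 : {θ : V n | 0 ≤ pr θ f ∧ pr θ f < δ} = (fun θ => pr θ f) ⁻¹' (Ico 0 δ) := rfl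
        rw [h1]
        exact (continuous_pr f).measurable measurableSet_Ico
    have h1 := V2 h hB hBΩ hσ (S := S) (by
      intro x hx r hr hr1
      refine ⟨fun v => pr_cov_le (hσ x hx) p (hv x hx) hr hr1 v hC, ?_⟩
      change 0 ≤ pr (cov u x r) f ∧ pr (cov u x r) f < δ
      rw [pr_cov]
      refine ⟨mul_nonneg hr.le (hf0 x hx).le, ?_⟩
      calc r * sig u f x < r * (δ * sig u e x) := mul_lt_mul_of_pos_left (hf x hx) hr
        _ = δ * (r * sig u e x) := by ring
        _ ≤ δ * 1 := mul_le_mul_of_nonneg_left hr1.le hδ.le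
        _ = δ := mul_one δ)
    refine h1.trans ?_
    have h2 : volume S ≤ ENNReal.ofReal (2 * δ) *
        volume {θ : V n | ∀ v, p v ≤ 1 → |pr θ v| ≤ 2 * C} := by
      refine slab_le hSmeas (prL f) (g := covL ξ) ?_ hδ hδ1 0 ?_ ?_
      · change pr (covL ξ) f = 1
        rw [pr_covL, hξf]
      · intro θ hθ
        change 0 ≤ pr θ f ∧ pr θ f < 0 + δ
        rw [zero_add]
        exact hθ.2
      · intro θ hθ t ht v hv1
        have e1 : pr (θ + t • covL ξ) v = pr θ v + t * ξ v := by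
          have := (prL v).map_add θ (t • covL ξ)
          rw [(prL v).map_smul] at this
          change pr (θ + t • covL ξ) v = pr θ v + t * pr (covL ξ) v at this
          rw [this, pr_covL]
        rw [e1]
        have h3 := hθ.1 v
        have h4 := hξ v
        have h5 : C * p v ≤ C := by
          calc C * p v ≤ C * 1 := mul_le_mul_of_nonneg_left hv1 hC
            _ = C := mul_one C
        calc |pr θ v + t * ξ v| ≤ |pr θ v| + |t * ξ v| := abs_add_le _ _
          _ ≤ C + 1 * C := by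
            rw [abs_mul, abs_of_nonneg ht.1]
            exact add_le_add (h3.trans h5)
              (mul_le_mul ht.2 (h4.trans h5) (abs_nonneg _) zero_le_one)
          _ = 2 * C := by ring
    have h3 : volume {θ : V n | ∀ v, p v ≤ 1 → |pr θ v| ≤ 2 * C}
        ≤ ENNReal.ofReal ((4 * (2 * C)) ^ (n + 1) / kap p) :=
      polar_le' p hp (by positivity) fun θ hθ v hv1 => hθ v hv1
    refine (mul_le_mul' le_rfl (h2.trans (mul_le_mul' le_rfl h3))).trans (le_of_eq ?_)
    have e1 : ((n:ℝ≥0∞) + 1) = ENNReal.ofReal (n + 1) := by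
      rw [ENNReal.ofReal_add (Nat.cast_nonneg n) zero_le_one]; simp
    rw [e1, ← ENNReal.ofReal_mul (by positivity), ← ENNReal.ofReal_mul (by positivity)]
    congr 1
    ring
  · refine (m2_le h hB hBΩ hσ p hp hC hv).trans (ENNReal.ofReal_le_ofReal ?_)
    rw [div_le_div_iff_of_pos_right hk]
    have h1 : (4 * C) ^ (n + 1) ≤ (8 * C) ^ (n + 1) := by gcongr; linarith
    have h2 : (0:ℝ) ≤ (8 * C) ^ (n + 1) := by positivity
    have h3 : (0:ℝ) ≤ (n:ℝ) + 1 := by positivity
    calc ((n:ℝ) + 1) * (4 * C) ^ (n + 1) ≤ (n + 1) * (8 * C) ^ (n + 1) :=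
          mul_le_mul_of_nonneg_left h1 h3
      _ ≤ 2 * (n + 1) * (8 * C) ^ (n + 1) * δ := by nlinarith [mul_nonneg h3 h2]

end Crest.Agent.R236.BVolC
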