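import Mathlib
import Crest.Prelude.Def_AffineMaximal
import Crest.Agent.R236.P1
import Crest.Agent.R236.ABP
import Crest.Agent.R236.Vol
import Crest.Agent.R236.BVolA
import Crest.Agent.R236.BVolB
import Crest.Agent.R236.BVolD
import Crest.Agent.R236.BVolE
import Crest.Agent.R236.BApxDefs

/-! Row 236, B3 consequences, part F: the bounds (M1), (M1P), (M1W), (M2), (M2P), (M2W) for an
approximant `APX`. (helper143) -/

set_option autoImplicit false
open scoped ContDiff Topology ENNReal Pointwise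
open Crest.GeometryTopology.CoordMetric Crest.GeometryTopology.AffineMaximal
open Set Filter MeasureTheory

noncomputable section

namespace Crest.Agent.R236.BVolC

open BVol Crest.Agent.R236.B
open Crest.Agent.R236.A (EE epi SOL STRUCT IsStruct ConeData Appr)

variable {n : ℕ} {Θ K c2 C0 : ℝ} {N : ℕ} {ε0 : ℝ} {Ω : Set (EE n)} {u : EE n → ℝ}
  {P0 W0 : VV n →L[ℝ] ℝ} {pc wc : ℝ} {eP eW O : VV n} {es Q : ℝ → ℝ → VV n}
  {nrm : ℝ → ℝ → Seminorm ℝ (VV n)}

/-- the region `D_s = {x ∈ Ω | P/lam + W/tau ≤ Θ}` -/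
def DD (Ω : Set (EE n)) (u : EE n → ℝ) (P0 W0 : VV n →L[ℝ] ℝ) (pc wc Θ lam tau : ℝ) : Set (EE n) :=
  {x | x ∈ Ω ∧ aff P0 pc (x, u x) / lam + aff W0 wc (x, u x) / tau ≤ Θ}

lemma grid_pos {N : ℕ} {lam tau : ℝ} (hg : Grid N lam tau) : 0 < lam ∧ 0 < tau := by
  obtain ⟨a, b, _, _, rfl, rfl⟩ := hg
  constructor <;> positivity

lemma continuousOn_aff (h : SC Ω u) (F : VV n →L[ℝ] ℝ) (c : ℝ) :
    ContinuousOn (fun x : EE n => aff F c (x, u x)) Ω := by
  unfold aff
  exact (F.continuous.comp_continuousOn (continuousOn_id.prodMk h.continuousOn)).add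
    continuousOn_const

lemma measurableSet_of_continuousOn {Ω : Set (EE n)} (hΩ : IsOpen Ω) {f : EE n → ℝ}
    (hf : ContinuousOn f Ω) {s : Set ℝ} (hs : MeasurableSet s) :
    MeasurableSet {x | x ∈ Ω ∧ f x ∈ s} := by
  have h1 : Measurable (Ω.domRestrict f) := (continuousOn_iff_continuous_domRestrict.mp hf).measurable
  have h2 := hΩ.measurableSet.subtype_image (h1 hs)
  convert h2 using 1
  ext x
  simp only [mem_ofPred_eq, mem_image, mem_preimage, Set.domRestrict_apply, Subtype.exists,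
    exists_and_right, exists_eq_right]
  constructor
  · rintro ⟨a, b⟩; exact ⟨a, b⟩
  · rintro ⟨a, b⟩; exact ⟨a, b⟩

lemma measurableSet_DD (h : SC Ω u) (lam tau : ℝ) :
    MeasurableSet (DD Ω u P0 W0 pc wc Θ lam tau) := by
  have hf : ContinuousOn (fun x : EE n => aff P0 pc (x, u x) / lam + aff W0 wc (x, u x) / tau) Ω :=
    ((continuousOn_aff h P0 pc).div_const _).add ((continuousOn_aff h W0 wc).div_const _)
  exact measurableSet_of_continuousOn h.isOpen hf (s := Iic Θ) measurableSet_Iic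

/-- graph points over `D_s` are bounded -/
lemma graph_bdd (h : APX n Θ K c2 C0 N ε0 Ω u P0 W0 pc wc eP eW O es Q nrm) {lam tau : ℝ}
    (hg : Grid N lam tau) {x : EE n} (hx : x ∈ DD Ω u P0 W0 pc wc Θ lam tau) :
    nrm lam tau ((x, u x) - O) ≤ K ∧ -(ε0 * lam) ≤ aff P0 pc (x, u x) ∧
      -(ε0 * tau) ≤ aff W0 wc (x, u x) :=
  h.bdd lam tau hg 1 1 le_rfl one_le_two le_rfl one_le_two (x, u x) ⟨hx.1, le_rfl⟩
    (by simpa using hx.2)

/-- **M1**. -/
theorem M1 (h : APX n Θ K c2 C0 N ε0 Ω u P0 W0 pc wc eP eW O es Q nrm) {lam tau : ℝ}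
    (hg : Grid N lam tau) :
    ∫⁻ x in DD Ω u P0 W0 pc wc Θ lam tau, ENNReal.ofReal (sg u (es lam tau) x)
      ≤ ENNReal.ofReal ((K + C0) ^ (n + 1) * kap (nrm lam tau)) :=
  m1_le h.sol.sc (measurableSet_DD h.sol.sc lam tau) (fun _ hx => hx.1)
    (fun x hx => h.sg_es lam tau hg x hx.1 hx.2) (nrm lam tau) (h.definite lam tau hg)
    h.K_pos (zero_le_one.trans h.C0_ge) (h.es_le lam tau hg) (fun x hx => (graph_bdd h hg hx).1)

lemma sig_smul (u : EE n → ℝ) (c : ℝ) (v : VV n) (x : EE n) :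
    sig u (c • v) x = c * sig u v x := by
  unfold sig
  simp only [Prod.smul_snd, Prod.smul_fst, map_smul, smul_eq_mul]
  ring

/-- **M1P**: the slab `{P/lam < ε}`, `ε0 ≤ ε`. -/
theorem M1P (h : APX n Θ K c2 C0 N ε0 Ω u P0 W0 pc wc eP eW O es Q nrm) {lam tau : ℝ}
    (hg : Grid N lam tau) {ε : ℝ} (hε : 0 < ε) (hε0 : ε0 ≤ ε) :
    ∫⁻ x in DD Ω u P0 W0 pc wc Θ lam tau ∩ {x | aff P0 pc (x, u x) / lam < ε},
        ENNReal.ofReal (tau * sg u eW x)
      ≤ ENNReal.ofReal (4 * (K + 2 * C0) ^ (n + 1) * ε * kap (nrm lam tau)) := by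
  obtain ⟨hlam, htau⟩ := grid_pos hg
  have hB : MeasurableSet (DD Ω u P0 W0 pc wc Θ lam tau ∩ {x | aff P0 pc (x, u x) / lam < ε}) := by
    have h1 := (measurableSet_DD (P0 := P0) (W0 := W0) (pc := pc) (wc := wc) (Θ := Θ)
      h.sol.sc lam tau).inter
      (measurableSet_of_continuousOn h.sol.sc.isOpen ((continuousOn_aff h.sol.sc P0 pc).div_const lam)
        (s := Iio ε) measurableSet_Iio)
    convert h1 using 1
    ext x
    constructor
    · rintro ⟨a, b⟩; exact ⟨a, a.1, b⟩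
    · rintro ⟨a, b⟩; exact ⟨a, b.2⟩
  have hC0 : (0:ℝ) ≤ C0 := zero_le_one.trans h.C0_ge
  have hpos : ∀ x ∈ DD Ω u P0 W0 pc wc Θ lam tau ∩ {x | aff P0 pc (x, u x) / lam < ε},
      0 < sig u (tau • eW) x := by
    intro x hx
    rw [sig_smul]
    exact mul_pos htau (h.sg_eW lam tau hg x hx.1.1 hx.1.2)
  have key := m1_slab h.sol.sc hB (fun x hx => hx.1.1) hpos (nrm lam tau) (h.definite lam tau hg)
    (O := O) h.K_pos hC0 (h.eW_le lam tau hg) (fun x hx => (graph_bdd h hg hx.1).1)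
    (lam⁻¹ • P0) (by simp [h.PW]) (g := lam • eP)
    (by simp [h.PP, hlam.ne']) (h.eP_le lam tau hg) (ε := 2 * ε)
    (s := -ε - (P0 O + pc) / lam) (by positivity) (by
      intro x hx
      have h1 := (graph_bdd h hg hx.1).2.1
      have h2 : aff P0 pc (x, u x) / lam < ε := hx.2
      have e1 : (lam⁻¹ • P0) (((x, u x) : VV n) - O) = aff P0 pc (x, u x) / lam - (P0 O + pc) / lam := by
        simp only [smul_apply, map_sub, smul_eq_mul, aff]
        field_simp
        ring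
      rw [e1]
      have h3 : -ε ≤ aff P0 pc (x, u x) / lam := by
        rw [le_div_iff₀ hlam]
        nlinarith
      constructor <;> linarith)
  have e2 : (fun x => ENNReal.ofReal (tau * sg u eW x)) = fun x => ENNReal.ofReal (sig u (tau • eW) x) := by
    funext x
    rw [sig_smul]; rfl
  rw [e2]
  refine key.trans (le_of_eq ?_)
  congr 1
  ring

/-- **M1W**: the slab `{W/tau < ε}`, `ε0 ≤ ε`. -/
theorem M1W (h : APX n Θ K c2 C0 N ε0 Ω u P0 W0 pc wc eP eW O es Q nrm) {lam tau : ℝ}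
    (hg : Grid N lam tau) {ε : ℝ} (hε : 0 < ε) (hε0 : ε0 ≤ ε) :
    ∫⁻ x in DD Ω u P0 W0 pc wc Θ lam tau ∩ {x | aff W0 wc (x, u x) / tau < ε},
        ENNReal.ofReal (lam * sg u eP x)
      ≤ ENNReal.ofReal (4 * (K + 2 * C0) ^ (n + 1) * ε * kap (nrm lam tau)) := by
  obtain ⟨hlam, htau⟩ := grid_pos hg
  have hB : MeasurableSet (DD Ω u P0 W0 pc wc Θ lam tau ∩ {x | aff W0 wc (x, u x) / tau < ε}) := by
    have h1 := (measurableSet_DD (P0 := P0) (W0 := W0) (pc := pc) (wc := wc) (Θ := Θ)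
      h.sol.sc lam tau).inter
      (measurableSet_of_continuousOn h.sol.sc.isOpen ((continuousOn_aff h.sol.sc W0 wc).div_const tau)
        (s := Iio ε) measurableSet_Iio)
    convert h1 using 1
    ext x
    constructor
    · rintro ⟨a, b⟩; exact ⟨a, a.1, b⟩
    · rintro ⟨a, b⟩; exact ⟨a, b.2⟩
  have hC0 : (0:ℝ) ≤ C0 := zero_le_one.trans h.C0_ge
  have hpos : ∀ x ∈ DD Ω u P0 W0 pc wc Θ lam tau ∩ {x | aff W0 wc (x, u x) / tau < ε},
      0 < sig u (lam • eP) x := by
    intro x hx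
    rw [sig_smul]
    exact mul_pos hlam (h.sg_eP lam tau hg x hx.1.1 hx.1.2)
  have key := m1_slab h.sol.sc hB (fun x hx => hx.1.1) hpos (nrm lam tau) (h.definite lam tau hg)
    (O := O) h.K_pos hC0 (h.eP_le lam tau hg) (fun x hx => (graph_bdd h hg hx.1).1)
    (tau⁻¹ • W0) (by simp [h.WP]) (g := tau • eW)
    (by simp [h.WW, htau.ne']) (h.eW_le lam tau hg) (ε := 2 * ε)
    (s := -ε - (W0 O + wc) / tau) (by positivity) (by
      intro x hx
      have h1 := (graph_bdd h hg hx.1).2.2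
      have h2 : aff W0 wc (x, u x) / tau < ε := hx.2
      have e1 : (tau⁻¹ • W0) (((x, u x) : VV n) - O) = aff W0 wc (x, u x) / tau - (W0 O + wc) / tau := by
        simp only [smul_apply, map_sub, smul_eq_mul, aff]
        field_simp
        ring
      rw [e1]
      have h3 : -ε ≤ aff W0 wc (x, u x) / tau := by
        rw [le_div_iff₀ htau]
        nlinarith
      constructor <;> linarith)
  have e2 : (fun x => ENNReal.ofReal (lam * sg u eP x)) = fun x => ENNReal.ofReal (sig u (lam • eP) x) := by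
    funext x
    rw [sig_smul]; rfl
  rw [e2]
  refine key.trans (le_of_eq ?_)
  congr 1
  ring

/-- **M2**. -/
theorem M2 (h : APX n Θ K c2 C0 N ε0 Ω u P0 W0 pc wc eP eW O es Q nrm) {lam tau : ℝ}
    (hg : Grid N lam tau) :
    ∫⁻ x in DD Ω u P0 W0 pc wc Θ lam tau,
        ENNReal.ofReal ((hessianMat u x).det / (sg u (es lam tau) x) ^ (n + 1))
      ≤ ENNReal.ofReal ((n + 1) * (4 * C0) ^ (n + 1) / kap (nrm lam tau)) :=
  m2_le h.sol.sc (measurableSet_DD h.sol.sc lam tau) (fun _ hx => hx.1)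
    (fun x hx => h.sg_es lam tau hg x hx.1 hx.2) (nrm lam tau) (h.definite lam tau hg)
    (zero_le_one.trans h.C0_ge) (fun x hx v => h.sg_le lam tau hg x hx.1 hx.2 v)

lemma continuousOn_sg (h : SC Ω u) (v : VV n) : ContinuousOn (sg u v) Ω := continuousOn_sig h v

/-- **M2P**: the dual slab `{lam sg(eP) < δ sg(es)}`. -/
theorem M2P (h : APX n Θ K c2 C0 N ε0 Ω u P0 W0 pc wc eP eW O es Q nrm) {lam tau : ℝ}
    (hg : Grid N lam tau) {δ : ℝ} (hδ : 0 < δ) :
    ∫⁻ x in DD Ω u P0 W0 pc wc Θ lam tau ∩ {x | lam * sg u eP x < δ * sg u (es lam tau) x},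
        ENNReal.ofReal ((hessianMat u x).det / (sg u (es lam tau) x) ^ (n + 1))
      ≤ ENNReal.ofReal (2 * (n + 1) * (8 * C0) ^ (n + 1) * δ / kap (nrm lam tau)) := by
  obtain ⟨hlam, htau⟩ := grid_pos hg
  have hB : MeasurableSet (DD Ω u P0 W0 pc wc Θ lam tau ∩
      {x | lam * sg u eP x < δ * sg u (es lam tau) x}) := by
    have h1 := (measurableSet_DD (P0 := P0) (W0 := W0) (pc := pc) (wc := wc) (Θ := Θ)
      h.sol.sc lam tau).inter
      (measurableSet_of_continuousOn h.sol.sc.isOpen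
        (((continuousOn_sg h.sol.sc eP).const_mul lam).sub
          ((continuousOn_sg h.sol.sc (es lam tau)).const_mul δ)) (s := Iio 0) measurableSet_Iio)
    convert h1 using 1
    ext x
    constructor
    · rintro ⟨a, b⟩
      exact ⟨a, a.1, by change lam * sg u eP x - δ * sg u (es lam tau) x < 0; exact sub_neg.mpr b⟩
    · rintro ⟨a, b⟩
      refine ⟨a, ?_⟩
      have hb := b.2
      change lam * sg u eP x - δ * sg u (es lam tau) x < 0 at hb
      exact sub_neg.mp hb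
  have hC0 : (0:ℝ) ≤ C0 := zero_le_one.trans h.C0_ge
  exact m2_slab h.sol.sc hB (fun x hx => hx.1.1) (fun x hx => h.sg_es lam tau hg x hx.1.1 hx.1.2)
    (nrm lam tau) (h.definite lam tau hg) hC0
    (fun x hx v => h.sg_le lam tau hg x hx.1.1 hx.1.2 v)
    (lam⁻¹ • P0) (f := lam • eP) (by simp [h.PP, hlam.ne']) (by
      intro v
      have h1 := h.P0_le lam tau hg v
      rw [smul_apply, smul_eq_mul, abs_mul, abs_of_pos (inv_pos.mpr hlam),
        inv_mul_le_iff₀ hlam]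
      calc |P0 v| ≤ C0 * lam * nrm lam tau v := h1
        _ = lam * (C0 * nrm lam tau v) := by ring) hδ
    (fun x hx => by
      rw [sig_smul]
      exact mul_pos hlam (h.sg_eP lam tau hg x hx.1.1 hx.1.2))
    (fun x hx => by
      rw [sig_smul]
      exact hx.2)

/-- **M2W**: the dual slab `{tau sg(eW) < δ sg(es)}`. -/
theorem M2W (h : APX n Θ K c2 C0 N ε0 Ω u P0 W0 pc wc eP eW O es Q nrm) {lam tau : ℝ}
    (hg : Grid N lam tau) {δ : ℝ} (hδ : 0 < δ) :
    ∫⁻ x in DD Ω u P0 W0 pc wc Θ lam tau ∩ {x | tau * sg u eW x < δ * sg u (es lam tau) x},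
        ENNReal.ofReal ((hessianMat u x).det / (sg u (es lam tau) x) ^ (n + 1))
      ≤ ENNReal.ofReal (2 * (n + 1) * (8 * C0) ^ (n + 1) * δ / kap (nrm lam tau)) := by
  obtain ⟨hlam, htau⟩ := grid_pos hg
  have hB : MeasurableSet (DD Ω u P0 W0 pc wc Θ lam tau ∩
      {x | tau * sg u eW x < δ * sg u (es lam tau) x}) := by
    have h1 := (measurableSet_DD (P0 := P0) (W0 := W0) (pc := pc) (wc := wc) (Θ := Θ)
      h.sol.sc lam tau).inter
      (measurableSet_of_continuousOn h.sol.sc.isOpen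
        (((continuousOn_sg h.sol.sc eW).const_mul tau).sub
          ((continuousOn_sg h.sol.sc (es lam tau)).const_mul δ)) (s := Iio 0) measurableSet_Iio)
    convert h1 using 1
    ext x
    constructor
    · rintro ⟨a, b⟩
      exact ⟨a, a.1, by change tau * sg u eW x - δ * sg u (es lam tau) x < 0; exact sub_neg.mpr b⟩
    · rintro ⟨a, b⟩
      refine ⟨a, ?_⟩
      have hb := b.2
      change tau * sg u eW x - δ * sg u (es lam tau) x < 0 at hb
      exact sub_neg.mp hb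
  have hC0 : (0:ℝ) ≤ C0 := zero_le_one.trans h.C0_ge
  exact m2_slab h.sol.sc hB (fun x hx => hx.1.1) (fun x hx => h.sg_es lam tau hg x hx.1.1 hx.1.2)
    (nrm lam tau) (h.definite lam tau hg) hC0
    (fun x hx v => h.sg_le lam tau hg x hx.1.1 hx.1.2 v)
    (tau⁻¹ • W0) (f := tau • eW) (by simp [h.WW, htau.ne']) (by
      intro v
      have h1 := h.W0_le lam tau hg v
      rw [smul_apply, smul_eq_mul, abs_mul, abs_of_pos (inv_pos.mpr htau),
        inv_mul_le_iff₀ htau]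
      calc |W0 v| ≤ C0 * tau * nrm lam tau v := h1
        _ = tau * (C0 * nrm lam tau v) := by ring) hδ
    (fun x hx => by
      rw [sig_smul]
      exact mul_pos htau (h.sg_eW lam tau hg x hx.1.1 hx.1.2))
    (fun x hx => by
      rw [sig_smul]
      exact hx.2)

end Crest.Agent.R236.BVolC
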