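import Mathlib
import Crest.Prelude.Def_AffineMaximal
import Crest.Agent.R236.CalcA

/-! Row 236, calculus layer, part B: integration by parts. (helper724) -/

set_option autoImplicit false
open scoped ContDiff Topology
open Crest.GeometryTopology.CoordMetric Crest.GeometryTopology.AffineMaximal
open Set Filter MeasureTheory Finset

noncomputable section

namespace Crest.Agent.R236

section ibp

variable {n : ℕ} {Ω K : Set (EuclideanSpace ℝ (Fin n))} {u f : EuclideanSpace ℝ (Fin n) → ℝ}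

/-! ### extension by zero of functions that vanish on `Ω \\ K` -/

lemma tsupport_indicator_subset {F : EuclideanSpace ℝ (Fin n) → ℝ} (hK : IsCompact K)
    (hF : ∀ x ∈ Ω, x ∉ K → F x = 0) : tsupport (Ω.indicator F) ⊆ K := by
  refine closure_minimal (fun x hx => ?_) hK.isClosed
  rw [Function.mem_support] at hx
  by_contra hxK
  apply hx
  by_cases hxΩ : x ∈ Ω
  · rw [indicator_of_mem hxΩ, hF x hxΩ hxK]
  · rw [indicator_of_notMem hxΩ]

lemma hasCompactSupport_indicator {F : EuclideanSpace ℝ (Fin n) → ℝ} (hK : IsCompact K)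
    (hF : ∀ x ∈ Ω, x ∉ K → F x = 0) : HasCompactSupport (Ω.indicator F) :=
  hK.of_isClosed_subset (isClosed_tsupport _) (tsupport_indicator_subset hK hF)

lemma indicator_eventuallyEq (hΩ : IsOpen Ω) {F : EuclideanSpace ℝ (Fin n) → ℝ}
    {x : EuclideanSpace ℝ (Fin n)} (hx : x ∈ Ω) : Ω.indicator F =ᶠ[𝓝 x] F :=
  Filter.eventually_of_mem (hΩ.mem_nhds hx) fun _ hy => indicator_of_mem hy F

lemma pderiv_indicator (hΩ : IsOpen Ω) {F : EuclideanSpace ℝ (Fin n) → ℝ}
    {x : EuclideanSpace ℝ (Fin n)} (hx : x ∈ Ω) (i : Fin n) :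
    pderiv i (Ω.indicator F) x = pderiv i F x := pderiv_congr (indicator_eventuallyEq hΩ hx) i

lemma contDiff_indicator (hΩ : IsOpen Ω) {F : EuclideanSpace ℝ (Fin n) → ℝ} (hK : IsCompact K)
    (hKΩ : K ⊆ Ω) (hF : ∀ x ∈ Ω, x ∉ K → F x = 0) {k : WithTop ℕ∞} (hFd : ContDiffOn ℝ k F Ω) :
    ContDiff ℝ k (Ω.indicator F) := by
  rw [contDiff_iff_contDiffAt]
  intro x
  by_cases hx : x ∈ tsupport (Ω.indicator F)
  swap
  · have h1 : Ω.indicator F =ᶠ[𝓝 x] fun _ => (0:ℝ) := by
      have h2 : (tsupport (Ω.indicator F))ᶜ ∈ 𝓝 x :=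
        (isClosed_tsupport _).isOpen_compl.mem_nhds hx
      exact Filter.eventually_of_mem h2 fun y hy => image_eq_zero_of_notMem_tsupport hy
    exact contDiffAt_const.congr_of_eventuallyEq h1
  have hxΩ : x ∈ Ω := hKΩ (tsupport_indicator_subset hK hF hx)
  exact (hFd.contDiffAt (hΩ.mem_nhds hxΩ)).congr_of_eventuallyEq (indicator_eventuallyEq hΩ hxΩ)

lemma continuous_indicator_of (hΩ : IsOpen Ω) {F : EuclideanSpace ℝ (Fin n) → ℝ} (hK : IsCompact K)
    (hKΩ : K ⊆ Ω) (hF : ∀ x ∈ Ω, x ∉ K → F x = 0) (hFc : ContinuousOn F Ω) :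
    Continuous (Ω.indicator F) := by
  refine continuous_of_tsupport fun x hx => ?_
  have hxΩ : x ∈ Ω := hKΩ (tsupport_indicator_subset hK hF hx)
  exact (hFc.continuousAt (hΩ.mem_nhds hxΩ)).congr (indicator_eventuallyEq hΩ hxΩ).symm

/-- a continuous function on `Ω` vanishing outside a compact subset is integrable -/
theorem integrableOn_of_compact (hΩ : IsOpen Ω) {F : EuclideanSpace ℝ (Fin n) → ℝ}
    (hK : IsCompact K) (hKΩ : K ⊆ Ω) (hF : ∀ x ∈ Ω, x ∉ K → F x = 0) (hFc : ContinuousOn F Ω) :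
    IntegrableOn F Ω := by
  have h1 : Integrable (Ω.indicator F) :=
    (continuous_indicator_of hΩ hK hKΩ hF hFc).integrable_of_hasCompactSupport
      (hasCompactSupport_indicator hK hF)
  exact (integrable_indicator_iff hΩ.measurableSet).mp h1

theorem setIntegral_eq_of_compact (hΩ : IsOpen Ω) (hKΩ : K ⊆ Ω)
    {F : EuclideanSpace ℝ (Fin n) → ℝ} (hF : ∀ x ∈ Ω, x ∉ K → F x = 0) :
    ∫ x in Ω, F x = ∫ x in K, F x :=
  setIntegral_eq_of_subset_of_forall_sdiff_eq_zero hΩ.measurableSet hKΩ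
    fun x hx => hF x hx.1 hx.2

/-- the derivative of a function vanishing on `Ω \\ K` vanishes on `Ω \\ K` -/
lemma pderiv_eq_zero_of_compact (hΩ : IsOpen Ω) (hK : IsCompact K)
    {F : EuclideanSpace ℝ (Fin n) → ℝ} (hF : ∀ x ∈ Ω, x ∉ K → F x = 0)
    {x : EuclideanSpace ℝ (Fin n)} (hx : x ∈ Ω) (hxK : x ∉ K) (i : Fin n) : pderiv i F x = 0 := by
  have h1 : F =ᶠ[𝓝 x] fun _ => (0:ℝ) := by
    have h2 : Ω ∩ Kᶜ ∈ 𝓝 x := (hΩ.inter hK.isClosed.isOpen_compl).mem_nhds ⟨hx, hxK⟩
    exact Filter.eventually_of_mem h2 fun y hy => hF y hy.1 hy.2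
  rw [pderiv_congr h1]
  exact pderiv_const 0 x i

/-! ### integration by parts -/

/-- one component -/
theorem ibp_pderiv (hΩ : IsOpen Ω) (hK : IsCompact K) (hKΩ : K ⊆ Ω)
    {φ X : EuclideanSpace ℝ (Fin n) → ℝ} (hφ : ContDiffOn ℝ 1 φ Ω)
    (hφK : ∀ x ∈ Ω, x ∉ K → φ x = 0) (hX : ContDiffOn ℝ 1 X Ω) (i : Fin n) :
    ∫ x in Ω, φ x * pderiv i X x = - ∫ x in Ω, pderiv i φ x * X x := by
  have hφ' : ContDiff ℝ 1 (Ω.indicator φ) := contDiff_indicator hΩ hK hKΩ hφK hφ
  have hcφ : ContinuousOn (pderiv i φ) Ω := (contDiffOn_pderiv (m := 0) hΩ hφ (by simp) i).continuousOn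
  have hcX : ContinuousOn (pderiv i X) Ω := (contDiffOn_pderiv (m := 0) hΩ hX (by simp) i).continuousOn
  have key := integral_mul_fderiv_eq_neg_fderiv_mul_of_integrable (μ := volume)
    (f := Ω.indicator φ) (g := X) (v := EuclideanSpace.single i (1:ℝ)) ?_ ?_ ?_ ?_ ?_
  · have e1 : ∀ x, Ω.indicator φ x * fderiv ℝ X x (EuclideanSpace.single i 1) =
        Ω.indicator (fun x => φ x * pderiv i X x) x := by
      intro x
      by_cases hx : x ∈ Ω
      · rw [indicator_of_mem hx, indicator_of_mem hx]; rfl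
      · rw [indicator_of_notMem hx, indicator_of_notMem hx, zero_mul]
    have e2 : ∀ x, fderiv ℝ (Ω.indicator φ) x (EuclideanSpace.single i 1) * X x =
        Ω.indicator (fun x => pderiv i φ x * X x) x := by
      intro x
      by_cases hx : x ∈ Ω
      · rw [indicator_of_mem hx, ← pderiv_indicator hΩ hx]; rfl
      · rw [indicator_of_notMem hx]
        have h1 : Ω.indicator φ =ᶠ[𝓝 x] fun _ => (0:ℝ) := by
          have hxt : x ∉ tsupport (Ω.indicator φ) :=
            fun h => hx (hKΩ (tsupport_indicator_subset hK hφK h))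
          have h2 : (tsupport (Ω.indicator φ))ᶜ ∈ 𝓝 x :=
            (isClosed_tsupport _).isOpen_compl.mem_nhds hxt
          exact Filter.eventually_of_mem h2 fun y hy => image_eq_zero_of_notMem_tsupport hy
        rw [h1.fderiv_eq]
        simp
    simp_rw [e1, e2] at key
    rwa [integral_indicator hΩ.measurableSet, integral_indicator hΩ.measurableSet] at key
  · -- integrable fderiv φ * X
    have h1 : IntegrableOn (fun x => pderiv i φ x * X x) Ω :=
      integrableOn_of_compact hΩ hK hKΩ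
        (fun x hx hxK => by rw [pderiv_eq_zero_of_compact hΩ hK hφK hx hxK, zero_mul])
        (hcφ.mul hX.continuousOn)
    rw [← integrable_indicator_iff hΩ.measurableSet] at h1
    refine h1.congr (Filter.Eventually.of_forall fun x => ?_)
    by_cases hx : x ∈ Ω
    · change Ω.indicator _ x = _
      rw [indicator_of_mem hx, ← pderiv_indicator hΩ hx]; rfl
    · change Ω.indicator _ x = fderiv ℝ (Ω.indicator φ) x (EuclideanSpace.single i 1) * X x
      rw [indicator_of_notMem hx]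
      have h1 : Ω.indicator φ =ᶠ[𝓝 x] fun _ => (0:ℝ) := by
        have hxt : x ∉ tsupport (Ω.indicator φ) :=
          fun h => hx (hKΩ (tsupport_indicator_subset hK hφK h))
        have h2 : (tsupport (Ω.indicator φ))ᶜ ∈ 𝓝 x :=
          (isClosed_tsupport _).isOpen_compl.mem_nhds hxt
        exact Filter.eventually_of_mem h2 fun y hy => image_eq_zero_of_notMem_tsupport hy
      rw [h1.fderiv_eq]
      simp
  · have h1 : IntegrableOn (fun x => φ x * pderiv i X x) Ω :=
      integrableOn_of_compact hΩ hK hKΩ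
        (fun x hx hxK => by rw [hφK x hx hxK, zero_mul])
        (hφ.continuousOn.mul hcX)
    rw [← integrable_indicator_iff hΩ.measurableSet] at h1
    refine h1.congr (Filter.Eventually.of_forall fun x => ?_)
    change Ω.indicator _ x = Ω.indicator φ x * fderiv ℝ X x (EuclideanSpace.single i 1)
    by_cases hx : x ∈ Ω
    · rw [indicator_of_mem hx, indicator_of_mem hx]; rfl
    · rw [indicator_of_notMem hx, indicator_of_notMem hx, zero_mul]
  · have h1 : IntegrableOn (fun x => φ x * X x) Ω :=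
      integrableOn_of_compact hΩ hK hKΩ
        (fun x hx hxK => by rw [hφK x hx hxK, zero_mul])
        (hφ.continuousOn.mul hX.continuousOn)
    rw [← integrable_indicator_iff hΩ.measurableSet] at h1
    refine h1.congr (Filter.Eventually.of_forall fun x => ?_)
    change Ω.indicator _ x = Ω.indicator φ x * X x
    by_cases hx : x ∈ Ω
    · rw [indicator_of_mem hx, indicator_of_mem hx]
    · rw [indicator_of_notMem hx, indicator_of_notMem hx, zero_mul]
  · intro x _
    exact hφ'.differentiable (by simp) x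
  · intro x hx
    have hxΩ : x ∈ Ω := hKΩ (tsupport_indicator_subset hK hφK hx)
    exact (hX.contDiffAt (hΩ.mem_nhds hxΩ)).differentiableAt (by simp)

/-- divergence form, `C¹` fields on `Ω`, test function vanishing on `Ω \ K` -/
theorem ibp_div (hΩ : IsOpen Ω) (hK : IsCompact K) (hKΩ : K ⊆ Ω)
    {φ : EuclideanSpace ℝ (Fin n) → ℝ} {X : Fin n → EuclideanSpace ℝ (Fin n) → ℝ}
    (hφ : ContDiffOn ℝ 1 φ Ω) (hφK : ∀ x ∈ Ω, x ∉ K → φ x = 0)
    (hX : ∀ i, ContDiffOn ℝ 1 (X i) Ω) :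
    ∫ x in Ω, φ x * ∑ i, pderiv i (X i) x = - ∫ x in Ω, ∑ i, pderiv i φ x * X i x := by
  simp_rw [Finset.mul_sum]
  rw [integral_finsetSum, integral_finsetSum, ← Finset.sum_neg_distrib]
  · exact Finset.sum_congr rfl fun i _ => ibp_pderiv hΩ hK hKΩ hφ hφK (hX i) i
  · intro i _
    exact integrableOn_of_compact hΩ hK hKΩ
        (fun x hx hxK => by rw [pderiv_eq_zero_of_compact hΩ hK hφK hx hxK, zero_mul])
        ((contDiffOn_pderiv (m := 0) hΩ hφ (by simp) i).continuousOn.mul (hX i).continuousOn)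
  · intro i _
    exact integrableOn_of_compact hΩ hK hKΩ
        (fun x hx hxK => by rw [hφK x hx hxK, zero_mul])
        (hφ.continuousOn.mul (contDiffOn_pderiv (m := 0) hΩ (hX i) (by simp) i).continuousOn)

/-- the divergence theorem for `C¹` fields on `Ω` vanishing on `Ω \ K` -/
theorem integral_div_eq_zero (hΩ : IsOpen Ω) (hK : IsCompact K) (hKΩ : K ⊆ Ω)
    {X : Fin n → EuclideanSpace ℝ (Fin n) → ℝ}
    (hX : ∀ i, ContDiffOn ℝ 1 (X i) Ω) (hXK : ∀ i, ∀ x ∈ Ω, x ∉ K → X i x = 0) :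
    ∫ x in Ω, ∑ i, pderiv i (X i) x = 0 := by
  rw [integral_finsetSum]
  · refine Finset.sum_eq_zero fun i _ => ?_
    have h1 := ibp_pderiv hΩ hK hKΩ (hX i) (hXK i) (X := fun _ => (1:ℝ)) contDiffOn_const i
    simp only [pderiv_const, mul_zero, integral_zero, mul_one] at h1
    linarith
  · intro i _
    exact integrableOn_of_compact hΩ hK hKΩ
        (fun x hx hxK => pderiv_eq_zero_of_compact hΩ hK (hXK i) hx hxK i)
        ((contDiffOn_pderiv (m := 0) hΩ (hX i) (by simp) i).continuousOn)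

/-- whole-space divergence theorem -/
theorem integral_div_eq_zero' {X : Fin n → EuclideanSpace ℝ (Fin n) → ℝ}
    (hX : ∀ i, ContDiff ℝ 1 (X i)) (hXK : ∀ i, HasCompactSupport (X i)) :
    ∫ x, ∑ i, pderiv i (X i) x = 0 := by
  have h1 : ∀ i, IsCompact (tsupport (X i)) := fun i => hXK i
  have h2 := integral_div_eq_zero (Ω := Set.univ) (K := ⋃ i, tsupport (X i)) isOpen_univ
    (isCompact_iUnion h1) (subset_univ _) (X := X) (fun i => (hX i).contDiffOn)
    (fun i x _ hx => image_eq_zero_of_notMem_tsupport fun hx' => hx (mem_iUnion.mpr ⟨i, hx'⟩))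
  rwa [Measure.restrict_univ] at h2

/-- integration by parts against the cofactor field with a weight -/
theorem SC.ibp (h : SC Ω u) (hK : IsCompact K) (hKΩ : K ⊆ Ω)
    {φ a f : EuclideanSpace ℝ (Fin n) → ℝ} (hφ : ContDiffOn ℝ 1 φ Ω)
    (hφK : ∀ x ∈ Ω, x ∉ K → φ x = 0) (ha : ContDiffOn ℝ 1 a Ω) (hf : ContDiffOn ℝ 2 f Ω) :
    ∫ x in Ω, φ x * (a x * (∑ i, ∑ j, cof u x i j * hessianMat f x i j) +
        ∑ i, ∑ j, cof u x i j * pderiv i a x * pderiv j f x) =
      - ∫ x in Ω, a x * ∑ i, ∑ j, cof u x i j * pderiv i φ x * pderiv j f x := by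
  have hX : ∀ i, ContDiffOn ℝ 1 (fun y => a y * ∑ j, cof u y i j * pderiv j f y) Ω := by
    intro i
    refine ha.mul (ContDiffOn.sum fun j _ => ?_)
    exact ((h.contDiffOn_cof i j).of_le (by simp)).mul
      (contDiffOn_pderiv h.isOpen hf (by norm_num) j)
  have h1 := ibp_div h.isOpen hK hKΩ hφ hφK hX
  have e1 : ∫ x in Ω, φ x * (a x * (∑ i, ∑ j, cof u x i j * hessianMat f x i j) +
        ∑ i, ∑ j, cof u x i j * pderiv i a x * pderiv j f x) =
      ∫ x in Ω, φ x * ∑ i, pderiv i (fun y => a y * ∑ j, cof u y i j * pderiv j f y) x := by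
    refine setIntegral_congr_fun h.isOpen.measurableSet fun x hx => ?_
    have h2 := h.div_cof_grad hx (a := a) (f := f)
      ((ha.contDiffAt (h.isOpen.mem_nhds hx)).differentiableAt (by simp))
      (hf.contDiffAt (h.isOpen.mem_nhds hx))
    simp only [h2]
  rw [e1, h1]
  congr 1
  refine integral_congr_ae (Filter.Eventually.of_forall fun x => ?_)
  simp only [Finset.mul_sum]
  refine Finset.sum_congr rfl fun i _ => Finset.sum_congr rfl fun j _ => ?_
  ring

/-- `∫ φ U^{ij} f_ij = - ∫ U^{ij} φ_i f_j` -/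
theorem SC.ibp_one (h : SC Ω u) (hK : IsCompact K) (hKΩ : K ⊆ Ω)
    {φ f : EuclideanSpace ℝ (Fin n) → ℝ} (hφ : ContDiffOn ℝ 1 φ Ω)
    (hφK : ∀ x ∈ Ω, x ∉ K → φ x = 0) (hf : ContDiffOn ℝ 2 f Ω) :
    ∫ x in Ω, φ x * ∑ i, ∑ j, cof u x i j * hessianMat f x i j =
      - ∫ x in Ω, ∑ i, ∑ j, cof u x i j * pderiv i φ x * pderiv j f x := by
  have := h.ibp hK hKΩ hφ hφK (a := fun _ => (1:ℝ)) contDiffOn_const hf
  simpa [pderiv_const] using this

/-- `∫ φ U^{ij} f_ij = ∫ f U^{ij} φ_ij` for `C²` functions, `φ` vanishing on `Ω \ K` -/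
theorem SC.ibp_two (h : SC Ω u) (hK : IsCompact K) (hKΩ : K ⊆ Ω)
    {φ f : EuclideanSpace ℝ (Fin n) → ℝ} (hφ : ContDiffOn ℝ 2 φ Ω)
    (hφK : ∀ x ∈ Ω, x ∉ K → φ x = 0) (hf : ContDiffOn ℝ 2 f Ω) :
    ∫ x in Ω, φ x * ∑ i, ∑ j, cof u x i j * hessianMat f x i j =
      ∫ x in Ω, f x * ∑ i, ∑ j, cof u x i j * hessianMat φ x i j := by
  rw [h.ibp_one hK hKΩ (hφ.of_le (by norm_num)) hφK hf]
  -- ∫ div (f U ∇φ) = 0
  have hX : ∀ i, ContDiffOn ℝ 1 (fun y => f y * ∑ j, cof u y i j * pderiv j φ y) Ω := by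
    intro i
    refine (hf.of_le (by norm_num)).mul (ContDiffOn.sum fun j _ => ?_)
    exact ((h.contDiffOn_cof i j).of_le (by simp)).mul
      (contDiffOn_pderiv h.isOpen hφ (by norm_num) j)
  have h1 := integral_div_eq_zero h.isOpen hK hKΩ hX (fun i x hx hxK => by
    have : ∀ j, cof u x i j * pderiv j φ x = 0 := fun j => by
      rw [pderiv_eq_zero_of_compact h.isOpen hK hφK hx hxK, mul_zero]
    simp [this])
  have e1 : ∫ x in Ω, ∑ i, pderiv i (fun y => f y * ∑ j, cof u y i j * pderiv j φ y) x =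
      ∫ x in Ω, (f x * (∑ i, ∑ j, cof u x i j * hessianMat φ x i j) +
        ∑ i, ∑ j, cof u x i j * pderiv i f x * pderiv j φ x) := by
    refine setIntegral_congr_fun h.isOpen.measurableSet fun x hx => ?_
    exact h.div_cof_grad hx
      (((hf.of_le (by norm_num : (1:WithTop ℕ∞) ≤ 2)).contDiffAt
        (h.isOpen.mem_nhds hx)).differentiableAt (by simp))
      (hφ.contDiffAt (h.isOpen.mem_nhds hx))
  have hz : ∀ x ∈ Ω, x ∉ K → ∀ i j, hessianMat φ x i j = 0 := by
    intro x hx hxK i j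
    exact pderiv_eq_zero_of_compact h.isOpen hK
      (fun y hy hyK => pderiv_eq_zero_of_compact h.isOpen hK hφK hy hyK j) hx hxK i
  have hcofc : ∀ i j, ContinuousOn (fun x => cof u x i j) Ω := fun i j =>
    (h.contDiffOn_cof i j).continuousOn
  have hint1 : IntegrableOn (fun x => f x * (∑ i, ∑ j, cof u x i j * hessianMat φ x i j)) Ω := by
    refine integrableOn_of_compact h.isOpen hK hKΩ (fun x hx hxK => ?_) ?_
    · simp [hz x hx hxK]
    · refine hf.continuousOn.mul (continuousOn_finsetSum _ fun i _ =>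
        continuousOn_finsetSum _ fun j _ => (hcofc i j).mul ?_)
      exact (contDiffOn_hess (m := 0) h.isOpen hφ (by norm_num) i j).continuousOn
  have hint2 : IntegrableOn (fun x => ∑ i, ∑ j, cof u x i j * pderiv i f x * pderiv j φ x) Ω := by
    refine integrableOn_of_compact h.isOpen hK hKΩ (fun x hx hxK => ?_) ?_
    · have : ∀ j, pderiv j φ x = 0 := fun j =>
        pderiv_eq_zero_of_compact h.isOpen hK hφK hx hxK j
      simp [this]
    · refine continuousOn_finsetSum _ fun i _ => continuousOn_finsetSum _ fun j _ =>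
        ((hcofc i j).mul ?_).mul ?_
      · exact (contDiffOn_pderiv (m := 1) h.isOpen hf (by norm_num) i).continuousOn
      · exact (contDiffOn_pderiv (m := 1) h.isOpen hφ (by norm_num) j).continuousOn
  rw [h1] at e1
  rw [integral_add hint1 hint2] at e1
  have e2 : ∫ x in Ω, ∑ i, ∑ j, cof u x i j * pderiv i f x * pderiv j φ x =
      ∫ x in Ω, ∑ i, ∑ j, cof u x i j * pderiv i φ x * pderiv j f x := by
    refine setIntegral_congr_fun h.isOpen.measurableSet fun x hx => ?_
    change ∑ i, ∑ j, cof u x i j * pderiv i f x * pderiv j φ x =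
      ∑ i, ∑ j, cof u x i j * pderiv i φ x * pderiv j f x
    rw [Finset.sum_comm]
    refine Finset.sum_congr rfl fun i _ => Finset.sum_congr rfl fun j _ => ?_
    rw [h.cof_symm hx j i]
    ring
  rw [e2] at e1
  linarith

end ibp

end Crest.Agent.R236
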