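import Mathlib
import Crest.Agent.R236.CalcB

/-! Row 236, Part C: the Blaschke metric calculus (C1 of the master blueprint). (helper796) -/

set_option autoImplicit false
open scoped ContDiff Topology
open Crest.GeometryTopology.CoordMetric Crest.GeometryTopology.AffineMaximal
open Set Filter MeasureTheory

noncomputable section

namespace Crest.Agent.R236.Bl

variable {n : ℕ}

set_option hygiene false in
local notation "𝔼" => EuclideanSpace ℝ (Fin n)

/-! ### rules for `pderiv` -/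

section rules

variable {f g : 𝔼 → ℝ} {x : 𝔼} {i : Fin n}

lemma pd_congr (h : f =ᶠ[𝓝 x] g) : pderiv i f x = pderiv i g x := by
  unfold pderiv; rw [h.fderiv_eq]

lemma pd_add (hf : DifferentiableAt ℝ f x) (hg : DifferentiableAt ℝ g x) :
    pderiv i (fun y => f y + g y) x = pderiv i f x + pderiv i g x := by
  unfold pderiv
  rw [show (fun y => f y + g y) = f + g from rfl, fderiv_add hf hg]; rfl

lemma pd_sub (hf : DifferentiableAt ℝ f x) (hg : DifferentiableAt ℝ g x) :
    pderiv i (fun y => f y - g y) x = pderiv i f x - pderiv i g x := by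
  unfold pderiv
  rw [show (fun y => f y - g y) = f - g from rfl, fderiv_sub hf hg]; rfl

lemma pd_neg : pderiv i (fun y => - f y) x = - pderiv i f x := by
  unfold pderiv
  rw [show (fun y => - f y) = -f from rfl, fderiv_neg]; rfl

lemma pd_mul (hf : DifferentiableAt ℝ f x) (hg : DifferentiableAt ℝ g x) :
    pderiv i (fun y => f y * g y) x = f x * pderiv i g x + g x * pderiv i f x := by
  unfold pderiv
  rw [show (fun y => f y * g y) = f * g from rfl, fderiv_mul hf hg]
  simp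

lemma pd_const (c : ℝ) : pderiv i (fun _ : 𝔼 => c) x = 0 := by
  unfold pderiv; simp

lemma pd_const_mul (c : ℝ) (hf : DifferentiableAt ℝ f x) :
    pderiv i (fun y => c * f y) x = c * pderiv i f x := by
  rw [pd_mul (differentiableAt_const c) hf, pd_const]; ring

lemma pd_sum {ι : Type*} (s : Finset ι) {F : ι → 𝔼 → ℝ}
    (h : ∀ k ∈ s, DifferentiableAt ℝ (F k) x) :
    pderiv i (fun y => ∑ k ∈ s, F k y) x = ∑ k ∈ s, pderiv i (F k) x := by
  unfold pderiv
  rw [fderiv_fun_sum h]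
  simp

lemma pd_comp {φ : ℝ → ℝ} {φ' : ℝ} (hf : DifferentiableAt ℝ f x) (hφ : HasDerivAt φ φ' (f x)) :
    pderiv i (fun y => φ (f y)) x = φ' * pderiv i f x := by
  unfold pderiv
  have := hφ.comp_hasFDerivAt x hf.hasFDerivAt
  have h2 : fderiv ℝ (fun y => φ (f y)) x = φ' • fderiv ℝ f x := this.fderiv
  rw [h2]
  simp

lemma pd_coord (j : Fin n) : pderiv i (fun y : 𝔼 => y j) x = if i = j then 1 else 0 := by
  unfold pderiv
  have : fderiv ℝ (fun y : 𝔼 => y j) x = EuclideanSpace.proj j :=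
    (EuclideanSpace.proj (𝕜 := ℝ) j).hasFDerivAt.fderiv
  rw [this]
  simp [eq_comm]

lemma pd_clm (b : 𝔼 →L[ℝ] ℝ) : pderiv i (fun y : 𝔼 => b y) x = b (EuclideanSpace.single i 1) := by
  unfold pderiv
  rw [b.hasFDerivAt.fderiv]

lemma fderiv_eq_pd (v : 𝔼) : fderiv ℝ f x v = ∑ i, pderiv i f x * v i := by
  conv_lhs => rw [← sum_single v]
  rw [map_sum]
  refine Finset.sum_congr rfl fun j _ => ?_
  rw [map_smul, smul_eq_mul, mul_comm]; rfl

/-- divergence of a product -/
lemma div_mul {X : Fin n → 𝔼 → ℝ} (hf : DifferentiableAt ℝ f x)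
    (hX : ∀ i, DifferentiableAt ℝ (X i) x) :
    ∑ i, pderiv i (fun y => f y * X i y) x
      = f x * ∑ i, pderiv i (X i) x + ∑ i, pderiv i f x * X i x := by
  rw [Finset.mul_sum, ← Finset.sum_add_distrib]
  refine Finset.sum_congr rfl fun i _ => ?_
  rw [pd_mul hf (hX i)]; ring

end rules

/-! ### definitions -/

/-- `ρ = det(D²u)^{-1/(n+2)}`. -/
def rho (u : 𝔼 → ℝ) (x : 𝔼) : ℝ := (hessianMat u x).det ^ (-(1:ℝ) / ((n:ℝ) + 2))

/-- the field `AA ∇f`, `AA = ρⁿ cof`. -/
def fld (u f : 𝔼 → ℝ) (i : Fin n) (x : 𝔼) : ℝ :=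
  rho u x ^ n * ∑ j, cof u x i j * pderiv j f x

/-- `⟨f,g⟩ = ρ AA(∇f,∇g)`. -/
def ip (u f g : 𝔼 → ℝ) (x : 𝔼) : ℝ := rho u x * ∑ i, pderiv i f x * fld u g i x

/-- `Lap f = ρ div(AA ∇f)`. -/
def lap (u f : 𝔼 → ℝ) (x : 𝔼) : ℝ := rho u x * ∑ i, pderiv i (fld u f i) x

/-- the general conormal function: `ρ (c₀ - s u - Du(v - s x))`; `s = 0`: `N_{(v,c₀)}`;
`s = 1`: `V_Q`, `Q = (v,c₀)`. -/
def sg (u : 𝔼 → ℝ) (c₀ : ℝ) (v : 𝔼) (s : ℝ) (x : 𝔼) : ℝ :=
  c₀ - s * u x - ∑ k, pderiv k u x * (v k - s * x k)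

def NV (u : 𝔼 → ℝ) (c₀ : ℝ) (v : 𝔼) (s : ℝ) (x : 𝔼) : ℝ := rho u x * sg u c₀ v s x

/-- affine function on `𝔼 × ℝ` restricted to the graph -/
def aff (u : 𝔼 → ℝ) (a : ℝ) (b : 𝔼 →L[ℝ] ℝ) (c : ℝ) (x : 𝔼) : ℝ := a * u x + b x + c

variable {Ω : Set 𝔼} {u : 𝔼 → ℝ}

section smooth

lemma diffAt {f : 𝔼 → ℝ} {U : Set 𝔼} (hU : IsOpen U) (hf : ContDiffOn ℝ ∞ f U) {x : 𝔼}
    (hx : x ∈ U) : DifferentiableAt ℝ f x :=
  (hf.contDiffAt (hU.mem_nhds hx)).differentiableAt (by simp)

lemma rho_pos (h : SC Ω u) {x : 𝔼} (hx : x ∈ Ω) : 0 < rho u x :=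
  Real.rpow_pos_of_pos (h.det_pos hx) _

lemma rho_pow (h : SC Ω u) {x : 𝔼} (hx : x ∈ Ω) :
    rho u x ^ (n + 2) * (hessianMat u x).det = 1 := by
  have hD := h.det_pos hx
  unfold rho
  rw [← Real.rpow_natCast, ← Real.rpow_mul hD.le]
  have : -(1:ℝ) / ((n:ℝ) + 2) * ((n + 2 : ℕ) : ℝ) = -1 := by
    push_cast
    field_simp
  rw [this, Real.rpow_neg_one, inv_mul_cancel₀ hD.ne']

lemma rho_detPower (h : SC Ω u) {x : 𝔼} (hx : x ∈ Ω) :
    detPower n u x = rho u x ^ (n + 1) := by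
  have hD := h.det_pos hx
  unfold rho detPower
  rw [← Real.rpow_natCast, ← Real.rpow_mul hD.le]
  congr 1
  push_cast
  field_simp

lemma contDiffOn_rho (h : SC Ω u) : ContDiffOn ℝ ∞ (rho u) Ω := by
  unfold rho
  exact h.contDiffOn_det.rpow_const_of_ne (fun x hx => (h.det_pos hx).ne')

lemma contDiffOn_fld (h : SC Ω u) {U : Set 𝔼} (hU : IsOpen U) (hUΩ : U ⊆ Ω) {f : 𝔼 → ℝ}
    (hf : ContDiffOn ℝ ∞ f U) (i : Fin n) : ContDiffOn ℝ ∞ (fld u f i) U := by
  unfold fld
  refine ContDiffOn.mul (((contDiffOn_rho h).mono hUΩ).pow n) ?_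
  refine ContDiffOn.sum fun j _ => ?_
  exact ((h.contDiffOn_cof i j).mono hUΩ).mul (contDiffOn_pderiv_infty hU hf j)

lemma contDiffOn_ip (h : SC Ω u) {U : Set 𝔼} (hU : IsOpen U) (hUΩ : U ⊆ Ω) {f g : 𝔼 → ℝ}
    (hf : ContDiffOn ℝ ∞ f U) (hg : ContDiffOn ℝ ∞ g U) : ContDiffOn ℝ ∞ (ip u f g) U := by
  unfold ip
  refine ContDiffOn.mul ((contDiffOn_rho h).mono hUΩ) ?_
  refine ContDiffOn.sum fun j _ => ?_
  exact (contDiffOn_pderiv_infty hU hf j).mul (contDiffOn_fld h hU hUΩ hg j)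

lemma contDiffOn_sg (h : SC Ω u) (c₀ : ℝ) (v : 𝔼) (s : ℝ) :
    ContDiffOn ℝ ∞ (sg u c₀ v s) Ω := by
  unfold sg
  refine (contDiffOn_const.sub (contDiffOn_const.mul h.smooth)).sub ?_
  refine ContDiffOn.sum fun j _ => ?_
  refine (contDiffOn_pderiv_infty h.isOpen h.smooth j).mul (contDiffOn_const.sub
    (contDiffOn_const.mul ?_))
  exact (EuclideanSpace.proj (𝕜 := ℝ) j).contDiff.contDiffOn

lemma contDiffOn_NV (h : SC Ω u) (c₀ : ℝ) (v : 𝔼) (s : ℝ) :
    ContDiffOn ℝ ∞ (NV u c₀ v s) Ω :=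
  (contDiffOn_rho h).mul (contDiffOn_sg h c₀ v s)

lemma contDiffOn_aff (h : SC Ω u) (a : ℝ) (b : 𝔼 →L[ℝ] ℝ) (c : ℝ) :
    ContDiffOn ℝ ∞ (aff u a b c) Ω := by
  unfold aff
  exact ((contDiffOn_const.mul h.smooth).add b.contDiff.contDiffOn).add contDiffOn_const

end smooth

section algebra

variable {f g k : 𝔼 → ℝ} {x : 𝔼}

lemma ip_eq_sum : ip u f g x
    = rho u x ^ (n + 1) * ∑ i, ∑ j, cof u x i j * pderiv i f x * pderiv j g x := by
  unfold ip fld
  rw [pow_succ, mul_comm (rho u x ^ n), mul_assoc]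
  congr 1
  rw [Finset.mul_sum]
  refine Finset.sum_congr rfl fun i _ => ?_
  rw [mul_left_comm, Finset.mul_sum]
  congr 1
  refine Finset.sum_congr rfl fun j _ => ?_
  ring

lemma ip_comm (h : SC Ω u) (hx : x ∈ Ω) : ip u f g x = ip u g f x := by
  rw [ip_eq_sum, ip_eq_sum, Finset.sum_comm]
  congr 1
  refine Finset.sum_congr rfl fun i _ => Finset.sum_congr rfl fun j _ => ?_
  rw [h.cof_symm hx j i]; ring

lemma ip_congr_left (hfk : f =ᶠ[𝓝 x] k) : ip u f g x = ip u k g x := by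
  unfold ip
  congr 1
  refine Finset.sum_congr rfl fun i _ => ?_
  rw [pd_congr hfk]

lemma ip_comp_left {φ : ℝ → ℝ} {φ' : ℝ} (hf : DifferentiableAt ℝ f x)
    (hφ : HasDerivAt φ φ' (f x)) : ip u (fun y => φ (f y)) g x = φ' * ip u f g x := by
  unfold ip
  rw [mul_left_comm]
  congr 1
  rw [Finset.mul_sum]
  refine Finset.sum_congr rfl fun i _ => ?_
  rw [pd_comp hf hφ]; ring

lemma fld_comp {φ : ℝ → ℝ} {φ' : ℝ} (hf : DifferentiableAt ℝ f x)
    (hφ : HasDerivAt φ φ' (f x)) (i : Fin n) :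
    fld u (fun y => φ (f y)) i x = φ' * fld u f i x := by
  unfold fld
  rw [mul_left_comm]
  congr 1
  rw [Finset.mul_sum]
  refine Finset.sum_congr rfl fun i _ => ?_
  rw [pd_comp hf hφ]; ring

lemma ip_comp_right {φ : ℝ → ℝ} {φ' : ℝ} (hf : DifferentiableAt ℝ f x)
    (hφ : HasDerivAt φ φ' (f x)) : ip u g (fun y => φ (f y)) x = φ' * ip u g f x := by
  unfold ip
  rw [mul_left_comm]
  congr 1
  rw [Finset.mul_sum]
  refine Finset.sum_congr rfl fun i _ => ?_
  rw [fld_comp hf hφ]; ring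

lemma ip_mul_left (hf : DifferentiableAt ℝ f x) (hk : DifferentiableAt ℝ k x) :
    ip u (fun y => f y * k y) g x = f x * ip u k g x + k x * ip u f g x := by
  unfold ip
  rw [mul_left_comm, mul_left_comm (k x), ← mul_add]
  congr 1
  rw [Finset.mul_sum, Finset.mul_sum, ← Finset.sum_add_distrib]
  refine Finset.sum_congr rfl fun i _ => ?_
  rw [pd_mul hf hk]; ring

/-- divergence of `φ · AA∇f` -/
lemma div_fld (h : SC Ω u) {U : Set 𝔼} (hU : IsOpen U) (hUΩ : U ⊆ Ω)
    (hf : ContDiffOn ℝ ∞ f U) (hx : x ∈ U) (hk : DifferentiableAt ℝ k x) :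
    rho u x * ∑ i, pderiv i (fun y => k y * fld u f i y) x = k x * lap u f x + ip u k f x := by
  rw [div_mul hk (fun i => diffAt hU (contDiffOn_fld h hU hUΩ hf i) hx)]
  unfold lap ip
  ring

lemma lap_log (h : SC Ω u) {U : Set 𝔼} (hU : IsOpen U) (hUΩ : U ⊆ Ω)
    (hf : ContDiffOn ℝ ∞ f U) (hpos : ∀ y ∈ U, 0 < f y) (hx : x ∈ U) :
    lap u (fun y => Real.log (f y)) x
      = lap u f x / f x - ip u f f x / (f x) ^ 2 := by
  have hfx := (hpos x hx).ne'
  have h1 : ∀ i, pderiv i (fld u (fun y => Real.log (f y)) i) x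
      = pderiv i (fun y => (f y)⁻¹ * fld u f i y) x := by
    intro i
    apply pd_congr
    filter_upwards [hU.mem_nhds hx] with y hy
    exact fld_comp (diffAt hU hf hy) (Real.hasDerivAt_log (hpos y hy).ne') i
  have h2 : lap u (fun y => Real.log (f y)) x
      = rho u x * ∑ i, pderiv i (fun y => (f y)⁻¹ * fld u f i y) x := by
    unfold lap; simp_rw [h1]
  have hinv : DifferentiableAt ℝ (fun y => (f y)⁻¹) x := (diffAt hU hf hx).inv hfx
  rw [h2, div_fld h hU hUΩ hf hx hinv,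
    ip_comp_left (φ := fun t => t⁻¹) (diffAt hU hf hx) (hasDerivAt_inv hfx)]
  ring

end algebra

/-! ### the identities -/

section ident

variable {x : 𝔼}

lemma pd_sg (h : SC Ω u) (hx : x ∈ Ω) (c₀ : ℝ) (v : 𝔼) (s : ℝ) (j : Fin n) :
    pderiv j (sg u c₀ v s) x = - ∑ k, hessianMat u x j k * (v k - s * x k) := by
  have hcoord : ∀ k, DifferentiableAt ℝ (fun y : 𝔼 => y k) x := fun k =>
    (EuclideanSpace.proj (𝕜 := ℝ) k).differentiableAt
  have hpd : ∀ k, DifferentiableAt ℝ (fun y => pderiv k u y) x := fun k =>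
    diffAt h.isOpen (contDiffOn_pderiv_infty h.isOpen h.smooth k) hx
  have hd : ∀ k, DifferentiableAt ℝ (fun y : 𝔼 => v k - s * y k) x := fun k =>
    (differentiableAt_const _).sub ((hcoord k).const_mul s)
  have hmd : ∀ k, DifferentiableAt ℝ (fun y : 𝔼 => pderiv k u y * (v k - s * y k)) x :=
    fun k => (hpd k).fun_mul (hd k)
  have hsd : DifferentiableAt ℝ (fun y : 𝔼 => ∑ k, pderiv k u y * (v k - s * y k)) x :=
    DifferentiableAt.fun_sum fun k _ => hmd k
  have hsu : DifferentiableAt ℝ (fun y => s * u y) x := (h.differentiableAt hx).const_mul s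
  have hcu : DifferentiableAt ℝ (fun y => c₀ - s * u y) x :=
    (differentiableAt_const _).fun_sub hsu
  unfold sg
  rw [pd_sub hcu hsd, pd_sub (differentiableAt_const _) hsu, pd_const,
    pd_const_mul _ (h.differentiableAt hx), pd_sum _ (fun k _ => hmd k)]
  have : ∀ k, pderiv j (fun y => pderiv k u y * (v k - s * y k)) x
      = hessianMat u x j k * (v k - s * x k) - s * (if j = k then pderiv k u x else 0) := by
    intro k
    rw [pd_mul (hpd k) (hd k), pd_sub (differentiableAt_const _) ((hcoord k).const_mul s),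
      pd_const, pd_const_mul _ (hcoord k), pd_coord]
    unfold hessianMat
    split_ifs <;> ring
  simp_rw [this]
  rw [Finset.sum_sub_distrib, ← Finset.mul_sum]
  simp only [Finset.sum_ite_eq, Finset.mem_univ, if_true]
  ring

lemma cof_sg (h : SC Ω u) (hx : x ∈ Ω) (c₀ : ℝ) (v : 𝔼) (s : ℝ) (i : Fin n) :
    ∑ j, cof u x i j * pderiv j (sg u c₀ v s) x
      = - ((hessianMat u x).det * (v i - s * x i)) := by
  simp_rw [pd_sg h hx]
  have : ∀ j, cof u x i j * -∑ k, hessianMat u x j k * (v k - s * x k)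
      = - ∑ k, cof u x i j * hessianMat u x j k * (v k - s * x k) := by
    intro j; rw [mul_neg, Finset.mul_sum]; simp_rw [mul_assoc]
  simp_rw [this]
  rw [Finset.sum_neg_distrib, Finset.sum_comm]
  simp_rw [← Finset.sum_mul, SC.cof_mul_hess]
  simp

/-- `AA∇(ρσ) = σ·ρⁿ cof ∇ρ - ρ⁻¹ w` -/
lemma fld_NV (h : SC Ω u) (hx : x ∈ Ω) (c₀ : ℝ) (v : 𝔼) (s : ℝ) (i : Fin n) :
    fld u (NV u c₀ v s) i x
      = sg u c₀ v s x * fld u (rho u) i x - (rho u x)⁻¹ * (v i - s * x i) := by
  have hρ := rho_pos h hx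
  have hρd := diffAt h.isOpen (contDiffOn_rho h) hx
  have hsd := diffAt h.isOpen (contDiffOn_sg h c₀ v s) hx
  have h1 : ∀ j, cof u x i j * pderiv j (NV u c₀ v s) x
      = rho u x * (cof u x i j * pderiv j (sg u c₀ v s) x)
        + sg u c₀ v s x * (cof u x i j * pderiv j (rho u) x) := by
    intro j
    unfold NV
    rw [pd_mul hρd hsd]; ring
  unfold fld
  simp_rw [h1]
  rw [Finset.sum_add_distrib, ← Finset.mul_sum, ← Finset.mul_sum, cof_sg h hx]
  have h2 := rho_pow h hx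
  have h3 : rho u x ^ n * (rho u x * (hessianMat u x).det) = (rho u x)⁻¹ := by
    field_simp
    rw [← h2]; ring
  linear_combination (-(v i - s * x i)) * h3

/-- the flux `Y = ρⁿ cof ∇ρ` is divergence free (the PDE). -/
lemma div_fld_rho (h : SC Ω u) (hx : x ∈ Ω) (hm : affineMaximalOp n u x = 0) :
    ∑ i, pderiv i (fld u (rho u) i) x = 0 := by
  -- `fld u rho i = (1/(n+1)) Σ cof_ij ∂_j detPower` near x
  have hn1 : ((n:ℝ) + 1) ≠ 0 := by positivity
  have hw : ContDiffOn ℝ ∞ (detPower n u) Ω :=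
    ((contDiffOn_rho h).pow (n+1)).congr fun y hy => rho_detPower h hy
  have h1 : ∀ i, pderiv i (fld u (rho u) i) x
      = pderiv i (fun y => ((n:ℝ)+1)⁻¹ * ∑ j, cof u y i j * pderiv j (detPower n u) y) x := by
    intro i
    apply pd_congr
    filter_upwards [h.isOpen.mem_nhds hx] with y hy
    have : ∀ j, pderiv j (detPower n u) y = ((n:ℝ)+1) * rho u y ^ n * pderiv j (rho u) y := by
      intro j
      have e : detPower n u =ᶠ[𝓝 y] fun z => rho u z ^ (n+1) := by
        filter_upwards [h.isOpen.mem_nhds hy] with z hz using rho_detPower h hz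
      rw [pd_congr e, pd_comp (φ := fun t => t ^ (n+1))
        (diffAt h.isOpen (contDiffOn_rho h) hy) (hasDerivAt_pow (n+1) _)]
      push_cast
      simp
    unfold fld
    simp_rw [this]
    rw [Finset.mul_sum, Finset.mul_sum]
    refine Finset.sum_congr rfl fun j _ => ?_
    field_simp
  simp_rw [h1]
  have hcd : ∀ i j, DifferentiableAt ℝ (fun y => cof u y i j) x := fun i j =>
    diffAt h.isOpen (h.contDiffOn_cof i j) hx
  have hpd : ∀ j, DifferentiableAt ℝ (fun y => pderiv j (detPower n u) y) x := fun j =>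
    diffAt h.isOpen (contDiffOn_pderiv_infty h.isOpen hw j) hx
  have h2 : ∀ i, pderiv i (fun y => ((n:ℝ)+1)⁻¹ * ∑ j, cof u y i j * pderiv j (detPower n u) y) x
      = ((n:ℝ)+1)⁻¹ * (∑ j, cof u x i j * hessianMat (detPower n u) x i j
        + ∑ j, pderiv j (detPower n u) x * pderiv i (fun y => cof u y i j) x) := by
    intro i
    have hm1 : ∀ j, DifferentiableAt ℝ (fun y => cof u y i j * pderiv j (detPower n u) y) x :=
      fun j => (hcd i j).fun_mul (hpd j)
    have hm2 : DifferentiableAt ℝ (fun y => ∑ j, cof u y i j * pderiv j (detPower n u) y) x :=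
      DifferentiableAt.fun_sum fun j _ => hm1 j
    rw [pd_const_mul _ hm2, pd_sum _ (fun j _ => hm1 j), ← Finset.sum_add_distrib]
    congr 1
    refine Finset.sum_congr rfl fun j _ => ?_
    rw [pd_mul (hcd i j) (hpd j)]
    rfl
  simp_rw [h2]
  rw [← Finset.mul_sum, Finset.sum_add_distrib, ← h.affineMaximalOp_eq hx, hm]
  rw [Finset.sum_comm]
  simp_rw [← Finset.mul_sum, h.div_cof hx]
  simp

/-- (I1)/(I3): `Lap N_v = 0`, `Lap V_Q = n`. -/
theorem lap_NV (h : SC Ω u) (hx : x ∈ Ω) (hm : affineMaximalOp n u x = 0)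
    (c₀ : ℝ) (v : 𝔼) (s : ℝ) : lap u (NV u c₀ v s) x = s * n := by
  have hρ := rho_pos h hx
  have hρd := diffAt h.isOpen (contDiffOn_rho h) hx
  have hsd := diffAt h.isOpen (contDiffOn_sg h c₀ v s) hx
  have hfd : ∀ i, DifferentiableAt ℝ (fld u (rho u) i) x := fun i =>
    diffAt h.isOpen (contDiffOn_fld h h.isOpen le_rfl (contDiffOn_rho h) i) hx
  have hcoord : ∀ k, DifferentiableAt ℝ (fun y : 𝔼 => y k) x := fun k =>
    (EuclideanSpace.proj (𝕜 := ℝ) k).differentiableAt
  have hwd : ∀ k, DifferentiableAt ℝ (fun y : 𝔼 => v k - s * y k) x := fun k =>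
    (differentiableAt_const _).sub ((hcoord k).const_mul s)
  have hinvd : DifferentiableAt ℝ (fun y => (rho u y)⁻¹) x := hρd.inv hρ.ne'
  have h1 : ∀ i, pderiv i (fld u (NV u c₀ v s) i) x
      = pderiv i (fun y => sg u c₀ v s y * fld u (rho u) i y) x
        - pderiv i (fun y => (rho u y)⁻¹ * (v i - s * y i)) x := by
    intro i
    rw [← pd_sub (hsd.fun_mul (hfd i)) (hinvd.fun_mul (hwd i))]
    apply pd_congr
    filter_upwards [h.isOpen.mem_nhds hx] with y hy
    exact fld_NV h hy c₀ v s i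
  have hdw : ∀ i, pderiv i (fun y : 𝔼 => v i - s * y i) x = - s := by
    intro i
    rw [pd_sub (differentiableAt_const _) ((hcoord i).const_mul s), pd_const,
      pd_const_mul _ (hcoord i), pd_coord]
    simp
  have hdinv : ∀ i, pderiv i (fun y => (rho u y)⁻¹) x = - ((rho u x)^2)⁻¹ * pderiv i (rho u) x :=
    fun i => pd_comp (φ := fun t => t⁻¹) hρd (hasDerivAt_inv hρ.ne')
  unfold lap
  simp_rw [h1]
  rw [Finset.sum_sub_distrib, div_mul hsd hfd, div_mul hinvd hwd, div_fld_rho h hx hm]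
  simp_rw [hdw, hdinv]
  -- `Σ σ_i Y_i = -ρ⁻² Σ ρ_j w_j`
  have h2 : ∑ i, pderiv i (sg u c₀ v s) x * fld u (rho u) i x
      = - (((rho u x)^2)⁻¹ * ∑ j, pderiv j (rho u) x * (v j - s * x j)) := by
    unfold fld
    have : ∀ i, pderiv i (sg u c₀ v s) x * (rho u x ^ n * ∑ j, cof u x i j * pderiv j (rho u) x)
        = ∑ j, rho u x ^ n * pderiv j (rho u) x * (cof u x j i * pderiv i (sg u c₀ v s) x) := by
      intro i
      rw [Finset.mul_sum, Finset.mul_sum]
      refine Finset.sum_congr rfl fun j _ => ?_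
      rw [h.cof_symm hx j i]; ring
    simp_rw [this]
    rw [Finset.sum_comm]
    simp_rw [← Finset.mul_sum, cof_sg h hx]
    rw [Finset.mul_sum, ← Finset.sum_neg_distrib]
    refine Finset.sum_congr rfl fun j _ => ?_
    have h2 := rho_pow h hx
    have h3 : rho u x ^ n * (hessianMat u x).det = ((rho u x)^2)⁻¹ := by
      field_simp
      rw [← h2]; ring
    linear_combination (-(pderiv j (rho u) x * (v j - s * x j))) * h3
  rw [h2]
  simp only [Finset.sum_const, Finset.card_univ, Fintype.card_fin, nsmul_eq_mul]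
  have h4 : ∑ i, -(rho u x ^ 2)⁻¹ * pderiv i (rho u) x * (v i - s * x i)
      = -((rho u x ^ 2)⁻¹ * ∑ j, pderiv j (rho u) x * (v j - s * x j)) := by
    rw [Finset.mul_sum, ← Finset.sum_neg_distrib]
    refine Finset.sum_congr rfl fun j _ => ?_
    ring
  rw [h4]
  field_simp
  ring

lemma div_cofX (h : SC Ω u) (hx : x ∈ Ω) {X : Fin n → 𝔼 → ℝ}
    (hX : ∀ j, DifferentiableAt ℝ (X j) x) :
    ∑ i, pderiv i (fun y => ∑ j, cof u y i j * X j y) x
      = ∑ i, ∑ j, cof u x i j * pderiv i (X j) x := by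
  have hcd : ∀ i j, DifferentiableAt ℝ (fun y => cof u y i j) x := fun i j =>
    diffAt h.isOpen (h.contDiffOn_cof i j) hx
  have h2 : ∀ i, pderiv i (fun y => ∑ j, cof u y i j * X j y) x
      = ∑ j, cof u x i j * pderiv i (X j) x
        + ∑ j, X j x * pderiv i (fun y => cof u y i j) x := by
    intro i
    rw [pd_sum _ (fun j _ => (hcd i j).fun_mul (hX j)), ← Finset.sum_add_distrib]
    exact Finset.sum_congr rfl fun j _ => pd_mul (hcd i j) (hX j)
  simp_rw [h2]
  rw [Finset.sum_add_distrib, Finset.sum_comm (γ := Fin n) (f := fun i j => X j x * _)]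
  simp_rw [← Finset.mul_sum, h.div_cof hx]
  simp

lemma pd_aff (h : SC Ω u) (hx : x ∈ Ω) (a : ℝ) (b : 𝔼 →L[ℝ] ℝ) (c : ℝ) (i : Fin n) :
    pderiv i (aff u a b c) x = a * pderiv i u x + b (EuclideanSpace.single i 1) := by
  unfold aff
  have h1 : DifferentiableAt ℝ (fun y => a * u y) x := (h.differentiableAt hx).const_mul a
  have h2 : DifferentiableAt ℝ (fun y => b y) x := b.differentiableAt
  rw [pd_add (h1.fun_add h2) (differentiableAt_const _), pd_add h1 h2, pd_const, pd_clm,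
    pd_const_mul _ (h.differentiableAt hx), add_zero]

lemma lap_aff (h : SC Ω u) (hx : x ∈ Ω) (a : ℝ) (b : 𝔼 →L[ℝ] ℝ) (c : ℝ) :
    rho u x * lap u (aff u a b c) x = n * (a + ip u (rho u) (aff u a b c) x) := by
  have hρ := rho_pos h hx
  have hρd := diffAt h.isOpen (contDiffOn_rho h) hx
  have hF := contDiffOn_aff h a b c
  have hFd : ∀ j, DifferentiableAt ℝ (fun y => pderiv j (aff u a b c) y) x := fun j =>
    diffAt h.isOpen (contDiffOn_pderiv_infty h.isOpen hF j) hx
  have hcd : ∀ i j, DifferentiableAt ℝ (fun y => cof u y i j) x := fun i j =>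
    diffAt h.isOpen (h.contDiffOn_cof i j) hx
  have hud : ∀ j, DifferentiableAt ℝ (fun y => pderiv j u y) x := fun j =>
    diffAt h.isOpen (contDiffOn_pderiv_infty h.isOpen h.smooth j) hx
  have hCd : ∀ i, DifferentiableAt ℝ
      (fun y => ∑ j, cof u y i j * pderiv j (aff u a b c) y) x := fun i =>
    DifferentiableAt.fun_sum fun j _ => (hcd i j).fun_mul (hFd j)
  -- Hessian of F
  have hH : ∀ i j, pderiv i (fun y => pderiv j (aff u a b c) y) x = a * hessianMat u x i j := by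
    intro i j
    have e : (fun y => pderiv j (aff u a b c) y) =ᶠ[𝓝 x]
        fun y => a * pderiv j u y + b (EuclideanSpace.single j 1) := by
      filter_upwards [h.isOpen.mem_nhds hx] with y hy using pd_aff h hy a b c j
    rw [pd_congr e, pd_add ((hud j).const_mul a) (differentiableAt_const _), pd_const,
      pd_const_mul _ (hud j), add_zero]
    rfl
  have hsymm : ∀ i j, hessianMat u x i j = hessianMat u x j i := by
    intro i j
    have := (h.posDef x hx).isHermitian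
    have h2 := congrFun (congrFun this i) j
    simpa [Matrix.conjTranspose_apply] using h2.symm
  have hdivC : ∑ i, pderiv i (fun y => ∑ j, cof u y i j * pderiv j (aff u a b c) y) x
      = a * n * (hessianMat u x).det := by
    rw [div_cofX h hx hFd]
    simp_rw [hH]
    have : ∀ i, ∑ j, cof u x i j * (a * hessianMat u x i j) = a * (hessianMat u x).det := by
      intro i
      have h3 := SC.cof_mul_hess u x i i
      simp only [if_true] at h3
      rw [← h3, Finset.mul_sum]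
      refine Finset.sum_congr rfl fun j _ => ?_
      rw [hsymm i j]; ring
    simp_rw [this]
    simp; ring
  have hpow : ∀ i, rho u x * pderiv i (fun y => rho u y ^ n) x
      = n * rho u x ^ n * pderiv i (rho u) x := by
    intro i
    rw [pd_comp (φ := fun t => t ^ n) hρd (hasDerivAt_pow n _)]
    rcases Nat.eq_zero_or_pos n with h0 | h0
    · simp [h0]
    · have : rho u x ^ n = rho u x ^ (n - 1) * rho u x := by
        rw [← pow_succ, Nat.sub_add_cancel h0]
      rw [this]; ring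
  have hlap : lap u (aff u a b c) x
      = rho u x * (rho u x ^ n * (a * n * (hessianMat u x).det)
        + ∑ i, pderiv i (fun y => rho u y ^ n) x
            * ∑ j, cof u x i j * pderiv j (aff u a b c) x) := by
    unfold lap
    congr 1
    have : ∀ i, pderiv i (fld u (aff u a b c) i) x
        = pderiv i (fun y => rho u y ^ n * ∑ j, cof u y i j * pderiv j (aff u a b c) y) x :=
      fun i => rfl
    simp_rw [this]
    rw [div_mul (f := fun y => rho u y ^ n)
      (X := fun i y => ∑ j, cof u y i j * pderiv j (aff u a b c) y) (hρd.fun_pow n) hCd, hdivC]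
  rw [hlap]
  have hip : ip u (rho u) (aff u a b c) x
      = rho u x * (rho u x ^ n * ∑ i, pderiv i (rho u) x
          * ∑ j, cof u x i j * pderiv j (aff u a b c) x) := by
    unfold ip fld
    congr 1
    rw [Finset.mul_sum]
    refine Finset.sum_congr rfl fun i _ => ?_
    ring
  rw [hip]
  have h5 : rho u x * ∑ i, pderiv i (fun y => rho u y ^ n) x
            * ∑ j, cof u x i j * pderiv j (aff u a b c) x
      = n * (rho u x ^ n * ∑ i, pderiv i (rho u) x
          * ∑ j, cof u x i j * pderiv j (aff u a b c) x) := by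
    rw [Finset.mul_sum, Finset.mul_sum, Finset.mul_sum]
    refine Finset.sum_congr rfl fun i _ => ?_
    rw [← mul_assoc, hpow]; ring
  have h6 := rho_pow h hx
  linear_combination (rho u x) * h5 + (a * n) * h6

/-- (I2), (I3): `N_v Lap F = n(⟨F,N_v⟩ + F₀(v))`, `V Lap F = n(⟨F,V⟩ + F(Q) - F)`. -/
theorem NV_lap_aff (h : SC Ω u) (hx : x ∈ Ω) (a : ℝ) (b : 𝔼 →L[ℝ] ℝ) (c : ℝ)
    (c₀ : ℝ) (v : 𝔼) (s : ℝ) :
    NV u c₀ v s x * lap u (aff u a b c) x
      = n * (ip u (aff u a b c) (NV u c₀ v s) x + a * (c₀ - s * u x) + b (v - s • x)) := by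
  have hρ := rho_pos h hx
  have hw : ∀ i, pderiv i (aff u a b c) x * (v i - s * x i)
      = a * (pderiv i u x * (v i - s * x i))
        + b (EuclideanSpace.single i 1) * (v i - s * x i) := by
    intro i; rw [pd_aff h hx]; ring
  have hbv : b (v - s • x) = ∑ i, b (EuclideanSpace.single i 1) * (v i - s * x i) := by
    conv_lhs => rw [← sum_single (v - s • x)]
    rw [map_sum]
    refine Finset.sum_congr rfl fun i _ => ?_
    rw [map_smul, smul_eq_mul, mul_comm]
    simp
  have hip : ip u (aff u a b c) (NV u c₀ v s) x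
      = sg u c₀ v s x * ip u (aff u a b c) (rho u) x
        - ∑ i, pderiv i (aff u a b c) x * (v i - s * x i) := by
    unfold ip
    simp_rw [fld_NV h hx]
    have e1 : (∑ i, pderiv i (aff u a b c) x * (v i - s * x i))
      = rho u x * ∑ i, pderiv i (aff u a b c) x * ((rho u x)⁻¹ * (v i - s * x i)) := by
      rw [Finset.mul_sum]
      refine Finset.sum_congr rfl fun i _ => ?_
      field_simp
    rw [e1, mul_left_comm, ← mul_sub]
    congr 1
    rw [Finset.mul_sum, ← Finset.sum_sub_distrib]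
    refine Finset.sum_congr rfl fun i _ => ?_
    ring
  rw [hip, ip_comm h hx, hbv]
  simp_rw [hw]
  rw [Finset.sum_add_distrib, ← Finset.mul_sum]
  have h1 := lap_aff h hx a b c
  have h2 : sg u c₀ v s x = c₀ - s * u x - ∑ k, pderiv k u x * (v k - s * x k) := rfl
  unfold NV
  rw [mul_comm (rho u x) (sg u c₀ v s x), mul_assoc, h1]
  rw [h2]
  ring

end ident

end Crest.Agent.R236.Bl
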