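/-
Row 236 (affine Bernstein, n ≤ 9), Part C: from the bracket certificate (shape `CertShape`) to the
"end theorem" consumed by the integral form C4.  Pure Mathlib.  helper195.
-/
import Mathlib

set_option autoImplicit false
open scoped ContDiff RealInnerProductSpace

namespace Crest.Agent.R236.Cert

/-- The bracket of C3 without the `μ` terms. -/
noncomputable def Br0 (n d : ℕ) (F Fp Fq : Fin 4 → ℝ → ℝ → ℝ) (p q : ℝ)
    (aa bb AA BB ab aA aB bA bB AB : ℝ) : ℝ :=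
  let th : Fin 4 → ℝ := fun k => p * ((1 - (n:ℝ)/2 - d) * F k p q + (p + q) * Fp k p q)
  let ph : Fin 4 → ℝ := fun k => q * ((1 - (n:ℝ)/2 - d) * F k p q + (p + q) * Fq k p q)
  let G : Fin 4 → ℝ := fun k => (p + q) * F k p q
  (G 0 - th 0) * aa + (G 1 - ph 1) * bb + (G 2 - th 2) * AA + (G 3 - ph 3) * BB
    - (ph 0 + th 1) * ab - (th 0 + th 2) * aA - (ph 0 + th 3 + n * G 0) * aB
    - (th 1 + ph 2 + n * G 1) * bA - (ph 1 + ph 3) * bB - (ph 2 + th 3) * AB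

/-- The shape of the exact certificate. -/
def CertShape (n : ℕ) : Prop :=
  ∃ (d : ℕ) (eps C : ℝ) (F Fp Fq : Fin 4 → ℝ → ℝ → ℝ), 0 < eps ∧ 0 < C ∧
    (∀ k, ContDiff ℝ ∞ (fun z : ℝ × ℝ => F k z.1 z.2)) ∧
    (∀ k p q, HasDerivAt (fun t => F k t q) (Fp k p q) p ∧
      HasDerivAt (fun t => F k p t) (Fq k p q) q) ∧
    (∀ k p q, 0 < p → 0 < q → |F k p q| ≤ C * (p + q) ^ d) ∧
    (∀ p q : ℝ, 0 < p → 0 < q → ∀ aa bb AA BB ab aA aB bA bB AB : ℝ,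
      (∀ x y z w : ℝ, 0 ≤ x^2*aa + y^2*bb + z^2*AA + w^2*BB + 2*x*y*ab + 2*x*z*aA
        + 2*x*w*aB + 2*y*z*bA + 2*y*w*bB + 2*z*w*AB) →
      aA = aB - 1/p → bB = bA - 1/q →
      eps * (p + q) ^ (d + 1) * (aa + bb + AA + BB + 1/p + 1/q)
        ≤ Br0 n d F Fp Fq p q aa bb AA BB ab aA aB bA bB AB)

/-- The divergences of `a, b, A, B` (C2). -/
noncomputable def dv (n : ℕ) {V : Type} [NormedAddCommGroup V] [InnerProductSpace ℝ V]
    (X : Fin 4 → V) : Fin 4 → ℝ :=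
  ![(n:ℝ) * ⟪X 0, X 3⟫ - ‖X 0‖^2, (n:ℝ) * ⟪X 1, X 2⟫ - ‖X 1‖^2, -‖X 2‖^2, -‖X 3‖^2]

/-- The end theorem. -/
def CertFin (n : ℕ) : Prop :=
  ∃ (eps C : ℝ) (G Gp Gq : Fin 4 → ℝ → ℝ → ℝ), 0 < eps ∧ 0 < C ∧
    (∀ k, ContDiffOn ℝ ∞ (fun z : ℝ × ℝ => G k z.1 z.2) {z | 0 < z.1 ∧ 0 < z.2}) ∧
    (∀ k p q, 0 < p → 0 < q → HasDerivAt (fun t => G k t q) (Gp k p q) p ∧
      HasDerivAt (fun t => G k p t) (Gq k p q) q) ∧
    (∀ p q, 0 < p → 0 < q → ∀ {V : Type} [NormedAddCommGroup V] [InnerProductSpace ℝ V]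
      (X : Fin 4 → V),
      ⟪X 0, X 2⟫ = ⟪X 0, X 3⟫ - 1/p → ⟪X 1, X 3⟫ = ⟪X 1, X 2⟫ - 1/q →
      eps * (p + q) ^ (1 - (n:ℝ)/2) * ((∑ k, ‖X k‖^2) + 1/p + 1/q)
        ≤ -(∑ k, (G k p q * dv n X k + Gp k p q * p * ⟪X 0 + X 2, X k⟫
            + Gq k p q * q * ⟪X 1 + X 3, X k⟫)) ∧
      ‖∑ k, G k p q • X k‖^2 ≤ C * (p + q) ^ (2 - (n:ℝ)) * ∑ k, ‖X k‖^2)

theorem gram_nonneg {V : Type} [NormedAddCommGroup V] [InnerProductSpace ℝ V]
    (X : Fin 4 → V) (x y z w : ℝ) :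
    0 ≤ x^2*‖X 0‖^2 + y^2*‖X 1‖^2 + z^2*‖X 2‖^2 + w^2*‖X 3‖^2 + 2*x*y*⟪X 0, X 1⟫
      + 2*x*z*⟪X 0, X 2⟫ + 2*x*w*⟪X 0, X 3⟫ + 2*y*z*⟪X 1, X 2⟫ + 2*y*w*⟪X 1, X 3⟫
      + 2*z*w*⟪X 2, X 3⟫ := by
  have h := @real_inner_self_nonneg V _ _ (x • X 0 + y • X 1 + z • X 2 + w • X 3)
  simp only [inner_add_left, inner_add_right, real_inner_smul_left, real_inner_smul_right,
    real_inner_self_eq_norm_sq, norm_smul, mul_pow, Real.norm_eq_abs, sq_abs] at h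
  have e1 := real_inner_comm (X 0) (X 1)
  have e2 := real_inner_comm (X 0) (X 2)
  have e3 := real_inner_comm (X 0) (X 3)
  have e4 := real_inner_comm (X 1) (X 2)
  have e5 := real_inner_comm (X 1) (X 3)
  have e6 := real_inner_comm (X 2) (X 3)
  rw [e1, e2, e3, e4, e5, e6] at h
  nlinarith [h]

theorem certFin_of (n : ℕ) (hc : CertShape n) : CertFin n := by
  obtain ⟨d, eps, C, F, Fp, Fq, heps, hC, hsm, hder, hbd, hpos⟩ := hc
  have hpow : ∀ p q : ℝ, 0 < p → 0 < q →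
      (p + q) ^ (1 - (n:ℝ)/2 - d) = (p + q) ^ (-(n:ℝ)/2 - d) * (p + q) := by
    intro p q hp hq
    have hs : 0 < p + q := by positivity
    rw [show (1 - (n:ℝ)/2 - d) = (-(n:ℝ)/2 - d) + 1 by ring, Real.rpow_add_one hs.ne']
  refine ⟨eps, 4 * C^2,
    fun k p q => (p + q) ^ (1 - (n:ℝ)/2 - d) * F k p q,
    fun k p q => (1 - (n:ℝ)/2 - d) * (p + q) ^ (-(n:ℝ)/2 - d) * F k p q
      + (p + q) ^ (1 - (n:ℝ)/2 - d) * Fp k p q,
    fun k p q => (1 - (n:ℝ)/2 - d) * (p + q) ^ (-(n:ℝ)/2 - d) * F k p q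
      + (p + q) ^ (1 - (n:ℝ)/2 - d) * Fq k p q, heps, by positivity, ?_, ?_, ?_⟩
  · intro k
    refine ContDiffOn.mul ?_ (hsm k).contDiffOn
    refine ContDiffOn.rpow_const_of_ne ((contDiff_fst.add contDiff_snd).contDiffOn) ?_
    rintro ⟨p, q⟩ ⟨hp, hq⟩
    simp only at hp hq ⊢
    positivity
  · intro k p q hp hq
    have hs : 0 < p + q := by positivity
    constructor
    · have h1 : HasDerivAt (fun t : ℝ => t + q) 1 p := (hasDerivAt_id p).add_const q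
      have h2 := h1.rpow_const (p := (1 - (n:ℝ)/2 - d)) (Or.inl hs.ne')
      have h3 := h2.mul (hder k p q).1
      refine h3.congr_deriv ?_
      rw [show (1 - (n:ℝ)/2 - d - 1) = (-(n:ℝ)/2 - d) by ring]
      ring
    · have h1 : HasDerivAt (fun t : ℝ => p + t) 1 q := (hasDerivAt_id q).const_add p
      have h2 := h1.rpow_const (p := (1 - (n:ℝ)/2 - d)) (Or.inl hs.ne')
      have h3 := h2.mul (hder k p q).2
      refine h3.congr_deriv ?_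
      rw [show (1 - (n:ℝ)/2 - d - 1) = (-(n:ℝ)/2 - d) by ring]
      ring
  · intro p q hp hq V _ _ X hA hB
    have hs : 0 < p + q := by positivity
    set R : ℝ := (p + q) ^ (-(n:ℝ)/2 - d) with hR
    have hRpos : 0 < R := Real.rpow_pos_of_pos hs _
    constructor
    · have key := hpos p q hp hq (‖X 0‖^2) (‖X 1‖^2) (‖X 2‖^2) (‖X 3‖^2) ⟪X 0, X 1⟫
              ⟪X 0, X 2⟫ ⟪X 0, X 3⟫ ⟪X 1, X 2⟫ ⟪X 1, X 3⟫ ⟪X 2, X 3⟫ (fun x y z w => gram_nonneg X x y z w) hA hB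
      have hid : -(∑ k, ((p + q) ^ (1 - (n:ℝ)/2 - d) * F k p q * dv n X k
          + ((1 - (n:ℝ)/2 - d) * R * F k p q
            + (p + q) ^ (1 - (n:ℝ)/2 - d) * Fp k p q) * p * ⟪X 0 + X 2, X k⟫
          + ((1 - (n:ℝ)/2 - d) * R * F k p q
            + (p + q) ^ (1 - (n:ℝ)/2 - d) * Fq k p q) * q * ⟪X 1 + X 3, X k⟫))
          = R * Br0 n d F Fp Fq p q (‖X 0‖^2) (‖X 1‖^2) (‖X 2‖^2) (‖X 3‖^2) ⟪X 0, X 1⟫
              ⟪X 0, X 2⟫ ⟪X 0, X 3⟫ ⟪X 1, X 2⟫ ⟪X 1, X 3⟫ ⟪X 2, X 3⟫ := by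
        rw [hpow p q hp hq, ← hR]
        have e1 := real_inner_comm (X 0) (X 1)
        have e2 := real_inner_comm (X 0) (X 2)
        have e3 := real_inner_comm (X 0) (X 3)
        have e4 := real_inner_comm (X 1) (X 2)
        have e5 := real_inner_comm (X 1) (X 3)
        have e6 := real_inner_comm (X 2) (X 3)
        simp only [Fin.sum_univ_four, inner_add_left, real_inner_self_eq_norm_sq, dv,
          Matrix.cons_val_zero, Matrix.cons_val_one, Matrix.cons_val, Br0, e1, e2, e3, e4, e5, e6]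
        ring
      have hpp : (p + q) ^ (1 - (n:ℝ)/2) = R * (p + q) ^ (d + 1) := by
        rw [hR, ← Real.rpow_natCast (p + q) (d + 1), ← Real.rpow_add hs]
        congr 1
        push_cast
        ring
      calc eps * (p + q) ^ (1 - (n:ℝ)/2) * ((∑ k, ‖X k‖^2) + 1/p + 1/q)
          = R * (eps * (p + q) ^ (d + 1) * (‖X 0‖^2 + ‖X 1‖^2 + ‖X 2‖^2 + ‖X 3‖^2 + 1/p + 1/q)) := by
            rw [hpp, Fin.sum_univ_four]; ring
        _ ≤ R * Br0 n d F Fp Fq p q (‖X 0‖^2) (‖X 1‖^2) (‖X 2‖^2) (‖X 3‖^2) ⟪X 0, X 1⟫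
              ⟪X 0, X 2⟫ ⟪X 0, X 3⟫ ⟪X 1, X 2⟫ ⟪X 1, X 3⟫ ⟪X 2, X 3⟫ := by
            exact mul_le_mul_of_nonneg_left key hRpos.le
        _ = _ := hid.symm
    · set g : Fin 4 → ℝ := fun k => (p + q) ^ (1 - (n:ℝ)/2 - d) * F k p q with hg
      have hgb : ∀ k, g k ^ 2 ≤ C^2 * (p + q) ^ (2 - (n:ℝ)) := by
        intro k
        have h1 : |F k p q| ≤ C * (p + q) ^ d := hbd k p q hp hq
        have h2 : 0 < (p + q) ^ (1 - (n:ℝ)/2 - d) := Real.rpow_pos_of_pos hs _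
        have h3 : (F k p q)^2 ≤ (C * (p + q) ^ d)^2 := by
          rw [← sq_abs (F k p q)]
          exact pow_le_pow_left₀ (abs_nonneg _) h1 2
        have h4 : ((p + q) ^ (1 - (n:ℝ)/2 - d))^2 * ((p + q) ^ d)^2 = (p + q) ^ (2 - (n:ℝ)) := by
          rw [← mul_pow, ← Real.rpow_natCast (p + q) d, ← Real.rpow_add hs,
            ← Real.rpow_natCast _ 2, ← Real.rpow_mul hs.le]
          congr 1
          push_cast
          ring
        calc g k ^ 2 = ((p + q) ^ (1 - (n:ℝ)/2 - d))^2 * (F k p q)^2 := by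
              simp only [hg]; ring
          _ ≤ ((p + q) ^ (1 - (n:ℝ)/2 - d))^2 * (C * (p + q) ^ d)^2 :=
              mul_le_mul_of_nonneg_left h3 (sq_nonneg _)
          _ = C^2 * (((p + q) ^ (1 - (n:ℝ)/2 - d))^2 * ((p + q) ^ d)^2) := by ring
          _ = _ := by rw [h4]
      have h5 : ‖∑ k, g k • X k‖ ≤ ∑ k, |g k| * ‖X k‖ := by
        refine (norm_sum_le _ _).trans (Finset.sum_le_sum fun k _ => ?_)
        rw [norm_smul, Real.norm_eq_abs]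
      have h6 : (∑ k, |g k| * ‖X k‖)^2 ≤ 4 * ∑ k, (|g k| * ‖X k‖)^2 := by
        have := @sq_sum_le_card_mul_sum_sq (Fin 4) ℝ _ _ _ _ Finset.univ (fun k => |g k| * ‖X k‖)
        simpa using this
      calc ‖∑ k, g k • X k‖^2 ≤ (∑ k, |g k| * ‖X k‖)^2 :=
            pow_le_pow_left₀ (norm_nonneg _) h5 2
        _ ≤ 4 * ∑ k, (|g k| * ‖X k‖)^2 := h6
        _ ≤ 4 * ∑ k, (C^2 * (p + q) ^ (2 - (n:ℝ))) * ‖X k‖^2 := by
            refine mul_le_mul_of_nonneg_left (Finset.sum_le_sum fun k _ => ?_) (by norm_num)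
            rw [mul_pow, sq_abs]
            exact mul_le_mul_of_nonneg_right (hgb k) (sq_nonneg _)
        _ = _ := by rw [← Finset.mul_sum]; ring

end Crest.Agent.R236.Cert
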