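import Mathlib
import Crest.Agent.R236.Bl1
import Crest.Agent.R236.CertFin0

/-! Row 236, Part C: C2 and C4 of the master blueprint. (helper796) -/

set_option autoImplicit false
open scoped ContDiff Topology RealInnerProductSpace MatrixOrder
open Crest.GeometryTopology.CoordMetric Crest.GeometryTopology.AffineMaximal
open Set Filter MeasureTheory

noncomputable section

namespace Crest.Agent.R236.Bl

variable {n : ℕ}

set_option hygiene false in
local notation "𝔼" => EuclideanSpace ℝ (Fin n)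

variable {Ω : Set 𝔼} {u : 𝔼 → ℝ}

/-! ### the metric form as an honest inner product -/

/-- the form `ρ^{n+1} Σ cof_ij ξ_i η_j` -/
def frm (u : 𝔼 → ℝ) (x : 𝔼) (ξ η : Fin n → ℝ) : ℝ :=
  rho u x ^ (n + 1) * ∑ i, ∑ j, cof u x i j * ξ i * η j

lemma ip_eq_frm (f g : 𝔼 → ℝ) (x : 𝔼) :
    ip u f g x = frm u x (fun i => pderiv i f x) (fun i => pderiv i g x) := ip_eq_sum

lemma exists_iso (h : SC Ω u) {x : 𝔼} (hx : x ∈ Ω) :
    ∃ T : (Fin n → ℝ) →ₗ[ℝ] EuclideanSpace ℝ (Fin n),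
      ∀ ξ η, ⟪T ξ, T η⟫ = frm u x ξ η := by
  have hP : (rho u x ^ (n+1) • cof u x).PosSemidef :=
    (h.cof_posDef hx).posSemidef.smul (pow_nonneg (rho_pos h hx).le _)
  obtain ⟨S, hS⟩ := CStarAlgebra.nonneg_iff_eq_star_mul_self.mp hP.nonneg
  refine ⟨(WithLp.linearEquiv 2 ℝ (Fin n → ℝ)).symm.toLinearMap ∘ₗ Matrix.mulVecLin S,
    fun ξ η => ?_⟩
  have h1 : ⟪((WithLp.linearEquiv 2 ℝ (Fin n → ℝ)).symm.toLinearMap ∘ₗ Matrix.mulVecLin S) ξ,
      ((WithLp.linearEquiv 2 ℝ (Fin n → ℝ)).symm.toLinearMap ∘ₗ Matrix.mulVecLin S) η⟫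
      = (S.mulVec ξ) ⬝ᵥ (S.mulVec η) := by
    simp [PiLp.inner_apply, dotProduct, mul_comm]
  rw [h1]
  have h2 : (S.mulVec ξ) ⬝ᵥ (S.mulVec η) = ξ ⬝ᵥ ((rho u x ^ (n+1) • cof u x).mulVec η) := by
    rw [hS, Matrix.star_eq_conjTranspose, Matrix.conjTranspose_eq_transpose_of_trivial,
      ← Matrix.mulVec_mulVec, Matrix.dotProduct_mulVec ξ, Matrix.vecMul_transpose]
  rw [h2]
  unfold frm
  simp only [dotProduct, Matrix.mulVec, Matrix.smul_apply, smul_eq_mul]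
  rw [Finset.mul_sum]
  refine Finset.sum_congr rfl fun i _ => ?_
  rw [Finset.mul_sum, Finset.mul_sum]
  refine Finset.sum_congr rfl fun j _ => ?_
  ring

/-- two affine functions and two vectors in duality -/
structure CData (n : ℕ) where
  aP : ℝ
  bP : EuclideanSpace ℝ (Fin n) →L[ℝ] ℝ
  cP : ℝ
  aW : ℝ
  bW : EuclideanSpace ℝ (Fin n) →L[ℝ] ℝ
  cW : ℝ
  zP : ℝ
  vP : EuclideanSpace ℝ (Fin n)
  zW : ℝ
  vW : EuclideanSpace ℝ (Fin n)
  hPP : aP * zP + bP vP = 1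
  hPW : aP * zW + bP vW = 0
  hWP : aW * zP + bW vP = 0
  hWW : aW * zW + bW vW = 1

/-- `P, W, N_{e_P}, N_{e_W}` -/
def fn (D : CData n) (u : 𝔼 → ℝ) : Fin 4 → 𝔼 → ℝ :=
  ![aff u D.aP D.bP D.cP, aff u D.aW D.bW D.cW, NV u D.zP D.vP 0, NV u D.zW D.vW 0]

/-- the set where all four are positive -/
def PS (D : CData n) (Ω : Set 𝔼) (u : 𝔼 → ℝ) : Set 𝔼 := {x | x ∈ Ω ∧ ∀ k, 0 < fn D u k x}

def pf (D : CData n) (u : 𝔼 → ℝ) (x : 𝔼) : ℝ := fn D u 0 x * fn D u 2 x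
def qf (D : CData n) (u : 𝔼 → ℝ) (x : 𝔼) : ℝ := fn D u 1 x * fn D u 3 x
def Lg (D : CData n) (u : 𝔼 → ℝ) (k : Fin 4) (x : 𝔼) : ℝ := Real.log (fn D u k x)

section C2

variable (D : CData n)

lemma PS_sub : PS D Ω u ⊆ Ω := fun _ hx => hx.1

lemma contDiffOn_fn (h : SC Ω u) (k : Fin 4) : ContDiffOn ℝ ∞ (fn D u k) Ω := by
  fin_cases k
  · exact contDiffOn_aff h _ _ _
  · exact contDiffOn_aff h _ _ _
  · exact contDiffOn_NV h _ _ _
  · exact contDiffOn_NV h _ _ _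

lemma isOpen_PS (h : SC Ω u) : IsOpen (PS D Ω u) := by
  have : PS D Ω u = ⋂ k, (Ω ∩ (fn D u k) ⁻¹' Ioi 0) := by
    ext x
    simp only [PS, mem_ofPred_eq, mem_iInter, mem_inter_iff, mem_preimage, mem_Ioi]
    exact ⟨fun hx k => ⟨hx.1, hx.2 k⟩, fun hx => ⟨(hx 0).1, fun k => (hx k).2⟩⟩
  rw [this]
  exact isOpen_iInter_of_finite fun k =>
    (contDiffOn_fn D h k).continuousOn.isOpen_inter_preimage h.isOpen isOpen_Ioi

variable {D}

lemma contDiffOn_Lg (h : SC Ω u) (k : Fin 4) : ContDiffOn ℝ ∞ (Lg D u k) (PS D Ω u) :=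
  ((contDiffOn_fn D h k).mono (PS_sub D)).log fun _ hx => (hx.2 k).ne'

lemma contDiffOn_pf (h : SC Ω u) : ContDiffOn ℝ ∞ (pf D u) (PS D Ω u) :=
  ((contDiffOn_fn D h 0).mono (PS_sub D)).mul ((contDiffOn_fn D h 2).mono (PS_sub D))

lemma contDiffOn_qf (h : SC Ω u) : ContDiffOn ℝ ∞ (qf D u) (PS D Ω u) :=
  ((contDiffOn_fn D h 1).mono (PS_sub D)).mul ((contDiffOn_fn D h 3).mono (PS_sub D))

lemma pf_pos {x : 𝔼} (hx : x ∈ PS D Ω u) : 0 < pf D u x := mul_pos (hx.2 0) (hx.2 2)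
lemma qf_pos {x : 𝔼} (hx : x ∈ PS D Ω u) : 0 < qf D u x := mul_pos (hx.2 1) (hx.2 3)

lemma fn_diff (h : SC Ω u) {x : 𝔼} (hx : x ∈ PS D Ω u) (k : Fin 4) :
    DifferentiableAt ℝ (fn D u k) x := diffAt h.isOpen (contDiffOn_fn D h k) hx.1

lemma ip_Lg_left (h : SC Ω u) {x : 𝔼} (hx : x ∈ PS D Ω u) (k : Fin 4) (g : 𝔼 → ℝ) :
    ip u (Lg D u k) g x = ip u (fn D u k) g x / fn D u k x := by
  have := ip_comp_left (u := u) (g := g) (fn_diff h hx k) (Real.hasDerivAt_log (hx.2 k).ne')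
  unfold Lg
  rw [this]; ring

lemma ip_Lg (h : SC Ω u) {x : 𝔼} (hx : x ∈ PS D Ω u) (k l : Fin 4) :
    ip u (Lg D u k) (Lg D u l) x
      = ip u (fn D u k) (fn D u l) x / (fn D u k x * fn D u l x) := by
  rw [ip_Lg_left h hx, ip_comm h hx.1, ip_Lg_left h hx, ip_comm h hx.1]
  have h1 := (hx.2 k).ne'
  have h2 := (hx.2 l).ne'
  field_simp

lemma lap_Lg (h : SC Ω u) {x : 𝔼} (hx : x ∈ PS D Ω u) (k : Fin 4) :
    lap u (Lg D u k) x = lap u (fn D u k) x / fn D u k x - ip u (Lg D u k) (Lg D u k) x := by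
  have h1 := lap_log (u := u) h (isOpen_PS D h) (PS_sub D)
    ((contDiffOn_fn D h k).mono (PS_sub D)) (fun y hy => hy.2 k) hx
  have h2 : lap u (Lg D u k) x = lap u (fun y => Real.log (fn D u k y)) x := rfl
  rw [h2, h1, ip_Lg h hx]
  ring

/-- the two expressions of `Lap P / P`. -/
lemma lapP (h : SC Ω u) {x : 𝔼} (hx : x ∈ PS D Ω u) :
    lap u (fn D u 0) x / fn D u 0 x = n * ip u (Lg D u 0) (Lg D u 3) x ∧
    lap u (fn D u 0) x / fn D u 0 x
      = n * (ip u (Lg D u 0) (Lg D u 2) x + 1 / pf D u x) := by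
  have h0 := (hx.2 0).ne'
  have h2 := (hx.2 2).ne'
  have h3 := (hx.2 3).ne'
  have e3 : fn D u 3 x * lap u (fn D u 0) x
      = n * (ip u (fn D u 0) (fn D u 3) x + 0) := by
    have := NV_lap_aff h hx.1 D.aP D.bP D.cP D.zW D.vW 0
    rw [zero_mul, sub_zero, zero_smul, sub_zero, add_assoc, D.hPW] at this
    exact this
  have e2 : fn D u 2 x * lap u (fn D u 0) x
      = n * (ip u (fn D u 0) (fn D u 2) x + 1) := by
    have := NV_lap_aff h hx.1 D.aP D.bP D.cP D.zP D.vP 0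
    rw [zero_mul, sub_zero, zero_smul, sub_zero, add_assoc, D.hPP] at this
    exact this
  constructor
  · rw [ip_Lg h hx]
    field_simp
    linear_combination e3
  · rw [ip_Lg h hx]
    unfold pf
    field_simp
    linear_combination e2

lemma lapW (h : SC Ω u) {x : 𝔼} (hx : x ∈ PS D Ω u) :
    lap u (fn D u 1) x / fn D u 1 x = n * ip u (Lg D u 1) (Lg D u 2) x ∧
    lap u (fn D u 1) x / fn D u 1 x
      = n * (ip u (Lg D u 1) (Lg D u 3) x + 1 / qf D u x) := by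
  have h0 := (hx.2 1).ne'
  have h2 := (hx.2 2).ne'
  have h3 := (hx.2 3).ne'
  have e3 : fn D u 2 x * lap u (fn D u 1) x
      = n * (ip u (fn D u 1) (fn D u 2) x + 0) := by
    have := NV_lap_aff h hx.1 D.aW D.bW D.cW D.zP D.vP 0
    rw [zero_mul, sub_zero, zero_smul, sub_zero, add_assoc, D.hWP] at this
    exact this
  have e2 : fn D u 3 x * lap u (fn D u 1) x
      = n * (ip u (fn D u 1) (fn D u 3) x + 1) := by
    have := NV_lap_aff h hx.1 D.aW D.bW D.cW D.zW D.vW 0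
    rw [zero_mul, sub_zero, zero_smul, sub_zero, add_assoc, D.hWW] at this
    exact this
  constructor
  · rw [ip_Lg h hx]
    field_simp
    linear_combination e3
  · rw [ip_Lg h hx]
    unfold qf
    field_simp
    linear_combination e2

lemma lapN (h : SC Ω u) {x : 𝔼} (hx : x ∈ PS D Ω u) (hm : affineMaximalOp n u x = 0) :
    lap u (fn D u 2) x = 0 ∧ lap u (fn D u 3) x = 0 := by
  constructor
  · have := lap_NV h hx.1 hm D.zP D.vP 0
    rw [zero_mul] at this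
    exact this
  · have := lap_NV h hx.1 hm D.zW D.vW 0
    rw [zero_mul] at this
    exact this

/-- `⟨grad p, g⟩ = p ⟨a + A, g⟩` -/
lemma ip_pf (h : SC Ω u) {x : 𝔼} (hx : x ∈ PS D Ω u) (g : 𝔼 → ℝ) :
    ip u (pf D u) g x = pf D u x * (ip u (Lg D u 0) g x + ip u (Lg D u 2) g x) := by
  have h0 := (hx.2 0).ne'
  have h2 := (hx.2 2).ne'
  have := ip_mul_left (u := u) (g := g) (fn_diff h hx 0) (fn_diff h hx 2)
  have e : ip u (pf D u) g x = ip u (fun y => fn D u 0 y * fn D u 2 y) g x := rfl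
  rw [e, this, ip_Lg_left h hx, ip_Lg_left h hx]
  unfold pf
  field_simp
  ring

lemma ip_qf (h : SC Ω u) {x : 𝔼} (hx : x ∈ PS D Ω u) (g : 𝔼 → ℝ) :
    ip u (qf D u) g x = qf D u x * (ip u (Lg D u 1) g x + ip u (Lg D u 3) g x) := by
  have h0 := (hx.2 1).ne'
  have h2 := (hx.2 3).ne'
  have := ip_mul_left (u := u) (g := g) (fn_diff h hx 1) (fn_diff h hx 3)
  have e : ip u (qf D u) g x = ip u (fun y => fn D u 1 y * fn D u 3 y) g x := rfl
  rw [e, this, ip_Lg_left h hx, ip_Lg_left h hx]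
  unfold qf
  field_simp
  ring

/-- two-variable chain rule -/
lemma pd_comp2 {G : ℝ → ℝ → ℝ} {gp gq : ℝ} {p q : 𝔼 → ℝ} {x : 𝔼} (i : Fin n)
    (hG : DifferentiableAt ℝ (fun z : ℝ × ℝ => G z.1 z.2) (p x, q x))
    (hgp : HasDerivAt (fun t => G t (q x)) gp (p x))
    (hgq : HasDerivAt (fun t => G (p x) t) gq (q x))
    (hp : DifferentiableAt ℝ p x) (hq : DifferentiableAt ℝ q x) :
    pderiv i (fun y => G (p y) (q y)) x = gp * pderiv i p x + gq * pderiv i q x := by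
  set F := fderiv ℝ (fun z : ℝ × ℝ => G z.1 z.2) (p x, q x) with hF
  have h1 : F (1, 0) = gp := by
    have hl : HasDerivAt (fun t : ℝ => ((t, q x) : ℝ × ℝ)) (1, 0) (p x) :=
      (hasDerivAt_id _).prodMk (hasDerivAt_const _ _)
    have := hG.hasFDerivAt.comp_hasDerivAt (p x) hl
    exact this.unique hgp
  have h2 : F (0, 1) = gq := by
    have hl : HasDerivAt (fun t : ℝ => ((p x, t) : ℝ × ℝ)) (0, 1) (q x) :=
      (hasDerivAt_const _ _).prodMk (hasDerivAt_id _)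
    have := hG.hasFDerivAt.comp_hasDerivAt (q x) hl
    exact this.unique hgq
  have h3 : HasFDerivAt (fun y => G (p y) (q y)) (F.comp ((fderiv ℝ p x).prod (fderiv ℝ q x))) x :=
    HasFDerivAt.comp x (g := fun z : ℝ × ℝ => G z.1 z.2) (f := fun y => (p y, q y))
      hG.hasFDerivAt (hp.hasFDerivAt.prodMk hq.hasFDerivAt)
  unfold pderiv
  rw [h3.fderiv]
  have h4 : ∀ a b : ℝ, F (a, b) = a * gp + b * gq := by
    intro a b
    have : ((a, b) : ℝ × ℝ) = a • (1, 0) + b • (0, 1) := by simp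
    rw [this, map_add, map_smul, map_smul, h1, h2]; rfl
  simp only [ContinuousLinearMap.comp_apply, ContinuousLinearMap.prod_apply]
  rw [h4]; ring

end C2

section C4

variable (D : CData n) {G Gp Gq : Fin 4 → ℝ → ℝ → ℝ}

def cf (u : 𝔼 → ℝ) (G : Fin 4 → ℝ → ℝ → ℝ) (k : Fin 4) (x : 𝔼) : ℝ :=
  G k (pf D u x) (qf D u x)

/-- the field `𝒵 = Σ_k G_k(p,q) AA∇log f_k`. -/
def Zf (u : 𝔼 → ℝ) (G : Fin 4 → ℝ → ℝ → ℝ) (i : Fin n) (x : 𝔼) : ℝ :=
  ∑ k, cf D u G k x * fld u (Lg D u k) i x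

/-- `AA(ξ,ξ)`. -/
def AAf (u : 𝔼 → ℝ) (x : 𝔼) (ξ : Fin n → ℝ) : ℝ :=
  rho u x ^ n * ∑ i, ∑ j, cof u x i j * ξ i * ξ j

variable {D}

lemma contDiffOn_cf (h : SC Ω u)
    (hG : ∀ k, ContDiffOn ℝ ∞ (fun z : ℝ × ℝ => G k z.1 z.2) {z | 0 < z.1 ∧ 0 < z.2}) (k : Fin 4) :
    ContDiffOn ℝ ∞ (cf D u G k) (PS D Ω u) := by
  have h1 : ContDiffOn ℝ ∞ (fun x => (pf D u x, qf D u x)) (PS D Ω u) :=
    (contDiffOn_pf h).prodMk (contDiffOn_qf h)
  exact (hG k).comp h1 fun x hx => ⟨pf_pos hx, qf_pos hx⟩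

lemma contDiffOn_Zf (h : SC Ω u)
    (hG : ∀ k, ContDiffOn ℝ ∞ (fun z : ℝ × ℝ => G k z.1 z.2) {z | 0 < z.1 ∧ 0 < z.2}) (i : Fin n) :
    ContDiffOn ℝ ∞ (Zf D u G i) (PS D Ω u) := by
  unfold Zf
  exact ContDiffOn.sum fun k _ => (contDiffOn_cf h hG k).mul
    (contDiffOn_fld h (isOpen_PS D h) (PS_sub D) (contDiffOn_Lg h k) i)

lemma ip_cf (h : SC Ω u)
    (hG : ∀ k, ContDiffOn ℝ ∞ (fun z : ℝ × ℝ => G k z.1 z.2) {z | 0 < z.1 ∧ 0 < z.2})
    (hder : ∀ k p q, 0 < p → 0 < q → HasDerivAt (fun t => G k t q) (Gp k p q) p ∧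
      HasDerivAt (fun t => G k p t) (Gq k p q) q) {x : 𝔼} (hx : x ∈ PS D Ω u) (k : Fin 4)
    (g : 𝔼 → ℝ) :
    ip u (cf D u G k) g x = Gp k (pf D u x) (qf D u x) * ip u (pf D u) g x
      + Gq k (pf D u x) (qf D u x) * ip u (qf D u) g x := by
  have hq : IsOpen {z : ℝ × ℝ | 0 < z.1 ∧ 0 < z.2} :=
    (isOpen_lt continuous_const continuous_fst).inter (isOpen_lt continuous_const continuous_snd)
  have hd : DifferentiableAt ℝ (fun z : ℝ × ℝ => G k z.1 z.2) (pf D u x, qf D u x) :=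
    ((hG k).contDiffAt (hq.mem_nhds ⟨pf_pos hx, qf_pos hx⟩)).differentiableAt (by simp)
  have hdd := hder k _ _ (pf_pos hx) (qf_pos hx)
  have e : ∀ i, pderiv i (cf D u G k) x = Gp k (pf D u x) (qf D u x) * pderiv i (pf D u) x
      + Gq k (pf D u x) (qf D u x) * pderiv i (qf D u) x := fun i =>
    pd_comp2 i hd hdd.1 hdd.2 (diffAt (isOpen_PS D h) (contDiffOn_pf h) hx)
      (diffAt (isOpen_PS D h) (contDiffOn_qf h) hx)
  unfold ip
  simp_rw [e]
  rw [mul_left_comm, mul_left_comm (Gq k _ _), ← mul_add]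
  congr 1
  rw [Finset.mul_sum, Finset.mul_sum, ← Finset.sum_add_distrib]
  refine Finset.sum_congr rfl fun i _ => ?_
  ring

lemma div_Zf (h : SC Ω u)
    (hG : ∀ k, ContDiffOn ℝ ∞ (fun z : ℝ × ℝ => G k z.1 z.2) {z | 0 < z.1 ∧ 0 < z.2})
    (hder : ∀ k p q, 0 < p → 0 < q → HasDerivAt (fun t => G k t q) (Gp k p q) p ∧
      HasDerivAt (fun t => G k p t) (Gq k p q) q) {x : 𝔼} (hx : x ∈ PS D Ω u) :
    rho u x * ∑ i, pderiv i (Zf D u G i) x
      = ∑ k, (G k (pf D u x) (qf D u x) * lap u (Lg D u k) x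
        + Gp k (pf D u x) (qf D u x) * pf D u x *
            (ip u (Lg D u 0) (Lg D u k) x + ip u (Lg D u 2) (Lg D u k) x)
        + Gq k (pf D u x) (qf D u x) * qf D u x *
            (ip u (Lg D u 1) (Lg D u k) x + ip u (Lg D u 3) (Lg D u k) x)) := by
  have hU := isOpen_PS D h
  have hcd : ∀ k, DifferentiableAt ℝ (cf D u G k) x := fun k =>
    diffAt hU (contDiffOn_cf h hG k) hx
  have hfd : ∀ k i, DifferentiableAt ℝ (fld u (Lg D u k) i) x := fun k i =>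
    diffAt hU (contDiffOn_fld h hU (PS_sub D) (contDiffOn_Lg h k) i) hx
  have h1 : ∀ i, pderiv i (Zf D u G i) x
      = ∑ k, pderiv i (fun y => cf D u G k y * fld u (Lg D u k) i y) x := by
    intro i
    exact pd_sum _ (fun k _ => (hcd k).fun_mul (hfd k i))
  simp_rw [h1]
  rw [Finset.sum_comm, Finset.mul_sum]
  refine Finset.sum_congr rfl fun k _ => ?_
  rw [div_fld h hU (PS_sub D) (contDiffOn_Lg h k) hx (hcd k), ip_cf h hG hder hx,
    ip_pf h hx, ip_qf h hx]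
  unfold cf
  ring

/-- the pointwise output of the certificate. -/
theorem cert_pt (h : SC Ω u) (hn : 0 < n) (hm : ∀ x ∈ Ω, affineMaximalOp n u x = 0)
    {eps C : ℝ}
    (hG : ∀ k, ContDiffOn ℝ ∞ (fun z : ℝ × ℝ => G k z.1 z.2) {z | 0 < z.1 ∧ 0 < z.2})
    (hder : ∀ k p q, 0 < p → 0 < q → HasDerivAt (fun t => G k t q) (Gp k p q) p ∧
      HasDerivAt (fun t => G k p t) (Gq k p q) q)
    (hcert : ∀ p q, 0 < p → 0 < q → ∀ {V : Type} [NormedAddCommGroup V] [InnerProductSpace ℝ V]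
      (X : Fin 4 → V),
      ⟪X 0, X 2⟫ = ⟪X 0, X 3⟫ - 1/p → ⟪X 1, X 3⟫ = ⟪X 1, X 2⟫ - 1/q →
      eps * (p + q) ^ (1 - (n:ℝ)/2) * ((∑ k, ‖X k‖^2) + 1/p + 1/q)
        ≤ -(∑ k, (G k p q * Cert.dv n X k + Gp k p q * p * ⟪X 0 + X 2, X k⟫
            + Gq k p q * q * ⟪X 1 + X 3, X k⟫)) ∧
      ‖∑ k, G k p q • X k‖^2 ≤ C * (p + q) ^ (2 - (n:ℝ)) * ∑ k, ‖X k‖^2)
    {x : 𝔼} (hx : x ∈ PS D Ω u) :
    ∃ S : ℝ, 0 ≤ S ∧
      eps * (pf D u x + qf D u x) ^ (1 - (n:ℝ)/2) * (S + 1 / pf D u x + 1 / qf D u x)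
        ≤ -(rho u x * ∑ i, pderiv i (Zf D u G i) x) ∧
      ∀ ξ : Fin n → ℝ, (∑ i, ξ i * Zf D u G i x)^2
        ≤ C / rho u x * (pf D u x + qf D u x) ^ (2 - (n:ℝ)) * S * AAf u x ξ := by
  obtain ⟨T, hT⟩ := exists_iso h hx.1
  have hρ := rho_pos h hx.1
  set X : Fin 4 → EuclideanSpace ℝ (Fin n) := fun k => T (fun i => pderiv i (Lg D u k) x) with hX
  have hXX : ∀ k l, ⟪X k, X l⟫ = ip u (Lg D u k) (Lg D u l) x := by
    intro k l
    rw [hX, ip_eq_frm]
    exact hT _ _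
  have hn' : (n:ℝ) ≠ 0 := by positivity
  have hc1 : ⟪X 0, X 2⟫ = ⟪X 0, X 3⟫ - 1 / pf D u x := by
    rw [hXX, hXX]
    obtain ⟨e1, e2⟩ := lapP (D := D) h hx
    have e3 := mul_left_cancel₀ hn' (e1.symm.trans e2)
    linarith
  have hc2 : ⟪X 1, X 3⟫ = ⟪X 1, X 2⟫ - 1 / qf D u x := by
    rw [hXX, hXX]
    obtain ⟨e1, e2⟩ := lapW (D := D) h hx
    have e3 := mul_left_cancel₀ hn' (e1.symm.trans e2)
    linarith
  obtain ⟨c1, c2⟩ := hcert _ _ (pf_pos hx) (qf_pos hx) X hc1 hc2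
  refine ⟨∑ k, ‖X k‖^2, Finset.sum_nonneg fun k _ => sq_nonneg _, ?_, ?_⟩
  · refine c1.trans (le_of_eq ?_)
    rw [div_Zf h hG hder hx]
    congr 1
    refine Finset.sum_congr rfl fun k _ => ?_
    have hlap : lap u (Lg D u k) x = Cert.dv n X k := by
      rw [lap_Lg h hx]
      obtain ⟨n2, n3⟩ := lapN (D := D) h hx (hm x hx.1)
      have hsq : ∀ k, ip u (Lg D u k) (Lg D u k) x = ‖X k‖^2 := by
        intro k; rw [← hXX, real_inner_self_eq_norm_sq]
      fin_cases k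
      · simp only [Cert.dv, Fin.zero_eta, Matrix.cons_val_zero]
        rw [(lapP (D := D) h hx).1, hsq, hXX]
      · simp only [Cert.dv, Fin.mk_one, Matrix.cons_val]
        rw [(lapW (D := D) h hx).1, hsq, hXX]
      · simp only [Cert.dv, Fin.reduceFinMk, Matrix.cons_val]
        rw [n2, hsq]; ring
      · simp only [Cert.dv, Fin.reduceFinMk, Matrix.cons_val]
        rw [n3, hsq]; ring
    rw [hlap, inner_add_left, inner_add_left, hXX, hXX, hXX, hXX]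
  · intro ξ
    have h1 : rho u x * ∑ i, ξ i * Zf D u G i x
        = ⟪T ξ, ∑ k, G k (pf D u x) (qf D u x) • X k⟫ := by
      rw [inner_sum]
      simp_rw [inner_smul_right]
      have h2 : ∀ k, ⟪T ξ, X k⟫ = rho u x * ∑ i, ξ i * fld u (Lg D u k) i x := by
        intro k
        rw [hX]
        simp only
        rw [hT]
        unfold frm fld
        rw [pow_succ, mul_comm (rho u x ^ n), mul_assoc]
        congr 1
        rw [Finset.mul_sum]
        refine Finset.sum_congr rfl fun i _ => ?_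
        simp only [Finset.mul_sum]
        refine Finset.sum_congr rfl fun j _ => ?_
        ring
      simp_rw [h2]
      unfold Zf cf
      simp_rw [Finset.mul_sum]
      rw [Finset.sum_comm]
      refine Finset.sum_congr rfl fun k _ => Finset.sum_congr rfl fun i _ => ?_
      ring
    have h3 : ‖T ξ‖^2 = rho u x * AAf u x ξ := by
      rw [← real_inner_self_eq_norm_sq, hT]
      unfold frm AAf
      rw [pow_succ]; ring
    have h4 : (rho u x * ∑ i, ξ i * Zf D u G i x)^2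
        ≤ (rho u x * AAf u x ξ) * (C * (pf D u x + qf D u x) ^ (2 - (n:ℝ)) * ∑ k, ‖X k‖^2) := by
      rw [h1, ← h3]
      calc ⟪T ξ, ∑ k, G k (pf D u x) (qf D u x) • X k⟫^2
          ≤ (‖T ξ‖ * ‖∑ k, G k (pf D u x) (qf D u x) • X k‖)^2 := by
            rw [← sq_abs]
            exact pow_le_pow_left₀ (abs_nonneg _) (abs_real_inner_le_norm _ _) 2
        _ = ‖T ξ‖^2 * ‖∑ k, G k (pf D u x) (qf D u x) • X k‖^2 := by ring
        _ ≤ _ := mul_le_mul_of_nonneg_left c2 (sq_nonneg _)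
    have h5 : (∑ i, ξ i * Zf D u G i x)^2
        = (rho u x * ∑ i, ξ i * Zf D u G i x)^2 / (rho u x)^2 := by
      field_simp
    rw [h5, div_le_iff₀ (by positivity)]
    refine h4.trans (le_of_eq ?_)
    field_simp

lemma AAf_nonneg (h : SC Ω u) {x : 𝔼} (hx : x ∈ Ω) (ξ : Fin n → ℝ) : 0 ≤ AAf u x ξ := by
  unfold AAf
  refine mul_nonneg (pow_nonneg (rho_pos h hx).le _) ?_
  have := (h.cof_posDef hx).posSemidef.dotProduct_mulVec_nonneg ξ
  simp only [star_trivial, dotProduct, Matrix.mulVec] at this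
  refine this.trans (le_of_eq ?_)
  refine Finset.sum_congr rfl fun i _ => ?_
  rw [Finset.mul_sum]
  refine Finset.sum_congr rfl fun j _ => ?_
  ring

lemma AAf_zero (x : 𝔼) : AAf u x 0 = 0 := by simp [AAf]

/-- elementary: `y² ≤ A B → 2 y ≤ A + B`. -/
lemma two_mul_le_of_sq_le {y A B : ℝ} (hA : 0 ≤ A) (hB : 0 ≤ B) (h : y ^ 2 ≤ A * B) :
    2 * y ≤ A + B := by
  by_contra hcon
  rw [not_le] at hcon
  nlinarith [sq_nonneg (A - B)]

/-- the weight of the left side of C4 -/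
def gw (D : CData n) (u : 𝔼 → ℝ) (x : 𝔼) : ℝ :=
  (pf D u x + qf D u x) ^ (1 - (n:ℝ)/2) * (1 / pf D u x + 1 / qf D u x) / rho u x

/-- the weight of the right side of C4 -/
def hw (D : CData n) (u ζ : 𝔼 → ℝ) (x : 𝔼) : ℝ :=
  (pf D u x + qf D u x) ^ (1 - (n:ℝ)/2) * AAf u x (fun i => pderiv i ζ x)

lemma contDiffOn_pq (h : SC Ω u) (r : ℝ) :
    ContDiffOn ℝ ∞ (fun x => (pf D u x + qf D u x) ^ r) (PS D Ω u) :=
  ((contDiffOn_pf h).add (contDiffOn_qf h)).rpow_const_of_ne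
    fun _ hx => (add_pos (pf_pos hx) (qf_pos hx)).ne'

lemma contDiffOn_gw (h : SC Ω u) : ContDiffOn ℝ ∞ (gw D u) (PS D Ω u) := by
  unfold gw
  refine ((contDiffOn_pq h _).mul ((contDiffOn_const.div (contDiffOn_pf h)
    fun x hx => (pf_pos hx).ne').add (contDiffOn_const.div (contDiffOn_qf h)
    fun x hx => (qf_pos hx).ne'))).div ((contDiffOn_rho h).mono (PS_sub D))
    fun x hx => (rho_pos h hx.1).ne'

lemma gw_nonneg (h : SC Ω u) {x : 𝔼} (hx : x ∈ PS D Ω u) : 0 ≤ gw D u x := by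
  have h1 := pf_pos hx
  have h2 := qf_pos hx
  have h3 := rho_pos h hx.1
  unfold gw
  positivity

lemma hw_nonneg (h : SC Ω u) {x : 𝔼} (hx : x ∈ PS D Ω u) (ζ : 𝔼 → ℝ) : 0 ≤ hw D u ζ x := by
  have h1 := pf_pos hx
  have h2 := qf_pos hx
  exact mul_nonneg (by positivity) (AAf_nonneg h hx.1 _)

lemma continuousOn_hw (h : SC Ω u) {ζ : 𝔼 → ℝ} (hζ : ContDiff ℝ 1 ζ) :
    ContinuousOn (hw D u ζ) (PS D Ω u) := by
  have hpd : ∀ i, Continuous (pderiv i ζ) := fun i =>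
    (hζ.continuous_fderiv (by simp)).clm_apply continuous_const
  unfold hw AAf
  refine (contDiffOn_pq h _).continuousOn.mul (((contDiffOn_rho h).continuousOn.mono
    (PS_sub D)).pow n |>.mul ?_)
  refine continuousOn_finsetSum _ fun i _ => continuousOn_finsetSum _ fun j _ => ?_
  exact (((h.contDiffOn_cof i j).continuousOn.mono (PS_sub D)).mul
    (hpd i).continuousOn).mul (hpd j).continuousOn

/-- C4, Bochner form on the set of positivity. -/
theorem C4_bochner (hn : 0 < n) (hcert : Cert.CertFin n) :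
    ∃ K : ℝ, 0 < K ∧ ∀ (Ω : Set 𝔼) (u : 𝔼 → ℝ) (D : CData n), SC Ω u →
      (∀ x ∈ Ω, affineMaximalOp n u x = 0) → ∀ ζ : 𝔼 → ℝ, ContDiff ℝ 1 ζ → HasCompactSupport ζ →
      tsupport ζ ⊆ PS D Ω u →
      IntegrableOn (fun x => ζ x ^ 2 * gw D u x) (PS D Ω u) ∧
      IntegrableOn (fun x => hw D u ζ x) (PS D Ω u) ∧
      ∫ x in PS D Ω u, ζ x ^ 2 * gw D u x ≤ K * ∫ x in PS D Ω u, hw D u ζ x := by
  obtain ⟨eps, C, G, Gp, Gq, heps, hC, hG, hder, hc⟩ := hcert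
  refine ⟨C / eps ^ 2, by positivity, fun Ω u D h hm ζ hζ hζc hζs => ?_⟩
  set U := PS D Ω u with hU
  have hUo : IsOpen U := isOpen_PS D h
  set K := tsupport ζ with hK
  have hKc : IsCompact K := hζc
  have hζ0 : ∀ x ∈ U, x ∉ K → ζ x = 0 := fun x _ hx => image_eq_zero_of_notMem_tsupport hx
  have hpζ0 : ∀ x ∈ U, x ∉ K → ∀ i, pderiv i ζ x = 0 := fun x hx hxK i =>
    pderiv_eq_zero_of_compact hUo hKc hζ0 hx hxK i
  have hZ : ∀ i, ContDiffOn ℝ ∞ (Zf D u G i) U := fun i => contDiffOn_Zf h hG i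
  have i1 : IntegrableOn (fun x => ζ x ^ 2 * gw D u x) U := by
    refine integrableOn_of_compact hUo hKc hζs (fun x hx hxK => by rw [hζ0 x hx hxK]; ring) ?_
    exact (hζ.continuous.pow 2).continuousOn.mul (contDiffOn_gw h).continuousOn
  have i2 : IntegrableOn (fun x => hw D u ζ x) U := by
    refine integrableOn_of_compact hUo hKc hζs (fun x hx hxK => ?_) (continuousOn_hw h hζ)
    have : (fun i => pderiv i ζ x) = 0 := by ext i; exact hpζ0 x hx hxK i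
    unfold hw
    rw [this, AAf_zero, mul_zero]
  refine ⟨i1, i2, ?_⟩
  -- the divergence theorem
  have hX : ∀ i, ContDiffOn ℝ 1 (fun x => ζ x ^ 2 * Zf D u G i x) U := fun i =>
    (hζ.contDiffOn.pow 2).mul ((hZ i).of_le (by simp))
  have hdiv := integral_div_eq_zero hUo hKc hζs hX
    (fun i x hx hxK => by rw [hζ0 x hx hxK]; ring)
  have hζd : ∀ x, DifferentiableAt ℝ ζ x := fun x => hζ.differentiable (by simp) x
  have hexp : ∀ x ∈ U, ∑ i, pderiv i (fun x => ζ x ^ 2 * Zf D u G i x) x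
      = ζ x ^ 2 * ∑ i, pderiv i (Zf D u G i) x + 2 * (ζ x * ∑ i, pderiv i ζ x * Zf D u G i x) := by
    intro x hx
    rw [div_mul (f := fun x => ζ x ^ 2) (X := Zf D u G) ((hζd x).fun_pow 2)
      (fun i => diffAt hUo (hZ i) hx)]
    congr 1
    rw [Finset.mul_sum, Finset.mul_sum]
    refine Finset.sum_congr rfl fun i _ => ?_
    rw [pd_comp (φ := fun t => t ^ 2) (hζd x) (hasDerivAt_pow 2 _)]
    push_cast
    ring
  have hpt : ∀ x ∈ U, ∑ i, pderiv i (fun x => ζ x ^ 2 * Zf D u G i x) x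
      ≤ C / eps * hw D u ζ x - eps * (ζ x ^ 2 * gw D u x) := by
    intro x hx
    rw [hexp x hx]
    obtain ⟨S, hS, hA, hB⟩ := cert_pt h hn hm hG hder hc hx
    have hρ := rho_pos h hx.1
    have hp := pf_pos hx
    have hq := qf_pos hx
    set w := (pf D u x + qf D u x) ^ (1 - (n:ℝ)/2) with hw'
    have hwpos : 0 < w := Real.rpow_pos_of_pos (by positivity) _
    have hww : (pf D u x + qf D u x) ^ (2 - (n:ℝ)) = w ^ 2 := by
      rw [hw', ← Real.rpow_natCast _ 2, ← Real.rpow_mul (by positivity)]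
      congr 1
      push_cast; ring
    have hAA := AAf_nonneg h hx.1 (fun i => pderiv i ζ x)
    have hB' := hB (fun i => pderiv i ζ x)
    rw [hww] at hB'
    set E := ∑ i, pderiv i ζ x * Zf D u G i x with hE
    set dZ := ∑ i, pderiv i (Zf D u G i) x with hdZ
    set H := AAf u x (fun i => pderiv i ζ x) with hH
    set r := 1 / pf D u x + 1 / qf D u x with hr
    have e1 : hw D u ζ x = w * H := rfl
    have e2 : gw D u x = w * r / rho u x := rfl
    rw [e1, e2]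
    have s1 : ζ x ^ 2 * dZ ≤ - (eps * ζ x ^ 2 * w * S / rho u x)
        - eps * (ζ x ^ 2 * (w * r / rho u x)) := by
      have hA' : eps * w * (S + r) ≤ -(rho u x * dZ) := by
        rw [add_assoc] at hA
        exact hA
      have h7 : eps * w * (S + r) / rho u x ≤ - dZ := by
        rw [div_le_iff₀ hρ]; linarith
      calc ζ x ^ 2 * dZ ≤ ζ x ^ 2 * (-(eps * w * (S + r) / rho u x)) :=
            mul_le_mul_of_nonneg_left (by linarith) (sq_nonneg _)
        _ = _ := by ring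
    have s2 : 2 * (ζ x * E) ≤ eps * ζ x ^ 2 * w * S / rho u x + C / eps * (w * H) := by
      refine two_mul_le_of_sq_le (by positivity) (by positivity) ?_
      calc (ζ x * E) ^ 2 = ζ x ^ 2 * E ^ 2 := by ring
        _ ≤ ζ x ^ 2 * (C / rho u x * w ^ 2 * S * H) :=
            mul_le_mul_of_nonneg_left hB' (sq_nonneg _)
        _ = _ := by field_simp
    linarith
  have i3 : IntegrableOn (fun x => ∑ i, pderiv i (fun x => ζ x ^ 2 * Zf D u G i x) x) U := by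
    refine integrableOn_of_compact hUo hKc hζs (fun x hx hxK => ?_) ?_
    · refine Finset.sum_eq_zero fun i _ => ?_
      exact pderiv_eq_zero_of_compact hUo hKc
        (fun y hy hyK => by rw [hζ0 y hy hyK]; ring) hx hxK i
    · refine continuousOn_finsetSum _ fun i _ => ?_
      exact (contDiffOn_pderiv (m := 0) hUo (hX i) (by simp) i).continuousOn
  have hmono := setIntegral_mono_on i3 ((i2.const_mul (C / eps)).sub (i1.const_mul eps))
    hUo.measurableSet hpt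
  rw [hdiv] at hmono
  have hsub : ∫ x in U, (C / eps * hw D u ζ x - eps * (ζ x ^ 2 * gw D u x))
      = C / eps * (∫ x in U, hw D u ζ x) - eps * ∫ x in U, ζ x ^ 2 * gw D u x := by
    rw [integral_sub (i2.const_mul (C / eps)) (i1.const_mul eps), integral_const_mul,
      integral_const_mul]
  have hmono2 : 0 ≤ C / eps * (∫ x in U, hw D u ζ x) - eps * ∫ x in U, ζ x ^ 2 * gw D u x := by
    rw [← hsub]; exact hmono
  have h8 : eps * (∫ x in U, ζ x ^ 2 * gw D u x) ≤ C / eps * ∫ x in U, hw D u ζ x := by linarith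
  have h9 : (∫ x in U, ζ x ^ 2 * gw D u x) ≤ (C / eps * ∫ x in U, hw D u ζ x) / eps := by
    rw [le_div_iff₀ heps]; linarith
  refine h9.trans (le_of_eq ?_)
  field_simp

/-- C4, `lintegral` form on the whole space (the form consumed by B7). -/
theorem C4_lintegral (hn : 0 < n) (hcert : Cert.CertFin n) :
    ∃ K : ℝ, 0 < K ∧ ∀ (Ω : Set 𝔼) (u : 𝔼 → ℝ) (D : CData n), SC Ω u →
      (∀ x ∈ Ω, affineMaximalOp n u x = 0) → ∀ ζ : 𝔼 → ℝ, ContDiff ℝ 1 ζ → HasCompactSupport ζ →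
      tsupport ζ ⊆ PS D Ω u →
      ∫⁻ x, ENNReal.ofReal (ζ x ^ 2 * gw D u x)
        ≤ ENNReal.ofReal K * ∫⁻ x, ENNReal.ofReal (hw D u ζ x) := by
  obtain ⟨K, hK, hmain⟩ := C4_bochner (n := n) hn hcert
  refine ⟨K, hK, fun Ω u D h hm ζ hζ hζc hζs => ?_⟩
  obtain ⟨i1, i2, hle⟩ := hmain Ω u D h hm ζ hζ hζc hζs
  have hUo : IsOpen (PS D Ω u) := isOpen_PS D h
  have e1 : ∫⁻ x, ENNReal.ofReal (ζ x ^ 2 * gw D u x)
      = ∫⁻ x in PS D Ω u, ENNReal.ofReal (ζ x ^ 2 * gw D u x) := by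
    symm
    refine setLIntegral_eq_of_support_subset ?_
    intro x hx
    by_contra hxU
    apply hx
    have : ζ x = 0 := image_eq_zero_of_notMem_tsupport fun hx' => hxU (hζs hx')
    simp [this]
  rw [e1, ← ofReal_integral_eq_lintegral_ofReal i1
    (ae_restrict_of_forall_mem hUo.measurableSet fun x hx =>
      mul_nonneg (sq_nonneg _) (gw_nonneg h hx))]
  refine (ENNReal.ofReal_le_ofReal hle).trans ?_
  rw [ENNReal.ofReal_mul hK.le, ofReal_integral_eq_lintegral_ofReal i2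
    (ae_restrict_of_forall_mem hUo.measurableSet fun x hx => hw_nonneg h hx ζ)]
  exact mul_le_mul_right (setLIntegral_le_lintegral _ _) _

end C4

end Crest.Agent.R236.Bl
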