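import Crest.Agent.R236.Cert
import Crest.Agent.R236.CertFin0

/-! Row 236, Part C: the certificate in the shape of `CertFin0` (helper194). -/

set_option autoImplicit false
open scoped ContDiff RealInnerProductSpace

namespace Crest.Agent.R236.Cert

theorem Biv.hasDerivAt1 (F : Biv) (p q : ℝ) : HasDerivAt (fun t => F.f t q) (F.f1 p q) p := by
  have h := F.hasFDerivAt p q
  have h2 : HasDerivAt (fun t : ℝ => (t, q)) ((1 : ℝ), (0 : ℝ)) p :=
    (hasDerivAt_id p).prodMk (hasDerivAt_const p q)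
  have h3 := h.comp_hasDerivAt p (f := fun t : ℝ => (t, q)) h2
  refine h3.congr_deriv ?_
  simp

theorem Biv.hasDerivAt2 (F : Biv) (p q : ℝ) : HasDerivAt (fun t => F.f p t) (F.f2 p q) q := by
  have h := F.hasFDerivAt p q
  have h2 : HasDerivAt (fun t : ℝ => (p, t)) ((0 : ℝ), (1 : ℝ)) q :=
    (hasDerivAt_const q p).prodMk (hasDerivAt_id q)
  have h3 := h.comp_hasDerivAt q (f := fun t : ℝ => (p, t)) h2
  refine h3.congr_deriv ?_
  simp

theorem CertData.shape {n : ℕ} (K : CertData n) : CertShape n := by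
  refine ⟨K.d, K.ε, K.C, ![K.Fa.f, K.Fa.swap.f, K.FA.f, K.FA.swap.f],
    ![K.Fa.f1, K.Fa.swap.f1, K.FA.f1, K.FA.swap.f1],
    ![K.Fa.f2, K.Fa.swap.f2, K.FA.f2, K.FA.swap.f2], K.ε_pos, K.C_pos, ?_, ?_, ?_, ?_⟩
  · intro k
    fin_cases k
    · exact K.Fa.smooth
    · exact K.Fa.swap.smooth
    · exact K.FA.smooth
    · exact K.FA.swap.smooth
  · intro k p q
    fin_cases k
    · exact ⟨K.Fa.hasDerivAt1 p q, K.Fa.hasDerivAt2 p q⟩
    · exact ⟨K.Fa.swap.hasDerivAt1 p q, K.Fa.swap.hasDerivAt2 p q⟩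
    · exact ⟨K.FA.hasDerivAt1 p q, K.FA.hasDerivAt2 p q⟩
    · exact ⟨K.FA.swap.hasDerivAt1 p q, K.FA.swap.hasDerivAt2 p q⟩
  · intro k p q hp hq
    fin_cases k
    · exact K.boundFa p q hp hq
    · have := K.boundFa q p hq hp
      rw [add_comm q p] at this
      exact this
    · exact K.boundFA p q hp hq
    · have := K.boundFA q p hq hp
      rw [add_comm q p] at this
      exact this
  · intro p q hp hq aa bb AA BB ab aA aB bA bB AB h h1 h2
    have hg : (Gram.mk aa bb AA BB ab aA aB bA bB AB).PSD := by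
      intro x y z w
      have := h x y z w
      simp only
      linarith
    have key := K.neg_divZ_ge p q hp hq ⟨aa, bb, AA, BB, ab, aA, aB, bA, bB, AB⟩ hg h1 h2
    refine key.trans (le_of_eq ?_)
    simp only [divZ, Br0, th, ph, Matrix.cons_val_zero, Matrix.cons_val_one, Matrix.cons_val]
    ring

theorem certShape (n : ℕ) (h3 : 3 ≤ n) (h9 : n ≤ 9) : CertShape n := by
  obtain ⟨K⟩ := cert n h3 h9
  exact K.shape

end Crest.Agent.R236.Cert
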