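/- Row 236, Part C: the algebraic end theorem for all 3 ≤ n ≤ 9 (certificate: helper194; reduction: helper195). -/
import Crest.Agent.R236.CertShape

set_option autoImplicit false

namespace Crest.Agent.R236.Cert

theorem certFin (n : ℕ) (h3 : 3 ≤ n) (h9 : n ≤ 9) : CertFin n :=
  certFin_of n (certShape n h3 h9)

end Crest.Agent.R236.Cert
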