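import Mathlib
import Crest.Agent.R236.Bl2
import Crest.Agent.R236.BApxDefs
import Crest.Agent.R236.CertFin

/-! Row 236, Part C: C4 in the language of Part B (`B.aff`, `B.sg`). (helper796) -/

set_option autoImplicit false
open scoped ContDiff Topology RealInnerProductSpace
open Crest.GeometryTopology.CoordMetric Crest.GeometryTopology.AffineMaximal
open Set Filter MeasureTheory

noncomputable section

namespace Crest.Agent.R236.Bl

variable {n : ℕ}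

/-- `AA(ξ,ξ)` for a covector `ξ`. -/
def AAc (u : EuclideanSpace ℝ (Fin n) → ℝ) (x : EuclideanSpace ℝ (Fin n))
    (ξ : EuclideanSpace ℝ (Fin n) →L[ℝ] ℝ) : ℝ :=
  rho u x ^ n * ∑ i, ∑ j, cof u x i j * ξ (EuclideanSpace.single i 1) *
    ξ (EuclideanSpace.single j 1)

lemma AAc_eq_AAf (u : EuclideanSpace ℝ (Fin n) → ℝ) (x : EuclideanSpace ℝ (Fin n))
    (ξ : EuclideanSpace ℝ (Fin n) →L[ℝ] ℝ) :
    AAc u x ξ = AAf u x (fun i => ξ (EuclideanSpace.single i 1)) := rfl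

/-- `AA = ρ⁻² (D²u)⁻¹`. -/
lemma AAc_eq_inv {Ω : Set (EuclideanSpace ℝ (Fin n))} {u : EuclideanSpace ℝ (Fin n) → ℝ}
    (h : SC Ω u) {x : EuclideanSpace ℝ (Fin n)} (hx : x ∈ Ω)
    (ξ : EuclideanSpace ℝ (Fin n) →L[ℝ] ℝ) :
    AAc u x ξ = (rho u x ^ 2)⁻¹ * ∑ i, ∑ j, (hessianMat u x)⁻¹ i j *
      ξ (EuclideanSpace.single i 1) * ξ (EuclideanSpace.single j 1) := by
  have hρ := rho_pos h hx
  have h2 := rho_pow h hx
  have h3 : rho u x ^ n * (hessianMat u x).det = (rho u x ^ 2)⁻¹ := by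
    field_simp
    rw [← h2]; ring
  unfold AAc
  rw [← h3, mul_assoc]
  congr 1
  rw [Finset.mul_sum]
  refine Finset.sum_congr rfl fun i _ => ?_
  rw [Finset.mul_sum]
  refine Finset.sum_congr rfl fun j _ => ?_
  rw [h.cof_eq hx]; ring

lemma AAc_nonneg {Ω : Set (EuclideanSpace ℝ (Fin n))} {u : EuclideanSpace ℝ (Fin n) → ℝ}
    (h : SC Ω u) {x : EuclideanSpace ℝ (Fin n)} (hx : x ∈ Ω)
    (ξ : EuclideanSpace ℝ (Fin n) →L[ℝ] ℝ) : 0 ≤ AAc u x ξ := AAf_nonneg h hx _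

lemma AAc_zero (u : EuclideanSpace ℝ (Fin n) → ℝ) (x : EuclideanSpace ℝ (Fin n)) :
    AAc u x 0 = 0 := by simp [AAc]

/-- data from two linear forms and two vectors of `E × ℝ` in duality -/
def cdata (P0 W0 : B.VV n →L[ℝ] ℝ) (pc wc : ℝ) (eP eW : B.VV n) (h1 : P0 eP = 1)
    (h2 : P0 eW = 0) (h3 : W0 eP = 0) (h4 : W0 eW = 1) : CData n where
  aP := P0 (0, 1)
  bP := P0.comp (ContinuousLinearMap.inl ℝ _ _)
  cP := pc
  aW := W0 (0, 1)
  bW := W0.comp (ContinuousLinearMap.inl ℝ _ _)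
  cW := wc
  zP := eP.2
  vP := eP.1
  zW := eW.2
  vW := eW.1
  hPP := (split P0 eP).trans h1
  hPW := (split P0 eW).trans h2
  hWP := (split W0 eP).trans h3
  hWW := (split W0 eW).trans h4
where
  split (F : B.VV n →L[ℝ] ℝ) (v : B.VV n) :
      F (0, 1) * v.2 + (F.comp (ContinuousLinearMap.inl ℝ _ _)) v.1 = F v := by
    have : v = v.2 • ((0, 1) : B.VV n) + (v.1, 0) := by
      ext <;> simp
    conv_rhs => rw [this, map_add, map_smul, smul_eq_mul]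
    simp [mul_comm]

lemma aff_eq (u : EuclideanSpace ℝ (Fin n) → ℝ) (F : B.VV n →L[ℝ] ℝ) (c : ℝ)
    (x : EuclideanSpace ℝ (Fin n)) :
    aff u (F (0, 1)) (F.comp (ContinuousLinearMap.inl ℝ _ _)) c x = B.aff F c (x, u x) := by
  have := cdata.split F (x, u x)
  unfold aff B.aff
  rw [← this]

lemma NV_eq (u : EuclideanSpace ℝ (Fin n) → ℝ) (v : B.VV n) (x : EuclideanSpace ℝ (Fin n)) :
    NV u v.2 v.1 0 x = rho u x * B.sg u v x := by
  unfold NV sg B.sg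
  rw [fderiv_eq_pd]
  simp

/-- **C4** in the language of Part B. -/
theorem cert (n : ℕ) (h3 : 3 ≤ n) (h9 : n ≤ 9) :
    ∃ K : ℝ, 0 < K ∧ ∀ (Ω : Set (EuclideanSpace ℝ (Fin n))) (u : EuclideanSpace ℝ (Fin n) → ℝ)
      (P0 W0 : B.VV n →L[ℝ] ℝ) (pc wc : ℝ) (eP eW : B.VV n), SC Ω u →
      (∀ x ∈ Ω, affineMaximalOp n u x = 0) → P0 eP = 1 → P0 eW = 0 → W0 eP = 0 → W0 eW = 1 →
      ∀ ζ : EuclideanSpace ℝ (Fin n) → ℝ, ContDiff ℝ 1 ζ → HasCompactSupport ζ →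
      tsupport ζ ⊆ {x | x ∈ Ω ∧ 0 < B.aff P0 pc (x, u x) ∧ 0 < B.aff W0 wc (x, u x) ∧
        0 < rho u x * B.sg u eP x ∧ 0 < rho u x * B.sg u eW x} →
      ∫⁻ x, ENNReal.ofReal (ζ x ^ 2 *
          ((B.aff P0 pc (x, u x) * (rho u x * B.sg u eP x) +
              B.aff W0 wc (x, u x) * (rho u x * B.sg u eW x)) ^ (1 - (n:ℝ)/2) *
            (1 / (B.aff P0 pc (x, u x) * (rho u x * B.sg u eP x)) +
              1 / (B.aff W0 wc (x, u x) * (rho u x * B.sg u eW x))) / rho u x))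
        ≤ ENNReal.ofReal K * ∫⁻ x, ENNReal.ofReal
          ((B.aff P0 pc (x, u x) * (rho u x * B.sg u eP x) +
              B.aff W0 wc (x, u x) * (rho u x * B.sg u eW x)) ^ (1 - (n:ℝ)/2) *
            AAc u x (fderiv ℝ ζ x)) := by
  obtain ⟨K, hK, hmain⟩ := C4_lintegral (n := n) (by omega) (Cert.certFin n h3 h9)
  refine ⟨K, hK, fun Ω u P0 W0 pc wc eP eW h hm h1 h2 h3 h4 ζ hζ hζc hζs => ?_⟩
  set D := cdata P0 W0 pc wc eP eW h1 h2 h3 h4 with hD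
  have f0 : ∀ x, fn D u 0 x = B.aff P0 pc (x, u x) := fun x => aff_eq u P0 pc x
  have f1 : ∀ x, fn D u 1 x = B.aff W0 wc (x, u x) := fun x => aff_eq u W0 wc x
  have f2 : ∀ x, fn D u 2 x = rho u x * B.sg u eP x := fun x => NV_eq u eP x
  have f3 : ∀ x, fn D u 3 x = rho u x * B.sg u eW x := fun x => NV_eq u eW x
  have hsub : tsupport ζ ⊆ PS D Ω u := by
    intro x hx
    obtain ⟨g0, g1, g2, g3, g4⟩ := hζs hx
    refine ⟨g0, fun k => ?_⟩
    fin_cases k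
    · exact (f0 x).symm ▸ g1
    · exact (f1 x).symm ▸ g2
    · exact (f2 x).symm ▸ g3
    · exact (f3 x).symm ▸ g4
  have := hmain Ω u D h hm ζ hζ hζc hsub
  have e1 : ∀ x, gw D u x = (B.aff P0 pc (x, u x) * (rho u x * B.sg u eP x) +
              B.aff W0 wc (x, u x) * (rho u x * B.sg u eW x)) ^ (1 - (n:ℝ)/2) *
            (1 / (B.aff P0 pc (x, u x) * (rho u x * B.sg u eP x)) +
              1 / (B.aff W0 wc (x, u x) * (rho u x * B.sg u eW x))) / rho u x := by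
    intro x
    unfold gw pf qf
    rw [f0, f1, f2, f3]
  have e2 : ∀ x, hw D u ζ x = (B.aff P0 pc (x, u x) * (rho u x * B.sg u eP x) +
              B.aff W0 wc (x, u x) * (rho u x * B.sg u eW x)) ^ (1 - (n:ℝ)/2) *
            AAc u x (fderiv ℝ ζ x) := by
    intro x
    unfold hw pf qf
    rw [f0, f1, f2, f3, AAc_eq_AAf]
    rfl
  simp_rw [e1, e2] at this
  exact this

end Crest.Agent.R236.Bl
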