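import Mathlib
import Crest.Prelude.Def_AffineMaximal
import Crest.Agent.R236.Bla
import Crest.Agent.R236.BEnE

/-! Row 236, Part B: the Blaschke identities in divergence form, and the energy inequality
specialised to solutions (helper242; uses helper272's `energy_abstract`). -/

set_option autoImplicit false
open scoped ContDiff Topology
open Crest.GeometryTopology.CoordMetric Crest.GeometryTopology.AffineMaximal
open Set Filter MeasureTheory

noncomputable section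

namespace Crest.Agent.R236.Bla

variable {n : ℕ} {Ω : Set (EuclideanSpace ℝ (Fin n))} {u : EuclideanSpace ℝ (Fin n) → ℝ}
  {x : EuclideanSpace ℝ (Fin n)}

/-- the matrix `AA = ρⁿ cof D²u` -/
def Am (u : EuclideanSpace ℝ (Fin n) → ℝ) (x : EuclideanSpace ℝ (Fin n)) :
    Matrix (Fin n) (Fin n) ℝ := fun i j => rho u x ^ n * cof u x i j

lemma contDiffOn_Am (h : SC Ω u) (i j : Fin n) : ContDiffOn ℝ ∞ (fun x => Am u x i j) Ω :=
  ((contDiffOn_rho h).pow n).mul (h.contDiffOn_cof i j)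

lemma Am_symm (h : SC Ω u) (hx : x ∈ Ω) (i j : Fin n) : Am u x i j = Am u x j i := by
  unfold Am; rw [h.cof_symm hx]

lemma Am_eq_smul (u : EuclideanSpace ℝ (Fin n) → ℝ) (x : EuclideanSpace ℝ (Fin n)) :
    Am u x = rho u x ^ n • cof u x := by
  ext i j; simp [Am]

lemma Am_posDef (h : SC Ω u) (hx : x ∈ Ω) : (Am u x).PosDef := by
  rw [Am_eq_smul]
  exact (h.cof_posDef hx).smul (pow_pos (rho_pos h hx) n)

lemma AA_eq_sum (u f g : EuclideanSpace ℝ (Fin n) → ℝ) (x : EuclideanSpace ℝ (Fin n)) :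
    AA u f g x = ∑ i, ∑ j, Am u x i j * pderiv i f x * pderiv j g x := by
  unfold AA Am
  rw [Finset.mul_sum]
  refine Finset.sum_congr rfl fun i _ => ?_
  rw [Finset.mul_sum]
  refine Finset.sum_congr rfl fun j _ => ?_
  ring

lemma bil_Am (u f g : EuclideanSpace ℝ (Fin n) → ℝ) (x : EuclideanSpace ℝ (Fin n)) :
    BEn.bil (Am u) f g x = AA u f g x := (AA_eq_sum u f g x).symm

lemma AA_comm (h : SC Ω u) (hx : x ∈ Ω) (f g : EuclideanSpace ℝ (Fin n) → ℝ) :
    AA u f g x = AA u g f x := by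
  rw [← bil_Am, ← bil_Am]
  exact BEn.bil_comm (Am_symm h hx)

/-- quadratic form of a positive definite matrix, as a double sum -/
lemma quad_nonneg {A : Matrix (Fin n) (Fin n) ℝ} (hA : A.PosDef) (a : Fin n → ℝ) :
    0 ≤ ∑ i, ∑ j, A i j * a i * a j := by
  have h1 := hA.posSemidef.dotProduct_mulVec_nonneg a
  have h2 : star a ⬝ᵥ (A.mulVec a) = ∑ i, ∑ j, A i j * a i * a j := by
    simp only [dotProduct, Matrix.mulVec, star_trivial, Finset.mul_sum]
    exact Finset.sum_congr rfl fun i _ => Finset.sum_congr rfl fun j _ => by ring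
  rwa [h2] at h1

lemma AA_nonneg (h : SC Ω u) (hx : x ∈ Ω) (f : EuclideanSpace ℝ (Fin n) → ℝ) :
    0 ≤ AA u f f x := by
  rw [AA_eq_sum]
  exact quad_nonneg (Am_posDef h hx) (fun i => pderiv i f x)

/-- Cauchy–Schwarz -/
lemma AA_cauchy (h : SC Ω u) (hx : x ∈ Ω) (f g : EuclideanSpace ℝ (Fin n) → ℝ) :
    AA u f g x ^ 2 ≤ AA u f f x * AA u g g x := by
  have key : ∀ t : ℝ, 0 ≤ AA u g g x * (t * t) + 2 * AA u f g x * t + AA u f f x := by
    intro t
    have h1 := quad_nonneg (Am_posDef h hx) (fun i => pderiv i f x + t * pderiv i g x)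
    have h2 : ∑ i, ∑ j, Am u x i j * (pderiv i f x + t * pderiv i g x) *
        (pderiv j f x + t * pderiv j g x) = AA u g g x * (t * t) + 2 * AA u f g x * t +
          AA u f f x := by
      have h3 : 2 * AA u f g x = AA u f g x + AA u g f x := by rw [AA_comm h hx g f]; ring
      rw [h3]
      simp only [AA_eq_sum, Finset.sum_mul, add_mul, ← Finset.sum_add_distrib]
      refine Finset.sum_congr rfl fun i _ => Finset.sum_congr rfl fun j _ => ?_
      ring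
    rwa [h2] at h1
  have := discrim_le_zero key
  unfold discrim at this
  nlinarith

lemma AA_add_sq_le (h : SC Ω u) (hx : x ∈ Ω) (f g : EuclideanSpace ℝ (Fin n) → ℝ) :
    2 * |AA u f g x| ≤ AA u f f x + AA u g g x := by
  have h1 := AA_cauchy h hx f g
  have h2 := AA_nonneg h hx f
  have h3 := AA_nonneg h hx g
  have h4 : (2 * |AA u f g x|) ^ 2 ≤ (AA u f f x + AA u g g x) ^ 2 := by
    rw [mul_pow, sq_abs]; nlinarith [sq_nonneg (AA u f f x - AA u g g x)]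
  exact abs_le_of_sq_le_sq' h4 (by linarith) |>.2

/-! ### divergence form -/

lemma dv_Am (u f : EuclideanSpace ℝ (Fin n) → ℝ) (x : EuclideanSpace ℝ (Fin n)) :
    rho u x * BEn.dv (Am u) f x = lap u f x := by
  unfold BEn.dv lap AAg Am
  congr 1
  refine Finset.sum_congr rfl fun i _ => ?_
  congr 1
  funext y
  rw [Finset.mul_sum]
  exact Finset.sum_congr rfl fun j _ => by ring

lemma dv_eq (h : SC Ω u) (hx : x ∈ Ω) (f : EuclideanSpace ℝ (Fin n) → ℝ) :
    BEn.dv (Am u) f x = lap u f x * (1 / rho u x) := by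
  have := (rho_pos h hx).ne'
  rw [← dv_Am]; field_simp

lemma AA_aff_symm (h : SC Ω u) (hx : x ∈ Ω) (f g : EuclideanSpace ℝ (Fin n) → ℝ) :
    AA u f g x = AA u g f x := AA_comm h hx f g

/-- (I1), divergence form -/
theorem dv_Nv (h : SC Ω u) (hx : x ∈ Ω) (hm : affineMaximalOp n u x = 0)
    (v : EuclideanSpace ℝ (Fin n) × ℝ) : BEn.dv (Am u) (Nv u v) x = 0 := by
  rw [dv_eq h hx, I1 h hx hm, zero_mul]

/-- (I3a), divergence form -/
theorem dv_VQ (h : SC Ω u) (hx : x ∈ Ω) (hm : affineMaximalOp n u x = 0)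
    (Q : EuclideanSpace ℝ (Fin n) × ℝ) :
    BEn.dv (Am u) (VQ u Q) x = n * (1 / rho u x) := by
  rw [dv_eq h hx, I3a h hx hm]

/-- (I2), divergence form -/
theorem Nv_mul_dv_aff (h : SC Ω u) (hx : x ∈ Ω) (v : EuclideanSpace ℝ (Fin n) × ℝ)
    (φ : (EuclideanSpace ℝ (Fin n) × ℝ) →L[ℝ] ℝ) (c : ℝ) :
    Nv u v x * BEn.dv (Am u) (aff u φ c) x =
      n * (AA u (Nv u v) (aff u φ c) x + φ v * (1 / rho u x)) := by
  have h1 := I2 h hx v φ c
  have h2 := (rho_pos h hx).ne'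
  rw [dv_eq h hx, AA_comm h hx, ← mul_assoc, h1]
  field_simp

/-- (I3), divergence form -/
theorem VQ_mul_dv_aff (h : SC Ω u) (hx : x ∈ Ω) (Q : EuclideanSpace ℝ (Fin n) × ℝ)
    (φ : (EuclideanSpace ℝ (Fin n) × ℝ) →L[ℝ] ℝ) (c : ℝ) :
    VQ u Q x * BEn.dv (Am u) (aff u φ c) x =
      n * (AA u (VQ u Q) (aff u φ c) x + (φ Q + c - aff u φ c x) * (1 / rho u x)) := by
  have h1 := I3 h hx Q φ c
  have h2 := (rho_pos h hx).ne'
  rw [dv_eq h hx, AA_comm h hx, ← mul_assoc, h1]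
  field_simp

/-- **the energy inequality for affine maximal graphs** -/
theorem energy {K : Set (EuclideanSpace ℝ (Fin n))} (h : SC Ω u)
    (hmax : ∀ x ∈ Ω, affineMaximalOp n u x = 0) (hK : IsCompact K) (hKΩ : K ⊆ Ω)
    (Q : EuclideanSpace ℝ (Fin n) × ℝ) (φ : (EuclideanSpace ℝ (Fin n) × ℝ) →L[ℝ] ℝ) (c₀ : ℝ)
    {c : ℝ} (hVpos : ∀ x ∈ K, 0 < VQ u Q x) (hfc : ∀ x ∈ Ω, x ∉ K → c ≤ aff u φ c₀ x) :
    IntegrableOn (fun x => VQ u Q x ^ (1 - (n:ℝ) / 2) * max (c - aff u φ c₀ x) 0 *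
      AA u (aff u φ c₀) (aff u φ c₀) x) Ω ∧
    IntegrableOn (fun x => (max (c - aff u φ c₀ x) 0) ^ 3 * VQ u Q x ^ (-((n:ℝ) / 2)) *
      (1 / rho u x)) Ω ∧
    IntegrableOn (fun x => VQ u Q x ^ (-((n:ℝ) / 2)) * (max (c - aff u φ c₀ x) 0) ^ 2 *
      (φ Q + c₀ - aff u φ c₀ x) * (1 / rho u x)) Ω ∧
    6 * ∫ x in Ω, VQ u Q x ^ (1 - (n:ℝ) / 2) * max (c - aff u φ c₀ x) 0 *
        AA u (aff u φ c₀) (aff u φ c₀) x ≤
      n * (1 + (n:ℝ) / 2) * (∫ x in Ω, (max (c - aff u φ c₀ x) 0) ^ 3 *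
        VQ u Q x ^ (-((n:ℝ) / 2)) * (1 / rho u x)) +
      3 * n * ∫ x in Ω, VQ u Q x ^ (-((n:ℝ) / 2)) * (max (c - aff u φ c₀ x) 0) ^ 2 *
        (φ Q + c₀ - aff u φ c₀ x) * (1 / rho u x) := by
  have hr : ContinuousOn (fun x => 1 / rho u x) Ω :=
    continuousOn_const.div (contDiffOn_rho h).continuousOn fun x hx => (rho_pos h hx).ne'
  have h1 := BEn.energy_abstract (A := Am u) (f := aff u φ c₀) (V := VQ u Q)
    (r := fun x => 1 / rho u x) (c := c) (q := φ Q + c₀) h.isOpen hK hKΩ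
    (fun i j => (contDiffOn_Am h i j).of_le (by norm_cast))
    (fun x hx i j => Am_symm h hx i j)
    (fun x hx => by rw [bil_Am]; exact AA_nonneg h hx _)
    ((contDiffOn_aff h φ c₀).of_le (by norm_cast)) ((contDiffOn_VQ h Q).of_le (by norm_cast))
    hr hVpos hfc (fun x hx => dv_VQ h hx (hmax x hx) Q)
    (fun x hx => by rw [bil_Am]; exact VQ_mul_dv_aff h hx Q φ c₀)
  simpa only [bil_Am] using h1

end Crest.Agent.R236.Bla
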