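import Mathlib

/-!
# Row 236, Part B, node B6 (lower mass): abstract measure theory
-/

open MeasureTheory Set
open scoped ENNReal

namespace Crest.Agent.R236.Bmass

/-- Hölder: area bounded by `m1^{(n+1)/(n+2)} m2^{1/(n+2)}`. -/
theorem holder_area {X : Type*} [MeasurableSpace X] (μ : Measure X) (n : ℕ) (N : X → ℝ)
    (hN : AEMeasurable N μ) (hpos : ∀ᵐ x ∂μ, 0 < N x) :
    μ univ ≤ (∫⁻ x, ENNReal.ofReal (N x) ∂μ) ^ (((n : ℝ) + 1) / ((n : ℝ) + 2)) *
      (∫⁻ x, ENNReal.ofReal ((N x) ^ (-((n : ℝ) + 1))) ∂μ) ^ (1 / ((n : ℝ) + 2)) := by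
  have hn2 : (0 : ℝ) < (n : ℝ) + 2 := by positivity
  have hg : AEMeasurable (fun x => ENNReal.ofReal ((N x) ^ (-((n : ℝ) + 1)))) μ :=
    (hN.pow_const _).ennreal_ofReal
  have h := ENNReal.lintegral_mul_norm_pow_le (μ := μ)
    (f := fun x => ENNReal.ofReal (N x)) (g := fun x => ENNReal.ofReal ((N x) ^ (-((n : ℝ) + 1))))
    hN.ennreal_ofReal hg
    (p := ((n : ℝ) + 1) / ((n : ℝ) + 2)) (q := 1 / ((n : ℝ) + 2)) (by positivity) (by positivity)
    (by field_simp; ring)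
  refine le_trans (le_of_eq ?_) h
  rw [← setLIntegral_univ, ← setLIntegral_one, setLIntegral_univ, setLIntegral_univ]
  refine lintegral_congr_ae ?_
  filter_upwards [hpos] with x hx
  rw [ENNReal.ofReal_rpow_of_pos hx, ENNReal.ofReal_rpow_of_pos (Real.rpow_pos_of_pos hx _),
    ← ENNReal.ofReal_mul (Real.rpow_nonneg hx.le _), ← Real.rpow_mul hx.le, ← Real.rpow_add hx]
  have : ((n : ℝ) + 1) / ((n : ℝ) + 2) + -((n : ℝ) + 1) * (1 / ((n : ℝ) + 2)) = 0 := by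
    field_simp; ring
  rw [this, Real.rpow_zero, ENNReal.ofReal_one]

/-- Hölder: area bounded by `(∫ N^{-n/2})^{2/(n+2)} m1^{n/(n+2)}`. -/
theorem holder_area' {X : Type*} [MeasurableSpace X] (μ : Measure X) (n : ℕ) (N : X → ℝ)
    (hN : AEMeasurable N μ) (hpos : ∀ᵐ x ∂μ, 0 < N x) :
    μ univ ≤ (∫⁻ x, ENNReal.ofReal ((N x) ^ (-((n : ℝ) / 2))) ∂μ) ^ (2 / ((n : ℝ) + 2)) *
      (∫⁻ x, ENNReal.ofReal (N x) ∂μ) ^ ((n : ℝ) / ((n : ℝ) + 2)) := by
  have hn2 : (0 : ℝ) < (n : ℝ) + 2 := by positivity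
  have hg : AEMeasurable (fun x => ENNReal.ofReal ((N x) ^ (-((n : ℝ) / 2)))) μ :=
    (hN.pow_const _).ennreal_ofReal
  have h := ENNReal.lintegral_mul_norm_pow_le (μ := μ)
    (f := fun x => ENNReal.ofReal ((N x) ^ (-((n : ℝ) / 2)))) (g := fun x => ENNReal.ofReal (N x))
    hg hN.ennreal_ofReal
    (p := 2 / ((n : ℝ) + 2)) (q := (n : ℝ) / ((n : ℝ) + 2)) (by positivity) (by positivity)
    (by field_simp; ring)
  refine le_trans (le_of_eq ?_) h
  rw [← setLIntegral_univ, ← setLIntegral_one, setLIntegral_univ, setLIntegral_univ]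
  refine lintegral_congr_ae ?_
  filter_upwards [hpos] with x hx
  rw [ENNReal.ofReal_rpow_of_pos hx, ENNReal.ofReal_rpow_of_pos (Real.rpow_pos_of_pos hx _),
    ← ENNReal.ofReal_mul (Real.rpow_nonneg (Real.rpow_nonneg hx.le _) _), ← Real.rpow_mul hx.le,
    ← Real.rpow_add hx]
  have : -((n : ℝ) / 2) * (2 / ((n : ℝ) + 2)) + (n : ℝ) / ((n : ℝ) + 2) = 0 := by
    field_simp; ring
  rw [this, Real.rpow_zero, ENNReal.ofReal_one]


/-- upper bound for the area of a set `S` where `m1(S) ≤ A`, `m2(S) ≤ B`. -/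
theorem area_le {X : Type*} [MeasurableSpace X] (μ : Measure X) (n : ℕ) (N : X → ℝ)
    (hN : AEMeasurable N μ) (hpos : ∀ᵐ x ∂μ, 0 < N x) (S : Set X) {A B : ℝ} (hA : 0 ≤ A)
    (hB : 0 ≤ B)
    (h1 : ∫⁻ x in S, ENNReal.ofReal (N x) ∂μ ≤ ENNReal.ofReal A)
    (h2 : ∫⁻ x in S, ENNReal.ofReal ((N x) ^ (-((n : ℝ) + 1))) ∂μ ≤ ENNReal.ofReal B) :
    μ S ≤ ENNReal.ofReal (A ^ (((n : ℝ) + 1) / ((n : ℝ) + 2)) * B ^ (1 / ((n : ℝ) + 2))) := by
  have hn2 : (0 : ℝ) < (n : ℝ) + 2 := by positivity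
  have h := holder_area (μ.restrict S) n N hN.restrict (ae_restrict_of_ae hpos)
  rw [Measure.restrict_apply_univ] at h
  refine h.trans ?_
  rw [ENNReal.ofReal_mul (Real.rpow_nonneg hA _),
    ← ENNReal.ofReal_rpow_of_nonneg hA (by positivity),
    ← ENNReal.ofReal_rpow_of_nonneg hB (by positivity)]
  exact mul_le_mul' (ENNReal.rpow_le_rpow h1 (by positivity))
    (ENNReal.rpow_le_rpow h2 (by positivity))

/-- **B6 (lower mass), abstract form.** -/
theorem lower_mass (n : ℕ) (hn : 2 ≤ n) (c C Θ : ℝ) (hc : 0 < c) (hC : 0 < C) (hcC : c ≤ C)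
    (hΘ : 0 < Θ) :
    ∃ δ0 : ℝ, 0 < δ0 ∧ ∃ ε0 : ℝ, (0 < ε0 ∧ ε0 ≤ 1) ∧ ∃ c4 : ℝ, 0 < c4 ∧
    ∀ {X : Type} [MeasurableSpace X] (μ : Measure X) (K : ℝ) (_ : 0 < K)
      (N a b P W : X → ℝ) (_ : AEMeasurable N μ) (_ : AEMeasurable a μ) (_ : AEMeasurable b μ)
      (_ : AEMeasurable P μ) (_ : AEMeasurable W μ)
      (_ : ∀ᵐ x ∂μ, 0 < N x ∧ 0 < a x ∧ 0 < b x ∧ a x ≤ C * N x ∧ b x ≤ C * N x ∧
        P x + W x ≤ Θ)
      (_ : ENNReal.ofReal (c * K ^ ((n : ℝ) / ((n : ℝ) + 2))) ≤ μ univ)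
      (_ : ∫⁻ x, ENNReal.ofReal (N x) ∂μ ≤ ENNReal.ofReal (C * K))
      (_ : ∫⁻ x, ENNReal.ofReal ((N x) ^ (-((n : ℝ) + 1))) ∂μ ≤ ENNReal.ofReal (C / K))
      (_ : ∫⁻ x in {x | a x < δ0 * N x}, ENNReal.ofReal ((N x) ^ (-((n : ℝ) + 1))) ∂μ
        ≤ ENNReal.ofReal (C * δ0 / K))
      (_ : ∫⁻ x in {x | b x < δ0 * N x}, ENNReal.ofReal ((N x) ^ (-((n : ℝ) + 1))) ∂μ
        ≤ ENNReal.ofReal (C * δ0 / K))
      (_ : ∫⁻ x in {x | P x < ε0}, ENNReal.ofReal (b x) ∂μ ≤ ENNReal.ofReal (C * ε0 * K))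
      (_ : ∫⁻ x in {x | W x < ε0}, ENNReal.ofReal (a x) ∂μ ≤ ENNReal.ofReal (C * ε0 * K)),
      ENNReal.ofReal c4 ≤ ∫⁻ x in {x | ε0 ≤ P x ∧ P x ≤ Θ ∧ ε0 ≤ W x ∧ W x ≤ Θ},
        ENNReal.ofReal ((P x * a x + W x * b x) ^ (1 - (n : ℝ) / 2) *
          (1 / (P x * a x) + 1 / (W x * b x))) ∂μ := by
  have hn2 : (0 : ℝ) < (n : ℝ) + 2 := by positivity
  have hn1 : (0 : ℝ) < (n : ℝ) + 1 := by positivity
  set α : ℝ := ((n : ℝ) + 1) / ((n : ℝ) + 2) with hα
  set β : ℝ := 1 / ((n : ℝ) + 2) with hβ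
  set γ : ℝ := (n : ℝ) / ((n : ℝ) + 2) with hγ
  have hαpos : 0 < α := by positivity
  have hβpos : 0 < β := by positivity
  have hγnn : 0 ≤ γ := by positivity
  have hαβ1 : α + β = 1 := by rw [hα, hβ]; field_simp; ring
  have hαβγ : α - β = γ := by rw [hα, hβ, hγ]; field_simp; ring
  have hr : 0 < c / (8 * C) := by positivity
  have hr1 : c / (8 * C) ≤ 1 := by
    rw [div_le_one (by positivity)]
    linarith
  set δ0 : ℝ := (c / (8 * C)) ^ ((n : ℝ) + 2) with hδ0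
  have hδ0pos : 0 < δ0 := Real.rpow_pos_of_pos hr _
  have hδ0β : δ0 ^ β = c / (8 * C) := by
    rw [hδ0, ← Real.rpow_mul hr.le, hβ, mul_one_div_cancel hn2.ne', Real.rpow_one]
  set ε0 : ℝ := δ0 * (c / (8 * C)) ^ (1 / α) with hε0
  have hε0pos : 0 < ε0 := mul_pos hδ0pos (Real.rpow_pos_of_pos hr _)
  have hε0α : (ε0 / δ0) ^ α = c / (8 * C) := by
    rw [hε0, mul_div_cancel_left₀ _ hδ0pos.ne', ← Real.rpow_mul hr.le,
      one_div_mul_cancel hαpos.ne', Real.rpow_one]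
  set κ : ℝ := (2 * Θ * C) ^ (1 - (n : ℝ) / 2) * (2 / (Θ * C)) with hκ
  have hκpos : 0 < κ := by positivity
  set ι : ℝ := (c / 2 / C ^ γ) ^ (((n : ℝ) + 2) / 2) with hι
  have hιpos : 0 < ι := by positivity
  have hε01 : ε0 ≤ 1 :=
    mul_le_one₀ (Real.rpow_le_one hr.le hr1 (by positivity)) (Real.rpow_nonneg hr.le _)
      (Real.rpow_le_one hr.le hr1 (by positivity))
  refine ⟨δ0, hδ0pos, ε0, ⟨hε0pos, hε01⟩, κ * ι, by positivity, ?_⟩
  intro X _ μ K hK N a b P W hN hma' hmb' hmP' hmW' hae harea hm1 hm2 hδa hδb hεP hεW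
  have hma : NullMeasurableSet {x | a x < δ0 * N x} μ :=
    nullMeasurableSet_lt hma' (hN.const_mul δ0)
  have hmb : NullMeasurableSet {x | b x < δ0 * N x} μ :=
    nullMeasurableSet_lt hmb' (hN.const_mul δ0)
  have hmP : NullMeasurableSet {x | P x < ε0} μ := nullMeasurableSet_lt hmP' aemeasurable_const
  have hmW : NullMeasurableSet {x | W x < ε0} μ := nullMeasurableSet_lt hmW' aemeasurable_const
  have hNpos : ∀ᵐ x ∂μ, 0 < N x := by filter_upwards [hae] with x hx using hx.1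
  have hCK : 0 < C * K := by positivity
  -- area of the sets B3, B4
  have key1 : (C * K) ^ α * (C * δ0 / K) ^ β = c / 8 * K ^ γ := by
    have e1 : C * δ0 / K = C * K⁻¹ * δ0 := by field_simp
    rw [e1, Real.mul_rpow (by positivity) hδ0pos.le, hδ0β,
      Real.mul_rpow hC.le hK.le, Real.mul_rpow hC.le (by positivity), Real.inv_rpow hK.le]
    have e2 : C ^ α * C ^ β = C := by rw [← Real.rpow_add hC, hαβ1, Real.rpow_one]
    have e3 : K ^ α * (K ^ β)⁻¹ = K ^ γ := by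
      rw [← Real.rpow_neg hK.le, ← Real.rpow_add hK, ← hαβγ, sub_eq_add_neg]
    calc C ^ α * K ^ α * (C ^ β * (K ^ β)⁻¹ * (c / (8 * C)))
        = (C ^ α * C ^ β) * (K ^ α * (K ^ β)⁻¹) * (c / (8 * C)) := by ring
      _ = c / 8 * K ^ γ := by rw [e2, e3]; field_simp
  have key2 : (C * ε0 * K / δ0) ^ α * (C / K) ^ β = c / 8 * K ^ γ := by
    have e1 : C * ε0 * K / δ0 = C * K * (ε0 / δ0) := by field_simp
    have e1' : C / K = C * K⁻¹ := by field_simp
    rw [e1, e1', Real.mul_rpow (by positivity) (by positivity), hε0α,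
      Real.mul_rpow hC.le hK.le, Real.mul_rpow hC.le (by positivity), Real.inv_rpow hK.le]
    have e2 : C ^ α * C ^ β = C := by rw [← Real.rpow_add hC, hαβ1, Real.rpow_one]
    have e3 : K ^ α * (K ^ β)⁻¹ = K ^ γ := by
      rw [← Real.rpow_neg hK.le, ← Real.rpow_add hK, ← hαβγ, sub_eq_add_neg]
    calc C ^ α * K ^ α * (c / (8 * C)) * (C ^ β * (K ^ β)⁻¹)
        = (C ^ α * C ^ β) * (K ^ α * (K ^ β)⁻¹) * (c / (8 * C)) := by ring
      _ = c / 8 * K ^ γ := by rw [e2, e3]; field_simp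
  have hB3 : μ {x | a x < δ0 * N x} ≤ ENNReal.ofReal (c / 8 * K ^ γ) := by
    rw [← key1]
    exact area_le μ n N hN hNpos _ hCK.le (by positivity)
      ((setLIntegral_le_lintegral _ _).trans hm1) hδa
  have hB4 : μ {x | b x < δ0 * N x} ≤ ENNReal.ofReal (c / 8 * K ^ γ) := by
    rw [← key1]
    exact area_le μ n N hN hNpos _ hCK.le (by positivity)
      ((setLIntegral_le_lintegral _ _).trans hm1) hδb
  have slab : ∀ (f g : X → ℝ), NullMeasurableSet {x | f x < δ0 * N x} μ →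
      NullMeasurableSet {x | g x < ε0} μ →
      ∫⁻ x in {x | g x < ε0}, ENNReal.ofReal (f x) ∂μ ≤ ENNReal.ofReal (C * ε0 * K) →
      μ ({x | g x < ε0} \ {x | f x < δ0 * N x}) ≤ ENNReal.ofReal (c / 8 * K ^ γ) := by
    intro f g hf hg hint
    rw [← key2]
    refine area_le μ n N hN hNpos _ (by positivity) (by positivity) ?_
      ((setLIntegral_le_lintegral _ _).trans hm2)
    calc ∫⁻ x in {x | g x < ε0} \ {x | f x < δ0 * N x}, ENNReal.ofReal (N x) ∂μ
        ≤ ∫⁻ x in {x | g x < ε0} \ {x | f x < δ0 * N x},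
            ENNReal.ofReal δ0⁻¹ * ENNReal.ofReal (f x) ∂μ := by
          refine lintegral_mono_ae ((ae_restrict_iff'₀ (hg.diff hf)).mpr
            (Filter.Eventually.of_forall ?_))
          intro x hx
          rw [← ENNReal.ofReal_mul (by positivity)]
          apply ENNReal.ofReal_le_ofReal
          have : δ0 * N x ≤ f x := not_lt.mp hx.2
          rw [inv_mul_eq_div, le_div_iff₀ hδ0pos]
          linarith
      _ = ENNReal.ofReal δ0⁻¹ * ∫⁻ x in {x | g x < ε0} \ {x | f x < δ0 * N x},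
            ENNReal.ofReal (f x) ∂μ := lintegral_const_mul' _ _ ENNReal.ofReal_ne_top
      _ ≤ ENNReal.ofReal δ0⁻¹ * ENNReal.ofReal (C * ε0 * K) := by
          refine mul_le_mul_right ?_ _
          refine le_trans ?_ hint
          exact lintegral_mono_set sdiff_subset
      _ = ENNReal.ofReal (C * ε0 * K / δ0) := by
          rw [← ENNReal.ofReal_mul (by positivity)]
          congr 1
          field_simp
  have hB1 := slab b P hmb hmP hεP
  have hB2 := slab a W hma hmW hεW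
  -- the good set
  set G : Set X := {x | ¬ (a x < δ0 * N x) ∧ ¬ (b x < δ0 * N x) ∧ ¬ (P x < ε0) ∧ ¬ (W x < ε0)}
    with hG
  have hGmeas : NullMeasurableSet G μ :=
    hma.compl.inter (hmb.compl.inter (hmP.compl.inter hmW.compl))
  have hcover : μ univ ≤ μ G + (μ {x | a x < δ0 * N x} + (μ {x | b x < δ0 * N x} +
      (μ ({x | P x < ε0} \ {x | b x < δ0 * N x}) + μ ({x | W x < ε0} \ {x | a x < δ0 * N x})))) := by
    have hsub : (univ : Set X) ⊆ G ∪ ({x | a x < δ0 * N x} ∪ ({x | b x < δ0 * N x} ∪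
        (({x | P x < ε0} \ {x | b x < δ0 * N x}) ∪ ({x | W x < ε0} \ {x | a x < δ0 * N x})))) := by
      intro x _
      simp only [hG, mem_union, mem_ofPred_eq, mem_sdiff]
      tauto
    refine (measure_mono hsub).trans ((measure_union_le _ _).trans ?_)
    refine add_le_add le_rfl ((measure_union_le _ _).trans ?_)
    refine add_le_add le_rfl ((measure_union_le _ _).trans ?_)
    exact add_le_add le_rfl (measure_union_le _ _)
  have hKγ : 0 < K ^ γ := Real.rpow_pos_of_pos hK _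
  have hGarea : ENNReal.ofReal (c / 2 * K ^ γ) ≤ μ G := by
    have h1 : ENNReal.ofReal (c * K ^ γ) ≤ μ G + ENNReal.ofReal (c / 2 * K ^ γ) := by
      refine harea.trans (hcover.trans ?_)
      refine add_le_add le_rfl ?_
      refine (add_le_add hB3 (add_le_add hB4 (add_le_add hB1 hB2))).trans (le_of_eq ?_)
      rw [← ENNReal.ofReal_add (by positivity) (by positivity),
        ← ENNReal.ofReal_add (by positivity) (by positivity),
        ← ENNReal.ofReal_add (by positivity) (by positivity)]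
      congr 1
      ring
    have h2 : ENNReal.ofReal (c * K ^ γ) =
        ENNReal.ofReal (c / 2 * K ^ γ) + ENNReal.ofReal (c / 2 * K ^ γ) := by
      rw [← ENNReal.ofReal_add (by positivity) (by positivity)]
      congr 1
      ring
    rw [h2] at h1
    exact (ENNReal.add_le_add_iff_right ENNReal.ofReal_ne_top).mp h1
  -- Hölder on the good set
  have hH := holder_area' (μ.restrict G) n N hN.restrict (ae_restrict_of_ae hNpos)
  rw [Measure.restrict_apply_univ] at hH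
  set I : ℝ≥0∞ := ∫⁻ x in G, ENNReal.ofReal ((N x) ^ (-((n : ℝ) / 2))) ∂μ with hI
  have hI1 : ENNReal.ofReal (c / 2 * K ^ γ) ≤ I ^ (2 / ((n : ℝ) + 2)) *
      ENNReal.ofReal ((C * K) ^ γ) := by
    refine hGarea.trans (hH.trans ?_)
    rw [← ENNReal.ofReal_rpow_of_nonneg hCK.le hγnn]
    exact mul_le_mul' le_rfl (ENNReal.rpow_le_rpow ((setLIntegral_le_lintegral _ _).trans hm1) hγnn)
  have hI2 : ENNReal.ofReal (c / 2 / C ^ γ) ≤ I ^ (2 / ((n : ℝ) + 2)) := by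
    have hCKγ : 0 < (C * K) ^ γ := by positivity
    have e : ENNReal.ofReal (c / 2 * K ^ γ) =
        ENNReal.ofReal (c / 2 / C ^ γ) * ENNReal.ofReal ((C * K) ^ γ) := by
      rw [← ENNReal.ofReal_mul (by positivity)]
      congr 1
      rw [Real.mul_rpow hC.le hK.le]
      field_simp
    rw [e] at hI1
    exact (ENNReal.mul_le_mul_iff_left (by simpa using hCKγ) ENNReal.ofReal_ne_top).mp hI1
  have hI3 : ENNReal.ofReal ι ≤ I := by
    have h3 := ENNReal.rpow_le_rpow hI2 (z := ((n : ℝ) + 2) / 2) (by positivity)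
    rw [← ENNReal.rpow_mul, ENNReal.ofReal_rpow_of_nonneg (by positivity) (by positivity)] at h3
    have e : 2 / ((n : ℝ) + 2) * (((n : ℝ) + 2) / 2) = 1 := by field_simp
    rw [e, ENNReal.rpow_one] at h3
    exact h3
  -- pointwise comparison on G
  have hptw : ∀ᵐ x ∂(μ.restrict G), ENNReal.ofReal κ * ENNReal.ofReal ((N x) ^ (-((n : ℝ) / 2))) ≤
      ENNReal.ofReal ((P x * a x + W x * b x) ^ (1 - (n : ℝ) / 2) *
          (1 / (P x * a x) + 1 / (W x * b x))) := by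
    rw [ae_restrict_iff'₀ hGmeas]
    filter_upwards [hae] with x hx hxG
    obtain ⟨hN0, ha0, hb0, haN, hbN, hPW⟩ := hx
    obtain ⟨h1, h2, h3, h4⟩ := hxG
    have h1' := not_lt.mp h1
    have h2' := not_lt.mp h2
    have h3' := not_lt.mp h3
    have h4' := not_lt.mp h4
    have hP0 : 0 < P x := lt_of_lt_of_le hε0pos h3'
    have hW0 : 0 < W x := lt_of_lt_of_le hε0pos h4'
    have hPΘ : P x ≤ Θ := by linarith
    have hWΘ : W x ≤ Θ := by linarith
    rw [← ENNReal.ofReal_mul hκpos.le]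
    apply ENNReal.ofReal_le_ofReal
    have hp0 : 0 < P x * a x := by positivity
    have hq0 : 0 < W x * b x := by positivity
    have hM0 : 0 < Θ * C * N x := by positivity
    have hp1 : P x * a x ≤ Θ * C * N x := by
      calc P x * a x ≤ Θ * (C * N x) := mul_le_mul hPΘ haN ha0.le hΘ.le
        _ = Θ * C * N x := by ring
    have hq1 : W x * b x ≤ Θ * C * N x := by
      calc W x * b x ≤ Θ * (C * N x) := mul_le_mul hWΘ hbN hb0.le hΘ.le
        _ = Θ * C * N x := by ring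
    have hexp : 1 - (n : ℝ) / 2 ≤ 0 := by
      have : (2 : ℝ) ≤ n := by exact_mod_cast hn
      linarith
    have hA1 : (2 * Θ * C * N x) ^ (1 - (n : ℝ) / 2) ≤ (P x * a x + W x * b x) ^ (1 - (n : ℝ) / 2) :=
      Real.rpow_le_rpow_of_nonpos (by positivity) (by linarith) hexp
    have hA2 : 2 / (Θ * C * N x) ≤ 1 / (P x * a x) + 1 / (W x * b x) := by
      have e1 : 1 / (Θ * C * N x) ≤ 1 / (P x * a x) := one_div_le_one_div_of_le hp0 hp1
      have e2 : 1 / (Θ * C * N x) ≤ 1 / (W x * b x) := one_div_le_one_div_of_le hq0 hq1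
      have e3 : 2 / (Θ * C * N x) = 1 / (Θ * C * N x) + 1 / (Θ * C * N x) := by ring
      linarith
    have hA3 : κ * N x ^ (-((n : ℝ) / 2)) =
        (2 * Θ * C * N x) ^ (1 - (n : ℝ) / 2) * (2 / (Θ * C * N x)) := by
      rw [Real.mul_rpow (by positivity) hN0.le, hκ]
      have e : N x ^ (1 - (n : ℝ) / 2) = N x * N x ^ (-((n : ℝ) / 2)) := by
        rw [sub_eq_add_neg, Real.rpow_add hN0, Real.rpow_one]
      rw [e]
      field_simp
    rw [hA3]
    exact mul_le_mul hA1 hA2 (by positivity) (by positivity)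
  have hbox : ∀ᵐ x ∂μ, x ∈ G → x ∈ {x | ε0 ≤ P x ∧ P x ≤ Θ ∧ ε0 ≤ W x ∧ W x ≤ Θ} := by
    filter_upwards [hae] with x hx hxG
    obtain ⟨h1, h2, h3, h4⟩ := hxG
    have h3' := not_lt.mp h3
    have h4' := not_lt.mp h4
    refine ⟨h3', ?_, h4', ?_⟩ <;> linarith [hx.2.2.2.2.2]
  calc ENNReal.ofReal (κ * ι) = ENNReal.ofReal κ * ENNReal.ofReal ι := ENNReal.ofReal_mul hκpos.le
    _ ≤ ENNReal.ofReal κ * I := mul_le_mul_right hI3 _
    _ = ∫⁻ x in G, ENNReal.ofReal κ * ENNReal.ofReal ((N x) ^ (-((n : ℝ) / 2))) ∂μ :=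
        (lintegral_const_mul' _ _ ENNReal.ofReal_ne_top).symm
    _ ≤ ∫⁻ x in G, ENNReal.ofReal ((P x * a x + W x * b x) ^ (1 - (n : ℝ) / 2) *
          (1 / (P x * a x) + 1 / (W x * b x))) ∂μ := lintegral_mono_ae hptw
    _ ≤ _ := lintegral_mono_set' hbox


/-- **B6 in Lebesgue form.** `D` the domain, `ρ` the density, `d = ρ^{-(n+2)}` the determinant,
`sN, sa, sb` the conormals without the factor `ρ`. -/
theorem lower_mass_leb (n : ℕ) (hn : 2 ≤ n) (c C Θ : ℝ) (hc : 0 < c) (hC : 0 < C)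
    (hcC : c ≤ C) (hΘ : 0 < Θ) :
    ∃ δ0 : ℝ, 0 < δ0 ∧ ∃ ε0 : ℝ, (0 < ε0 ∧ ε0 ≤ 1) ∧ ∃ c4 : ℝ, 0 < c4 ∧
    ∀ {X : Type} [MeasurableSpace X] (ν : Measure X) (D : Set X) (_ : MeasurableSet D)
      (K : ℝ) (_ : 0 < K)
      (d ρ sN sa sb P W : X → ℝ) (_ : AEMeasurable ρ (ν.restrict D))
      (_ : AEMeasurable sN (ν.restrict D)) (_ : AEMeasurable sa (ν.restrict D))
      (_ : AEMeasurable sb (ν.restrict D))
      (_ : AEMeasurable P (ν.restrict D)) (_ : AEMeasurable W (ν.restrict D))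
      (_ : ∀ x ∈ D, 0 < d x ∧ ρ x = d x ^ (-(1 / ((n : ℝ) + 2))))
      (_ : ∀ x ∈ D, 0 < sN x ∧ 0 < sa x ∧ 0 < sb x ∧ sa x ≤ C * sN x ∧ sb x ≤ C * sN x ∧
        P x + W x ≤ Θ)
      (_ : ENNReal.ofReal (c * K ^ ((n : ℝ) / ((n : ℝ) + 2))) ≤
        ∫⁻ x in D, ENNReal.ofReal (1 / ρ x) ∂ν)
      (_ : ∫⁻ x in D, ENNReal.ofReal (sN x) ∂ν ≤ ENNReal.ofReal (C * K))
      (_ : ∫⁻ x in D, ENNReal.ofReal (d x / (sN x) ^ (n + 1)) ∂ν ≤ ENNReal.ofReal (C / K))
      (_ : ∫⁻ x in D ∩ {x | sa x < δ0 * sN x}, ENNReal.ofReal (d x / (sN x) ^ (n + 1)) ∂ν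
        ≤ ENNReal.ofReal (C * δ0 / K))
      (_ : ∫⁻ x in D ∩ {x | sb x < δ0 * sN x}, ENNReal.ofReal (d x / (sN x) ^ (n + 1)) ∂ν
        ≤ ENNReal.ofReal (C * δ0 / K))
      (_ : ∫⁻ x in D ∩ {x | P x < ε0}, ENNReal.ofReal (sb x) ∂ν ≤ ENNReal.ofReal (C * ε0 * K))
      (_ : ∫⁻ x in D ∩ {x | W x < ε0}, ENNReal.ofReal (sa x) ∂ν ≤ ENNReal.ofReal (C * ε0 * K)),
      ENNReal.ofReal c4 ≤
        ∫⁻ x in D ∩ {x | ε0 ≤ P x ∧ P x ≤ Θ ∧ ε0 ≤ W x ∧ W x ≤ Θ},
          ENNReal.ofReal ((P x * (ρ x * sa x) + W x * (ρ x * sb x)) ^ (1 - (n : ℝ) / 2) *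
          (1 / (P x * (ρ x * sa x)) + 1 / (W x * (ρ x * sb x))) / ρ x) ∂ν := by
  obtain ⟨δ0, hδ0, ε0, hε0, c4, hc4, H⟩ := lower_mass n hn c C Θ hc hC hcC hΘ
  refine ⟨δ0, hδ0, ε0, hε0, c4, hc4, ?_⟩
  intro X _ ν D hD K hK d ρ sN sa sb P W hρm hNm ham hbm hPm hWm hd hpos harea hm1 hm2 hδa hδb
    hεP hεW
  have hρpos : ∀ x ∈ D, 0 < ρ x := by
    intro x hx
    rw [(hd x hx).2]
    exact Real.rpow_pos_of_pos (hd x hx).1 _
  set w : X → ℝ≥0∞ := fun x => ENNReal.ofReal (1 / ρ x) with hw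
  have hwm : AEMeasurable w (ν.restrict D) := (hρm.const_div 1).ennreal_ofReal
  set μ : Measure X := (ν.restrict D).withDensity w with hμ
  have hμac : μ ≪ ν.restrict D := withDensity_absolutelyContinuous _ _
  have hwtop : ∀ᵐ x ∂(ν.restrict D), w x < ∞ := Filter.Eventually.of_forall fun x =>
    ENNReal.ofReal_lt_top
  -- the basic conversion
  have conv' : ∀ f : X → ℝ≥0∞, ∫⁻ x, f x ∂μ = ∫⁻ x in D, w x * f x ∂ν := fun f =>
    lintegral_withDensity_eq_lintegral_mul_non_measurable₀ _ hwm hwtop f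
  have conv : ∀ (S : Set X), NullMeasurableSet S (ν.restrict D) → ∀ f : X → ℝ≥0∞,
      ∫⁻ x in S, f x ∂μ = ∫⁻ x in D ∩ S, w x * f x ∂ν := by
    intro S hS f
    rw [← lintegral_indicator₀ (hS.mono_ac hμac), conv']
    have e1 : ∀ x, w x * S.indicator f x = S.indicator (fun x => w x * f x) x := by
      intro x
      by_cases hx : x ∈ S
      · simp [hx]
      · simp [hx]
    simp_rw [e1]
    rw [lintegral_indicator₀ hS, Measure.restrict_restrict₀ hS, inter_comm]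
  have eN : ∀ x ∈ D, ∀ t : ℝ, 0 ≤ t → w x * ENNReal.ofReal (ρ x * t) = ENNReal.ofReal t := by
    intro x hx t ht
    have := hρpos x hx
    rw [hw, ← ENNReal.ofReal_mul (by positivity)]
    congr 1
    field_simp
  have eD : ∀ x ∈ D, w x * ENNReal.ofReal ((ρ x * sN x) ^ (-((n : ℝ) + 1))) =
      ENNReal.ofReal (d x / (sN x) ^ (n + 1)) := by
    intro x hx
    have h1 := hρpos x hx
    have h2 := (hpos x hx).1
    have h3 := (hd x hx).1
    rw [hw, ← ENNReal.ofReal_mul (by positivity)]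
    congr 1
    rw [Real.mul_rpow h1.le h2.le]
    have e1 : (sN x) ^ (-((n : ℝ) + 1)) = ((sN x) ^ (n + 1))⁻¹ := by
      rw [Real.rpow_neg h2.le]
      congr 1
      have : ((n : ℝ) + 1) = ((n + 1 : ℕ) : ℝ) := by push_cast; ring
      rw [this, Real.rpow_natCast]
    have e2 : 1 / ρ x * ρ x ^ (-((n : ℝ) + 1)) = d x := by
      have e3 : 1 / ρ x = ρ x ^ (-1 : ℝ) := by rw [Real.rpow_neg_one, one_div]
      rw [e3, ← Real.rpow_add h1, (hd x hx).2, ← Real.rpow_mul h3.le]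
      have : -(1 / ((n : ℝ) + 2)) * (-1 + -((n : ℝ) + 1)) = 1 := by field_simp; ring
      rw [this, Real.rpow_one]
    rw [← mul_assoc, e2, e1, div_eq_mul_inv]
  have hDae : ∀ {p : X → Prop}, (∀ x ∈ D, p x) → ∀ᵐ x ∂μ, p x := fun h =>
    hμac.ae_le (ae_restrict_of_forall_mem hD h)
  have hNμ : AEMeasurable (fun x => ρ x * sN x) μ := (hρm.mul hNm).mono_ac hμac
  have haμ : AEMeasurable (fun x => ρ x * sa x) μ := (hρm.mul ham).mono_ac hμac
  have hbμ : AEMeasurable (fun x => ρ x * sb x) μ := (hρm.mul hbm).mono_ac hμac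
  have hset : ∀ f : X → ℝ, D ∩ {x | ρ x * f x < δ0 * (ρ x * sN x)} = D ∩ {x | f x < δ0 * sN x} := by
    intro f
    ext x
    simp only [mem_inter_iff, mem_ofPred_eq]
    refine and_congr_right fun hx => ?_
    have h1 := hρpos x hx
    rw [show δ0 * (ρ x * sN x) = ρ x * (δ0 * sN x) by ring, mul_lt_mul_iff_right₀ h1]
  have hbox : NullMeasurableSet {x | ε0 ≤ P x ∧ P x ≤ Θ ∧ ε0 ≤ W x ∧ W x ≤ Θ} (ν.restrict D) :=
    (nullMeasurableSet_le aemeasurable_const hPm).inter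
      ((nullMeasurableSet_le hPm aemeasurable_const).inter
      ((nullMeasurableSet_le aemeasurable_const hWm).inter
        (nullMeasurableSet_le hWm aemeasurable_const)))
  have congrDS : ∀ (S : Set X) (f g : X → ℝ≥0∞), (∀ x ∈ D, f x = g x) →
      ∫⁻ x in D ∩ S, f x ∂ν = ∫⁻ x in D ∩ S, g x ∂ν := fun S f g h =>
    lintegral_congr_ae (ae_mono (Measure.restrict_mono inter_subset_left le_rfl)
      (ae_restrict_of_forall_mem hD h))
  have R := H μ K hK (fun x => ρ x * sN x) (fun x => ρ x * sa x) (fun x => ρ x * sb x) P W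
    hNμ haμ hbμ (hPm.mono_ac hμac) (hWm.mono_ac hμac)
    (hDae fun x hx => by
      obtain ⟨h1, h2, h3, h4, h5, h6⟩ := hpos x hx
      have h0 := hρpos x hx
      refine ⟨by positivity, by positivity, by positivity, ?_, ?_, h6⟩
      · calc ρ x * sa x ≤ ρ x * (C * sN x) := mul_le_mul_of_nonneg_left h4 h0.le
          _ = C * (ρ x * sN x) := by ring
      · calc ρ x * sb x ≤ ρ x * (C * sN x) := mul_le_mul_of_nonneg_left h5 h0.le
          _ = C * (ρ x * sN x) := by ring)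
    (by
      refine harea.trans (le_of_eq ?_)
      rw [← lintegral_one, conv']
      simp [hw])
    (by
      rw [conv']
      refine le_trans (le_of_eq ?_) hm1
      exact setLIntegral_congr_fun hD fun x hx => eN x hx _ (hpos x hx).1.le)
    (by
      rw [conv']
      refine le_trans (le_of_eq ?_) hm2
      exact setLIntegral_congr_fun hD fun x hx => eD x hx)
    (by
      have hs : NullMeasurableSet {x | ρ x * sa x < δ0 * (ρ x * sN x)} (ν.restrict D) :=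
        nullMeasurableSet_lt (hρm.mul ham) ((hρm.mul hNm).const_mul δ0)
      rw [conv _ hs, hset sa, congrDS _ _ _ eD]
      exact hδa)
    (by
      have hs : NullMeasurableSet {x | ρ x * sb x < δ0 * (ρ x * sN x)} (ν.restrict D) :=
        nullMeasurableSet_lt (hρm.mul hbm) ((hρm.mul hNm).const_mul δ0)
      rw [conv _ hs, hset sb, congrDS _ _ _ eD]
      exact hδb)
    (by
      rw [conv _ (nullMeasurableSet_lt hPm aemeasurable_const),
        congrDS _ _ _ fun x hx => eN x hx _ (hpos x hx).2.2.1.le]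
      exact hεP)
    (by
      rw [conv _ (nullMeasurableSet_lt hWm aemeasurable_const),
        congrDS _ _ _ fun x hx => eN x hx _ (hpos x hx).2.1.le]
      exact hεW)
  refine R.trans (le_of_eq ?_)
  rw [conv _ hbox]
  refine congrDS _ _ _ fun x hx => ?_
  have h0 := hρpos x hx
  rw [hw, ← ENNReal.ofReal_mul (by positivity)]
  congr 1
  ring

end Crest.Agent.R236.Bmass
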