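import Mathlib

/-!
# Row 236, Part B, volumes of seminorm balls and of slabs (coordinate free)  (helper218)
-/

set_option autoImplicit false
noncomputable section
open MeasureTheory Set
open scoped ENNReal Pointwise

namespace Crest.Agent.R236.BmassV

variable {V : Type*} [NormedAddCommGroup V] [NormedSpace ℝ V] [FiniteDimensional ℝ V]
  [MeasurableSpace V] [BorelSpace V] (μ : Measure V) [μ.IsAddHaarMeasure]

omit [MeasurableSpace V] [BorelSpace V] in
lemma seminorm_continuous (g : Seminorm ℝ V) : Continuous g :=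
  g.convexOn.locallyLipschitz.continuous

/-- volume of a ball of radius `R` around `O` -/
lemma vol_ball (g : Seminorm ℝ V) (O : V) {R : ℝ} (hR : 0 < R) :
    μ {X | g (X - O) ≤ R} =
      ENNReal.ofReal (R ^ Module.finrank ℝ V) * μ {v | g v ≤ 1} := by
  have h1 : {X | g (X - O) ≤ R} = (fun X => X + (-O)) ⁻¹' (R • {v | g v ≤ 1}) := by
    ext X
    simp only [mem_ofPred_eq, mem_preimage]
    rw [mem_smul_set_iff_inv_smul_mem₀ hR.ne']
    simp only [mem_ofPred_eq, map_smul_eq_mul, norm_inv, Real.norm_eq_abs, abs_of_pos hR]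
    rw [← sub_eq_add_neg, inv_mul_le_iff₀ hR, mul_one]
  rw [h1, measure_preimage_add_right, Measure.addHaar_smul, abs_of_nonneg (by positivity)]

/-- **slab lemma**: in the ball `{g ≤ R}` of a seminorm, the slab `|F + κ| ≤ ε` has volume
`≤ ε (R + 6c)^{dim}` times the volume of the unit ball. -/
lemma vol_slab (g : Seminorm ℝ V) (O : V) {R c ε : ℝ} (hR : 0 < R) (hc : 0 ≤ c) (hε : 0 < ε)
    (F : V →L[ℝ] ℝ) (f : V) (hF : F f = 1) (hf : g f ≤ c) (κ : ℝ) :
    μ {X | g (X - O) ≤ R ∧ |F X + κ| ≤ ε} ≤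
      ENNReal.ofReal (ε * (R + 6 * c) ^ Module.finrank ℝ V) * μ {v | g v ≤ 1} := by
  rcases le_or_gt ε 1 with hε1 | hε1
  · set m : ℕ := ⌈1 / ε⌉₊ with hm
    have hm1 : 1 / ε ≤ m := Nat.le_ceil _
    have hm2 : (m : ℝ) ≤ 1 / ε + 1 := (Nat.ceil_lt_add_one (by positivity)).le
    have hm0 : 0 < (m : ℝ) := lt_of_lt_of_le (by positivity) hm1
    set S : Set V := {X | g (X - O) ≤ R ∧ |F X + κ| ≤ ε} with hS
    have hSm : MeasurableSet S := by
      have hgc := seminorm_continuous g
      have h1 : IsClosed {X | g (X - O) ≤ R} :=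
        isClosed_le (hgc.comp (continuous_id.sub continuous_const)) continuous_const
      have h2 : IsClosed {X | |F X + κ| ≤ ε} :=
        isClosed_le ((F.continuous.add continuous_const).abs) continuous_const
      exact (h1.inter h2).measurableSet
    -- translates
    set T : Fin m → Set V := fun k => (fun X => X + (-((3 * (k : ℝ) * ε) • f))) ⁻¹' S with hT
    have hTm : ∀ k, MeasurableSet (T k) := fun k =>
      (measurable_id.add_const _) hSm
    have hTv : ∀ k, μ (T k) = μ S := fun k => measure_preimage_add_right _ _ _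
    have hdisj : Pairwise (Function.onFun Disjoint T) := by
      intro i j hij
      rw [Function.onFun, Set.disjoint_left]
      rintro X ⟨-, h1⟩ ⟨-, h2⟩
      simp only [map_add, map_neg, map_smul, hF, smul_eq_mul, mul_one] at h1 h2
      rw [abs_le] at h1 h2
      have hij' : (i : ℕ) ≠ (j : ℕ) := fun h => hij (Fin.ext h)
      rcases lt_or_gt_of_ne hij' with h | h
      · have h' : (i : ℝ) + 1 ≤ (j : ℝ) := by exact_mod_cast h
        nlinarith
      · have h' : (j : ℝ) + 1 ≤ (i : ℝ) := by exact_mod_cast h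
        nlinarith
    have hsub : (⋃ k, T k) ⊆ {X | g (X - O) ≤ R + 6 * c} := by
      intro X hX
      obtain ⟨k, hk⟩ := mem_iUnion.mp hX
      obtain ⟨h1, -⟩ := hk
      simp only [mem_ofPred_eq]
      have hk1 : (k : ℝ) ≤ m := by exact_mod_cast k.2.le
      have hk0 : (0 : ℝ) ≤ k := Nat.cast_nonneg _
      have e : X - O = (X + (-((3 * (k : ℝ) * ε) • f)) - O) + (3 * (k : ℝ) * ε) • f := by abel
      rw [e]
      refine (map_add_le_add g _ _).trans ?_
      have h3 : g ((3 * (k : ℝ) * ε) • f) ≤ 6 * c := by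
        rw [map_smul_eq_mul, Real.norm_eq_abs, abs_of_nonneg (by positivity)]
        have h4 : 3 * (k : ℝ) * ε ≤ 6 := by
          have h5 : (m : ℝ) * ε ≤ 2 := by
            calc (m : ℝ) * ε ≤ (1 / ε + 1) * ε := mul_le_mul_of_nonneg_right hm2 hε.le
              _ = 1 + ε := by field_simp
              _ ≤ 2 := by linarith
          have h6 : (k : ℝ) * ε ≤ m * ε := mul_le_mul_of_nonneg_right hk1 hε.le
          linarith
        calc 3 * (k : ℝ) * ε * g f ≤ 6 * g f := mul_le_mul_of_nonneg_right h4 (apply_nonneg g f)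
          _ ≤ 6 * c := by linarith
      linarith
    have hsum : (m : ℝ≥0∞) * μ S ≤ ENNReal.ofReal ((R + 6 * c) ^ Module.finrank ℝ V) *
        μ {v | g v ≤ 1} := by
      rw [← vol_ball μ g O (by positivity : (0:ℝ) < R + 6 * c)]
      calc (m : ℝ≥0∞) * μ S = ∑ k : Fin m, μ (T k) := by
            simp [hTv]
        _ = μ (⋃ k, T k) := by
            rw [measure_iUnion hdisj hTm, tsum_fintype]
        _ ≤ _ := measure_mono hsub
    have h1 : (1 : ℝ≥0∞) ≤ ENNReal.ofReal ε * m := by
      rw [← ENNReal.ofReal_natCast m, ← ENNReal.ofReal_mul hε.le, ENNReal.one_le_ofReal]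
      calc (1 : ℝ) = ε * (1 / ε) := by field_simp
        _ ≤ ε * m := mul_le_mul_of_nonneg_left hm1 hε.le
    calc μ S = 1 * μ S := (one_mul _).symm
      _ ≤ (ENNReal.ofReal ε * m) * μ S := mul_le_mul_left h1 _
      _ = ENNReal.ofReal ε * (m * μ S) := mul_assoc _ _ _
      _ ≤ ENNReal.ofReal ε * (ENNReal.ofReal ((R + 6 * c) ^ Module.finrank ℝ V) *
            μ {v | g v ≤ 1}) := mul_le_mul_right hsum _
      _ = _ := by rw [← mul_assoc, ← ENNReal.ofReal_mul hε.le]
  · calc μ {X | g (X - O) ≤ R ∧ |F X + κ| ≤ ε} ≤ μ {X | g (X - O) ≤ R} :=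
          measure_mono fun X hX => hX.1
      _ = ENNReal.ofReal (R ^ Module.finrank ℝ V) * μ {v | g v ≤ 1} := vol_ball μ g O hR
      _ ≤ _ := by
          refine mul_le_mul_left (ENNReal.ofReal_le_ofReal ?_) _
          have h1 : R ^ Module.finrank ℝ V ≤ (R + 6 * c) ^ Module.finrank ℝ V :=
            pow_le_pow_left₀ hR.le (by linarith) _
          have h2 : 0 ≤ (R + 6 * c) ^ Module.finrank ℝ V := by positivity
          nlinarith

end Crest.Agent.R236.BmassV
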