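import Mathlib
import Crest.Agent.R236.Vol
import Crest.Agent.R236.BApxDefs
import Crest.Agent.R236.BA2
import Crest.Agent.R236.BmassV

/-!
# Row 236, Part B: (M1), (M1P), (M1W) in terms of `APX`  (helper218)
-/

set_option autoImplicit false
noncomputable section
open MeasureTheory Set
open scoped ENNReal
open Crest.GeometryTopology.CoordMetric Crest.GeometryTopology.AffineMaximal

namespace Crest.Agent.R236.BmassM

open Crest.Agent.R236.A (EE epi SOL STRUCT IsStruct ConeData Appr)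
open Crest.Agent.R236.B Crest.Agent.R236.BA Crest.Agent.R236.BVol

variable {n : ℕ} {Θ K c2 C0 : ℝ} {N : ℕ} {ε0 : ℝ} {Ω : Set (EE n)} {u : EE n → ℝ}
  {P0 W0 : VV n →L[ℝ] ℝ} {pc wc : ℝ} {eP eW O : VV n} {es Q : ℝ → ℝ → VV n}
  {nrm : ℝ → ℝ → Seminorm ℝ (VV n)}

lemma grid_pos {lam tau : ℝ} (hg : Grid N lam tau) : 0 < lam ∧ 0 < tau := by
  obtain ⟨a, b, -, -, rfl, rfl⟩ := hg
  exact ⟨by positivity, by positivity⟩

lemma finrank_VV : Module.finrank ℝ (VV n) = n + 1 := by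
  simp [VV, EE]

lemma sig_eq_sg (v : VV n) (x : EE n) : sig u v x = sg u v x := rfl

lemma sg_smul (t : ℝ) (v : VV n) (x : EE n) : sg u (t • v) x = t * sg u v x := by
  simp only [sg, Prod.smul_snd, Prod.smul_fst, map_smul, smul_eq_mul]
  ring

lemma continuousOn_aff (h : SC Ω u) (F : VV n →L[ℝ] ℝ) (c : ℝ) :
    ContinuousOn (fun x => aff F c (x, u x)) Ω := by
  unfold aff
  exact (F.continuous.comp_continuousOn (continuousOn_id.prodMk h.smooth.continuousOn)).add
    continuousOn_const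

lemma isOpen_Dr (h : SC Ω u) (lam tau θ : ℝ) : IsOpen (Dr Ω u P0 W0 pc wc lam tau θ) := by
  have h1 : ContinuousOn (fun x => aff P0 pc (x, u x) / lam + aff W0 wc (x, u x) / tau) Ω :=
    ((continuousOn_aff h P0 pc).div_const _).add ((continuousOn_aff h W0 wc).div_const _)
  have := h1.isOpen_inter_preimage h.isOpen (isOpen_Iio (a := θ))
  exact this

lemma Dr_subset (lam tau θ : ℝ) : Dr Ω u P0 W0 pc wc lam tau θ ⊆ Ω := fun _ hx => hx.1

lemma nrm_le (h : APX n Θ K c2 C0 N ε0 Ω u P0 W0 pc wc eP eW O es Q nrm) {lam tau : ℝ}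
    (hg : Grid N lam tau) {x : EE n} (hx : x ∈ Dr Ω u P0 W0 pc wc lam tau Θ) :
    nrm lam tau ((x, u x) - O) ≤ K ∧ -(ε0 * lam) ≤ aff P0 pc (x, u x) ∧
      -(ε0 * tau) ≤ aff W0 wc (x, u x) := by
  refine h.bdd lam tau hg 1 1 le_rfl (by norm_num) le_rfl (by norm_num) (x, u x) ⟨hx.1, le_rfl⟩ ?_
  rw [one_mul, one_mul]
  exact hx.2.le

/-- (M1) -/
theorem M1 (h : APX n Θ K c2 C0 N ε0 Ω u P0 W0 pc wc eP eW O es Q nrm) {lam tau : ℝ}
    (hg : Grid N lam tau) :
    ∫⁻ x in Dr Ω u P0 W0 pc wc lam tau Θ, ENNReal.ofReal (sg u (es lam tau) x) ≤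
      ENNReal.ofReal ((K + C0) ^ (n + 1)) * volume {v : VV n | nrm lam tau v ≤ 1} := by
  have hsc := h.sol.sc
  have hC0 := h.C0_ge
  have hK := h.K_pos
  have hV := V1 (B := Dr Ω u P0 W0 pc wc lam tau Θ) (v := es lam tau)
    (S := {X : VV n | nrm lam tau (X - O) ≤ K + C0}) hsc
    (isOpen_Dr hsc lam tau Θ).measurableSet (Dr_subset _ _ _)
    (fun x hx => h.sg_es lam tau hg x hx.1 hx.2.le)
    (fun x hx r hr => by
      simp only [mem_ofPred_eq]
      have e : ((x, u x) : VV n) - r • es lam tau - O = ((x, u x) - O) + (-r) • es lam tau := by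
        rw [neg_smul]; abel
      rw [e]
      refine (map_add_le_add _ _ _).trans ?_
      have h1 := (nrm_le h hg hx).1
      have h2 : nrm lam tau ((-r) • es lam tau) ≤ C0 := by
        rw [map_smul_eq_mul, norm_neg, Real.norm_eq_abs, abs_of_pos hr.1]
        have h3 := h.es_le lam tau hg
        have h4 : 0 ≤ nrm lam tau (es lam tau) := apply_nonneg _ _
        nlinarith [hr.1, hr.2]
      linarith)
  refine hV.trans (le_of_eq ?_)
  rw [BmassV.vol_ball volume (nrm lam tau) O (by linarith : 0 < K + C0), finrank_VV]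

/-- general slab version -/
theorem M1slab (h : APX n Θ K c2 C0 N ε0 Ω u P0 W0 pc wc eP eW O es Q nrm) (hε0 : 0 < ε0)
    {lam tau : ℝ} (hg : Grid N lam tau) (F : VV n →L[ℝ] ℝ) (f v : VV n) (κ : ℝ)
    (hFf : F f = 1) (hf : nrm lam tau f ≤ C0) (hFv : F v = 0) (hv : nrm lam tau v ≤ C0)
    (B : Set (EE n)) (hB : MeasurableSet B) (hBD : B ⊆ Dr Ω u P0 W0 pc wc lam tau Θ)
    (hpos : ∀ x ∈ B, 0 < sg u v x) (hF : ∀ x ∈ B, |F (x, u x) + κ| ≤ ε0) :
    ∫⁻ x in B, ENNReal.ofReal (sg u v x) ≤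
      ENNReal.ofReal (ε0 * (K + 7 * C0) ^ (n + 1)) * volume {v : VV n | nrm lam tau v ≤ 1} := by
  have hsc := h.sol.sc
  have hC0 := h.C0_ge
  have hK := h.K_pos
  have hV := V1 (B := B) (v := v)
    (S := {X : VV n | nrm lam tau (X - O) ≤ K + C0 ∧ |F X + κ| ≤ ε0}) hsc hB
    (hBD.trans (Dr_subset _ _ _)) hpos
    (fun x hx r hr => by
      refine ⟨?_, ?_⟩
      · have e : ((x, u x) : VV n) - r • v - O = ((x, u x) - O) + (-r) • v := by
          rw [neg_smul]; abel
        rw [e]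
        refine (map_add_le_add _ _ _).trans ?_
        have h1 := (nrm_le h hg (hBD hx)).1
        have h2 : nrm lam tau ((-r) • v) ≤ C0 := by
          rw [map_smul_eq_mul, norm_neg, Real.norm_eq_abs, abs_of_pos hr.1]
          have h4 : 0 ≤ nrm lam tau v := apply_nonneg _ _
          nlinarith [hr.1, hr.2]
        linarith
      · have e : F ((x, u x) - r • v) = F (x, u x) := by
          rw [map_sub, map_smul, hFv, smul_zero, sub_zero]
        rw [e]
        exact hF x hx)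
  refine hV.trans ((BmassV.vol_slab volume (nrm lam tau) O (by linarith : 0 < K + C0)
    (by linarith : 0 ≤ C0) hε0 F f hFf hf κ).trans (le_of_eq ?_))
  rw [finrank_VV]
  congr 3
  ring

/-- (M1P) -/
theorem M1P (h : APX n Θ K c2 C0 N ε0 Ω u P0 W0 pc wc eP eW O es Q nrm) (hε0 : 0 < ε0)
    {lam tau : ℝ} (hg : Grid N lam tau) :
    ∫⁻ x in Dr Ω u P0 W0 pc wc lam tau Θ ∩ {x | aff P0 pc (x, u x) / lam < ε0},
        ENNReal.ofReal (tau * sg u eW x) ≤
      ENNReal.ofReal (ε0 * (K + 7 * C0) ^ (n + 1)) * volume {v : VV n | nrm lam tau v ≤ 1} := by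
  have hsc := h.sol.sc
  obtain ⟨hl, ht⟩ := grid_pos hg
  have hmeas : MeasurableSet
      (Dr Ω u P0 W0 pc wc lam tau Θ ∩ {x | aff P0 pc (x, u x) / lam < ε0}) := by
    have h1 : ContinuousOn (fun x => aff P0 pc (x, u x) / lam) (Dr Ω u P0 W0 pc wc lam tau Θ) :=
      ((continuousOn_aff hsc P0 pc).div_const _).mono (Dr_subset _ _ _)
    exact (h1.isOpen_inter_preimage (isOpen_Dr hsc lam tau Θ) (isOpen_Iio (a := ε0))).measurableSet
  have := M1slab h hε0 hg (lam⁻¹ • P0) (lam • eP) (tau • eW) (pc / lam)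
    (by simp [h.PP, hl.ne']) (h.eP_le lam tau hg) (by simp [h.PW]) (h.eW_le lam tau hg)
    _ hmeas inter_subset_left
    (fun x hx => by
      rw [sg_smul]
      exact mul_pos ht (h.sg_eW lam tau hg x hx.1.1 hx.1.2.le))
    (fun x hx => by
      have e : (lam⁻¹ • P0) (x, u x) + pc / lam = aff P0 pc (x, u x) / lam := by
        simp only [ContinuousLinearMap.smul_apply, smul_eq_mul, aff]
        field_simp
      rw [e, abs_le]
      refine ⟨?_, hx.2.le⟩
      rw [le_div_iff₀ hl]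
      linarith [(nrm_le h hg hx.1).2.1])
  simpa only [sg_smul] using this

/-- (M1W) -/
theorem M1W (h : APX n Θ K c2 C0 N ε0 Ω u P0 W0 pc wc eP eW O es Q nrm) (hε0 : 0 < ε0)
    {lam tau : ℝ} (hg : Grid N lam tau) :
    ∫⁻ x in Dr Ω u P0 W0 pc wc lam tau Θ ∩ {x | aff W0 wc (x, u x) / tau < ε0},
        ENNReal.ofReal (lam * sg u eP x) ≤
      ENNReal.ofReal (ε0 * (K + 7 * C0) ^ (n + 1)) * volume {v : VV n | nrm lam tau v ≤ 1} := by
  have hsc := h.sol.sc
  obtain ⟨hl, ht⟩ := grid_pos hg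
  have hmeas : MeasurableSet
      (Dr Ω u P0 W0 pc wc lam tau Θ ∩ {x | aff W0 wc (x, u x) / tau < ε0}) := by
    have h1 : ContinuousOn (fun x => aff W0 wc (x, u x) / tau) (Dr Ω u P0 W0 pc wc lam tau Θ) :=
      ((continuousOn_aff hsc W0 wc).div_const _).mono (Dr_subset _ _ _)
    exact (h1.isOpen_inter_preimage (isOpen_Dr hsc lam tau Θ) (isOpen_Iio (a := ε0))).measurableSet
  have := M1slab h hε0 hg (tau⁻¹ • W0) (tau • eW) (lam • eP) (wc / tau)
    (by simp [h.WW, ht.ne']) (h.eW_le lam tau hg) (by simp [h.WP]) (h.eP_le lam tau hg)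
    _ hmeas inter_subset_left
    (fun x hx => by
      rw [sg_smul]
      exact mul_pos hl (h.sg_eP lam tau hg x hx.1.1 hx.1.2.le))
    (fun x hx => by
      have e : (tau⁻¹ • W0) (x, u x) + wc / tau = aff W0 wc (x, u x) / tau := by
        simp only [ContinuousLinearMap.smul_apply, smul_eq_mul, aff]
        field_simp
      rw [e, abs_le]
      refine ⟨?_, hx.2.le⟩
      rw [le_div_iff₀ ht]
      linarith [(nrm_le h hg hx.1).2.2])
  simpa only [sg_smul] using this

end Crest.Agent.R236.BmassM
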