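import Mathlib
import Crest.Agent.R236.Bmass
import Crest.Agent.R236.BmassM
import Crest.Agent.R236.Bla

/-!
# Row 236, Part B, node B6 (lower mass) in terms of `APX`  (helper218)
-/

set_option autoImplicit false
noncomputable section
open MeasureTheory Set
open scoped ENNReal ContDiff
open Crest.GeometryTopology.CoordMetric Crest.GeometryTopology.AffineMaximal

namespace Crest.Agent.R236.BmassF

open Crest.Agent.R236.A (EE epi SOL STRUCT IsStruct ConeData Appr)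
open Crest.Agent.R236.B Crest.Agent.R236.BA Crest.Agent.R236.BVol Crest.Agent.R236.BmassM

/-- the second-moment bounds (M2), (M2P), (M2W), with constant `CM` -/
def M2Hyp (n : ℕ) (Θ K c2 C0 CM : ℝ) : Prop :=
  ∀ (N : ℕ) (ε0 : ℝ) (Ω : Set (EE n)) (u : EE n → ℝ)
    (P0 W0 : VV n →L[ℝ] ℝ) (pc wc : ℝ) (eP eW O : VV n) (es Q : ℝ → ℝ → VV n)
    (nrm : ℝ → ℝ → Seminorm ℝ (VV n)), APX n Θ K c2 C0 N ε0 Ω u P0 W0 pc wc eP eW O es Q nrm →
    ∀ lam tau : ℝ, Grid N lam tau →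
      0 < (volume {v : VV n | nrm lam tau v ≤ 1}).toReal ∧
      ∫⁻ x in Dr Ω u P0 W0 pc wc lam tau Θ,
          ENNReal.ofReal ((hessianMat u x).det / (sg u (es lam tau) x) ^ (n + 1)) ≤
        ENNReal.ofReal (CM / (volume {v : VV n | nrm lam tau v ≤ 1}).toReal) ∧
      ∀ δ : ℝ, 0 < δ →
        ∫⁻ x in Dr Ω u P0 W0 pc wc lam tau Θ ∩ {x | lam * sg u eP x < δ * sg u (es lam tau) x},
            ENNReal.ofReal ((hessianMat u x).det / (sg u (es lam tau) x) ^ (n + 1)) ≤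
          ENNReal.ofReal (CM * δ / (volume {v : VV n | nrm lam tau v ≤ 1}).toReal) ∧
        ∫⁻ x in Dr Ω u P0 W0 pc wc lam tau Θ ∩ {x | tau * sg u eW x < δ * sg u (es lam tau) x},
            ENNReal.ofReal ((hessianMat u x).det / (sg u (es lam tau) x) ^ (n + 1)) ≤
          ENNReal.ofReal (CM * δ / (volume {v : VV n | nrm lam tau v ≤ 1}).toReal)

/-- **B6 (lower mass)** for the approximants. -/
theorem lower (n : ℕ) (hn : 2 ≤ n) (Θ K c2 C0 : ℝ) (hΘ : 0 < Θ) (hK : 0 < K) (hc2 : 0 < c2)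
    (hC0 : 1 ≤ C0) (cB : ℝ) (hcB : 0 < cB) (hB : B5Hyp n cB) (CM : ℝ) (hCM : 0 < CM)
    (hM2 : M2Hyp n Θ K c2 C0 CM) :
    ∃ ε0 : ℝ, (0 < ε0 ∧ ε0 ≤ 1) ∧ ∃ c4 : ℝ, 0 < c4 ∧
    ∀ (N : ℕ) (Ω : Set (EE n)) (u : EE n → ℝ)
    (P0 W0 : VV n →L[ℝ] ℝ) (pc wc : ℝ) (eP eW O : VV n) (es Q : ℝ → ℝ → VV n)
    (nrm : ℝ → ℝ → Seminorm ℝ (VV n)), APX n Θ K c2 C0 N ε0 Ω u P0 W0 pc wc eP eW O es Q nrm →
    ∀ lam tau : ℝ, Grid N lam tau →
      ENNReal.ofReal c4 ≤ ∫⁻ x in {x | x ∈ Ω ∧ ε0 * lam ≤ aff P0 pc (x, u x) ∧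
          aff P0 pc (x, u x) ≤ Θ * lam ∧ ε0 * tau ≤ aff W0 wc (x, u x) ∧
          aff W0 wc (x, u x) ≤ Θ * tau},
        ENNReal.ofReal ((aff P0 pc (x, u x) * (Bla.rho u x * sg u eP x) +
          aff W0 wc (x, u x) * (Bla.rho u x * sg u eW x)) ^ (1 - (n : ℝ) / 2) *
          (1 / (aff P0 pc (x, u x) * (Bla.rho u x * sg u eP x)) +
            1 / (aff W0 wc (x, u x) * (Bla.rho u x * sg u eW x))) / Bla.rho u x) := by
  -- constants
  set c : ℝ := cB * (c2 ^ (n + 1)) ^ ((n : ℝ) / ((n : ℝ) + 2)) with hc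
  have hcpos : 0 < c := by positivity
  set C : ℝ := (K + 7 * C0) ^ (n + 1) + CM + C0 * C0 + c with hC
  have hC1 : (K + 7 * C0) ^ (n + 1) ≤ C := by
    have : 0 ≤ C0 * C0 := by positivity
    linarith
  have hC2 : CM ≤ C := by
    have h1 : 0 ≤ C0 * C0 := by positivity
    have h2 : 0 ≤ (K + 7 * C0) ^ (n + 1) := by positivity
    linarith
  have hC3 : C0 * C0 ≤ C := by
    have h2 : 0 ≤ (K + 7 * C0) ^ (n + 1) := by positivity
    linarith
  have hC5 : c ≤ C := by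
    have h1 : 0 ≤ C0 * C0 := by positivity
    have h2 : 0 ≤ (K + 7 * C0) ^ (n + 1) := by positivity
    linarith
  have hC4 : (K + C0) ^ (n + 1) ≤ C :=
    (pow_le_pow_left₀ (by linarith) (by linarith) _).trans hC1
  have hCpos : 0 < C := lt_of_lt_of_le hCM hC2
  obtain ⟨δ0, hδ0, ε0, ⟨hε0, hε1⟩, c4, hc4, H⟩ :=
    Bmass.lower_mass_leb n hn c C Θ hcpos hCpos hC5 hΘ
  refine ⟨ε0, ⟨hε0, hε1⟩, c4, hc4, ?_⟩
  intro N Ω u P0 W0 pc wc eP eW O es Q nrm h lam tau hg
  have hsc := h.sol.sc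
  obtain ⟨hl, ht⟩ := grid_pos hg
  set D : Set (EE n) := Dr Ω u P0 W0 pc wc lam tau Θ with hD
  have hDo : IsOpen D := isOpen_Dr hsc lam tau Θ
  have hDm : MeasurableSet D := hDo.measurableSet
  have hDΩ : D ⊆ Ω := Dr_subset _ _ _
  set V : ℝ≥0∞ := volume {v : VV n | nrm lam tau v ≤ 1} with hVdef
  obtain ⟨hVpos, hm2, hδ⟩ := hM2 N ε0 Ω u P0 W0 pc wc eP eW O es Q nrm h lam tau hg
  rw [← hVdef] at hVpos hm2
  have hVtop : V ≠ ⊤ := fun h0 => by
    rw [h0, ENNReal.toReal_top] at hVpos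
    exact lt_irrefl _ hVpos
  have hVof : ENNReal.ofReal V.toReal = V := ENNReal.ofReal_toReal hVtop
  have hconv : ∀ t : ℝ, 0 ≤ t → ENNReal.ofReal t * V = ENNReal.ofReal (t * V.toReal) := by
    intro t ht'
    rw [ENNReal.ofReal_mul ht', hVof]
  have cont : ∀ f : EE n → ℝ, ContinuousOn f Ω → AEMeasurable f (volume.restrict D) :=
    fun f hf => (hf.mono hDΩ).aemeasurable hDm
  have csg : ∀ v : VV n, ContinuousOn (sg u v) Ω := fun v => continuousOn_sig hsc v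
  have R := H (volume : Measure (EE n)) D hDm V.toReal hVpos
    (fun x => (hessianMat u x).det) (Bla.rho u) (sg u (es lam tau))
    (fun x => lam * sg u eP x) (fun x => tau * sg u eW x)
    (fun x => aff P0 pc (x, u x) / lam) (fun x => aff W0 wc (x, u x) / tau)
    (cont _ (Bla.contDiffOn_rho hsc).continuousOn) (cont _ (csg _))
    (cont _ (continuousOn_const.mul (csg _))) (cont _ (continuousOn_const.mul (csg _)))
    (cont _ ((continuousOn_aff hsc P0 pc).div_const _))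
    (cont _ ((continuousOn_aff hsc W0 wc).div_const _))
    (fun x hx => ⟨(hsc.posDef x (hDΩ hx)).det_pos, by unfold Bla.rho; congr 1; ring⟩)
    (fun x hx => by
      have h1 := h.sg_es lam tau hg x hx.1 hx.2.le
      have h2 := h.sg_eP lam tau hg x hx.1 hx.2.le
      have h3 := h.sg_eW lam tau hg x hx.1 hx.2.le
      have hle : ∀ v : VV n, nrm lam tau v ≤ C0 → sg u v x ≤ C * sg u (es lam tau) x := by
        intro v hv
        have h4 := h.sg_le lam tau hg x hx.1 hx.2.le v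
        calc sg u v x ≤ |sg u v x| := le_abs_self _
          _ ≤ C0 * nrm lam tau v * sg u (es lam tau) x := h4
          _ ≤ C0 * C0 * sg u (es lam tau) x := by gcongr
          _ ≤ C * sg u (es lam tau) x := by gcongr
      refine ⟨h1, mul_pos hl h2, mul_pos ht h3, ?_, ?_, hx.2.le⟩
      · have := hle (lam • eP) (h.eP_le lam tau hg)
        rwa [sg_smul] at this
      · have := hle (tau • eW) (h.eW_le lam tau hg)
        rwa [sg_smul] at this)
    (by
      have h1 := area_lower' hcB.le hB h hg (θ := Θ) (by linarith) le_rfl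
      refine h1.trans (le_of_eq ?_)
      refine setLIntegral_congr_fun hDm fun x hx => ?_
      congr 1
      have hdet := (hsc.posDef x (hDΩ hx)).det_pos
      have e : (1 : ℝ) / (hessianMat u x).det ^ (-(1 : ℝ) / ((n : ℝ) + 2)) =
          (hessianMat u x).det ^ ((1 : ℝ) / ((n : ℝ) + 2)) := by
        rw [one_div, ← Real.rpow_neg hdet.le]
        congr 1
        ring
      exact e.symm)
    (by
      refine (M1 h hg).trans ?_
      rw [hconv _ (by positivity)]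
      exact ENNReal.ofReal_le_ofReal (mul_le_mul_of_nonneg_right hC4 hVpos.le))
    (hm2.trans (ENNReal.ofReal_le_ofReal (by gcongr)))
    ((hδ δ0 hδ0).1.trans (ENNReal.ofReal_le_ofReal (by gcongr)))
    ((hδ δ0 hδ0).2.trans (ENNReal.ofReal_le_ofReal (by gcongr)))
    (by
      refine (M1P h hε0 hg).trans ?_
      rw [hconv _ (by positivity)]
      refine ENNReal.ofReal_le_ofReal (mul_le_mul_of_nonneg_right ?_ hVpos.le)
      rw [mul_comm]
      exact mul_le_mul_of_nonneg_right hC1 hε0.le)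
    (by
      refine (M1W h hε0 hg).trans ?_
      rw [hconv _ (by positivity)]
      refine ENNReal.ofReal_le_ofReal (mul_le_mul_of_nonneg_right ?_ hVpos.le)
      rw [mul_comm]
      exact mul_le_mul_of_nonneg_right hC1 hε0.le)
  refine R.trans ?_
  have hset : D ∩ {x | ε0 ≤ aff P0 pc (x, u x) / lam ∧ aff P0 pc (x, u x) / lam ≤ Θ ∧
      ε0 ≤ aff W0 wc (x, u x) / tau ∧ aff W0 wc (x, u x) / tau ≤ Θ} ⊆
      {x | x ∈ Ω ∧ ε0 * lam ≤ aff P0 pc (x, u x) ∧
          aff P0 pc (x, u x) ≤ Θ * lam ∧ ε0 * tau ≤ aff W0 wc (x, u x) ∧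
          aff W0 wc (x, u x) ≤ Θ * tau} := by
    rintro x ⟨hx, h1, h2, h3, h4⟩
    exact ⟨hDΩ hx, (le_div_iff₀ hl).mp h1, (div_le_iff₀ hl).mp h2, (le_div_iff₀ ht).mp h3,
      (div_le_iff₀ ht).mp h4⟩
  refine (lintegral_mono_set hset).trans' (le_of_eq ?_)
  refine lintegral_congr fun x => ?_
  congr 1
  have e1 : aff P0 pc (x, u x) / lam * (Bla.rho u x * (lam * sg u eP x)) =
      aff P0 pc (x, u x) * (Bla.rho u x * sg u eP x) := by
    field_simp
  have e2 : aff W0 wc (x, u x) / tau * (Bla.rho u x * (tau * sg u eW x)) =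
      aff W0 wc (x, u x) * (Bla.rho u x * sg u eW x) := by
    field_simp
  rw [e1, e2]

end Crest.Agent.R236.BmassF
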