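import Crest.Agent.R236.CertAsm

/-! Row 236, C3: exact certificate for n = 4 (helper194, generated; data of note 13059). -/

set_option autoImplicit false
set_option linter.all false
set_option maxHeartbeats 4000000

noncomputable section

namespace Crest.Agent.R236.Cert.N4

open Crest.Agent.R236.Cert

def Fa : Biv := hom2 3 4 3
def FA : Biv := hom2 20 34 7
def mu : Biv := hom3 (-10) 3 15 1

theorem br (p q : ℝ) (g : Gram) : bracket 4 2 Fa FA mu p q g =
    ((6*p^3 + 9*p^2*q + 12*p*q^2 + 3*q^3) * g.aa +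
     (3*p^3 + 12*p^2*q + 9*p*q^2 + 6*q^3) * g.bb +
     (40*p^3 + 82*p^2*q + 28*p*q^2 + 7*q^3) * g.AA +
     (7*p^3 + 28*p^2*q + 82*p*q^2 + 40*q^3) * g.BB +
     (3*p^3 + 7*p^2*q + 7*p*q^2 + 3*q^3) * g.ab +
     (13*p^3 + 33*p^2*q + 7*p*q^2 + 1*q^3) * g.aA +
     (5*p^3 + 28*p^2*q + (-15)*p*q^2 + (-10)*q^3) * g.aB +
     ((-10)*p^3 + (-15)*p^2*q + 28*p*q^2 + 5*q^3) * g.bA +
     (1*p^3 + 7*p^2*q + 33*p*q^2 + 13*q^3) * g.bB +
     (7*p^3 + 80*p^2*q + 80*p*q^2 + 7*q^3) * g.AB)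
    + ((mu.f p q) / p + (mu.f q p) / q) := by
  simp only [bracket, bracketV, Biv.swap, Fa, FA, mu, hom2, hom3, hom4]
  push_cast
  ring

theorem psd0 (g : Gram) (h : g.PSD) : 0 ≤
    (47/8) * g.aa + (23/8) * g.bb + (319/8) * g.AA + (55/8) * g.BB + 3 * g.ab + 13 * g.aA + 5 * g.aB + (-10) * g.bA + 1 * g.bB + 7 * g.AB := by
  linear_combination (39451/1000) * h (4119/25000) (-6337/50000) 1 (1109/12500) +
    (307/50) * h (15661/50000) (7683/50000) 0 1 +
    (3777/1000) * h 1 (53689/100000) 0 0 +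
    (583/1000) * h 0 1 0 0 +
    (569121543/1250000000000) * h 1 1 0 0 +
    (1331/25000000) * h 1 0 1 0 +
    (48101079/312500000000) * h 1 0 0 1 +
    (987/50000000) * h 0 1 1 0 +
    (80844583/625000000000) * h 0 1 0 1 +
    (1159/12500000) * h 0 0 1 (-1) +
    (530038441449/1250000000000) * h 1 0 0 0 +
    (847991193359/2000000000000) * h 0 1 0 0 +
    (4238343/10000000) * h 0 0 1 0 +
    (53011972387/125000000000) * h 0 0 0 1

theorem psd1 (g : Gram) (h : g.PSD) : 0 ≤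
    (69/8) * g.aa + (93/8) * g.bb + (653/8) * g.AA + (221/8) * g.BB + 7 * g.ab + 33 * g.aA + 28 * g.aB + (-15) * g.bA + 7 * g.bB + 80 * g.AB := by
  linear_combination (81377/1000) * h (5069/25000) (-288/3125) 1 (24577/50000) +
    (5343/500) * h (46983/100000) 1 0 (269/400) +
    (2883/1000) * h (87171/100000) 0 0 1 +
    (241/500) * h 1 0 0 0 +
    (5729363/156250000000) * h 1 1 0 0 +
    (13/25000000) * h 1 0 (-1) 0 +
    (235103373/2500000000000) * h 1 0 0 1 +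
    (231/781250) * h 0 1 (-1) 0 +
    (5442301/78125000000) * h 0 1 0 1 +
    (2529/50000000) * h 0 0 1 (-1) +
    (2477693708867/10000000000000) * h 1 0 0 0 +
    (38660193827/156250000000) * h 0 1 0 0 +
    (12382661/50000000) * h 0 0 1 0 +
    (154594104753/625000000000) * h 0 0 0 1

theorem psd2 (g : Gram) (h : g.PSD) : 0 ≤
    (93/8) * g.aa + (69/8) * g.bb + (221/8) * g.AA + (653/8) * g.BB + 7 * g.ab + 7 * g.aA + (-15) * g.aB + 28 * g.bA + 33 * g.bB + 80 * g.AB := by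
  linear_combination (81377/1000) * h (-288/3125) (5069/25000) (24577/50000) 1 +
    (5343/500) * h 1 (46983/100000) (269/400) 0 +
    (2883/1000) * h 0 (87171/100000) 1 0 +
    (241/500) * h 0 1 0 0 +
    (5729363/156250000000) * h 1 1 0 0 +
    (5442301/78125000000) * h 1 0 1 0 +
    (231/781250) * h 1 0 0 (-1) +
    (235103373/2500000000000) * h 0 1 1 0 +
    (13/25000000) * h 0 1 0 (-1) +
    (2529/50000000) * h 0 0 1 (-1) +
    (38660193827/156250000000) * h 1 0 0 0 +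
    (2477693708867/10000000000000) * h 0 1 0 0 +
    (154594104753/625000000000) * h 0 0 1 0 +
    (12382661/50000000) * h 0 0 0 1

theorem psd3 (g : Gram) (h : g.PSD) : 0 ≤
    (23/8) * g.aa + (47/8) * g.bb + (55/8) * g.AA + (319/8) * g.BB + 3 * g.ab + 1 * g.aA + (-10) * g.aB + 5 * g.bA + 13 * g.bB + 7 * g.AB := by
  linear_combination (39451/1000) * h (-6337/50000) (4119/25000) (1109/12500) 1 +
    (307/50) * h (7683/50000) (15661/50000) 1 0 +
    (3777/1000) * h (53689/100000) 1 0 0 +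
    (583/1000) * h 1 0 0 0 +
    (569121543/1250000000000) * h 1 1 0 0 +
    (80844583/625000000000) * h 1 0 1 0 +
    (987/50000000) * h 1 0 0 1 +
    (48101079/312500000000) * h 0 1 1 0 +
    (1331/25000000) * h 0 1 0 1 +
    (1159/12500000) * h 0 0 1 (-1) +
    (847991193359/2000000000000) * h 1 0 0 0 +
    (530038441449/1250000000000) * h 0 1 0 0 +
    (53011972387/125000000000) * h 0 0 1 0 +
    (4238343/10000000) * h 0 0 0 1

theorem quad (p q : ℝ) (hp : 0 < p) (hq : 0 < q) (g : Gram) (h : g.PSD) :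
    (1/8 : ℝ) * (p + q) ^ 3 * (g.aa + g.bb + g.AA + g.BB) ≤ (p + q) ^ 0 * (
    (6*p^3 + 9*p^2*q + 12*p*q^2 + 3*q^3) * g.aa +
     (3*p^3 + 12*p^2*q + 9*p*q^2 + 6*q^3) * g.bb +
     (40*p^3 + 82*p^2*q + 28*p*q^2 + 7*q^3) * g.AA +
     (7*p^3 + 28*p^2*q + 82*p*q^2 + 40*q^3) * g.BB +
     (3*p^3 + 7*p^2*q + 7*p*q^2 + 3*q^3) * g.ab +
     (13*p^3 + 33*p^2*q + 7*p*q^2 + 1*q^3) * g.aA +
     (5*p^3 + 28*p^2*q + (-15)*p*q^2 + (-10)*q^3) * g.aB +
     ((-10)*p^3 + (-15)*p^2*q + 28*p*q^2 + 5*q^3) * g.bA +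
     (1*p^3 + 7*p^2*q + 33*p*q^2 + 13*q^3) * g.bB +
     (7*p^3 + 80*p^2*q + 80*p*q^2 + 7*q^3) * g.AB) := by
  have h0 := mul_nonneg (mul_nonneg (pow_nonneg hp.le 3) (pow_nonneg hq.le 0)) (psd0 g h)
  have h1 := mul_nonneg (mul_nonneg (pow_nonneg hp.le 2) (pow_nonneg hq.le 1)) (psd1 g h)
  have h2 := mul_nonneg (mul_nonneg (pow_nonneg hp.le 1) (pow_nonneg hq.le 2)) (psd2 g h)
  have h3 := mul_nonneg (mul_nonneg (pow_nonneg hp.le 0) (pow_nonneg hq.le 3)) (psd3 g h)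
  linear_combination h0 + h1 + h2 + h3

theorem scal (p q : ℝ) (hp : 0 < p) (hq : 0 < q) :
    (1/8 : ℝ) * (p + q) ^ 4 ≤ (p + q) ^ 0 * (q * mu.f p q + p * mu.f q p) := by
  simp only [mu, hom2, hom3, hom4]
  have h0 := mul_nonneg (pow_nonneg hp.le 4) (pow_nonneg hq.le 0)
  have h1 := mul_nonneg (pow_nonneg hp.le 3) (pow_nonneg hq.le 1)
  have h2 := mul_nonneg (pow_nonneg hp.le 2) (pow_nonneg hq.le 2)
  have h3 := mul_nonneg (pow_nonneg hp.le 1) (pow_nonneg hq.le 3)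
  have h4 := mul_nonneg (pow_nonneg hp.le 0) (pow_nonneg hq.le 4)
  linear_combination (7/8) * h0 + (9/2) * h1 + (21/4) * h2 + (9/2) * h3 + (7/8) * h4

def cert : CertData 4 where
  d := 2
  Fa := Fa
  FA := FA
  mu := mu
  ε := 1/8
  C := 20
  ε_pos := by norm_num
  C_pos := by norm_num
  main := by
    intro p q hp hq g h
    rw [br]
    have h1 := quad p q hp hq g h
    have h2 := scal p q hp hq
    exact assemble 2 0 p q _ _ _ _ hp hq h1 h2
  boundFa := by
    intro p q hp hq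
    have e0 : 0 ≤ (Fa).f p q := by
      simp only [Fa, hom2, hom3]; positivity
    rw [abs_of_nonneg e0]
    simp only [Fa, hom2, hom3]
    have h0 := mul_nonneg (pow_nonneg hp.le 2) (pow_nonneg hq.le 0)
    have h1 := mul_nonneg (pow_nonneg hp.le 1) (pow_nonneg hq.le 1)
    have h2 := mul_nonneg (pow_nonneg hp.le 0) (pow_nonneg hq.le 2)
    linear_combination 17 * h0 + 36 * h1 + 17 * h2
  boundFA := by
    intro p q hp hq
    have e0 : 0 ≤ (FA).f p q := by
      simp only [FA, hom2, hom3]; positivity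
    rw [abs_of_nonneg e0]
    simp only [FA, hom2, hom3]
    have h1 := mul_nonneg (pow_nonneg hp.le 1) (pow_nonneg hq.le 1)
    have h2 := mul_nonneg (pow_nonneg hp.le 0) (pow_nonneg hq.le 2)
    linear_combination 6 * h1 + 13 * h2

end Crest.Agent.R236.Cert.N4
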