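import Crest.Agent.R236.CertAsm

/-! Row 236, C3: exact certificate for n = 5 (helper194, generated; data of note 13059). -/

set_option autoImplicit false
set_option linter.all false
set_option maxHeartbeats 4000000

noncomputable section

namespace Crest.Agent.R236.Cert.N5

open Crest.Agent.R236.Cert

def Fa : Biv := hom2 8 8 4
def FA : Biv := hom2 50 66 19
def mu : Biv := hom3 (-24) 3 30 1

theorem br (p q : ℝ) (g : Gram) : bracket 5 2 Fa FA mu p q g =
    ((20*p^3 + 20*p^2*q + 18*p*q^2 + 4*q^3) * g.aa +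
     (4*p^3 + 18*p^2*q + 20*p*q^2 + 20*q^3) * g.bb +
     (125*p^3 + 181*p^2*q + (171/2)*p*q^2 + 19*q^3) * g.AA +
     (19*p^3 + (171/2)*p^2*q + 181*p*q^2 + 125*q^3) * g.BB +
     (6*p^3 + 32*p^2*q + 32*p*q^2 + 6*q^3) * g.ab +
     (63*p^3 + 72*p^2*q + (73/2)*p*q^2 + 1*q^3) * g.aA +
     ((25/2)*p^3 + 64*p^2*q + 31*p*q^2 + (-15)*q^3) * g.aB +
     ((-15)*p^3 + 31*p^2*q + 64*p*q^2 + (25/2)*q^3) * g.bA +
     (1*p^3 + (73/2)*p^2*q + 72*p*q^2 + 63*q^3) * g.bB +
     ((57/2)*p^3 + 236*p^2*q + 236*p*q^2 + (57/2)*q^3) * g.AB)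
    + ((mu.f p q) / p + (mu.f q p) / q) := by
  simp only [bracket, bracketV, Biv.swap, Fa, FA, mu, hom2, hom3, hom4]
  push_cast
  ring

theorem psd0 (g : Gram) (h : g.PSD) : 0 ≤
    (159/8) * g.aa + (31/8) * g.bb + (999/8) * g.AA + (151/8) * g.BB + 6 * g.ab + 63 * g.aA + (25/2) * g.aB + (-15) * g.bA + 1 * g.bB + (57/2) * g.AB := by
  linear_combination (124293/1000) * h (25343/100000) (-3017/50000) 1 (2293/20000) +
    (16659/1000) * h (7919/50000) (8163/100000) 0 1 +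
    (2723/250) * h 1 (43017/100000) 0 0 +
    (357/500) * h 0 1 0 0 +
    (26039037/250000000000) * h 1 (-1) 0 0 +
    (42501/100000000) * h 1 0 1 0 +
    (242614793/2000000000000) * h 1 0 0 1 +
    (8019/50000000) * h 0 1 (-1) 0 +
    (17557567/1000000000000) * h 0 1 0 (-1) +
    (3849/20000000) * h 0 0 1 (-1) +
    (2907670712301/5000000000000) * h 1 0 0 0 +
    (5816475299383/10000000000000) * h 0 1 0 0 +
    (7265277/12500000) * h 0 0 1 0 +
    (145471030161/250000000000) * h 0 0 0 1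

theorem psd1 (g : Gram) (h : g.PSD) : 0 ≤
    (157/8) * g.aa + (141/8) * g.bb + (1445/8) * g.AA + (681/8) * g.BB + 32 * g.ab + 72 * g.aA + 64 * g.aB + 31 * g.bA + (73/2) * g.bB + 236 * g.AB := by
  linear_combination (36053/200) * h (19971/100000) (4299/50000) 1 (65459/100000) +
    (3983/250) * h (16199/20000) 1 0 (50863/100000) +
    (3401/1000) * h (55003/100000) 0 0 1 +
    (297/500) * h 1 0 0 0 +
    (534423563/1000000000000) * h 1 1 0 0 +
    (14463/20000000) * h 1 0 (-1) 0 +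
    (420636599/2000000000000) * h 1 0 0 1 +
    (8153/10000000) * h 0 1 1 0 +
    (895527227/1000000000000) * h 0 1 0 1 +
    (6673/20000000) * h 0 0 1 1 +
    (3592182039601/10000000000000) * h 1 0 0 0 +
    (5595857011/15625000000) * h 0 1 0 0 +
    (3581279/10000000) * h 0 0 1 0 +
    (1797395912281/5000000000000) * h 0 0 0 1

theorem psd2 (g : Gram) (h : g.PSD) : 0 ≤
    (141/8) * g.aa + (157/8) * g.bb + (681/8) * g.AA + (1445/8) * g.BB + 32 * g.ab + (73/2) * g.aA + 31 * g.aB + 64 * g.bA + 72 * g.bB + 236 * g.AB := by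
  linear_combination (36053/200) * h (4299/50000) (19971/100000) (65459/100000) 1 +
    (3983/250) * h 1 (16199/20000) (50863/100000) 0 +
    (3401/1000) * h 0 (55003/100000) 1 0 +
    (297/500) * h 0 1 0 0 +
    (534423563/1000000000000) * h 1 1 0 0 +
    (895527227/1000000000000) * h 1 0 1 0 +
    (8153/10000000) * h 1 0 0 1 +
    (420636599/2000000000000) * h 0 1 1 0 +
    (14463/20000000) * h 0 1 0 (-1) +
    (6673/20000000) * h 0 0 1 1 +
    (5595857011/15625000000) * h 1 0 0 0 +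
    (3592182039601/10000000000000) * h 0 1 0 0 +
    (1797395912281/5000000000000) * h 0 0 1 0 +
    (3581279/10000000) * h 0 0 0 1

theorem psd3 (g : Gram) (h : g.PSD) : 0 ≤
    (31/8) * g.aa + (159/8) * g.bb + (151/8) * g.AA + (999/8) * g.BB + 6 * g.ab + 1 * g.aA + (-15) * g.aB + (25/2) * g.bA + 63 * g.bB + (57/2) * g.AB := by
  linear_combination (124293/1000) * h (-3017/50000) (25343/100000) (2293/20000) 1 +
    (16659/1000) * h (8163/100000) (7919/50000) 1 0 +
    (2723/250) * h (43017/100000) 1 0 0 +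
    (357/500) * h 1 0 0 0 +
    (26039037/250000000000) * h 1 (-1) 0 0 +
    (17557567/1000000000000) * h 1 0 (-1) 0 +
    (8019/50000000) * h 1 0 0 (-1) +
    (242614793/2000000000000) * h 0 1 1 0 +
    (42501/100000000) * h 0 1 0 1 +
    (3849/20000000) * h 0 0 1 (-1) +
    (5816475299383/10000000000000) * h 1 0 0 0 +
    (2907670712301/5000000000000) * h 0 1 0 0 +
    (145471030161/250000000000) * h 0 0 1 0 +
    (7265277/12500000) * h 0 0 0 1

theorem quad (p q : ℝ) (hp : 0 < p) (hq : 0 < q) (g : Gram) (h : g.PSD) :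
    (1/8 : ℝ) * (p + q) ^ 3 * (g.aa + g.bb + g.AA + g.BB) ≤ (p + q) ^ 0 * (
    (20*p^3 + 20*p^2*q + 18*p*q^2 + 4*q^3) * g.aa +
     (4*p^3 + 18*p^2*q + 20*p*q^2 + 20*q^3) * g.bb +
     (125*p^3 + 181*p^2*q + (171/2)*p*q^2 + 19*q^3) * g.AA +
     (19*p^3 + (171/2)*p^2*q + 181*p*q^2 + 125*q^3) * g.BB +
     (6*p^3 + 32*p^2*q + 32*p*q^2 + 6*q^3) * g.ab +
     (63*p^3 + 72*p^2*q + (73/2)*p*q^2 + 1*q^3) * g.aA +
     ((25/2)*p^3 + 64*p^2*q + 31*p*q^2 + (-15)*q^3) * g.aB +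
     ((-15)*p^3 + 31*p^2*q + 64*p*q^2 + (25/2)*q^3) * g.bA +
     (1*p^3 + (73/2)*p^2*q + 72*p*q^2 + 63*q^3) * g.bB +
     ((57/2)*p^3 + 236*p^2*q + 236*p*q^2 + (57/2)*q^3) * g.AB) := by
  have h0 := mul_nonneg (mul_nonneg (pow_nonneg hp.le 3) (pow_nonneg hq.le 0)) (psd0 g h)
  have h1 := mul_nonneg (mul_nonneg (pow_nonneg hp.le 2) (pow_nonneg hq.le 1)) (psd1 g h)
  have h2 := mul_nonneg (mul_nonneg (pow_nonneg hp.le 1) (pow_nonneg hq.le 2)) (psd2 g h)
  have h3 := mul_nonneg (mul_nonneg (pow_nonneg hp.le 0) (pow_nonneg hq.le 3)) (psd3 g h)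
  linear_combination h0 + h1 + h2 + h3

theorem scal (p q : ℝ) (hp : 0 < p) (hq : 0 < q) :
    (1/8 : ℝ) * (p + q) ^ 4 ≤ (p + q) ^ 0 * (q * mu.f p q + p * mu.f q p) := by
  simp only [mu, hom2, hom3, hom4]
  have h0 := mul_nonneg (pow_nonneg hp.le 4) (pow_nonneg hq.le 0)
  have h1 := mul_nonneg (pow_nonneg hp.le 3) (pow_nonneg hq.le 1)
  have h2 := mul_nonneg (pow_nonneg hp.le 2) (pow_nonneg hq.le 2)
  have h3 := mul_nonneg (pow_nonneg hp.le 1) (pow_nonneg hq.le 3)
  have h4 := mul_nonneg (pow_nonneg hp.le 0) (pow_nonneg hq.le 4)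
  linear_combination (7/8) * h0 + (11/2) * h1 + (21/4) * h2 + (11/2) * h3 + (7/8) * h4

def cert : CertData 5 where
  d := 2
  Fa := Fa
  FA := FA
  mu := mu
  ε := 1/8
  C := 50
  ε_pos := by norm_num
  C_pos := by norm_num
  main := by
    intro p q hp hq g h
    rw [br]
    have h1 := quad p q hp hq g h
    have h2 := scal p q hp hq
    exact assemble 2 0 p q _ _ _ _ hp hq h1 h2
  boundFa := by
    intro p q hp hq
    have e0 : 0 ≤ (Fa).f p q := by
      simp only [Fa, hom2, hom3]; positivity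
    rw [abs_of_nonneg e0]
    simp only [Fa, hom2, hom3]
    have h0 := mul_nonneg (pow_nonneg hp.le 2) (pow_nonneg hq.le 0)
    have h1 := mul_nonneg (pow_nonneg hp.le 1) (pow_nonneg hq.le 1)
    have h2 := mul_nonneg (pow_nonneg hp.le 0) (pow_nonneg hq.le 2)
    linear_combination 42 * h0 + 92 * h1 + 46 * h2
  boundFA := by
    intro p q hp hq
    have e0 : 0 ≤ (FA).f p q := by
      simp only [FA, hom2, hom3]; positivity
    rw [abs_of_nonneg e0]
    simp only [FA, hom2, hom3]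
    have h1 := mul_nonneg (pow_nonneg hp.le 1) (pow_nonneg hq.le 1)
    have h2 := mul_nonneg (pow_nonneg hp.le 0) (pow_nonneg hq.le 2)
    linear_combination 34 * h1 + 31 * h2

end Crest.Agent.R236.Cert.N5
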