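import Crest.Agent.R236.CertAsm

/-! Row 236, C3: exact certificate for n = 6 (helper194, generated; data of note 13059). -/

set_option autoImplicit false
set_option linter.all false
set_option maxHeartbeats 4000000

noncomputable section

namespace Crest.Agent.R236.Cert.N6

open Crest.Agent.R236.Cert

def Fa : Biv := hom2 8 6 4
def FA : Biv := hom2 50 64 10
def mu : Biv := hom3 (-39) 3 42 1

theorem br (p q : ℝ) (g : Gram) : bracket 6 2 Fa FA mu p q g =
    ((24*p^3 + 16*p^2*q + 20*p*q^2 + 4*q^3) * g.aa +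
     (4*p^3 + 20*p^2*q + 16*p*q^2 + 24*q^3) * g.bb +
     (150*p^3 + 206*p^2*q + 50*p*q^2 + 10*q^3) * g.AA +
     (10*p^3 + 50*p^2*q + 206*p*q^2 + 150*q^3) * g.BB +
     (8*p^3 + 36*p^2*q + 36*p*q^2 + 8*q^3) * g.ab +
     (77*p^3 + 97*p^2*q + 28*p*q^2 + 1*q^3) * g.aA +
     (11*p^3 + 111*p^2*q + 44*p*q^2 + (-17)*q^3) * g.aB +
     ((-17)*p^3 + 44*p^2*q + 111*p*q^2 + 11*q^3) * g.bA +
     (1*p^3 + 28*p^2*q + 97*p*q^2 + 77*q^3) * g.bB +
     (20*p^3 + 308*p^2*q + 308*p*q^2 + 20*q^3) * g.AB)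
    + ((mu.f p q) / p + (mu.f q p) / q) := by
  simp only [bracket, bracketV, Biv.swap, Fa, FA, mu, hom2, hom3, hom4]
  push_cast
  ring

theorem psd0 (g : Gram) (h : g.PSD) : 0 ≤
    (191/8) * g.aa + (31/8) * g.bb + (1199/8) * g.AA + (79/8) * g.BB + 8 * g.ab + 77 * g.aA + 11 * g.aB + (-17) * g.bA + 1 * g.bB + 20 * g.AB := by
  linear_combination (149611/1000) * h (25733/100000) (-5681/100000) 1 (1671/25000) +
    (1713/125) * h 1 (11287/25000) 0 (4271/20000) +
    (4159/500) * h 0 (-761/25000) 0 1 +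
    (327/1000) * h 0 1 0 0 +
    (689161703/10000000000000) * h 1 1 0 0 +
    (60137/100000000) * h 1 0 1 0 +
    (527488927/2500000000000) * h 1 0 0 1 +
    (59909/100000000) * h 0 1 (-1) 0 +
    (121332021/2500000000000) * h 0 1 0 1 +
    (19/25000000) * h 0 0 1 1 +
    (263068468801/1000000000000) * h 1 0 0 0 +
    (1316906722589/5000000000000) * h 0 1 0 0 +
    (13139939/50000000) * h 0 0 1 0 +
    (329234992199/1250000000000) * h 0 0 0 1

theorem psd1 (g : Gram) (h : g.PSD) : 0 ≤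
    (889/8) * g.aa + (281/8) * g.bb + (6441/8) * g.AA + (713/8) * g.BB + 68 * g.ab + 405 * g.aA + 155 * g.aB + (-24) * g.bA + 32 * g.bB + 388 * g.AB := by
  linear_combination (400517/500) * h (158/625) (-749/50000) 1 (24219/100000) +
    (27921/500) * h 1 (33159/50000) 0 (637/1250) +
    (5887/250) * h 0 (29/20000) 0 1 +
    (3147/500) * h 0 1 0 0 +
    (2708439/15625000000) * h 1 1 0 0 +
    (109/78125) * h 1 0 (-1) 0 +
    (14001617/15625000000) * h 1 0 0 (-1) +
    (12767/25000000) * h 0 1 (-1) 0 +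
    (391795413/2500000000000) * h 0 1 0 (-1) +
    (121223/50000000) * h 0 0 1 (-1) +
    (3992365869/976562500) * h 1 0 0 0 +
    (639158613471/156250000000) * h 0 1 0 0 +
    (204333483/50000000) * h 0 0 1 0 +
    (20431729698297/5000000000000) * h 0 0 0 1

theorem psd2 (g : Gram) (h : g.PSD) : 0 ≤
    (1803/8) * g.aa + (939/8) * g.bb + (14171/8) * g.AA + (3707/8) * g.BB + 228 * g.ab + 878 * g.aA + 554 * g.aB + 185 * g.bA + 215 * g.bB + 1660 * g.AB := by
  linear_combination (880747/500) * h (12461/50000) (5251/100000) 1 (47119/100000) +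
    (53043/500) * h 1 (85729/100000) 0 (33061/50000) +
    (24669/1000) * h 0 1 0 (3829/25000) +
    (3861/250) * h 0 0 0 1 +
    (4168734883/2500000000000) * h 1 1 0 0 +
    (11633/25000000) * h 1 0 1 0 +
    (4060835327/2500000000000) * h 1 0 0 1 +
    (197503/50000000) * h 0 1 1 0 +
    (14296593523/5000000000000) * h 0 1 0 1 +
    (82107/50000000) * h 0 0 1 1 +
    (3086805880927/312500000000) * h 1 0 0 0 +
    (49365294510001/5000000000000) * h 0 1 0 0 +
    (123436781/12500000) * h 0 0 1 0 +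
    (3086625789857/312500000000) * h 0 0 0 1

theorem psd3 (g : Gram) (h : g.PSD) : 0 ≤
    (2173/8) * g.aa + (1757/8) * g.bb + (16333/8) * g.AA + (10477/8) * g.BB + 400 * g.ab + 1003 * g.aA + 869 * g.aB + 651 * g.bA + 637 * g.bB + 3180 * g.AB := by
  linear_combination (2029733/1000) * h (6177/25000) (16037/100000) 1 (15667/20000) +
    (77767/500) * h (76881/100000) 1 0 (40839/100000) +
    (43893/1000) * h 1 0 0 (-1637/10000) +
    (5017/200) * h 0 0 0 1 +
    (6701653417/2500000000000) * h 1 (-1) 0 0 +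
    (160741/25000000) * h 1 0 (-1) 0 +
    (17294038423/5000000000000) * h 1 0 0 (-1) +
    (828121/100000000) * h 0 1 (-1) 0 +
    (10884691707/2000000000000) * h 0 1 0 (-1) +
    (173089/20000000) * h 0 0 1 1 +
    (59379625061/5000000000) * h 1 0 0 0 +
    (2968208181283/250000000000) * h 0 1 0 0 +
    (118686347/10000000) * h 0 0 1 0 +
    (5943080139909/500000000000) * h 0 0 0 1

theorem psd4 (g : Gram) (h : g.PSD) : 0 ≤
    (1757/8) * g.aa + (2173/8) * g.bb + (10477/8) * g.AA + (16333/8) * g.BB + 400 * g.ab + 637 * g.aA + 651 * g.aB + 869 * g.bA + 1003 * g.bB + 3180 * g.AB := by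
  linear_combination (2029733/1000) * h (16037/100000) (6177/25000) (15667/20000) 1 +
    (77767/500) * h 1 (76881/100000) (40839/100000) 0 +
    (43893/1000) * h 0 1 (-1637/10000) 0 +
    (5017/200) * h 0 0 1 0 +
    (6701653417/2500000000000) * h 1 (-1) 0 0 +
    (10884691707/2000000000000) * h 1 0 (-1) 0 +
    (828121/100000000) * h 1 0 0 (-1) +
    (17294038423/5000000000000) * h 0 1 (-1) 0 +
    (160741/25000000) * h 0 1 0 (-1) +
    (173089/20000000) * h 0 0 1 1 +
    (2968208181283/250000000000) * h 1 0 0 0 +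
    (59379625061/5000000000) * h 0 1 0 0 +
    (5943080139909/500000000000) * h 0 0 1 0 +
    (118686347/10000000) * h 0 0 0 1

theorem psd5 (g : Gram) (h : g.PSD) : 0 ≤
    (939/8) * g.aa + (1803/8) * g.bb + (3707/8) * g.AA + (14171/8) * g.BB + 228 * g.ab + 215 * g.aA + 185 * g.aB + 554 * g.bA + 878 * g.bB + 1660 * g.AB := by
  linear_combination (880747/500) * h (5251/100000) (12461/50000) (47119/100000) 1 +
    (53043/500) * h (85729/100000) 1 (33061/50000) 0 +
    (24669/1000) * h 1 0 (3829/25000) 0 +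
    (3861/250) * h 0 0 1 0 +
    (4168734883/2500000000000) * h 1 1 0 0 +
    (14296593523/5000000000000) * h 1 0 1 0 +
    (197503/50000000) * h 1 0 0 1 +
    (4060835327/2500000000000) * h 0 1 1 0 +
    (11633/25000000) * h 0 1 0 1 +
    (82107/50000000) * h 0 0 1 1 +
    (49365294510001/5000000000000) * h 1 0 0 0 +
    (3086805880927/312500000000) * h 0 1 0 0 +
    (3086625789857/312500000000) * h 0 0 1 0 +
    (123436781/12500000) * h 0 0 0 1

theorem psd6 (g : Gram) (h : g.PSD) : 0 ≤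
    (281/8) * g.aa + (889/8) * g.bb + (713/8) * g.AA + (6441/8) * g.BB + 68 * g.ab + 32 * g.aA + (-24) * g.aB + 155 * g.bA + 405 * g.bB + 388 * g.AB := by
  linear_combination (400517/500) * h (-749/50000) (158/625) (24219/100000) 1 +
    (27921/500) * h (33159/50000) 1 (637/1250) 0 +
    (5887/250) * h (29/20000) 0 1 0 +
    (3147/500) * h 1 0 0 0 +
    (2708439/15625000000) * h 1 1 0 0 +
    (391795413/2500000000000) * h 1 0 (-1) 0 +
    (12767/25000000) * h 1 0 0 (-1) +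
    (14001617/15625000000) * h 0 1 (-1) 0 +
    (109/78125) * h 0 1 0 (-1) +
    (121223/50000000) * h 0 0 1 (-1) +
    (639158613471/156250000000) * h 1 0 0 0 +
    (3992365869/976562500) * h 0 1 0 0 +
    (20431729698297/5000000000000) * h 0 0 1 0 +
    (204333483/50000000) * h 0 0 0 1

theorem psd7 (g : Gram) (h : g.PSD) : 0 ≤
    (31/8) * g.aa + (191/8) * g.bb + (79/8) * g.AA + (1199/8) * g.BB + 8 * g.ab + 1 * g.aA + (-17) * g.aB + 11 * g.bA + 77 * g.bB + 20 * g.AB := by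
  linear_combination (149611/1000) * h (-5681/100000) (25733/100000) (1671/25000) 1 +
    (1713/125) * h (11287/25000) 1 (4271/20000) 0 +
    (4159/500) * h (-761/25000) 0 1 0 +
    (327/1000) * h 1 0 0 0 +
    (689161703/10000000000000) * h 1 1 0 0 +
    (121332021/2500000000000) * h 1 0 1 0 +
    (59909/100000000) * h 1 0 0 (-1) +
    (527488927/2500000000000) * h 0 1 1 0 +
    (60137/100000000) * h 0 1 0 1 +
    (19/25000000) * h 0 0 1 1 +
    (1316906722589/5000000000000) * h 1 0 0 0 +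
    (263068468801/1000000000000) * h 0 1 0 0 +
    (329234992199/1250000000000) * h 0 0 1 0 +
    (13139939/50000000) * h 0 0 0 1

theorem quad (p q : ℝ) (hp : 0 < p) (hq : 0 < q) (g : Gram) (h : g.PSD) :
    (1/8 : ℝ) * (p + q) ^ 7 * (g.aa + g.bb + g.AA + g.BB) ≤ (p + q) ^ 4 * (
    (24*p^3 + 16*p^2*q + 20*p*q^2 + 4*q^3) * g.aa +
     (4*p^3 + 20*p^2*q + 16*p*q^2 + 24*q^3) * g.bb +
     (150*p^3 + 206*p^2*q + 50*p*q^2 + 10*q^3) * g.AA +
     (10*p^3 + 50*p^2*q + 206*p*q^2 + 150*q^3) * g.BB +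
     (8*p^3 + 36*p^2*q + 36*p*q^2 + 8*q^3) * g.ab +
     (77*p^3 + 97*p^2*q + 28*p*q^2 + 1*q^3) * g.aA +
     (11*p^3 + 111*p^2*q + 44*p*q^2 + (-17)*q^3) * g.aB +
     ((-17)*p^3 + 44*p^2*q + 111*p*q^2 + 11*q^3) * g.bA +
     (1*p^3 + 28*p^2*q + 97*p*q^2 + 77*q^3) * g.bB +
     (20*p^3 + 308*p^2*q + 308*p*q^2 + 20*q^3) * g.AB) := by
  have h0 := mul_nonneg (mul_nonneg (pow_nonneg hp.le 7) (pow_nonneg hq.le 0)) (psd0 g h)
  have h1 := mul_nonneg (mul_nonneg (pow_nonneg hp.le 6) (pow_nonneg hq.le 1)) (psd1 g h)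
  have h2 := mul_nonneg (mul_nonneg (pow_nonneg hp.le 5) (pow_nonneg hq.le 2)) (psd2 g h)
  have h3 := mul_nonneg (mul_nonneg (pow_nonneg hp.le 4) (pow_nonneg hq.le 3)) (psd3 g h)
  have h4 := mul_nonneg (mul_nonneg (pow_nonneg hp.le 3) (pow_nonneg hq.le 4)) (psd4 g h)
  have h5 := mul_nonneg (mul_nonneg (pow_nonneg hp.le 2) (pow_nonneg hq.le 5)) (psd5 g h)
  have h6 := mul_nonneg (mul_nonneg (pow_nonneg hp.le 1) (pow_nonneg hq.le 6)) (psd6 g h)
  have h7 := mul_nonneg (mul_nonneg (pow_nonneg hp.le 0) (pow_nonneg hq.le 7)) (psd7 g h)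
  linear_combination h0 + h1 + h2 + h3 + h4 + h5 + h6 + h7

theorem scal (p q : ℝ) (hp : 0 < p) (hq : 0 < q) :
    (1/8 : ℝ) * (p + q) ^ 8 ≤ (p + q) ^ 4 * (q * mu.f p q + p * mu.f q p) := by
  simp only [mu, hom2, hom3, hom4]
  have h0 := mul_nonneg (pow_nonneg hp.le 8) (pow_nonneg hq.le 0)
  have h1 := mul_nonneg (pow_nonneg hp.le 7) (pow_nonneg hq.le 1)
  have h2 := mul_nonneg (pow_nonneg hp.le 6) (pow_nonneg hq.le 2)
  have h3 := mul_nonneg (pow_nonneg hp.le 5) (pow_nonneg hq.le 3)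
  have h4 := mul_nonneg (pow_nonneg hp.le 4) (pow_nonneg hq.le 4)
  have h5 := mul_nonneg (pow_nonneg hp.le 3) (pow_nonneg hq.le 5)
  have h6 := mul_nonneg (pow_nonneg hp.le 2) (pow_nonneg hq.le 6)
  have h7 := mul_nonneg (pow_nonneg hp.le 1) (pow_nonneg hq.le 7)
  have h8 := mul_nonneg (pow_nonneg hp.le 0) (pow_nonneg hq.le 8)
  linear_combination (7/8) * h0 + 6 * h1 + (41/2) * h2 + 42 * h3 + (213/4) * h4 + 42 * h5 + (41/2) * h6 + 6 * h7 + (7/8) * h8

def cert : CertData 6 where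
  d := 2
  Fa := Fa
  FA := FA
  mu := mu
  ε := 1/8
  C := 50
  ε_pos := by norm_num
  C_pos := by norm_num
  main := by
    intro p q hp hq g h
    rw [br]
    have h1 := quad p q hp hq g h
    have h2 := scal p q hp hq
    exact assemble 2 4 p q _ _ _ _ hp hq h1 h2
  boundFa := by
    intro p q hp hq
    have e0 : 0 ≤ (Fa).f p q := by
      simp only [Fa, hom2, hom3]; positivity
    rw [abs_of_nonneg e0]
    simp only [Fa, hom2, hom3]
    have h0 := mul_nonneg (pow_nonneg hp.le 2) (pow_nonneg hq.le 0)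
    have h1 := mul_nonneg (pow_nonneg hp.le 1) (pow_nonneg hq.le 1)
    have h2 := mul_nonneg (pow_nonneg hp.le 0) (pow_nonneg hq.le 2)
    linear_combination 42 * h0 + 94 * h1 + 46 * h2
  boundFA := by
    intro p q hp hq
    have e0 : 0 ≤ (FA).f p q := by
      simp only [FA, hom2, hom3]; positivity
    rw [abs_of_nonneg e0]
    simp only [FA, hom2, hom3]
    have h1 := mul_nonneg (pow_nonneg hp.le 1) (pow_nonneg hq.le 1)
    have h2 := mul_nonneg (pow_nonneg hp.le 0) (pow_nonneg hq.le 2)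
    linear_combination 36 * h1 + 40 * h2

end Crest.Agent.R236.Cert.N6
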