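import Crest.Agent.R236.CertAsm

/-! Row 236, C3: exact certificate for n = 7 (helper194, generated; data of note 13059). -/

set_option autoImplicit false
set_option linter.all false
set_option maxHeartbeats 4000000

noncomputable section

namespace Crest.Agent.R236.Cert.N7

open Crest.Agent.R236.Cert

def Fa : Biv := hom2 15 12 5
def FA : Biv := hom2 100 126 13
def mu : Biv := hom3 (-89) 3 93 1

theorem br (p q : ℝ) (g : Gram) : bracket 7 2 Fa FA mu p q g =
    (((105/2)*p^3 + 39*p^2*q + (55/2)*p*q^2 + 5*q^3) * g.aa +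
     (5*p^3 + (55/2)*p^2*q + 39*p*q^2 + (105/2)*q^3) * g.bb +
     (350*p^3 + 467*p^2*q + (143/2)*p*q^2 + 13*q^3) * g.AA +
     (13*p^3 + (143/2)*p^2*q + 467*p*q^2 + 350*q^3) * g.BB +
     ((25/2)*p^3 + (175/2)*p^2*q + (175/2)*p*q^2 + (25/2)*q^3) * g.ab +
     ((397/2)*p^3 + 256*p^2*q + 36*p*q^2 + 1*q^3) * g.aA +
     ((33/2)*p^3 + (557/2)*p^2*q + 144*p*q^2 + (-47/2)*q^3) * g.aB +
     ((-47/2)*p^3 + 144*p^2*q + (557/2)*p*q^2 + (33/2)*q^3) * g.bA +
     (1*p^3 + 36*p^2*q + 256*p*q^2 + (397/2)*q^3) * g.bB +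
     ((65/2)*p^3 + 739*p^2*q + 739*p*q^2 + (65/2)*q^3) * g.AB)
    + ((mu.f p q) / p + (mu.f q p) / q) := by
  simp only [bracket, bracketV, Biv.swap, Fa, FA, mu, hom2, hom3, hom4]
  push_cast
  ring

theorem psd0 (g : Gram) (h : g.PSD) : 0 ≤
    (419/8) * g.aa + (39/8) * g.bb + (2799/8) * g.AA + (103/8) * g.BB + (25/2) * g.ab + (397/2) * g.aA + (33/2) * g.aB + (-47/2) * g.bA + 1 * g.bB + (65/2) * g.AB := by
  linear_combination (34959/100) * h (2839/10000) (-3361/100000) 1 (581/12500) +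
    (23913/1000) * h 1 (20043/50000) 0 (15207/100000) +
    (5641/500) * h 0 (-114/3125) 0 1 +
    (169/500) * h 0 1 0 0 +
    (1970039/100000000000) * h 1 (-1) 0 0 +
    (1399/1000000) * h 1 0 1 0 +
    (23199/48828125) * h 1 0 0 1 +
    (2801/10000000) * h 0 1 (-1) 0 +
    (64849853/5000000000000) * h 0 1 0 (-1) +
    (1321/1250000) * h 0 0 1 1 +
    (28342836019/100000000000) * h 1 0 0 0 +
    (177634585283/625000000000) * h 0 1 0 0 +
    (2822641/10000000) * h 0 0 1 0 +
    (2832092967597/10000000000000) * h 0 0 0 1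

theorem psd1 (g : Gram) (h : g.PSD) : 0 ≤
    (3661/8) * g.aa + (529/8) * g.bb + (26125/8) * g.AA + (1393/8) * g.BB + (375/2) * g.ab + 1844 * g.aA + (821/2) * g.aB + (-44) * g.bA + 44 * g.bB + 999 * g.AB := by
  linear_combination (407524/125) * h (28281/100000) (-27/4000) 1 (15321/100000) +
    (38289/200) * h 1 (52219/100000) 0 (2089/6250) +
    (2831/40) * h 0 (-2273/20000) 0 1 +
    (928/125) * h 0 1 0 0 +
    (2293767/781250000) * h 1 1 0 0 +
    (46561/3125000) * h 1 0 (-1) 0 +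
    (149861081/312500000000) * h 1 0 0 (-1) +
    (787/125000) * h 0 1 1 0 +
    (121055121/125000000000) * h 0 1 0 1 +
    (18699/3125000) * h 0 0 1 1 +
    (844789245239/156250000000) * h 1 0 0 0 +
    (542442299297/100000000000) * h 0 1 0 0 +
    (1689319/312500) * h 0 0 1 0 +
    (3392217608471/625000000000) * h 0 0 0 1

theorem psd2 (g : Gram) (h : g.PSD) : 0 ≤
    (14421/8) * g.aa + (3137/8) * g.bb + (108805/8) * g.AA + (11169/8) * g.BB + (2275/2) * g.ab + 7642 * g.aA + 2834 * g.aB + (1545/2) * g.bA + 572 * g.bB + 7561 * g.AB := by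
  linear_combination (13579283/1000) * h (14069/50000) (711/25000) 1 (174/625) +
    (88264/125) * h 1 (13031/20000) 0 (6253/12500) +
    (72793/500) * h 0 (-7099/20000) 0 1 +
    (417/10) * h 0 1 0 0 +
    (19038973303/1250000000000) * h 1 1 0 0 +
    (3067473/50000000) * h 1 0 1 0 +
    (393950151/15625000000) * h 1 0 0 1 +
    (1379787/25000000) * h 0 1 1 0 +
    (470720699/31250000000) * h 0 1 0 1 +
    (8629/312500) * h 0 0 1 1 +
    (53188722656871/2500000000000) * h 1 0 0 0 +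
    (106284970498179/5000000000000) * h 0 1 0 0 +
    (1059892313/50000000) * h 0 0 1 0 +
    (3326576746787/156250000000) * h 0 0 0 1

theorem psd3 (g : Gram) (h : g.PSD) : 0 ≤
    (33891/8) * g.aa + (11151/8) * g.bb + (265923/8) * g.AA + (54363/8) * g.BB + (7725/2) * g.ab + 18573 * g.aA + (19701/2) * g.aB + (9921/2) * g.bA + (6621/2) * g.bB + (56913/2) * g.AB := by
  linear_combination (16609597/500) * h (5591/20000) (3733/50000) 1 (42831/100000) +
    (404783/250) * h 1 (38227/50000) 0 (14633/25000) +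
    (48219/200) * h 0 1 0 (-273/500) +
    (10689/200) * h 0 0 0 1 +
    (17139624809/500000000000) * h 1 1 0 0 +
    (743173/10000000) * h 1 0 1 0 +
    (70673602763/1000000000000) * h 1 0 0 1 +
    (2624399/25000000) * h 0 1 1 0 +
    (27244848629/500000000000) * h 0 1 0 1 +
    (6850893/50000000) * h 0 0 1 1 +
    (10521715124417/500000000000) * h 1 0 0 0 +
    (13125815869729/625000000000) * h 0 1 0 0 +
    (260808611/12500000) * h 0 0 1 0 +
    (52591632299197/2500000000000) * h 0 0 0 1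

theorem psd4 (g : Gram) (h : g.PSD) : 0 ≤
    (26511/4) * g.aa + (13443/4) * g.bb + (210867/4) * g.AA + (82995/4) * g.BB + 8325 * g.ab + 29247 * g.aA + 20595 * g.aB + 14349 * g.bA + 10842 * g.bB + 64611 * g.AB := by
  linear_combination (52655037/1000) * h (6943/25000) (109/800) 1 (61353/100000) +
    (2504759/1000) * h 1 (43317/50000) 0 (1323/2500) +
    (220767/500) * h 0 1 0 (-914/3125) +
    (31841/250) * h 0 0 0 1 +
    (1894272681/20000000000) * h 1 1 0 0 +
    (3578109/25000000) * h 1 0 1 0 +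
    (283483221477/2500000000000) * h 1 0 0 1 +
    (200967/800000) * h 0 1 1 0 +
    (346676724471/2000000000000) * h 0 1 0 1 +
    (5514939/100000000) * h 0 0 1 1 +
    (76801371518273/1250000000000) * h 1 0 0 0 +
    (38294380507401/625000000000) * h 0 1 0 0 +
    (24505407/400000) * h 0 0 1 0 +
    (153623354335867/2500000000000) * h 0 0 0 1

theorem psd5 (g : Gram) (h : g.PSD) : 0 ≤
    (29169/4) * g.aa + (23205/4) * g.bb + (226401/4) * g.AA + (166509/4) * g.BB + 12075 * g.ab + 31080 * g.aA + 27825 * g.aB + 24822 * g.bA + 22470 * g.bB + 95844 * g.AB := by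
  linear_combination (28194859/500) * h (13779/50000) (22009/100000) 1 (10623/12500) +
    (142957/50) * h (4577/5000) 1 0 (6013/25000) +
    (131371/250) * h (7283/50000) 0 0 1 +
    (196099/500) * h 1 0 0 0 +
    (178469798551/2500000000000) * h 1 1 0 0 +
    (3037839/25000000) * h 1 0 1 0 +
    (14085215847/312500000000) * h 1 0 0 1 +
    (9348269/50000000) * h 0 1 1 0 +
    (71436161587/625000000000) * h 0 1 0 1 +
    (1487157/6250000) * h 0 0 1 (-1) +
    (525870926139759/2500000000000) * h 1 0 0 0 +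
    (1051207540262623/5000000000000) * h 0 1 0 0 +
    (10499278797/50000000) * h 0 0 1 0 +
    (131083194121571/625000000000) * h 0 0 0 1

theorem psd6 (g : Gram) (h : g.PSD) : 0 ≤
    (23205/4) * g.aa + (29169/4) * g.bb + (166509/4) * g.AA + (226401/4) * g.BB + 12075 * g.ab + 22470 * g.aA + 24822 * g.aB + 27825 * g.bA + 31080 * g.bB + 95844 * g.AB := by
  linear_combination (28194859/500) * h (22009/100000) (13779/50000) (10623/12500) 1 +
    (142957/50) * h 1 (4577/5000) (6013/25000) 0 +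
    (131371/250) * h 0 (7283/50000) 1 0 +
    (196099/500) * h 0 1 0 0 +
    (178469798551/2500000000000) * h 1 1 0 0 +
    (71436161587/625000000000) * h 1 0 1 0 +
    (9348269/50000000) * h 1 0 0 1 +
    (14085215847/312500000000) * h 0 1 1 0 +
    (3037839/25000000) * h 0 1 0 1 +
    (1487157/6250000) * h 0 0 1 (-1) +
    (1051207540262623/5000000000000) * h 1 0 0 0 +
    (525870926139759/2500000000000) * h 0 1 0 0 +
    (131083194121571/625000000000) * h 0 0 1 0 +
    (10499278797/50000000) * h 0 0 0 1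

theorem psd7 (g : Gram) (h : g.PSD) : 0 ≤
    (13443/4) * g.aa + (26511/4) * g.bb + (82995/4) * g.AA + (210867/4) * g.BB + 8325 * g.ab + 10842 * g.aA + 14349 * g.aB + 20595 * g.bA + 29247 * g.bB + 64611 * g.AB := by
  linear_combination (52655037/1000) * h (109/800) (6943/25000) (61353/100000) 1 +
    (2504759/1000) * h (43317/50000) 1 (1323/2500) 0 +
    (220767/500) * h 1 0 (-914/3125) 0 +
    (31841/250) * h 0 0 1 0 +
    (1894272681/20000000000) * h 1 1 0 0 +
    (346676724471/2000000000000) * h 1 0 1 0 +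
    (200967/800000) * h 1 0 0 1 +
    (283483221477/2500000000000) * h 0 1 1 0 +
    (3578109/25000000) * h 0 1 0 1 +
    (5514939/100000000) * h 0 0 1 1 +
    (38294380507401/625000000000) * h 1 0 0 0 +
    (76801371518273/1250000000000) * h 0 1 0 0 +
    (153623354335867/2500000000000) * h 0 0 1 0 +
    (24505407/400000) * h 0 0 0 1

theorem psd8 (g : Gram) (h : g.PSD) : 0 ≤
    (11151/8) * g.aa + (33891/8) * g.bb + (54363/8) * g.AA + (265923/8) * g.BB + (7725/2) * g.ab + (6621/2) * g.aA + (9921/2) * g.aB + (19701/2) * g.bA + 18573 * g.bB + (56913/2) * g.AB := by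
  linear_combination (16609597/500) * h (3733/50000) (5591/20000) (42831/100000) 1 +
    (404783/250) * h (38227/50000) 1 (14633/25000) 0 +
    (48219/200) * h 1 0 (-273/500) 0 +
    (10689/200) * h 0 0 1 0 +
    (17139624809/500000000000) * h 1 1 0 0 +
    (27244848629/500000000000) * h 1 0 1 0 +
    (2624399/25000000) * h 1 0 0 1 +
    (70673602763/1000000000000) * h 0 1 1 0 +
    (743173/10000000) * h 0 1 0 1 +
    (6850893/50000000) * h 0 0 1 1 +
    (13125815869729/625000000000) * h 1 0 0 0 +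
    (10521715124417/500000000000) * h 0 1 0 0 +
    (52591632299197/2500000000000) * h 0 0 1 0 +
    (260808611/12500000) * h 0 0 0 1

theorem psd9 (g : Gram) (h : g.PSD) : 0 ≤
    (3137/8) * g.aa + (14421/8) * g.bb + (11169/8) * g.AA + (108805/8) * g.BB + (2275/2) * g.ab + 572 * g.aA + (1545/2) * g.aB + 2834 * g.bA + 7642 * g.bB + 7561 * g.AB := by
  linear_combination (13579283/1000) * h (711/25000) (14069/50000) (174/625) 1 +
    (88264/125) * h (13031/20000) 1 (6253/12500) 0 +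
    (72793/500) * h (-7099/20000) 0 1 0 +
    (417/10) * h 1 0 0 0 +
    (19038973303/1250000000000) * h 1 1 0 0 +
    (470720699/31250000000) * h 1 0 1 0 +
    (1379787/25000000) * h 1 0 0 1 +
    (393950151/15625000000) * h 0 1 1 0 +
    (3067473/50000000) * h 0 1 0 1 +
    (8629/312500) * h 0 0 1 1 +
    (106284970498179/5000000000000) * h 1 0 0 0 +
    (53188722656871/2500000000000) * h 0 1 0 0 +
    (3326576746787/156250000000) * h 0 0 1 0 +
    (1059892313/50000000) * h 0 0 0 1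

theorem psd10 (g : Gram) (h : g.PSD) : 0 ≤
    (529/8) * g.aa + (3661/8) * g.bb + (1393/8) * g.AA + (26125/8) * g.BB + (375/2) * g.ab + 44 * g.aA + (-44) * g.aB + (821/2) * g.bA + 1844 * g.bB + 999 * g.AB := by
  linear_combination (407524/125) * h (-27/4000) (28281/100000) (15321/100000) 1 +
    (38289/200) * h (52219/100000) 1 (2089/6250) 0 +
    (2831/40) * h (-2273/20000) 0 1 0 +
    (928/125) * h 1 0 0 0 +
    (2293767/781250000) * h 1 1 0 0 +
    (121055121/125000000000) * h 1 0 1 0 +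
    (787/125000) * h 1 0 0 1 +
    (149861081/312500000000) * h 0 1 (-1) 0 +
    (46561/3125000) * h 0 1 0 (-1) +
    (18699/3125000) * h 0 0 1 1 +
    (542442299297/100000000000) * h 1 0 0 0 +
    (844789245239/156250000000) * h 0 1 0 0 +
    (3392217608471/625000000000) * h 0 0 1 0 +
    (1689319/312500) * h 0 0 0 1

theorem psd11 (g : Gram) (h : g.PSD) : 0 ≤
    (39/8) * g.aa + (419/8) * g.bb + (103/8) * g.AA + (2799/8) * g.BB + (25/2) * g.ab + 1 * g.aA + (-47/2) * g.aB + (33/2) * g.bA + (397/2) * g.bB + (65/2) * g.AB := by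
  linear_combination (34959/100) * h (-3361/100000) (2839/10000) (581/12500) 1 +
    (23913/1000) * h (20043/50000) 1 (15207/100000) 0 +
    (5641/500) * h (-114/3125) 0 1 0 +
    (169/500) * h 1 0 0 0 +
    (1970039/100000000000) * h 1 (-1) 0 0 +
    (64849853/5000000000000) * h 1 0 (-1) 0 +
    (2801/10000000) * h 1 0 0 (-1) +
    (23199/48828125) * h 0 1 1 0 +
    (1399/1000000) * h 0 1 0 1 +
    (1321/1250000) * h 0 0 1 1 +
    (177634585283/625000000000) * h 1 0 0 0 +
    (28342836019/100000000000) * h 0 1 0 0 +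
    (2832092967597/10000000000000) * h 0 0 1 0 +
    (2822641/10000000) * h 0 0 0 1

theorem quad (p q : ℝ) (hp : 0 < p) (hq : 0 < q) (g : Gram) (h : g.PSD) :
    (1/8 : ℝ) * (p + q) ^ 11 * (g.aa + g.bb + g.AA + g.BB) ≤ (p + q) ^ 8 * (
    ((105/2)*p^3 + 39*p^2*q + (55/2)*p*q^2 + 5*q^3) * g.aa +
     (5*p^3 + (55/2)*p^2*q + 39*p*q^2 + (105/2)*q^3) * g.bb +
     (350*p^3 + 467*p^2*q + (143/2)*p*q^2 + 13*q^3) * g.AA +
     (13*p^3 + (143/2)*p^2*q + 467*p*q^2 + 350*q^3) * g.BB +
     ((25/2)*p^3 + (175/2)*p^2*q + (175/2)*p*q^2 + (25/2)*q^3) * g.ab +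
     ((397/2)*p^3 + 256*p^2*q + 36*p*q^2 + 1*q^3) * g.aA +
     ((33/2)*p^3 + (557/2)*p^2*q + 144*p*q^2 + (-47/2)*q^3) * g.aB +
     ((-47/2)*p^3 + 144*p^2*q + (557/2)*p*q^2 + (33/2)*q^3) * g.bA +
     (1*p^3 + 36*p^2*q + 256*p*q^2 + (397/2)*q^3) * g.bB +
     ((65/2)*p^3 + 739*p^2*q + 739*p*q^2 + (65/2)*q^3) * g.AB) := by
  have h0 := mul_nonneg (mul_nonneg (pow_nonneg hp.le 11) (pow_nonneg hq.le 0)) (psd0 g h)
  have h1 := mul_nonneg (mul_nonneg (pow_nonneg hp.le 10) (pow_nonneg hq.le 1)) (psd1 g h)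
  have h2 := mul_nonneg (mul_nonneg (pow_nonneg hp.le 9) (pow_nonneg hq.le 2)) (psd2 g h)
  have h3 := mul_nonneg (mul_nonneg (pow_nonneg hp.le 8) (pow_nonneg hq.le 3)) (psd3 g h)
  have h4 := mul_nonneg (mul_nonneg (pow_nonneg hp.le 7) (pow_nonneg hq.le 4)) (psd4 g h)
  have h5 := mul_nonneg (mul_nonneg (pow_nonneg hp.le 6) (pow_nonneg hq.le 5)) (psd5 g h)
  have h6 := mul_nonneg (mul_nonneg (pow_nonneg hp.le 5) (pow_nonneg hq.le 6)) (psd6 g h)
  have h7 := mul_nonneg (mul_nonneg (pow_nonneg hp.le 4) (pow_nonneg hq.le 7)) (psd7 g h)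
  have h8 := mul_nonneg (mul_nonneg (pow_nonneg hp.le 3) (pow_nonneg hq.le 8)) (psd8 g h)
  have h9 := mul_nonneg (mul_nonneg (pow_nonneg hp.le 2) (pow_nonneg hq.le 9)) (psd9 g h)
  have h10 := mul_nonneg (mul_nonneg (pow_nonneg hp.le 1) (pow_nonneg hq.le 10)) (psd10 g h)
  have h11 := mul_nonneg (mul_nonneg (pow_nonneg hp.le 0) (pow_nonneg hq.le 11)) (psd11 g h)
  linear_combination h0 + h1 + h2 + h3 + h4 + h5 + h6 + h7 + h8 + h9 + h10 + h11

theorem scal (p q : ℝ) (hp : 0 < p) (hq : 0 < q) :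
    (1/8 : ℝ) * (p + q) ^ 12 ≤ (p + q) ^ 8 * (q * mu.f p q + p * mu.f q p) := by
  simp only [mu, hom2, hom3, hom4]
  have h0 := mul_nonneg (pow_nonneg hp.le 12) (pow_nonneg hq.le 0)
  have h1 := mul_nonneg (pow_nonneg hp.le 11) (pow_nonneg hq.le 1)
  have h2 := mul_nonneg (pow_nonneg hp.le 10) (pow_nonneg hq.le 2)
  have h3 := mul_nonneg (pow_nonneg hp.le 9) (pow_nonneg hq.le 3)
  have h4 := mul_nonneg (pow_nonneg hp.le 8) (pow_nonneg hq.le 4)
  have h5 := mul_nonneg (pow_nonneg hp.le 7) (pow_nonneg hq.le 5)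
  have h6 := mul_nonneg (pow_nonneg hp.le 6) (pow_nonneg hq.le 6)
  have h7 := mul_nonneg (pow_nonneg hp.le 5) (pow_nonneg hq.le 7)
  have h8 := mul_nonneg (pow_nonneg hp.le 4) (pow_nonneg hq.le 8)
  have h9 := mul_nonneg (pow_nonneg hp.le 3) (pow_nonneg hq.le 9)
  have h10 := mul_nonneg (pow_nonneg hp.le 2) (pow_nonneg hq.le 10)
  have h11 := mul_nonneg (pow_nonneg hp.le 1) (pow_nonneg hq.le 11)
  have h12 := mul_nonneg (pow_nonneg hp.le 0) (pow_nonneg hq.le 12)
  linear_combination (7/8) * h0 + (21/2) * h1 + (231/4) * h2 + (385/2) * h3 + (3465/8) * h4 + 693 * h5 + (1617/2) * h6 + 693 * h7 + (3465/8) * h8 + (385/2) * h9 + (231/4) * h10 + (21/2) * h11 + (7/8) * h12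

def cert : CertData 7 where
  d := 2
  Fa := Fa
  FA := FA
  mu := mu
  ε := 1/8
  C := 100
  ε_pos := by norm_num
  C_pos := by norm_num
  main := by
    intro p q hp hq g h
    rw [br]
    have h1 := quad p q hp hq g h
    have h2 := scal p q hp hq
    exact assemble 2 8 p q _ _ _ _ hp hq h1 h2
  boundFa := by
    intro p q hp hq
    have e0 : 0 ≤ (Fa).f p q := by
      simp only [Fa, hom2, hom3]; positivity
    rw [abs_of_nonneg e0]
    simp only [Fa, hom2, hom3]
    have h0 := mul_nonneg (pow_nonneg hp.le 2) (pow_nonneg hq.le 0)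
    have h1 := mul_nonneg (pow_nonneg hp.le 1) (pow_nonneg hq.le 1)
    have h2 := mul_nonneg (pow_nonneg hp.le 0) (pow_nonneg hq.le 2)
    linear_combination 85 * h0 + 188 * h1 + 95 * h2
  boundFA := by
    intro p q hp hq
    have e0 : 0 ≤ (FA).f p q := by
      simp only [FA, hom2, hom3]; positivity
    rw [abs_of_nonneg e0]
    simp only [FA, hom2, hom3]
    have h1 := mul_nonneg (pow_nonneg hp.le 1) (pow_nonneg hq.le 1)
    have h2 := mul_nonneg (pow_nonneg hp.le 0) (pow_nonneg hq.le 2)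
    linear_combination 74 * h1 + 87 * h2

end Crest.Agent.R236.Cert.N7
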