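import Crest.Agent.R236.CertAsm

/-! Row 236, C3: exact certificate for n = 8 (helper194, generated; data of note 13059). -/

set_option autoImplicit false
set_option linter.all false
set_option maxHeartbeats 4000000

noncomputable section

namespace Crest.Agent.R236.Cert.N8

open Crest.Agent.R236.Cert

def Fa : Biv := hom3 15 3 12 3
def FA : Biv := hom3 100 75 114 11
def mu : Biv := hom4 (-104) 80 (-72) 108 1

theorem br (p q : ℝ) (g : Gram) : bracket 8 3 Fa FA mu p q g =
    ((60*p^4 + (-15)*p^3*q + 69*p^2*q^2 + 21*p*q^3 + 3*q^4) * g.aa +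
     (3*p^4 + 21*p^3*q + 69*p^2*q^2 + (-15)*p*q^3 + 60*q^4) * g.bb +
     (400*p^4 + 175*p^3*q + 609*p^2*q^2 + 77*p*q^3 + 11*q^4) * g.AA +
     (11*p^4 + 77*p^3*q + 609*p^2*q^2 + 175*p*q^3 + 400*q^4) * g.BB +
     (9*p^4 + 126*p^3*q + (-18)*p^2*q^2 + 126*p*q^3 + 9*q^4) * g.ab +
     (241*p^4 + 47*p^3*q + 402*p^2*q^2 + 66*p*q^3 + 1*q^4) * g.aA +
     (17*p^4 + 286*p^3*q + 90*p^2*q^2 + 336*p*q^3 + (-16)*q^4) * g.aB +
     ((-16)*p^4 + 336*p^3*q + 90*p^2*q^2 + 286*p*q^3 + 17*q^4) * g.bA +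
     (1*p^4 + 66*p^3*q + 402*p^2*q^2 + 47*p*q^3 + 241*q^4) * g.bB +
     (33*p^4 + 948*p^3*q + 294*p^2*q^2 + 948*p*q^3 + 33*q^4) * g.AB)
    + ((mu.f p q) / p + (mu.f q p) / q) := by
  simp only [bracket, bracketV, Biv.swap, Fa, FA, mu, hom2, hom3, hom4]
  push_cast
  ring

theorem psd0 (g : Gram) (h : g.PSD) : 0 ≤
    (479/8) * g.aa + (23/8) * g.bb + (3199/8) * g.AA + (87/8) * g.BB + 9 * g.ab + 241 * g.aA + 17 * g.aB + (-16) * g.bA + 1 * g.bB + 33 * g.AB := by
  linear_combination (79913/200) * h (15079/50000) (-1001/50000) 1 (4129/100000) +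
    (929/40) * h 1 (7441/25000) 0 (15173/100000) +
    (9349/1000) * h 0 (-2337/100000) 0 1 +
    (171/500) * h 0 1 0 0 +
    (131364873/500000000000) * h 1 (-1) 0 0 +
    (8127/10000000) * h 1 0 (-1) 0 +
    (592193617/1000000000000) * h 1 0 0 1 +
    (7087/10000000) * h 0 1 (-1) 0 +
    (85434193/1000000000000) * h 0 1 0 (-1) +
    (39223/20000000) * h 0 0 1 1 +
    (307697282571/1000000000000) * h 1 0 0 0 +
    (3091985494169/10000000000000) * h 0 1 0 0 +
    (6130349/20000000) * h 0 0 1 0 +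
    (307471412971/1000000000000) * h 0 0 0 1

theorem psd1 (g : Gram) (h : g.PSD) : 0 ≤
    (2333/4) * g.aa + (197/4) * g.bb + (16693/4) * g.AA + (741/4) * g.BB + 216 * g.ab + 2457 * g.aA + 456 * g.aB + 176 * g.bA + 76 * g.bB + 1278 * g.AB := by
  linear_combination (208321/50) * h (14743/50000) (66/3125) 1 (15337/100000) +
    (53547/250) * h 1 (38309/100000) 0 (9241/50000) +
    (73101/1000) * h 0 (511/4000) 0 1 +
    (1587/200) * h 0 1 0 0 +
    (8987229/15625000000) * h 1 1 0 0 +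
    (26503/2500000) * h 1 0 (-1) 0 +
    (724266511/250000000000) * h 1 0 0 (-1) +
    (407/78125) * h 0 1 1 0 +
    (623583397/1250000000000) * h 0 1 0 1 +
    (19177/5000000) * h 0 0 1 (-1) +
    (1702322670367/250000000000) * h 1 0 0 0 +
    (68234621009231/10000000000000) * h 0 1 0 0 +
    (34051769/5000000) * h 0 0 1 0 +
    (17053560282623/2500000000000) * h 0 0 0 1

theorem psd2 (g : Gram) (h : g.PSD) : 0 ≤
    (20861/8) * g.aa + (3221/8) * g.bb + (162781/8) * g.AA + (14901/8) * g.BB + 1647 * g.ab + 11717 * g.aA + 3715 * g.aB + 2730 * g.bA + 1107 * g.bB + 11259 * g.AB := by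
  linear_combination (1015571/50) * h (28843/100000) (42/625) 1 (6929/25000) +
    (88163/100) * h 1 (48749/100000) 0 (5303/20000) +
    (20417/100) * h 0 (5997/20000) 0 1 +
    (11703/250) * h 0 1 0 0 +
    (176089973/6250000000) * h 1 1 0 0 +
    (385647/5000000) * h 1 0 1 0 +
    (1915335563/125000000000) * h 1 0 0 1 +
    (1134/15625) * h 0 1 1 0 +
    (3726697471/200000000000) * h 0 1 0 1 +
    (16459/1250000) * h 0 0 1 (-1) +
    (18064732476329/500000000000) * h 1 0 0 0 +
    (36097280047177/1000000000000) * h 0 1 0 0 +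
    (180210637/5000000) * h 0 0 1 0 +
    (18074715517657/500000000000) * h 0 0 0 1

theorem psd3 (g : Gram) (h : g.PSD) : 0 ≤
    (14381/2) * g.aa + (3869/2) * g.bb + (123993/2) * g.AA + (22009/2) * g.BB + 6696 * g.ab + 35121 * g.aA + 16146 * g.aB + 14386 * g.bA + 7157 * g.bB + 50508 * g.AB := by
  linear_combination (61893157/1000) * h (7093/25000) (5811/50000) 1 (40803/100000) +
    (1052421/500) * h 1 (7763/12500) 0 (10783/25000) +
    (102647/500) * h 0 (38849/100000) 0 1 +
    (76211/500) * h 0 1 0 0 +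
    (65277474411/1250000000000) * h 1 (-1) 0 0 +
    (4337399/25000000) * h 1 0 1 0 +
    (1187208603/2500000000000) * h 1 0 0 (-1) +
    (11135327/50000000) * h 0 1 (-1) 0 +
    (614908859069/5000000000000) * h 0 1 0 (-1) +
    (26485071/100000000) * h 0 0 1 (-1) +
    (258039928627003/2500000000000) * h 1 0 0 0 +
    (51440955448311/500000000000) * h 0 1 0 0 +
    (10268194679/100000000) * h 0 0 1 0 +
    (1027416356844429/10000000000000) * h 0 0 0 1

theorem psd4 (g : Gram) (h : g.PSD) : 0 ≤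
    (111943/8) * g.aa + (48319/8) * g.bb + (1064487/8) * g.AA + (327839/8) * g.BB + 17469 * g.ab + 75001 * g.aA + 45284 * g.aB + 43887 * g.bA + 26931 * g.bB + 143433 * g.AB := by
  linear_combination (16621347/125) * h (14101/50000) (8251/50000) 1 (26967/50000) +
    (1663431/500) * h 1 (4783/6250) 0 (14527/20000) +
    (454973/1000) * h 0 (-6011/12500) 0 1 +
    (34369/125) * h 0 1 0 0 +
    (62509198203/312500000000) * h 1 1 0 0 +
    (510953/6250000) * h 1 0 1 0 +
    (18190213301/312500000000) * h 1 0 0 1 +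
    (4140903/6250000) * h 0 1 1 0 +
    (56906087423/156250000000) * h 0 1 0 1 +
    (260451/6250000) * h 0 0 1 1 +
    (28064079761749/312500000000) * h 1 0 0 0 +
    (13920374224697/156250000000) * h 0 1 0 0 +
    (558206443/6250000) * h 0 0 1 0 +
    (89683051339709/1000000000000) * h 0 0 0 1

theorem psd5 (g : Gram) (h : g.PSD) : 0 ≤
    (83899/4) * g.aa + (52483/4) * g.bb + (855819/4) * g.AA + (414587/4) * g.BB + 32328 * g.ab + 121822 * g.aA + 90104 * g.aB + 90368 * g.bA + 66877 * g.bB + 285666 * g.AB := by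
  linear_combination (26734904/125) * h (28479/100000) (10563/50000) 1 (33391/50000) +
    (1023048/125) * h (6681/12500) (39877/100000) 0 1 +
    (549557/250) * h (14117/20000) 1 0 0 +
    (29773/250) * h 1 0 0 0 +
    (88087871/4882812500) * h 1 1 0 0 +
    (521123/1562500) * h 1 0 1 0 +
    (19464855593/78125000000) * h 1 0 0 1 +
    (98869/781250) * h 0 1 (-1) 0 +
    (1961009779/39062500000) * h 0 1 0 (-1) +
    (133817/781250) * h 0 0 1 1 +
    (37537207575567/500000000000) * h 1 0 0 0 +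
    (18817060423/250000000) * h 0 1 0 0 +
    (5850519/78125) * h 0 0 1 0 +
    (5880913304243/78125000000) * h 0 0 0 1

theorem psd6 (g : Gram) (h : g.PSD) : 0 ≤
    (204717/8) * g.aa + (167493/8) * g.bb + (2122797/8) * g.AA + (1505829/8) * g.BB + 45387 * g.ab + 154839 * g.aA + 134142 * g.aB + 135297 * g.bA + 117747 * g.bB + 422811 * g.AB := by
  linear_combination (53037819/200) * h (14597/50000) (2551/10000) 1 (79719/100000) +
    (9769109/500) * h (13699/50000) (25309/100000) 0 1 +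
    (1133879/500) * h (70083/100000) 1 0 0 +
    (6167/25) * h 1 0 0 0 +
    (180407641211/625000000000) * h 1 (-1) 0 0 +
    (1956057/10000000) * h 1 0 1 0 +
    (23762267983/1000000000000) * h 1 0 0 1 +
    (2476269/2000000) * h 0 1 (-1) 0 +
    (224467412411/200000000000) * h 0 1 0 (-1) +
    (11892861/20000000) * h 0 0 1 (-1) +
    (40042503591411/250000000000) * h 1 0 0 0 +
    (393144883579429/2500000000000) * h 0 1 0 0 +
    (634006467/4000000) * h 0 0 1 0 +
    (63136667650773/400000000000) * h 0 0 0 1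

theorem psd7 (g : Gram) (h : g.PSD) : 0 ≤
    25779 * g.aa + 25779 * g.bb + 255279 * g.AA + 255279 * g.BB + 50544 * g.ab + 154074 * g.aA + 153420 * g.aB + 153420 * g.bA + 154074 * g.bB + 480168 * g.AB := by
  linear_combination (127514569/500) * h (30207/100000) (30079/100000) 1 (4707/5000) +
    (14507233/500) * h (451/3125) (831/5000) 0 1 +
    (1654107/1000) * h 1 (84887/100000) 0 0 +
    (462187/1000) * h 0 1 0 0 +
    (416020560423/5000000000000) * h 1 1 0 0 +
    (17414217/50000000) * h 1 0 1 0 +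
    (82085439419/250000000000) * h 1 0 0 1 +
    (10720951/50000000) * h 0 1 (-1) 0 +
    (50025816357/250000000000) * h 0 1 0 (-1) +
    (1076283/2500000) * h 0 0 1 (-1) +
    (311688593496181/1250000000000) * h 1 0 0 0 +
    (2492826522061933/10000000000000) * h 0 1 0 0 +
    (3110859793/12500000) * h 0 0 1 0 +
    (15505759790651/62500000000) * h 0 0 0 1

theorem psd8 (g : Gram) (h : g.PSD) : 0 ≤
    (167493/8) * g.aa + (204717/8) * g.bb + (1505829/8) * g.AA + (2122797/8) * g.BB + 45387 * g.ab + 117747 * g.aA + 135297 * g.aB + 134142 * g.bA + 154839 * g.bB + 422811 * g.AB := by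
  linear_combination (53037819/200) * h (2551/10000) (14597/50000) (79719/100000) 1 +
    (9769109/500) * h (25309/100000) (13699/50000) 1 0 +
    (1133879/500) * h 1 (70083/100000) 0 0 +
    (6167/25) * h 0 1 0 0 +
    (180407641211/625000000000) * h 1 (-1) 0 0 +
    (224467412411/200000000000) * h 1 0 (-1) 0 +
    (2476269/2000000) * h 1 0 0 (-1) +
    (23762267983/1000000000000) * h 0 1 1 0 +
    (1956057/10000000) * h 0 1 0 1 +
    (11892861/20000000) * h 0 0 1 (-1) +
    (393144883579429/2500000000000) * h 1 0 0 0 +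
    (40042503591411/250000000000) * h 0 1 0 0 +
    (63136667650773/400000000000) * h 0 0 1 0 +
    (634006467/4000000) * h 0 0 0 1

theorem psd9 (g : Gram) (h : g.PSD) : 0 ≤
    (52483/4) * g.aa + (83899/4) * g.bb + (414587/4) * g.AA + (855819/4) * g.BB + 32328 * g.ab + 66877 * g.aA + 90368 * g.aB + 90104 * g.bA + 121822 * g.bB + 285666 * g.AB := by
  linear_combination (26734904/125) * h (10563/50000) (28479/100000) (33391/50000) 1 +
    (1023048/125) * h (39877/100000) (6681/12500) 1 0 +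
    (549557/250) * h 1 (14117/20000) 0 0 +
    (29773/250) * h 0 1 0 0 +
    (88087871/4882812500) * h 1 1 0 0 +
    (1961009779/39062500000) * h 1 0 (-1) 0 +
    (98869/781250) * h 1 0 0 (-1) +
    (19464855593/78125000000) * h 0 1 1 0 +
    (521123/1562500) * h 0 1 0 1 +
    (133817/781250) * h 0 0 1 1 +
    (18817060423/250000000) * h 1 0 0 0 +
    (37537207575567/500000000000) * h 0 1 0 0 +
    (5880913304243/78125000000) * h 0 0 1 0 +
    (5850519/78125) * h 0 0 0 1

theorem psd10 (g : Gram) (h : g.PSD) : 0 ≤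
    (48319/8) * g.aa + (111943/8) * g.bb + (327839/8) * g.AA + (1064487/8) * g.BB + 17469 * g.ab + 26931 * g.aA + 43887 * g.aB + 45284 * g.bA + 75001 * g.bB + 143433 * g.AB := by
  linear_combination (16621347/125) * h (8251/50000) (14101/50000) (26967/50000) 1 +
    (1663431/500) * h (4783/6250) 1 (14527/20000) 0 +
    (454973/1000) * h (-6011/12500) 0 1 0 +
    (34369/125) * h 1 0 0 0 +
    (62509198203/312500000000) * h 1 1 0 0 +
    (56906087423/156250000000) * h 1 0 1 0 +
    (4140903/6250000) * h 1 0 0 1 +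
    (18190213301/312500000000) * h 0 1 1 0 +
    (510953/6250000) * h 0 1 0 1 +
    (260451/6250000) * h 0 0 1 1 +
    (13920374224697/156250000000) * h 1 0 0 0 +
    (28064079761749/312500000000) * h 0 1 0 0 +
    (89683051339709/1000000000000) * h 0 0 1 0 +
    (558206443/6250000) * h 0 0 0 1

theorem psd11 (g : Gram) (h : g.PSD) : 0 ≤
    (3869/2) * g.aa + (14381/2) * g.bb + (22009/2) * g.AA + (123993/2) * g.BB + 6696 * g.ab + 7157 * g.aA + 14386 * g.aB + 16146 * g.bA + 35121 * g.bB + 50508 * g.AB := by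
  linear_combination (61893157/1000) * h (5811/50000) (7093/25000) (40803/100000) 1 +
    (1052421/500) * h (7763/12500) 1 (10783/25000) 0 +
    (102647/500) * h (38849/100000) 0 1 0 +
    (76211/500) * h 1 0 0 0 +
    (65277474411/1250000000000) * h 1 (-1) 0 0 +
    (614908859069/5000000000000) * h 1 0 (-1) 0 +
    (11135327/50000000) * h 1 0 0 (-1) +
    (1187208603/2500000000000) * h 0 1 (-1) 0 +
    (4337399/25000000) * h 0 1 0 1 +
    (26485071/100000000) * h 0 0 1 (-1) +
    (51440955448311/500000000000) * h 1 0 0 0 +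
    (258039928627003/2500000000000) * h 0 1 0 0 +
    (1027416356844429/10000000000000) * h 0 0 1 0 +
    (10268194679/100000000) * h 0 0 0 1

theorem psd12 (g : Gram) (h : g.PSD) : 0 ≤
    (3221/8) * g.aa + (20861/8) * g.bb + (14901/8) * g.AA + (162781/8) * g.BB + 1647 * g.ab + 1107 * g.aA + 2730 * g.aB + 3715 * g.bA + 11717 * g.bB + 11259 * g.AB := by
  linear_combination (1015571/50) * h (42/625) (28843/100000) (6929/25000) 1 +
    (88163/100) * h (48749/100000) 1 (5303/20000) 0 +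
    (20417/100) * h (5997/20000) 0 1 0 +
    (11703/250) * h 1 0 0 0 +
    (176089973/6250000000) * h 1 1 0 0 +
    (3726697471/200000000000) * h 1 0 1 0 +
    (1134/15625) * h 1 0 0 1 +
    (1915335563/125000000000) * h 0 1 1 0 +
    (385647/5000000) * h 0 1 0 1 +
    (16459/1250000) * h 0 0 1 (-1) +
    (36097280047177/1000000000000) * h 1 0 0 0 +
    (18064732476329/500000000000) * h 0 1 0 0 +
    (18074715517657/500000000000) * h 0 0 1 0 +
    (180210637/5000000) * h 0 0 0 1

theorem psd13 (g : Gram) (h : g.PSD) : 0 ≤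
    (197/4) * g.aa + (2333/4) * g.bb + (741/4) * g.AA + (16693/4) * g.BB + 216 * g.ab + 76 * g.aA + 176 * g.aB + 456 * g.bA + 2457 * g.bB + 1278 * g.AB := by
  linear_combination (208321/50) * h (66/3125) (14743/50000) (15337/100000) 1 +
    (53547/250) * h (38309/100000) 1 (9241/50000) 0 +
    (73101/1000) * h (511/4000) 0 1 0 +
    (1587/200) * h 1 0 0 0 +
    (8987229/15625000000) * h 1 1 0 0 +
    (623583397/1250000000000) * h 1 0 1 0 +
    (407/78125) * h 1 0 0 1 +
    (724266511/250000000000) * h 0 1 (-1) 0 +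
    (26503/2500000) * h 0 1 0 (-1) +
    (19177/5000000) * h 0 0 1 (-1) +
    (68234621009231/10000000000000) * h 1 0 0 0 +
    (1702322670367/250000000000) * h 0 1 0 0 +
    (17053560282623/2500000000000) * h 0 0 1 0 +
    (34051769/5000000) * h 0 0 0 1

theorem psd14 (g : Gram) (h : g.PSD) : 0 ≤
    (23/8) * g.aa + (479/8) * g.bb + (87/8) * g.AA + (3199/8) * g.BB + 9 * g.ab + 1 * g.aA + (-16) * g.aB + 17 * g.bA + 241 * g.bB + 33 * g.AB := by
  linear_combination (79913/200) * h (-1001/50000) (15079/50000) (4129/100000) 1 +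
    (929/40) * h (7441/25000) 1 (15173/100000) 0 +
    (9349/1000) * h (-2337/100000) 0 1 0 +
    (171/500) * h 1 0 0 0 +
    (131364873/500000000000) * h 1 (-1) 0 0 +
    (85434193/1000000000000) * h 1 0 (-1) 0 +
    (7087/10000000) * h 1 0 0 (-1) +
    (592193617/1000000000000) * h 0 1 1 0 +
    (8127/10000000) * h 0 1 0 (-1) +
    (39223/20000000) * h 0 0 1 1 +
    (3091985494169/10000000000000) * h 1 0 0 0 +
    (307697282571/1000000000000) * h 0 1 0 0 +
    (307471412971/1000000000000) * h 0 0 1 0 +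
    (6130349/20000000) * h 0 0 0 1

theorem quad (p q : ℝ) (hp : 0 < p) (hq : 0 < q) (g : Gram) (h : g.PSD) :
    (1/8 : ℝ) * (p + q) ^ 14 * (g.aa + g.bb + g.AA + g.BB) ≤ (p + q) ^ 10 * (
    (60*p^4 + (-15)*p^3*q + 69*p^2*q^2 + 21*p*q^3 + 3*q^4) * g.aa +
     (3*p^4 + 21*p^3*q + 69*p^2*q^2 + (-15)*p*q^3 + 60*q^4) * g.bb +
     (400*p^4 + 175*p^3*q + 609*p^2*q^2 + 77*p*q^3 + 11*q^4) * g.AA +
     (11*p^4 + 77*p^3*q + 609*p^2*q^2 + 175*p*q^3 + 400*q^4) * g.BB +
     (9*p^4 + 126*p^3*q + (-18)*p^2*q^2 + 126*p*q^3 + 9*q^4) * g.ab +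
     (241*p^4 + 47*p^3*q + 402*p^2*q^2 + 66*p*q^3 + 1*q^4) * g.aA +
     (17*p^4 + 286*p^3*q + 90*p^2*q^2 + 336*p*q^3 + (-16)*q^4) * g.aB +
     ((-16)*p^4 + 336*p^3*q + 90*p^2*q^2 + 286*p*q^3 + 17*q^4) * g.bA +
     (1*p^4 + 66*p^3*q + 402*p^2*q^2 + 47*p*q^3 + 241*q^4) * g.bB +
     (33*p^4 + 948*p^3*q + 294*p^2*q^2 + 948*p*q^3 + 33*q^4) * g.AB) := by
  have h0 := mul_nonneg (mul_nonneg (pow_nonneg hp.le 14) (pow_nonneg hq.le 0)) (psd0 g h)
  have h1 := mul_nonneg (mul_nonneg (pow_nonneg hp.le 13) (pow_nonneg hq.le 1)) (psd1 g h)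
  have h2 := mul_nonneg (mul_nonneg (pow_nonneg hp.le 12) (pow_nonneg hq.le 2)) (psd2 g h)
  have h3 := mul_nonneg (mul_nonneg (pow_nonneg hp.le 11) (pow_nonneg hq.le 3)) (psd3 g h)
  have h4 := mul_nonneg (mul_nonneg (pow_nonneg hp.le 10) (pow_nonneg hq.le 4)) (psd4 g h)
  have h5 := mul_nonneg (mul_nonneg (pow_nonneg hp.le 9) (pow_nonneg hq.le 5)) (psd5 g h)
  have h6 := mul_nonneg (mul_nonneg (pow_nonneg hp.le 8) (pow_nonneg hq.le 6)) (psd6 g h)
  have h7 := mul_nonneg (mul_nonneg (pow_nonneg hp.le 7) (pow_nonneg hq.le 7)) (psd7 g h)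
  have h8 := mul_nonneg (mul_nonneg (pow_nonneg hp.le 6) (pow_nonneg hq.le 8)) (psd8 g h)
  have h9 := mul_nonneg (mul_nonneg (pow_nonneg hp.le 5) (pow_nonneg hq.le 9)) (psd9 g h)
  have h10 := mul_nonneg (mul_nonneg (pow_nonneg hp.le 4) (pow_nonneg hq.le 10)) (psd10 g h)
  have h11 := mul_nonneg (mul_nonneg (pow_nonneg hp.le 3) (pow_nonneg hq.le 11)) (psd11 g h)
  have h12 := mul_nonneg (mul_nonneg (pow_nonneg hp.le 2) (pow_nonneg hq.le 12)) (psd12 g h)
  have h13 := mul_nonneg (mul_nonneg (pow_nonneg hp.le 1) (pow_nonneg hq.le 13)) (psd13 g h)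
  have h14 := mul_nonneg (mul_nonneg (pow_nonneg hp.le 0) (pow_nonneg hq.le 14)) (psd14 g h)
  linear_combination h0 + h1 + h2 + h3 + h4 + h5 + h6 + h7 + h8 + h9 + h10 + h11 + h12 + h13 + h14

theorem scal (p q : ℝ) (hp : 0 < p) (hq : 0 < q) :
    (1/8 : ℝ) * (p + q) ^ 15 ≤ (p + q) ^ 10 * (q * mu.f p q + p * mu.f q p) := by
  simp only [mu, hom2, hom3, hom4]
  have h0 := mul_nonneg (pow_nonneg hp.le 15) (pow_nonneg hq.le 0)
  have h1 := mul_nonneg (pow_nonneg hp.le 14) (pow_nonneg hq.le 1)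
  have h2 := mul_nonneg (pow_nonneg hp.le 13) (pow_nonneg hq.le 2)
  have h3 := mul_nonneg (pow_nonneg hp.le 12) (pow_nonneg hq.le 3)
  have h4 := mul_nonneg (pow_nonneg hp.le 11) (pow_nonneg hq.le 4)
  have h5 := mul_nonneg (pow_nonneg hp.le 10) (pow_nonneg hq.le 5)
  have h6 := mul_nonneg (pow_nonneg hp.le 9) (pow_nonneg hq.le 6)
  have h7 := mul_nonneg (pow_nonneg hp.le 8) (pow_nonneg hq.le 7)
  have h8 := mul_nonneg (pow_nonneg hp.le 7) (pow_nonneg hq.le 8)
  have h9 := mul_nonneg (pow_nonneg hp.le 6) (pow_nonneg hq.le 9)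
  have h10 := mul_nonneg (pow_nonneg hp.le 5) (pow_nonneg hq.le 10)
  have h11 := mul_nonneg (pow_nonneg hp.le 4) (pow_nonneg hq.le 11)
  have h12 := mul_nonneg (pow_nonneg hp.le 3) (pow_nonneg hq.le 12)
  have h13 := mul_nonneg (pow_nonneg hp.le 2) (pow_nonneg hq.le 13)
  have h14 := mul_nonneg (pow_nonneg hp.le 1) (pow_nonneg hq.le 14)
  have h15 := mul_nonneg (pow_nonneg hp.le 0) (pow_nonneg hq.le 15)
  linear_combination (7/8) * h0 + (97/8) * h1 + (639/8) * h2 + (2649/8) * h3 + (7707/8) * h4 + (16621/8) * h5 + (27379/8) * h6 + (35013/8) * h7 + (35013/8) * h8 + (27379/8) * h9 + (16621/8) * h10 + (7707/8) * h11 + (2649/8) * h12 + (639/8) * h13 + (97/8) * h14 + (7/8) * h15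

def cert : CertData 8 where
  d := 3
  Fa := Fa
  FA := FA
  mu := mu
  ε := 1/8
  C := 100
  ε_pos := by norm_num
  C_pos := by norm_num
  main := by
    intro p q hp hq g h
    rw [br]
    have h1 := quad p q hp hq g h
    have h2 := scal p q hp hq
    exact assemble 3 10 p q _ _ _ _ hp hq h1 h2
  boundFa := by
    intro p q hp hq
    have e0 : 0 ≤ (Fa).f p q := by
      simp only [Fa, hom2, hom3]; positivity
    rw [abs_of_nonneg e0]
    simp only [Fa, hom2, hom3]
    have h0 := mul_nonneg (pow_nonneg hp.le 3) (pow_nonneg hq.le 0)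
    have h1 := mul_nonneg (pow_nonneg hp.le 2) (pow_nonneg hq.le 1)
    have h2 := mul_nonneg (pow_nonneg hp.le 1) (pow_nonneg hq.le 2)
    have h3 := mul_nonneg (pow_nonneg hp.le 0) (pow_nonneg hq.le 3)
    linear_combination 85 * h0 + 297 * h1 + 288 * h2 + 97 * h3
  boundFA := by
    intro p q hp hq
    have e0 : 0 ≤ (FA).f p q := by
      simp only [FA, hom2, hom3]; positivity
    rw [abs_of_nonneg e0]
    simp only [FA, hom2, hom3]
    have h1 := mul_nonneg (pow_nonneg hp.le 2) (pow_nonneg hq.le 1)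
    have h2 := mul_nonneg (pow_nonneg hp.le 1) (pow_nonneg hq.le 2)
    have h3 := mul_nonneg (pow_nonneg hp.le 0) (pow_nonneg hq.le 3)
    linear_combination 225 * h1 + 186 * h2 + 89 * h3

end Crest.Agent.R236.Cert.N8
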