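import Crest.Agent.R236.Cert3
import Crest.Agent.R236.Cert4
import Crest.Agent.R236.Cert5
import Crest.Agent.R236.Cert6
import Crest.Agent.R236.Cert7
import Crest.Agent.R236.Cert8
import Crest.Agent.R236.Cert9

/-!
Row 236, C3 (helper194): the certificate for all `3 ≤ n ≤ 9` and the algebraic identity
`-div Z = (p+q)^(-n/2-d) * bracket`.
-/

set_option autoImplicit false

noncomputable section

namespace Crest.Agent.R236.Cert

/-- **C3**: the certificate. -/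
theorem cert (n : ℕ) (h3 : 3 ≤ n) (h9 : n ≤ 9) : Nonempty (CertData n) := by
  interval_cases n
  · exact ⟨N3.cert⟩
  · exact ⟨N4.cert⟩
  · exact ⟨N5.cert⟩
  · exact ⟨N6.cert⟩
  · exact ⟨N7.cert⟩
  · exact ⟨N8.cert⟩
  · exact ⟨N9.cert⟩

/-- `θ_i = p[(1-n/2-d) F_i + (p+q) ∂_p F_i]` -/
def th (n d : ℕ) (F : Biv) (p q : ℝ) : ℝ :=
  p * ((1 - (n : ℝ) / 2 - d) * F.f p q + (p + q) * F.f1 p q)

/-- `φ_i = q[(1-n/2-d) F_i + (p+q) ∂_q F_i]` -/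
def ph (n d : ℕ) (F : Biv) (p q : ℝ) : ℝ :=
  q * ((1 - (n : ℝ) / 2 - d) * F.f p q + (p + q) * F.f2 p q)

/-- `(p+q)^(n/2+d) * div Z` for `Z = (p+q)^(1-n/2-d) (F_a a + F_b b + F_A A + F_B B)`, computed by
the product rule, with `div a = n<a,B>-|a|²`, `div b = n<b,A>-|b|²`, `div A = -|A|²`,
`div B = -|B|²`, `∇p = p(a+A)`, `∇q = q(b+B)`. -/
def divZ (n d : ℕ) (Fa FA : Biv) (p q : ℝ) (g : Gram) : ℝ :=
  th n d Fa p q * (g.aa + g.aA) + ph n d Fa p q * (g.ab + g.aB) +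
  th n d Fa.swap p q * (g.ab + g.bA) + ph n d Fa.swap p q * (g.bb + g.bB) +
  th n d FA p q * (g.aA + g.AA) + ph n d FA p q * (g.bA + g.AB) +
  th n d FA.swap p q * (g.aB + g.AB) + ph n d FA.swap p q * (g.bB + g.BB) +
  (p + q) * (Fa.f p q * ((n : ℝ) * g.aB - g.aa) + Fa.swap.f p q * ((n : ℝ) * g.bA - g.bb) +
    FA.f p q * (-g.AA) + FA.swap.f p q * (-g.BB))

theorem neg_divZ (n d : ℕ) (Fa FA mu : Biv) (p q : ℝ) (g : Gram)
    (h1 : g.aA = g.aB - 1 / p) (h2 : g.bB = g.bA - 1 / q) :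
    -divZ n d Fa FA p q g = bracket n d Fa FA mu p q g := by
  unfold divZ bracket bracketV th ph
  have e1 : mu.f p q / p = mu.f p q * (g.aB - g.aA) := by rw [h1]; ring
  have e2 : mu.swap.f p q / q = mu.swap.f p q * (g.bA - g.bB) := by rw [h2]; ring
  rw [e1, e2]
  ring

/-- The pointwise inequality in final form: `-(p+q)^(n/2+d) div Z ≥ ε (p+q)^(d+1) (..)`. -/
theorem CertData.neg_divZ_ge {n : ℕ} (K : CertData n) (p q : ℝ) (hp : 0 < p) (hq : 0 < q)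
    (g : Gram) (h : g.PSD) (h1 : g.aA = g.aB - 1 / p) (h2 : g.bB = g.bA - 1 / q) :
    K.ε * (p + q) ^ (K.d + 1) * (g.aa + g.bb + g.AA + g.BB + 1 / p + 1 / q) ≤
      -divZ n K.d K.Fa K.FA p q g := by
  rw [neg_divZ n K.d K.Fa K.FA K.mu p q g h1 h2]
  exact K.main p q hp hq g h

theorem Gram.PSD.comb {g : Gram} (h : g.PSD) (c0 c1 c2 c3 : ℝ) :
    c0 ^ 2 * g.aa + c1 ^ 2 * g.bb + c2 ^ 2 * g.AA + c3 ^ 2 * g.BB +
    2 * (c0 * c1) * g.ab + 2 * (c0 * c2) * g.aA + 2 * (c0 * c3) * g.aB +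
    2 * (c1 * c2) * g.bA + 2 * (c1 * c3) * g.bB + 2 * (c2 * c3) * g.AB ≤
      4 * (c0 ^ 2 * g.aa + c1 ^ 2 * g.bb + c2 ^ 2 * g.AA + c3 ^ 2 * g.BB) := by
  have a1 := h c0 (-c1) 0 0
  have a2 := h c0 0 (-c2) 0
  have a3 := h c0 0 0 (-c3)
  have a4 := h 0 c1 (-c2) 0
  have a5 := h 0 c1 0 (-c3)
  have a6 := h 0 0 c2 (-c3)
  linarith

/-- `|Z|² (p+q)^(n-2+2d)`-bound: `|F_a a + F_b b + F_A A + F_B B|² ≤ 4 C² (p+q)^(2d) tr`. -/
theorem CertData.normSq_le {n : ℕ} (K : CertData n) (p q : ℝ) (hp : 0 < p) (hq : 0 < q)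
    (g : Gram) (h : g.PSD) :
    (K.Fa.f p q) ^ 2 * g.aa + (K.Fa.swap.f p q) ^ 2 * g.bb + (K.FA.f p q) ^ 2 * g.AA +
      (K.FA.swap.f p q) ^ 2 * g.BB +
    2 * (K.Fa.f p q * K.Fa.swap.f p q) * g.ab + 2 * (K.Fa.f p q * K.FA.f p q) * g.aA +
    2 * (K.Fa.f p q * K.FA.swap.f p q) * g.aB + 2 * (K.Fa.swap.f p q * K.FA.f p q) * g.bA +
    2 * (K.Fa.swap.f p q * K.FA.swap.f p q) * g.bB + 2 * (K.FA.f p q * K.FA.swap.f p q) * g.AB ≤
      4 * (K.C ^ 2 * (p + q) ^ (2 * K.d)) * (g.aa + g.bb + g.AA + g.BB) := by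
  refine (h.comb _ _ _ _).trans ?_
  have sq : ∀ x : ℝ, |x| ≤ K.C * (p + q) ^ K.d → x ^ 2 ≤ K.C ^ 2 * (p + q) ^ (2 * K.d) := by
    intro x hx
    have := pow_le_pow_left₀ (abs_nonneg x) hx 2
    rw [sq_abs] at this
    calc x ^ 2 ≤ (K.C * (p + q) ^ K.d) ^ 2 := this
      _ = _ := by ring
  have hsw : (q + p) = (p + q) := add_comm q p
  have b1 := sq _ (K.boundFa p q hp hq)
  have b2 : (K.Fa.swap.f p q) ^ 2 ≤ K.C ^ 2 * (p + q) ^ (2 * K.d) :=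
    sq _ (by have := K.boundFa q p hq hp; rwa [hsw] at this)
  have b3 := sq _ (K.boundFA p q hp hq)
  have b4 : (K.FA.swap.f p q) ^ 2 ≤ K.C ^ 2 * (p + q) ^ (2 * K.d) :=
    sq _ (by have := K.boundFA q p hq hp; rwa [hsw] at this)
  have c1 := mul_le_mul_of_nonneg_right b1 h.aa_nonneg
  have c2 := mul_le_mul_of_nonneg_right b2 h.bb_nonneg
  have c3 := mul_le_mul_of_nonneg_right b3 h.AA_nonneg
  have c4 := mul_le_mul_of_nonneg_right b4 h.BB_nonneg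
  nlinarith

end Crest.Agent.R236.Cert
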