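import Crest.Agent.R236.CertAsm

/-! Row 236, C3: exact certificate for n = 3 (helper194, generated; data of note 13059). -/

set_option autoImplicit false
set_option linter.all false
set_option maxHeartbeats 4000000

noncomputable section

namespace Crest.Agent.R236.Cert.N3

open Crest.Agent.R236.Cert

def Fa : Biv := hom2 3 4 5
def FA : Biv := hom2 20 40 8
def mu : Biv := hom3 (-8) 6 15 2

theorem br (p q : ℝ) (g : Gram) : bracket 3 2 Fa FA mu p q g =
    (((9/2)*p^3 + 7*p^2*q + (35/2)*p*q^2 + 5*q^3) * g.aa +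
     (5*p^3 + (35/2)*p^2*q + 7*p*q^2 + (9/2)*q^3) * g.bb +
     (30*p^3 + 80*p^2*q + 28*p*q^2 + 8*q^3) * g.AA +
     (8*p^3 + 28*p^2*q + 80*p*q^2 + 30*q^3) * g.BB +
     ((5/2)*p^3 + (-1/2)*p^2*q + (-1/2)*p*q^2 + (5/2)*q^3) * g.ab +
     ((7/2)*p^3 + 26*p^2*q + (7/2)*p*q^2 + 2*q^3) * g.aA +
     (3*p^3 + (41/2)*p^2*q + (-36)*p*q^2 + (-29/2)*q^3) * g.aB +
     ((-29/2)*p^3 + (-36)*p^2*q + (41/2)*p*q^2 + 3*q^3) * g.bA +
     (2*p^3 + (7/2)*p^2*q + 26*p*q^2 + (7/2)*q^3) * g.bB +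
     (4*p^3 + 54*p^2*q + 54*p*q^2 + 4*q^3) * g.AB)
    + ((mu.f p q) / p + (mu.f q p) / q) := by
  simp only [bracket, bracketV, Biv.swap, Fa, FA, mu, hom2, hom3, hom4]
  push_cast
  ring

theorem psd0 (g : Gram) (h : g.PSD) : 0 ≤
    (35/8) * g.aa + (39/8) * g.bb + (239/8) * g.AA + (63/8) * g.BB + (5/2) * g.ab + (7/2) * g.aA + 3 * g.aB + (-29/2) * g.bA + 2 * g.bB + 4 * g.AB := by
  linear_combination (14493/500) * h (6037/100000) (-6253/25000) 1 (69/1000) +
    (856/125) * h (1007/5000) (10953/50000) 0 1 +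
    (1551/500) * h 1 (44653/100000) 0 0 +
    (49/40) * h 0 1 0 0 +
    (525478933/1250000000000) * h 1 1 0 0 +
    (5759/50000000) * h 1 0 1 0 +
    (3537371/50000000000) * h 1 0 0 1 +
    (271/12500000) * h 0 1 (-1) 0 +
    (1570301/12500000000) * h 0 1 0 1 +
    (17/500000) * h 0 0 1 (-1) +
    (4444924203851/5000000000000) * h 1 0 0 0 +
    (4444730062053/5000000000000) * h 0 1 0 0 +
    (44441457/50000000) * h 0 0 1 0 +
    (355506913/400000000) * h 0 0 0 1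

theorem psd1 (g : Gram) (h : g.PSD) : 0 ≤
    (53/8) * g.aa + (137/8) * g.bb + (637/8) * g.AA + (221/8) * g.BB + (-1/2) * g.ab + 26 * g.aA + (41/2) * g.aB + (-36) * g.bA + (7/2) * g.bB + 54 * g.AB := by
  linear_combination (78437/1000) * h (8287/50000) (-5737/25000) 1 (17211/50000) +
    (17143/1000) * h (4211/12500) (46351/100000) 0 1 +
    (8123/1000) * h (139/20000) 1 0 0 +
    (167/125) * h 1 0 0 0 +
    (817871/62500000000) * h 1 (-1) 0 0 +
    (7419/50000000) * h 1 0 (-1) 0 +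
    (112288409/2500000000000) * h 1 0 0 (-1) +
    (6931/25000000) * h 0 1 (-1) 0 +
    (109201941/1250000000000) * h 0 1 0 (-1) +
    (20793/50000000) * h 0 0 1 1 +
    (475291830789/400000000000) * h 1 0 0 0 +
    (11880177544721/10000000000000) * h 0 1 0 0 +
    (29678963/25000000) * h 0 0 1 0 +
    (185571095377/156250000000) * h 0 0 0 1

theorem psd2 (g : Gram) (h : g.PSD) : 0 ≤
    (137/8) * g.aa + (53/8) * g.bb + (221/8) * g.AA + (637/8) * g.BB + (-1/2) * g.ab + (7/2) * g.aA + (-36) * g.aB + (41/2) * g.bA + 26 * g.bB + 54 * g.AB := by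
  linear_combination (78437/1000) * h (-5737/25000) (8287/50000) (17211/50000) 1 +
    (17143/1000) * h (46351/100000) (4211/12500) 1 0 +
    (8123/1000) * h 1 (139/20000) 0 0 +
    (167/125) * h 0 1 0 0 +
    (817871/62500000000) * h 1 (-1) 0 0 +
    (109201941/1250000000000) * h 1 0 (-1) 0 +
    (6931/25000000) * h 1 0 0 (-1) +
    (112288409/2500000000000) * h 0 1 (-1) 0 +
    (7419/50000000) * h 0 1 0 (-1) +
    (20793/50000000) * h 0 0 1 1 +
    (11880177544721/10000000000000) * h 1 0 0 0 +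
    (475291830789/400000000000) * h 0 1 0 0 +
    (185571095377/156250000000) * h 0 0 1 0 +
    (29678963/25000000) * h 0 0 0 1

theorem psd3 (g : Gram) (h : g.PSD) : 0 ≤
    (39/8) * g.aa + (35/8) * g.bb + (63/8) * g.AA + (239/8) * g.BB + (5/2) * g.ab + 2 * g.aA + (-29/2) * g.aB + 3 * g.bA + (7/2) * g.bB + 4 * g.AB := by
  linear_combination (14493/500) * h (-6253/25000) (6037/100000) (69/1000) 1 +
    (856/125) * h (10953/50000) (1007/5000) 1 0 +
    (1551/500) * h (44653/100000) 1 0 0 +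
    (49/40) * h 1 0 0 0 +
    (525478933/1250000000000) * h 1 1 0 0 +
    (1570301/12500000000) * h 1 0 1 0 +
    (271/12500000) * h 1 0 0 (-1) +
    (3537371/50000000000) * h 0 1 1 0 +
    (5759/50000000) * h 0 1 0 1 +
    (17/500000) * h 0 0 1 (-1) +
    (4444730062053/5000000000000) * h 1 0 0 0 +
    (4444924203851/5000000000000) * h 0 1 0 0 +
    (355506913/400000000) * h 0 0 1 0 +
    (44441457/50000000) * h 0 0 0 1

theorem quad (p q : ℝ) (hp : 0 < p) (hq : 0 < q) (g : Gram) (h : g.PSD) :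
    (1/8 : ℝ) * (p + q) ^ 3 * (g.aa + g.bb + g.AA + g.BB) ≤ (p + q) ^ 0 * (
    ((9/2)*p^3 + 7*p^2*q + (35/2)*p*q^2 + 5*q^3) * g.aa +
     (5*p^3 + (35/2)*p^2*q + 7*p*q^2 + (9/2)*q^3) * g.bb +
     (30*p^3 + 80*p^2*q + 28*p*q^2 + 8*q^3) * g.AA +
     (8*p^3 + 28*p^2*q + 80*p*q^2 + 30*q^3) * g.BB +
     ((5/2)*p^3 + (-1/2)*p^2*q + (-1/2)*p*q^2 + (5/2)*q^3) * g.ab +
     ((7/2)*p^3 + 26*p^2*q + (7/2)*p*q^2 + 2*q^3) * g.aA +
     (3*p^3 + (41/2)*p^2*q + (-36)*p*q^2 + (-29/2)*q^3) * g.aB +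
     ((-29/2)*p^3 + (-36)*p^2*q + (41/2)*p*q^2 + 3*q^3) * g.bA +
     (2*p^3 + (7/2)*p^2*q + 26*p*q^2 + (7/2)*q^3) * g.bB +
     (4*p^3 + 54*p^2*q + 54*p*q^2 + 4*q^3) * g.AB) := by
  have h0 := mul_nonneg (mul_nonneg (pow_nonneg hp.le 3) (pow_nonneg hq.le 0)) (psd0 g h)
  have h1 := mul_nonneg (mul_nonneg (pow_nonneg hp.le 2) (pow_nonneg hq.le 1)) (psd1 g h)
  have h2 := mul_nonneg (mul_nonneg (pow_nonneg hp.le 1) (pow_nonneg hq.le 2)) (psd2 g h)
  have h3 := mul_nonneg (mul_nonneg (pow_nonneg hp.le 0) (pow_nonneg hq.le 3)) (psd3 g h)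
  linear_combination h0 + h1 + h2 + h3

theorem scal (p q : ℝ) (hp : 0 < p) (hq : 0 < q) :
    (1/8 : ℝ) * (p + q) ^ 4 ≤ (p + q) ^ 0 * (q * mu.f p q + p * mu.f q p) := by
  simp only [mu, hom2, hom3, hom4]
  have h0 := mul_nonneg (pow_nonneg hp.le 4) (pow_nonneg hq.le 0)
  have h1 := mul_nonneg (pow_nonneg hp.le 3) (pow_nonneg hq.le 1)
  have h2 := mul_nonneg (pow_nonneg hp.le 2) (pow_nonneg hq.le 2)
  have h3 := mul_nonneg (pow_nonneg hp.le 1) (pow_nonneg hq.le 3)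
  have h4 := mul_nonneg (pow_nonneg hp.le 0) (pow_nonneg hq.le 4)
  linear_combination (15/8) * h0 + (13/2) * h1 + (45/4) * h2 + (13/2) * h3 + (15/8) * h4

def cert : CertData 3 where
  d := 2
  Fa := Fa
  FA := FA
  mu := mu
  ε := 1/8
  C := 20
  ε_pos := by norm_num
  C_pos := by norm_num
  main := by
    intro p q hp hq g h
    rw [br]
    have h1 := quad p q hp hq g h
    have h2 := scal p q hp hq
    exact assemble 2 0 p q _ _ _ _ hp hq h1 h2
  boundFa := by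
    intro p q hp hq
    have e0 : 0 ≤ (Fa).f p q := by
      simp only [Fa, hom2, hom3]; positivity
    rw [abs_of_nonneg e0]
    simp only [Fa, hom2, hom3]
    have h0 := mul_nonneg (pow_nonneg hp.le 2) (pow_nonneg hq.le 0)
    have h1 := mul_nonneg (pow_nonneg hp.le 1) (pow_nonneg hq.le 1)
    have h2 := mul_nonneg (pow_nonneg hp.le 0) (pow_nonneg hq.le 2)
    linear_combination 17 * h0 + 36 * h1 + 15 * h2
  boundFA := by
    intro p q hp hq
    have e0 : 0 ≤ (FA).f p q := by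
      simp only [FA, hom2, hom3]; positivity
    rw [abs_of_nonneg e0]
    simp only [FA, hom2, hom3]
    have h2 := mul_nonneg (pow_nonneg hp.le 0) (pow_nonneg hq.le 2)
    linear_combination 12 * h2

end Crest.Agent.R236.Cert.N3
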