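import Crest.Agent.R236.CertDefs

set_option autoImplicit false

namespace Crest.Agent.R236.Cert

theorem assemble (d r : ℕ) (p q quad tr ma mb : ℝ) (hp : 0 < p) (hq : 0 < q)
    (h1 : (1/8 : ℝ) * (p + q) ^ (d + 1 + r) * tr ≤ (p + q) ^ r * quad)
    (h2 : (1/8 : ℝ) * (p + q) ^ (d + 2 + r) ≤ (p + q) ^ r * (q * ma + p * mb)) :
    (1/8 : ℝ) * (p + q) ^ (d + 1) * (tr + 1 / p + 1 / q) ≤ quad + (ma / p + mb / q) := by
  have hs : 0 < p + q := by linarith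
  have hr : 0 < (p + q) ^ r := pow_pos hs r
  have a1 : (1/8 : ℝ) * (p + q) ^ (d + 1) * tr ≤ quad := by
    refine le_of_mul_le_mul_left ?_ hr
    calc (p + q) ^ r * ((1/8 : ℝ) * (p + q) ^ (d + 1) * tr)
        = (1/8 : ℝ) * (p + q) ^ (d + 1 + r) * tr := by ring
      _ ≤ _ := h1
  have a2 : (1/8 : ℝ) * (p + q) ^ (d + 2) ≤ q * ma + p * mb := by
    refine le_of_mul_le_mul_left ?_ hr
    calc (p + q) ^ r * ((1/8 : ℝ) * (p + q) ^ (d + 2))
        = (1/8 : ℝ) * (p + q) ^ (d + 2 + r) := by ring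
      _ ≤ _ := h2
  have hpq : 0 < p * q := mul_pos hp hq
  have a3 : (1/8 : ℝ) * (p + q) ^ (d + 1) * (1 / p + 1 / q) ≤ ma / p + mb / q := by
    have e1 : (1/8 : ℝ) * (p + q) ^ (d + 1) * (1 / p + 1 / q)
        = ((1/8 : ℝ) * (p + q) ^ (d + 2)) / (p * q) := by
      rw [pow_succ (p + q) (d + 1)]
      field_simp
      ring
    have e2 : ma / p + mb / q = (q * ma + p * mb) / (p * q) := by
      field_simp
    rw [e1, e2]
    gcongr
  calc (1/8 : ℝ) * (p + q) ^ (d + 1) * (tr + 1 / p + 1 / q)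
      = (1/8 : ℝ) * (p + q) ^ (d + 1) * tr + (1/8 : ℝ) * (p + q) ^ (d + 1) * (1 / p + 1 / q) := by
        ring
    _ ≤ _ := add_le_add a1 a3

end Crest.Agent.R236.Cert
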