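import Mathlib

/-!
Row 236, part C3: definitions for the exact certificate (helper194).

`Gram` = the ten inner products of four vectors `a, b, A, B`; `Gram.PSD` = positive semidefinite.
`Biv` = a smooth function of two real variables together with its two partial derivatives.
`bracket` = the bracket `[..]` of C3.
`CertData n` = a certificate in dimension `n`.
-/

set_option autoImplicit false

noncomputable section

namespace Crest.Agent.R236.Cert

open scoped ContDiff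

/-- The ten inner products of four vectors `a, b, A, B`. -/
structure Gram where
  aa : ℝ
  bb : ℝ
  AA : ℝ
  BB : ℝ
  ab : ℝ
  aA : ℝ
  aB : ℝ
  bA : ℝ
  bB : ℝ
  AB : ℝ

/-- Positive semidefiniteness of the Gram data. -/
def Gram.PSD (g : Gram) : Prop :=
  ∀ c0 c1 c2 c3 : ℝ, 0 ≤ c0 ^ 2 * g.aa + c1 ^ 2 * g.bb + c2 ^ 2 * g.AA + c3 ^ 2 * g.BB +
    2 * (c0 * c1) * g.ab + 2 * (c0 * c2) * g.aA + 2 * (c0 * c3) * g.aB +
    2 * (c1 * c2) * g.bA + 2 * (c1 * c3) * g.bB + 2 * (c2 * c3) * g.AB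

/-- `|a|² + |b|² + |A|² + |B|²`. -/
def Gram.tr (g : Gram) : ℝ := g.aa + g.bb + g.AA + g.BB

theorem Gram.PSD.aa_nonneg {g : Gram} (h : g.PSD) : 0 ≤ g.aa := by
  have := h 1 0 0 0; simpa using this

theorem Gram.PSD.bb_nonneg {g : Gram} (h : g.PSD) : 0 ≤ g.bb := by
  have := h 0 1 0 0; simpa using this

theorem Gram.PSD.AA_nonneg {g : Gram} (h : g.PSD) : 0 ≤ g.AA := by
  have := h 0 0 1 0; simpa using this

theorem Gram.PSD.BB_nonneg {g : Gram} (h : g.PSD) : 0 ≤ g.BB := by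
  have := h 0 0 0 1; simpa using this

theorem Gram.PSD.tr_nonneg {g : Gram} (h : g.PSD) : 0 ≤ g.tr := by
  unfold Gram.tr
  linarith [h.aa_nonneg, h.bb_nonneg, h.AA_nonneg, h.BB_nonneg]

/-- Gram data of a bilinear form `β` at four vectors (the entries `β v w` for `v` before `w`). -/
def gramB {V : Type*} (β : V → V → ℝ) (a b A B : V) : Gram :=
  ⟨β a a, β b b, β A A, β B B, β a b, β a A, β a B, β b A, β b B, β A B⟩

theorem gramB_psd {V : Type*} [AddCommGroup V] [Module ℝ V] (β : LinearMap.BilinForm ℝ V)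
    (hs : ∀ v w, β v w = β w v) (hp : ∀ v, 0 ≤ β v v) (a b A B : V) :
    (gramB (fun v w => β v w) a b A B).PSD := by
  intro c0 c1 c2 c3
  have h := hp (c0 • a + c1 • b + c2 • A + c3 • B)
  simp only [map_add, map_smul, LinearMap.add_apply, LinearMap.smul_apply, smul_eq_mul] at h
  simp only [gramB]
  rw [hs b a, hs A a, hs A b, hs B a, hs B b, hs B A] at h
  linarith

/-- Gram data of four vectors of a real inner product space. -/
def gramOf {V : Type*} [NormedAddCommGroup V] [InnerProductSpace ℝ V] (a b A B : V) : Gram :=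
  gramB (fun v w => inner ℝ v w) a b A B

theorem gramOf_psd {V : Type*} [NormedAddCommGroup V] [InnerProductSpace ℝ V] (a b A B : V) :
    (gramOf a b A B).PSD := by
  intro c0 c1 c2 c3
  have h := real_inner_self_nonneg (x := c0 • a + c1 • b + c2 • A + c3 • B)
  simp only [inner_add_left, inner_add_right, real_inner_smul_left, real_inner_smul_right] at h
  simp only [gramOf, gramB]
  rw [real_inner_comm a b, real_inner_comm a A, real_inner_comm b A, real_inner_comm a B,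
    real_inner_comm b B, real_inner_comm A B] at h
  linarith

/-- A smooth function of two real variables with its partial derivatives. -/
structure Biv where
  f : ℝ → ℝ → ℝ
  /-- derivative in the first variable -/
  f1 : ℝ → ℝ → ℝ
  /-- derivative in the second variable -/
  f2 : ℝ → ℝ → ℝ
  smooth : ContDiff ℝ ∞ (fun z : ℝ × ℝ => f z.1 z.2)
  hasFDerivAt : ∀ p q : ℝ, HasFDerivAt (fun z : ℝ × ℝ => f z.1 z.2)
    ((f1 p q) • ContinuousLinearMap.fst ℝ ℝ ℝ + (f2 p q) • ContinuousLinearMap.snd ℝ ℝ ℝ) (p, q)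

/-- `F(q,p)`. -/
def Biv.swap (F : Biv) : Biv where
  f := fun p q => F.f q p
  f1 := fun p q => F.f2 q p
  f2 := fun p q => F.f1 q p
  smooth := F.smooth.comp (contDiff_snd.prodMk contDiff_fst)
  hasFDerivAt := by
    intro p q
    have h := (F.hasFDerivAt q p)
    have h2 : HasFDerivAt (fun z : ℝ × ℝ => (z.2, z.1))
        ((ContinuousLinearMap.snd ℝ ℝ ℝ).prod (ContinuousLinearMap.fst ℝ ℝ ℝ)) (p, q) :=
      (ContinuousLinearMap.snd ℝ ℝ ℝ).hasFDerivAt.prodMk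
        (ContinuousLinearMap.fst ℝ ℝ ℝ).hasFDerivAt
    have h3 := HasFDerivAt.comp (p, q) (f := fun z : ℝ × ℝ => (z.2, z.1)) (by simpa using h) h2
    refine h3.congr_fderiv ?_
    ext <;> simp

/-- The bracket of C3, as a function of the values of `F_i`, their partial derivatives and `mu`.
`e = 1 - n/2 - d`. -/
def bracketV (n e p q Fa Fa1 Fa2 Fb Fb1 Fb2 FA FA1 FA2 FB FB1 FB2 ma mb : ℝ) (g : Gram) : ℝ :=
  ((p + q) * Fa - p * (e * Fa + (p + q) * Fa1)) * g.aa +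
  ((p + q) * Fb - q * (e * Fb + (p + q) * Fb2)) * g.bb +
  ((p + q) * FA - p * (e * FA + (p + q) * FA1)) * g.AA +
  ((p + q) * FB - q * (e * FB + (p + q) * FB2)) * g.BB -
  (q * (e * Fa + (p + q) * Fa2) + p * (e * Fb + (p + q) * Fb1)) * g.ab -
  (p * (e * Fa + (p + q) * Fa1) + p * (e * FA + (p + q) * FA1) - ma) * g.aA -
  (q * (e * Fa + (p + q) * Fa2) + p * (e * FB + (p + q) * FB1) + n * ((p + q) * Fa) + ma) * g.aB -
  (p * (e * Fb + (p + q) * Fb1) + q * (e * FA + (p + q) * FA2) + n * ((p + q) * Fb) + mb) * g.bA -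
  (q * (e * Fb + (p + q) * Fb2) + q * (e * FB + (p + q) * FB2) - mb) * g.bB -
  (q * (e * FA + (p + q) * FA2) + p * (e * FB + (p + q) * FB1)) * g.AB +
  (ma / p + mb / q)

/-- The bracket `[..]` of C3 for given `F_a, F_A, mu_a` (and `F_b = F_a.swap` etc.). -/
def bracket (n : ℕ) (d : ℕ) (Fa FA mu : Biv) (p q : ℝ) (g : Gram) : ℝ :=
  bracketV n (1 - (n : ℝ) / 2 - d) p q (Fa.f p q) (Fa.f1 p q) (Fa.f2 p q)
    (Fa.swap.f p q) (Fa.swap.f1 p q) (Fa.swap.f2 p q)
    (FA.f p q) (FA.f1 p q) (FA.f2 p q) (FA.swap.f p q) (FA.swap.f1 p q) (FA.swap.f2 p q)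
    (mu.f p q) (mu.swap.f p q) g

/-- A certificate in dimension `n`. -/
structure CertData (n : ℕ) where
  d : ℕ
  Fa : Biv
  FA : Biv
  mu : Biv
  ε : ℝ
  C : ℝ
  ε_pos : 0 < ε
  C_pos : 0 < C
  main : ∀ p q : ℝ, 0 < p → 0 < q → ∀ g : Gram, g.PSD →
    ε * (p + q) ^ (d + 1) * (g.aa + g.bb + g.AA + g.BB + 1 / p + 1 / q) ≤
      bracket n d Fa FA mu p q g
  boundFa : ∀ p q : ℝ, 0 < p → 0 < q → |Fa.f p q| ≤ C * (p + q) ^ d
  boundFA : ∀ p q : ℝ, 0 < p → 0 < q → |FA.f p q| ≤ C * (p + q) ^ d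

/-- homogeneous polynomial of degree `d` with coefficients `c`:
`Σ_{k ≤ d} c_k p^(d-k) q^k`, as a `Biv` (used for `d ≤ 4`). -/
def hom2 (c0 c1 c2 : ℝ) : Biv where
  f := fun p q => c0 * p ^ 2 + c1 * (p * q) + c2 * q ^ 2
  f1 := fun p q => 2 * c0 * p + c1 * q
  f2 := fun p q => c1 * p + 2 * c2 * q
  smooth := by fun_prop
  hasFDerivAt := by
    intro p q
    have h1 : HasFDerivAt (fun z : ℝ × ℝ => z.1) (ContinuousLinearMap.fst ℝ ℝ ℝ) (p, q) :=
      (ContinuousLinearMap.fst ℝ ℝ ℝ).hasFDerivAt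
    have h2 : HasFDerivAt (fun z : ℝ × ℝ => z.2) (ContinuousLinearMap.snd ℝ ℝ ℝ) (p, q) :=
      (ContinuousLinearMap.snd ℝ ℝ ℝ).hasFDerivAt
    have h := (((h1.pow 2).const_mul c0).add ((h1.mul h2).const_mul c1)).add
      ((h2.pow 2).const_mul c2)
    refine h.congr_fderiv ?_
    ext <;> simp <;> ring

def hom3 (c0 c1 c2 c3 : ℝ) : Biv where
  f := fun p q => c0 * p ^ 3 + c1 * (p ^ 2 * q) + c2 * (p * q ^ 2) + c3 * q ^ 3
  f1 := fun p q => 3 * c0 * p ^ 2 + 2 * c1 * (p * q) + c2 * q ^ 2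
  f2 := fun p q => c1 * p ^ 2 + 2 * c2 * (p * q) + 3 * c3 * q ^ 2
  smooth := by fun_prop
  hasFDerivAt := by
    intro p q
    have h1 : HasFDerivAt (fun z : ℝ × ℝ => z.1) (ContinuousLinearMap.fst ℝ ℝ ℝ) (p, q) :=
      (ContinuousLinearMap.fst ℝ ℝ ℝ).hasFDerivAt
    have h2 : HasFDerivAt (fun z : ℝ × ℝ => z.2) (ContinuousLinearMap.snd ℝ ℝ ℝ) (p, q) :=
      (ContinuousLinearMap.snd ℝ ℝ ℝ).hasFDerivAt
    have h := ((((h1.pow 3).const_mul c0).add (((h1.pow 2).mul h2).const_mul c1)).add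
      ((h1.mul (h2.pow 2)).const_mul c2)).add ((h2.pow 3).const_mul c3)
    refine h.congr_fderiv ?_
    ext <;> simp <;> ring

def hom4 (c0 c1 c2 c3 c4 : ℝ) : Biv where
  f := fun p q => c0 * p ^ 4 + c1 * (p ^ 3 * q) + c2 * (p ^ 2 * q ^ 2) + c3 * (p * q ^ 3) +
    c4 * q ^ 4
  f1 := fun p q => 4 * c0 * p ^ 3 + 3 * c1 * (p ^ 2 * q) + 2 * c2 * (p * q ^ 2) + c3 * q ^ 3
  f2 := fun p q => c1 * p ^ 3 + 2 * c2 * (p ^ 2 * q) + 3 * c3 * (p * q ^ 2) + 4 * c4 * q ^ 3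
  smooth := by fun_prop
  hasFDerivAt := by
    intro p q
    have h1 : HasFDerivAt (fun z : ℝ × ℝ => z.1) (ContinuousLinearMap.fst ℝ ℝ ℝ) (p, q) :=
      (ContinuousLinearMap.fst ℝ ℝ ℝ).hasFDerivAt
    have h2 : HasFDerivAt (fun z : ℝ × ℝ => z.2) (ContinuousLinearMap.snd ℝ ℝ ℝ) (p, q) :=
      (ContinuousLinearMap.snd ℝ ℝ ℝ).hasFDerivAt
    have h := (((((h1.pow 4).const_mul c0).add (((h1.pow 3).mul h2).const_mul c1)).add
      (((h1.pow 2).mul (h2.pow 2)).const_mul c2)).add ((h1.mul (h2.pow 3)).const_mul c3)).add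
      ((h2.pow 4).const_mul c4)
    refine h.congr_fderiv ?_
    ext <;> simp <;> ring

end Crest.Agent.R236.Cert
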