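import Crest.Agent.R236.Bl3
import Crest.Agent.R236.BFinal

/-! Row 236: the certificate inequality `CertStmt` (C4). (helper796) -/

set_option autoImplicit false

namespace Crest.Agent.R236

/-- node C4 of Part B. -/
theorem certStmt (n : ℕ) (h3 : 3 ≤ n) (h9 : n ≤ 9) : BF.CertStmt n := by
  obtain ⟨K, _, hmain⟩ := Bl.cert n h3 h9
  exact ⟨K, fun Ω u hsc hpde P0 W0 pc wc eP eW h1 h2 h3 h4 ζ hζ hζc hζs =>
    hmain Ω u P0 W0 pc wc eP eW hsc hpde h1 h2 h3 h4 ζ hζ hζc hζs⟩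

end Crest.Agent.R236
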