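import Crest.Agent.R236.Liou
import Crest.Agent.R236.Asm

/-! Row 236: `Asm.ConstStmt` from the determinant bounds and the weak Harnack inequality
(helper202). -/

set_option autoImplicit false
open scoped ContDiff Topology
open Crest.GeometryTopology.CoordMetric Crest.GeometryTopology.AffineMaximal
open Set Filter MeasureTheory

noncomputable section

namespace Crest.Agent.R236.Sec

theorem constStmt {n : ℕ} (hn : 0 < n) (hU : DetUpper n) (hL : DetLower n) (hWH : WHStmt n) :
    Asm.ConstStmt n := by
  intro Ω u th hS hth hB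
  have hC0 : 0 < Qs.C0 th := lt_of_lt_of_le one_pos (Qs.one_le_C0 hth)
  obtain ⟨-, c, hc⟩ := det_const hn hU hL hWH hS.sc hS.ne hS.pde hC0
    (Qs.sec_qs_of_bal hS.sc hth hB) hth hB hS.cap
  exact ⟨c, fun x _ => hc x⟩

end Crest.Agent.R236.Sec
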