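import Mathlib
import Crest.Prelude.Def_AffineMaximal

/-!
Row 236: pointwise calculus with `pderiv`, `hessianMat`; Jacobi's formula; second derivative test.
-/

set_option autoImplicit false

open scoped ContDiff Topology Matrix
open Crest.GeometryTopology.CoordMetric Crest.GeometryTopology.AffineMaximal Filter

namespace Crest.Agent.R236.Jet

variable {n : ℕ}

theorem sm_pderiv {f : EuclideanSpace ℝ (Fin n) → ℝ} {x : EuclideanSpace ℝ (Fin n)}
    (hf : ContDiffAt ℝ ∞ f x) (i : Fin n) : ContDiffAt ℝ ∞ (fun y => pderiv i f y) x := by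
  have h1 : ContDiffAt ℝ ∞ (fderiv ℝ f) x := hf.fderiv_right (by simp)
  exact h1.clm_apply contDiffAt_const

theorem sm_diff {f : EuclideanSpace ℝ (Fin n) → ℝ} {x : EuclideanSpace ℝ (Fin n)}
    (hf : ContDiffAt ℝ ∞ f x) : DifferentiableAt ℝ f x := hf.differentiableAt (by simp)

theorem sm_ev {f : EuclideanSpace ℝ (Fin n) → ℝ} {x : EuclideanSpace ℝ (Fin n)}
    (hf : ContDiffAt ℝ ∞ f x) : ∀ᶠ y in 𝓝 x, DifferentiableAt ℝ f y := by
  have h1 : ContDiffAt ℝ 1 f x := hf.of_le (by simp)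
  filter_upwards [h1.eventually (by simp)] with y hy using hy.differentiableAt (by simp)

theorem pderiv_add {f g : EuclideanSpace ℝ (Fin n) → ℝ} {x : EuclideanSpace ℝ (Fin n)}
    (hf : DifferentiableAt ℝ f x) (hg : DifferentiableAt ℝ g x) (i : Fin n) :
    pderiv i (fun y => f y + g y) x = pderiv i f x + pderiv i g x := by
  unfold pderiv
  rw [fderiv_fun_add hf hg]; rfl

theorem pderiv_sub {f g : EuclideanSpace ℝ (Fin n) → ℝ} {x : EuclideanSpace ℝ (Fin n)}
    (hf : DifferentiableAt ℝ f x) (hg : DifferentiableAt ℝ g x) (i : Fin n) :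
    pderiv i (fun y => f y - g y) x = pderiv i f x - pderiv i g x := by
  unfold pderiv
  rw [fderiv_fun_sub hf hg]; rfl

theorem pderiv_cmul {f : EuclideanSpace ℝ (Fin n) → ℝ} {x : EuclideanSpace ℝ (Fin n)}
    (hf : DifferentiableAt ℝ f x) (c : ℝ) (i : Fin n) :
    pderiv i (fun y => c * f y) x = c * pderiv i f x := by
  unfold pderiv
  rw [fderiv_const_mul hf c]; rfl

theorem pderiv_mul {f g : EuclideanSpace ℝ (Fin n) → ℝ} {x : EuclideanSpace ℝ (Fin n)}
    (hf : DifferentiableAt ℝ f x) (hg : DifferentiableAt ℝ g x) (i : Fin n) :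
    pderiv i (fun y => f y * g y) x = f x * pderiv i g x + g x * pderiv i f x := by
  unfold pderiv
  rw [fderiv_fun_mul hf hg]
  simp [smul_eq_mul]

theorem pderiv_sum {ι : Type*} {s : Finset ι} {f : ι → EuclideanSpace ℝ (Fin n) → ℝ}
    {x : EuclideanSpace ℝ (Fin n)} (hf : ∀ k ∈ s, DifferentiableAt ℝ (f k) x) (i : Fin n) :
    pderiv i (fun y => ∑ k ∈ s, f k y) x = ∑ k ∈ s, pderiv i (f k) x := by
  unfold pderiv
  rw [fderiv_fun_sum hf]
  simp

theorem pderiv_const (c : ℝ) (i : Fin n) (x : EuclideanSpace ℝ (Fin n)) :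
    pderiv i (fun _ => c) x = 0 := by
  unfold pderiv
  rw [fderiv_const_apply]; rfl

theorem pderiv_comp {φ : ℝ → ℝ} {φ' : ℝ} {f : EuclideanSpace ℝ (Fin n) → ℝ}
    {x : EuclideanSpace ℝ (Fin n)} (hφ : HasDerivAt φ φ' (f x)) (hf : DifferentiableAt ℝ f x)
    (i : Fin n) : pderiv i (fun y => φ (f y)) x = φ' * pderiv i f x := by
  unfold pderiv
  have h := (hφ.comp_hasFDerivAt x hf.hasFDerivAt).fderiv
  have e : (fun y => φ (f y)) = φ ∘ f := rfl
  rw [e, h]
  simp [smul_eq_mul]

theorem pderiv_congr {f g : EuclideanSpace ℝ (Fin n) → ℝ} {x : EuclideanSpace ℝ (Fin n)}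
    (h : f =ᶠ[𝓝 x] g) (i : Fin n) : pderiv i f x = pderiv i g x := by
  unfold pderiv
  rw [h.fderiv_eq]

theorem hess_congr {f g : EuclideanSpace ℝ (Fin n) → ℝ} {x : EuclideanSpace ℝ (Fin n)}
    (h : f =ᶠ[𝓝 x] g) (i j : Fin n) : hessianMat f x i j = hessianMat g x i j := by
  unfold hessianMat
  apply pderiv_congr
  filter_upwards [h.eventuallyEq_nhds] with y hy
  exact pderiv_congr hy j

/-- the coordinate functions -/
theorem pderiv_coord (k i : Fin n) (x : EuclideanSpace ℝ (Fin n)) :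
    pderiv i (fun y : EuclideanSpace ℝ (Fin n) => y k) x = if k = i then 1 else 0 := by
  unfold pderiv
  have h : HasFDerivAt (fun y : EuclideanSpace ℝ (Fin n) => y k)
      (EuclideanSpace.proj k : EuclideanSpace ℝ (Fin n) →L[ℝ] ℝ) x :=
    (EuclideanSpace.proj k : EuclideanSpace ℝ (Fin n) →L[ℝ] ℝ).hasFDerivAt
  rw [h.fderiv]
  change (EuclideanSpace.single i (1 : ℝ) : EuclideanSpace ℝ (Fin n)) k = _
  simp

theorem pderiv_lin (l : EuclideanSpace ℝ (Fin n) →L[ℝ] ℝ) (i : Fin n)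
    (x : EuclideanSpace ℝ (Fin n)) :
    pderiv i (fun y => l y) x = l (EuclideanSpace.single i 1) := by
  unfold pderiv
  rw [show (fun y => l y) = l from rfl, l.fderiv]

/-- `fderiv` in terms of `pderiv`. -/
theorem fderiv_eq_sum (f : EuclideanSpace ℝ (Fin n) → ℝ) (x v : EuclideanSpace ℝ (Fin n)) :
    fderiv ℝ f x v = ∑ i, pderiv i f x * v i := by
  unfold pderiv
  have hv : v = ∑ i, v i • EuclideanSpace.single i (1 : ℝ) := by
    ext k
    simp [Pi.single_apply, Finset.sum_apply]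
  conv_lhs => rw [hv]
  rw [map_sum]
  refine Finset.sum_congr rfl fun i _ => ?_
  rw [map_smul, smul_eq_mul, mul_comm]

theorem hess_eq_fderiv2 {f : EuclideanSpace ℝ (Fin n) → ℝ} {x : EuclideanSpace ℝ (Fin n)}
    (hf : ContDiffAt ℝ ∞ f x) (i j : Fin n) :
    hessianMat f x i j = fderiv ℝ (fderiv ℝ f) x (EuclideanSpace.single i 1)
      (EuclideanSpace.single j 1) := by
  unfold hessianMat pderiv
  have h1 : ContDiffAt ℝ ∞ (fderiv ℝ f) x := hf.fderiv_right (by simp)
  have h2 := (h1.differentiableAt (by simp)).hasFDerivAt.clm_apply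
    (hasFDerivAt_const (EuclideanSpace.single j (1 : ℝ)) x)
  rw [h2.fderiv]
  simp

theorem hess_symm {f : EuclideanSpace ℝ (Fin n) → ℝ} {x : EuclideanSpace ℝ (Fin n)}
    (hf : ContDiffAt ℝ ∞ f x) (i j : Fin n) :
    hessianMat f x i j = hessianMat f x j i := by
  rw [hess_eq_fderiv2 hf, hess_eq_fderiv2 hf]
  have h : IsSymmSndFDerivAt ℝ f x := hf.isSymmSndFDerivAt (by
    simp; exact WithTop.coe_le_coe.2 le_top)
  exact h.eq _ _

theorem hess_add {f g : EuclideanSpace ℝ (Fin n) → ℝ} {x : EuclideanSpace ℝ (Fin n)}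
    (hf : ContDiffAt ℝ ∞ f x) (hg : ContDiffAt ℝ ∞ g x) (i j : Fin n) :
    hessianMat (fun y => f y + g y) x i j = hessianMat f x i j + hessianMat g x i j := by
  unfold hessianMat
  have e : (fun y => pderiv j (fun y => f y + g y) y) =ᶠ[𝓝 x]
      fun y => pderiv j f y + pderiv j g y := by
    filter_upwards [sm_ev hf, sm_ev hg] with y h1 h2 using pderiv_add h1 h2 j
  rw [pderiv_congr e, pderiv_add (sm_diff (sm_pderiv hf j)) (sm_diff (sm_pderiv hg j))]

theorem hess_sub {f g : EuclideanSpace ℝ (Fin n) → ℝ} {x : EuclideanSpace ℝ (Fin n)}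
    (hf : ContDiffAt ℝ ∞ f x) (hg : ContDiffAt ℝ ∞ g x) (i j : Fin n) :
    hessianMat (fun y => f y - g y) x i j = hessianMat f x i j - hessianMat g x i j := by
  unfold hessianMat
  have e : (fun y => pderiv j (fun y => f y - g y) y) =ᶠ[𝓝 x]
      fun y => pderiv j f y - pderiv j g y := by
    filter_upwards [sm_ev hf, sm_ev hg] with y h1 h2 using pderiv_sub h1 h2 j
  rw [pderiv_congr e, pderiv_sub (sm_diff (sm_pderiv hf j)) (sm_diff (sm_pderiv hg j))]

theorem hess_cmul {f : EuclideanSpace ℝ (Fin n) → ℝ} {x : EuclideanSpace ℝ (Fin n)}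
    (hf : ContDiffAt ℝ ∞ f x) (c : ℝ) (i j : Fin n) :
    hessianMat (fun y => c * f y) x i j = c * hessianMat f x i j := by
  unfold hessianMat
  have e : (fun y => pderiv j (fun y => c * f y) y) =ᶠ[𝓝 x] fun y => c * pderiv j f y := by
    filter_upwards [sm_ev hf] with y h1 using pderiv_cmul h1 c j
  rw [pderiv_congr e, pderiv_cmul (sm_diff (sm_pderiv hf j))]

theorem hess_mul {f g : EuclideanSpace ℝ (Fin n) → ℝ} {x : EuclideanSpace ℝ (Fin n)}
    (hf : ContDiffAt ℝ ∞ f x) (hg : ContDiffAt ℝ ∞ g x) (i j : Fin n) :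
    hessianMat (fun y => f y * g y) x i j =
      f x * hessianMat g x i j + g x * hessianMat f x i j
        + pderiv i f x * pderiv j g x + pderiv i g x * pderiv j f x := by
  unfold hessianMat
  have e : (fun y => pderiv j (fun y => f y * g y) y) =ᶠ[𝓝 x]
      fun y => f y * pderiv j g y + g y * pderiv j f y := by
    filter_upwards [sm_ev hf, sm_ev hg] with y h1 h2 using pderiv_mul h1 h2 j
  rw [pderiv_congr e, pderiv_add (f := fun y => f y * pderiv j g y)
    (g := fun y => g y * pderiv j f y)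
    ((sm_diff hf).mul (sm_diff (sm_pderiv hg j))) ((sm_diff hg).mul (sm_diff (sm_pderiv hf j))),
    pderiv_mul (sm_diff hf) (sm_diff (sm_pderiv hg j)),
    pderiv_mul (sm_diff hg) (sm_diff (sm_pderiv hf j))]
  ring

theorem hess_sum {ι : Type*} {s : Finset ι} {f : ι → EuclideanSpace ℝ (Fin n) → ℝ}
    {x : EuclideanSpace ℝ (Fin n)} (hf : ∀ k ∈ s, ContDiffAt ℝ ∞ (f k) x) (i j : Fin n) :
    hessianMat (fun y => ∑ k ∈ s, f k y) x i j = ∑ k ∈ s, hessianMat (f k) x i j := by
  unfold hessianMat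
  have e : (fun y => pderiv j (fun y => ∑ k ∈ s, f k y) y) =ᶠ[𝓝 x]
      fun y => ∑ k ∈ s, pderiv j (f k) y := by
    have h0 : ∀ᶠ y in 𝓝 x, ∀ k ∈ s, DifferentiableAt ℝ (f k) y := by
      rw [Filter.eventually_all_finset]
      exact fun k hk => sm_ev (hf k hk)
    filter_upwards [h0] with y h1 using pderiv_sum h1 j
  rw [pderiv_congr e, pderiv_sum (fun k hk => sm_diff (sm_pderiv (hf k hk) j))]

theorem pderiv_log {f : EuclideanSpace ℝ (Fin n) → ℝ} {x : EuclideanSpace ℝ (Fin n)}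
    (hf : DifferentiableAt ℝ f x) (h0 : f x ≠ 0) (i : Fin n) :
    pderiv i (fun y => Real.log (f y)) x = (f x)⁻¹ * pderiv i f x :=
  pderiv_comp (Real.hasDerivAt_log h0) hf i

theorem hess_log {f : EuclideanSpace ℝ (Fin n) → ℝ} {x : EuclideanSpace ℝ (Fin n)}
    (hf : ContDiffAt ℝ ∞ f x) (h0 : f x ≠ 0) (i j : Fin n) :
    hessianMat (fun y => Real.log (f y)) x i j =
      (f x)⁻¹ * hessianMat f x i j - ((f x) ^ 2)⁻¹ * (pderiv i f x * pderiv j f x) := by
  unfold hessianMat
  have hne : ∀ᶠ y in 𝓝 x, f y ≠ 0 := hf.continuousAt.eventually_ne h0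
  have e : (fun y => pderiv j (fun y => Real.log (f y)) y) =ᶠ[𝓝 x]
      fun y => (f y)⁻¹ * pderiv j f y := by
    filter_upwards [sm_ev hf, hne] with y h1 h2 using pderiv_log h1 h2 j
  have hinv : ContDiffAt ℝ ∞ (fun y => (f y)⁻¹) x := hf.inv h0
  rw [pderiv_congr e, pderiv_mul (sm_diff hinv) (sm_diff (sm_pderiv hf j)),
    pderiv_comp (φ := fun t => t⁻¹) (hasDerivAt_inv h0) (sm_diff hf)]
  ring

theorem hess_comp_exp {f : EuclideanSpace ℝ (Fin n) → ℝ} {x : EuclideanSpace ℝ (Fin n)}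
    (hf : ContDiffAt ℝ ∞ f x) (i j : Fin n) :
    hessianMat (fun y => Real.exp (f y)) x i j =
      Real.exp (f x) * (hessianMat f x i j + pderiv i f x * pderiv j f x) := by
  unfold hessianMat
  have e : (fun y => pderiv j (fun y => Real.exp (f y)) y) =ᶠ[𝓝 x]
      fun y => Real.exp (f y) * pderiv j f y := by
    filter_upwards [sm_ev hf] with y h1 using pderiv_comp (Real.hasDerivAt_exp _) h1 j
  have he : ContDiffAt ℝ ∞ (fun y => Real.exp (f y)) x := hf.exp
  rw [pderiv_congr e, pderiv_mul (sm_diff he) (sm_diff (sm_pderiv hf j)),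
    pderiv_comp (Real.hasDerivAt_exp _) (sm_diff hf)]
  ring

theorem hess_lin (l : EuclideanSpace ℝ (Fin n) →L[ℝ] ℝ) (i j : Fin n)
    (x : EuclideanSpace ℝ (Fin n)) : hessianMat (fun y => l y) x i j = 0 := by
  unfold hessianMat
  have : (fun y => pderiv j (fun y => l y) y) = fun _ => l (EuclideanSpace.single j 1) := by
    funext y; exact pderiv_lin l j y
  rw [this, pderiv_const]

theorem hess_const (c : ℝ) (i j : Fin n) (x : EuclideanSpace ℝ (Fin n)) :
    hessianMat (fun _ => c) x i j = 0 := by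
  unfold hessianMat
  have : (fun y => pderiv j (fun _ : EuclideanSpace ℝ (Fin n) => c) y) = fun _ => 0 := by
    funext y; exact pderiv_const c j y
  rw [this, pderiv_const]

/-! Second derivative test. -/

theorem quad_nonpos {z : EuclideanSpace ℝ (Fin n) → ℝ} {x : EuclideanSpace ℝ (Fin n)}
    (hz : ContDiffAt ℝ ∞ z x) (hmax : IsLocalMax z x) (v : EuclideanSpace ℝ (Fin n)) :
    ∑ i, ∑ j, hessianMat z x i j * v i * v j ≤ 0 := by
  -- the function along the line
  have hline : ∀ t : ℝ, HasDerivAt (fun t : ℝ => x + t • v) v t := by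
    intro t
    have h1 : HasDerivAt (fun t : ℝ => t • v) ((1 : ℝ) • v) t := (hasDerivAt_id t).smul_const v
    rw [one_smul] at h1
    simpa using h1.const_add x
  have htend : Tendsto (fun t : ℝ => x + t • v) (𝓝 0) (𝓝 x) := by
    have := (hline 0).continuousAt.tendsto
    simpa using this
  set g : ℝ → ℝ := fun t => z (x + t • v) with hg
  have h1 : deriv g =ᶠ[𝓝 0] fun t => fderiv ℝ z (x + t • v) v := by
    filter_upwards [htend.eventually (sm_ev hz)] with t ht
    exact (ht.hasFDerivAt.comp_hasDerivAt t (hline t)).deriv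
  have h3 : ContDiffAt ℝ ∞ (fderiv ℝ z) x := hz.fderiv_right (by simp)
  have h4 : HasFDerivAt (fderiv ℝ z) (fderiv ℝ (fderiv ℝ z) x) x :=
    (h3.differentiableAt (by simp)).hasFDerivAt
  have h5 : HasDerivAt (fun t : ℝ => fderiv ℝ z (x + t • v)) (fderiv ℝ (fderiv ℝ z) x v) 0 := by
    have h6 : HasFDerivAt (fderiv ℝ z) (fderiv ℝ (fderiv ℝ z) x) (x + (0 : ℝ) • v) := by
      simpa using h4
    exact h6.comp_hasDerivAt 0 (hline 0)
  have h7 : HasDerivAt (fun t : ℝ => fderiv ℝ z (x + t • v) v) (fderiv ℝ (fderiv ℝ z) x v v) 0 := by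
    have := h5.clm_apply (hasDerivAt_const (0 : ℝ) v)
    simpa using this
  have h8 : deriv (deriv g) 0 = fderiv ℝ (fderiv ℝ z) x v v := by
    rw [h1.deriv_eq, h7.deriv]
  have hgc : ContinuousAt g 0 := by
    have h0 : ContinuousAt z (x + (0 : ℝ) • v) := by simpa using hz.continuousAt
    exact ContinuousAt.comp (g := z) (f := fun t : ℝ => x + t • v) h0 (hline 0).continuousAt
  have hgm : IsLocalMax g 0 := by
    have := htend.eventually hmax
    filter_upwards [this] with t ht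
    simpa [hg] using ht
  have hle : deriv (deriv g) 0 ≤ 0 := by
    by_contra hneg
    push Not at hneg
    have hmin := isLocalMin_of_deriv_deriv_pos hneg hgm.deriv_eq_zero hgc
    have hconst : g =ᶠ[𝓝 0] fun _ => g 0 := by
      filter_upwards [hmin, hgm] with y h1 h2 using le_antisymm h2 h1
    have h1 : deriv g =ᶠ[𝓝 0] fun _ => 0 := by
      have := hconst.deriv
      simpa using this
    have : deriv (deriv g) 0 = 0 := by
      rw [h1.deriv_eq]; simp
    linarith
  rw [h8] at hle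
  refine le_of_eq_of_le ?_ hle
  have hv : v = ∑ i, v i • EuclideanSpace.single i (1 : ℝ) := by
    ext k
    simp [Pi.single_apply, Finset.sum_apply]
  have : fderiv ℝ (fderiv ℝ z) x v v = ∑ i, ∑ j, v i * (v j * fderiv ℝ (fderiv ℝ z) x
      (EuclideanSpace.single i 1) (EuclideanSpace.single j 1)) := by
    conv_lhs => rw [hv]
    simp only [map_sum, map_smul, _root_.sum_apply, _root_.smul_apply,
      smul_eq_mul, Finset.mul_sum]
    rw [Finset.sum_comm]
    refine Finset.sum_congr rfl fun i _ => Finset.sum_congr rfl fun j _ => ?_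
    ring
  rw [this]
  refine Finset.sum_congr rfl fun i _ => Finset.sum_congr rfl fun j _ => ?_
  rw [hess_eq_fderiv2 hz]; ring

theorem pderiv_eq_zero_of_max {z : EuclideanSpace ℝ (Fin n) → ℝ} {x : EuclideanSpace ℝ (Fin n)}
    (hmax : IsLocalMax z x) (i : Fin n) : pderiv i z x = 0 := by
  unfold pderiv
  rw [hmax.fderiv_eq_zero]; rfl

end Crest.Agent.R236.Jet
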