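import Mathlib
import Crest.Agent.R236.MPJet
import Crest.Agent.R236.P1

/-!
Row 236: matrix facts for the maximum principle and Jacobi's formula.
-/

set_option autoImplicit false

open scoped ContDiff Topology Matrix
open Crest.GeometryTopology.CoordMetric Crest.GeometryTopology.AffineMaximal Filter Matrix

namespace Crest.Agent.R236.Jet

variable {n : ℕ}

section factor
open scoped MatrixOrder

theorem exists_factor {A : Matrix (Fin n) (Fin n) ℝ} (hA : A.PosSemidef) :
    ∃ B : Matrix (Fin n) (Fin n) ℝ, A = B.conjTranspose * B := by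
  obtain ⟨B, hB⟩ := CStarAlgebra.nonneg_iff_eq_star_mul_self.mp hA.nonneg
  exact ⟨B, hB⟩

end factor

theorem sum3 (f : Fin n → Fin n → Fin n → ℝ) :
    ∑ i, ∑ j, ∑ k, f i j k = ∑ k, ∑ i, ∑ j, f i j k := by
  rw [Finset.sum_comm (s := Finset.univ) (t := Finset.univ) (f := fun k i => ∑ j, f i j k)]
  exact Finset.sum_congr rfl fun i _ => Finset.sum_comm

theorem psd_factor {G : Matrix (Fin n) (Fin n) ℝ} (hG : G.PosSemidef) :
    ∃ B : Matrix (Fin n) (Fin n) ℝ, ∀ i j, G i j = ∑ k, B k i * B k j := by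
  obtain ⟨B, hB⟩ := exists_factor hG
  refine ⟨B, fun i j => ?_⟩
  rw [hB, Matrix.mul_apply]
  simp [Matrix.conjTranspose_apply]

/-- trace of (psd) * (negative) is nonpositive -/
theorem sum_mul_nonpos {G Z : Matrix (Fin n) (Fin n) ℝ} (hG : G.PosSemidef)
    (hZ : ∀ v : Fin n → ℝ, ∑ i, ∑ j, Z i j * v i * v j ≤ 0) :
    ∑ i, ∑ j, G i j * Z i j ≤ 0 := by
  obtain ⟨B, hB⟩ := psd_factor hG
  have : ∑ i, ∑ j, G i j * Z i j = ∑ k, ∑ i, ∑ j, Z i j * B k i * B k j := by
    simp only [hB, Finset.sum_mul]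
    rw [sum3]
    refine Finset.sum_congr rfl fun k _ => Finset.sum_congr rfl fun i _ =>
      Finset.sum_congr rfl fun j _ => ?_
    ring
  rw [this]
  exact Finset.sum_nonpos fun k _ => hZ (B k)

/-- `⟨p, G p⟩ ≤ |p|² tr G` for psd `G`. -/
theorem quad_le_trace {G : Matrix (Fin n) (Fin n) ℝ} (hG : G.PosSemidef) (p : Fin n → ℝ) :
    ∑ i, ∑ j, G i j * p i * p j ≤ (∑ i, p i ^ 2) * ∑ i, G i i := by
  obtain ⟨B, hB⟩ := psd_factor hG
  have h1 : ∑ i, ∑ j, G i j * p i * p j = ∑ k, (∑ i, B k i * p i) ^ 2 := by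
    have : ∀ k, (∑ i, B k i * p i) ^ 2 = ∑ i, ∑ j, (B k i * p i) * (B k j * p j) := by
      intro k
      rw [sq, Finset.sum_mul_sum]
    simp only [this, hB, Finset.sum_mul]
    rw [sum3]
    refine Finset.sum_congr rfl fun k _ => Finset.sum_congr rfl fun i _ =>
      Finset.sum_congr rfl fun j _ => ?_
    ring
  have h2 : ∑ i, G i i = ∑ k, ∑ i, B k i ^ 2 := by
    simp only [hB]
    rw [Finset.sum_comm]
    simp only [sq]
  rw [h1, h2, Finset.mul_sum]
  refine Finset.sum_le_sum fun k _ => ?_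
  have := Finset.sum_mul_sq_le_sq_mul_sq Finset.univ (fun i => B k i) p
  linarith [mul_comm (∑ i, B k i ^ 2) (∑ i, p i ^ 2)]

theorem quad_nonneg {G : Matrix (Fin n) (Fin n) ℝ} (hG : G.PosSemidef) (p : Fin n → ℝ) :
    0 ≤ ∑ i, ∑ j, G i j * p i * p j := by
  have := sum_mul_nonpos (G := G) (Z := fun i j => -(p i * p j)) hG (fun v => by
    have : ∑ i, ∑ j, (-(p i * p j)) * v i * v j = - (∑ i, p i * v i) ^ 2 := by
      rw [sq, Finset.sum_mul_sum, ← Finset.sum_neg_distrib]
      refine Finset.sum_congr rfl fun i _ => ?_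
      rw [← Finset.sum_neg_distrib]
      refine Finset.sum_congr rfl fun j _ => by ring
    rw [this]
    nlinarith [sq_nonneg (∑ i, p i * v i)])
  have h2 : ∑ i, ∑ j, G i j * p i * p j = - ∑ i, ∑ j, G i j * (-(p i * p j)) := by
    rw [← Finset.sum_neg_distrib]
    refine Finset.sum_congr rfl fun i _ => ?_
    rw [← Finset.sum_neg_distrib]
    refine Finset.sum_congr rfl fun j _ => by ring
  rw [h2]; linarith

/-- determinant of a positive semidefinite matrix at most (trace / n)^n -/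
theorem det_le_trace_pow {P : Matrix (Fin n) (Fin n) ℝ} (hP : P.PosSemidef) (hr : 0 < n) :
    P.det ≤ ((∑ i, P i i) / n) ^ n := by
  have h1 := hP.1.det_eq_prod_eigenvalues
  have h2 := hP.1.trace_eq_sum_eigenvalues
  simp only [RCLike.ofReal_real_eq_id, id_eq] at h1 h2
  have h2' : ∑ i, P i i = ∑ i, hP.1.eigenvalues i := h2
  rw [h1, h2']
  have hr' : (0 : ℝ) < n := by exact_mod_cast hr
  have hnn : ∀ i, 0 ≤ hP.1.eigenvalues i := fun i => hP.eigenvalues_nonneg i
  have h3 := Real.geom_mean_le_arith_mean_weighted Finset.univ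
    (fun _ : Fin n => (1 : ℝ) / n) (fun i => hP.1.eigenvalues i)
    (fun i _ => by positivity)
    (by simp only [Finset.sum_const, Finset.card_univ, nsmul_eq_mul, Fintype.card_fin]; field_simp)
    (fun i _ => hnn i)
  have h4 : (∏ i, hP.1.eigenvalues i ^ ((1 : ℝ) / n)) ^ n =
      ∏ i, hP.1.eigenvalues i := by
    rw [← Finset.prod_pow]
    refine Finset.prod_congr rfl fun i _ => ?_
    rw [← Real.rpow_natCast, ← Real.rpow_mul (hnn i), one_div,
      inv_mul_cancel₀ hr'.ne', Real.rpow_one]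
  rw [← h4]
  have h5 : (∑ i, (1 : ℝ) / n * hP.1.eigenvalues i) =
      (∑ i, hP.1.eigenvalues i) / n := by
    rw [← Finset.mul_sum]; ring
  rw [← h5]
  exact pow_le_pow_left₀ (Finset.prod_nonneg fun i _ => Real.rpow_nonneg (hnn i) _) h3 _

/-! Jacobi's formula -/

section jacobi

attribute [local instance] Matrix.normedAddCommGroup Matrix.normedSpace

theorem hasDerivAt_matrix {A : ℝ → Matrix (Fin n) (Fin n) ℝ} {A' : Matrix (Fin n) (Fin n) ℝ}
    {t : ℝ} (h : ∀ i j, HasDerivAt (fun s => A s i j) (A' i j) t) : HasDerivAt A A' t :=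
  hasDerivAt_pi.2 fun i => hasDerivAt_pi.2 fun j => h i j

theorem hasFDerivAt_entry (i j : Fin n) (A : Matrix (Fin n) (Fin n) ℝ) :
    ∃ L : Matrix (Fin n) (Fin n) ℝ →L[ℝ] ℝ, HasFDerivAt (fun B : Matrix (Fin n) (Fin n) ℝ => B i j)
      L A := by
  have h1 : HasFDerivAt (fun B : Matrix (Fin n) (Fin n) ℝ => (B i : Fin n → ℝ))
      (ContinuousLinearMap.proj (R := ℝ) (φ := fun _ : Fin n => Fin n → ℝ) i) A :=
    (ContinuousLinearMap.proj (R := ℝ) (φ := fun _ : Fin n => Fin n → ℝ) i).hasFDerivAt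
  have h2 : HasFDerivAt (fun r : Fin n → ℝ => r j)
      (ContinuousLinearMap.proj (R := ℝ) (φ := fun _ : Fin n => ℝ) j) (A i) :=
    (ContinuousLinearMap.proj (R := ℝ) (φ := fun _ : Fin n => ℝ) j).hasFDerivAt
  exact ⟨_, (h2.comp A h1 : HasFDerivAt ((fun r : Fin n → ℝ => r j) ∘
    (fun B : Matrix (Fin n) (Fin n) ℝ => (B i : Fin n → ℝ))) _ A)⟩

theorem differentiableAt_det (A : Matrix (Fin n) (Fin n) ℝ) :
    DifferentiableAt ℝ (fun B : Matrix (Fin n) (Fin n) ℝ => B.det) A := by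
  simp only [Matrix.det_apply]
  refine DifferentiableAt.fun_sum fun σ _ => ?_
  refine DifferentiableAt.fun_const_smul ?_ _
  choose L hL using fun (i : Fin n) => hasFDerivAt_entry (σ i) i A
  exact (HasFDerivAt.finsetProd (u := Finset.univ)
    (g := fun i (B : Matrix (Fin n) (Fin n) ℝ) => B (σ i) i)
    (x := A) (fun i _ => hL i)).differentiableAt

theorem hasDerivAt_det_one_add (B : Matrix (Fin n) (Fin n) ℝ) :
    HasDerivAt (fun t : ℝ => (1 + t • B).det) B.trace 0 := by
  have h : ∀ t : ℝ, (1 + t • B).det = 1 + B.trace * t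
      + (((1 : Matrix (Fin n) (Fin n) (Polynomial ℝ)) + (Polynomial.X : Polynomial ℝ) •
        B.map Polynomial.C).det.divX.divX.eval t) * t ^ 2 := by
    intro t; exact Matrix.det_one_add_smul _ _
  simp only [h]
  have h0 : HasDerivAt (fun t : ℝ => t) 1 0 := hasDerivAt_id 0
  have h1 := (((1 : Matrix (Fin n) (Fin n) (Polynomial ℝ)) + (Polynomial.X : Polynomial ℝ) •
        B.map Polynomial.C).det.divX.divX).hasDerivAt (0 : ℝ)
  have h2 := ((h0.const_mul B.trace).const_add 1).add (h1.mul (h0.pow 2))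
  refine h2.congr_deriv ?_
  simp

theorem hasDerivAt_det {A : ℝ → Matrix (Fin n) (Fin n) ℝ} {A' : Matrix (Fin n) (Fin n) ℝ} {x : ℝ}
    (hA : ∀ i j, HasDerivAt (fun s => A s i j) (A' i j) x) (hd : IsUnit (A x).det) :
    HasDerivAt (fun t => (A t).det) ((A x).det * ((A x)⁻¹ * A').trace) x := by
  have hA' := hasDerivAt_matrix hA
  have h1 := (differentiableAt_det (A x)).hasFDerivAt
  have h2 := h1.comp_hasDerivAt x hA'
  refine h2.congr_deriv ?_
  -- compute the directional derivative along a line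
  have h3 : HasDerivAt (fun t : ℝ => A x + t • A') A' 0 := by
    have := ((hasDerivAt_id (0 : ℝ)).smul_const A').const_add (A x)
    rw [one_smul] at this
    exact this
  have h4 : HasFDerivAt (fun B : Matrix (Fin n) (Fin n) ℝ => B.det)
      (fderiv ℝ (fun B : Matrix (Fin n) (Fin n) ℝ => B.det) (A x)) (A x + (0 : ℝ) • A') := by
    simpa using h1
  have h5 := h4.comp_hasDerivAt (0 : ℝ) h3
  have h6 : ((fun B : Matrix (Fin n) (Fin n) ℝ => B.det) ∘ fun t : ℝ => A x + t • A')
      = fun t : ℝ => (A x).det * (1 + t • ((A x)⁻¹ * A')).det := by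
    ext t
    simp only [Function.comp]
    rw [← Matrix.det_mul, Matrix.mul_add, Matrix.mul_one, Matrix.mul_smul, ← Matrix.mul_assoc,
      Matrix.mul_nonsing_inv _ hd, Matrix.one_mul]
  rw [h6] at h5
  have h7 := (hasDerivAt_det_one_add ((A x)⁻¹ * A')).const_mul (A x).det
  exact h5.unique h7

end jacobi

end Crest.Agent.R236.Jet
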