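import Mathlib
import Crest.Agent.R236.MPMat

/-!
Row 236, P3: determinant bounds for affine maximal functions by the maximum principle.
-/

set_option autoImplicit false

open scoped ContDiff Topology Matrix
open Crest.GeometryTopology.CoordMetric Crest.GeometryTopology.AffineMaximal Filter Matrix

namespace Crest.Agent.R236.Det

open Crest.Agent.R236 Crest.Agent.R236.Jet

variable {n : ℕ} {Ω : Set (EuclideanSpace ℝ (Fin n))} {u : EuclideanSpace ℝ (Fin n) → ℝ}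

/-- `log det D²u` -/
noncomputable def ld (u : EuclideanSpace ℝ (Fin n) → ℝ) (x : EuclideanSpace ℝ (Fin n)) : ℝ :=
  Real.log (hessianMat u x).det

section pde_calc

variable (h : SC Ω u) {x : EuclideanSpace ℝ (Fin n)} (hx : x ∈ Ω)
include h hx

theorem sm_hess (i j : Fin n) : ContDiffAt ℝ ∞ (fun y => hessianMat u y i j) x :=
  sm_pderiv (sm_pderiv (h.contDiffAt hx) j) i

theorem sm_det : ContDiffAt ℝ ∞ (fun y => (hessianMat u y).det) x := by
  simp only [Matrix.det_apply]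
  refine ContDiffAt.sum fun σ _ => ?_
  refine ContDiffAt.const_smul _ ?_
  exact contDiffAt_prod fun i _ => sm_hess h hx (σ i) i

theorem det_pos : 0 < (hessianMat u x).det := (h.posDef x hx).det_pos

theorem sm_ld : ContDiffAt ℝ ∞ (ld u) x := (sm_det h hx).log (det_pos h hx).ne'

theorem pderiv_det (k : Fin n) :
    pderiv k (fun y => (hessianMat u y).det) x =
      (hessianMat u x).det * ∑ i, ∑ j, (hessianMat u x)⁻¹ i j *
        pderiv k (fun y => hessianMat u y i j) x := by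
  set e : EuclideanSpace ℝ (Fin n) := EuclideanSpace.single k 1 with he
  have hline : HasDerivAt (fun t : ℝ => x + t • e) e 0 := by
    have h1 := (hasDerivAt_id (0 : ℝ)).smul_const e
    rw [one_smul] at h1
    exact h1.const_add x
  have hx0 : x + (0 : ℝ) • e = x := by simp
  have h1 : ∀ f : EuclideanSpace ℝ (Fin n) → ℝ, DifferentiableAt ℝ f x →
      HasDerivAt (fun t : ℝ => f (x + t • e)) (pderiv k f x) 0 := by
    intro f hf
    have hf' : HasFDerivAt f (fderiv ℝ f x) (x + (0 : ℝ) • e) := by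
      rw [hx0]; exact hf.hasFDerivAt
    exact hf'.comp_hasDerivAt 0 hline
  have hd : IsUnit (hessianMat u (x + (0 : ℝ) • e)).det := by
    rw [hx0]; exact (det_pos h hx).ne'.isUnit
  have h2 := hasDerivAt_det (A := fun t : ℝ => hessianMat u (x + t • e))
    (A' := Matrix.of fun i j => pderiv k (fun y => hessianMat u y i j) x) (x := 0)
    (fun i j => h1 _ (sm_diff (sm_hess h hx i j))) hd
  have h3 := h1 _ (sm_diff (sm_det h hx))
  have h4 := h3.unique h2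
  rw [h4, hx0, Matrix.trace]
  congr 1
  refine Finset.sum_congr rfl fun i _ => ?_
  rw [Matrix.diag_apply, Matrix.mul_apply]
  refine Finset.sum_congr rfl fun j _ => ?_
  rw [Matrix.of_apply]
  congr 1
  -- symmetry of the Hessian entries
  apply pderiv_congr
  filter_upwards [h.isOpen.mem_nhds hx] with y hy
  exact hess_symm (h.contDiffAt hy) j i

theorem pderiv_hess (i j k : Fin n) :
    pderiv k (fun y => hessianMat u y i j) x = hessianMat (fun y => pderiv k u y) x i j := by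
  have h1 : pderiv k (fun y => hessianMat u y i j) x = hessianMat (fun y => pderiv j u y) x k i := rfl
  rw [h1, hess_symm (sm_pderiv (h.contDiffAt hx) j)]
  have h2 : hessianMat (fun y => pderiv j u y) x i k = pderiv i (fun y => hessianMat u y k j) x := rfl
  have h3 : hessianMat (fun y => pderiv k u y) x i j = pderiv i (fun y => hessianMat u y j k) x := rfl
  rw [h2, h3]
  apply pderiv_congr
  filter_upwards [h.isOpen.mem_nhds hx] with y hy
  exact hess_symm (h.contDiffAt hy) k j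

theorem pderiv_ld (k : Fin n) :
    pderiv k (ld u) x = ∑ i, ∑ j, (hessianMat u x)⁻¹ i j *
        hessianMat (fun y => pderiv k u y) x i j := by
  have h1 : pderiv k (ld u) x = ((hessianMat u x).det)⁻¹ *
      pderiv k (fun y => (hessianMat u y).det) x :=
    pderiv_log (sm_diff (sm_det h hx)) (det_pos h hx).ne' k
  rw [h1, pderiv_det h hx, ← mul_assoc, inv_mul_cancel₀ (det_pos h hx).ne', one_mul]
  refine Finset.sum_congr rfl fun i _ => Finset.sum_congr rfl fun j _ => ?_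
  rw [pderiv_hess h hx]

/-- the affine maximal equation for `s = log det D²u`: `u^{ij} s_ij = θ u^{ij} s_i s_j`. -/
theorem pde (hmax : affineMaximalOp n u x = 0) :
    ∑ i, ∑ j, (hessianMat u x)⁻¹ i j * hessianMat (ld u) x i j =
      (((n : ℝ) + 1) / ((n : ℝ) + 2)) *
        ∑ i, ∑ j, (hessianMat u x)⁻¹ i j * (pderiv i (ld u) x * pderiv j (ld u) x) := by
  set c : ℝ := -((n : ℝ) + 1) / ((n : ℝ) + 2) with hc
  have hN : (0 : ℝ) < (n : ℝ) + 2 := by positivity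
  have hc0 : c ≠ 0 := by
    rw [hc]
    apply div_ne_zero _ hN.ne'
    have : (0 : ℝ) < (n : ℝ) + 1 := by positivity
    linarith
  have he : detPower n u =ᶠ[𝓝 x] fun y => Real.exp (c * ld u y) := by
    filter_upwards [h.isOpen.mem_nhds hx] with y hy
    unfold detPower ld
    rw [Real.rpow_def_of_pos (det_pos h hy), mul_comm]
  have hh : ∀ i j, hessianMat (detPower n u) x i j =
      Real.exp (c * ld u x) * (c * hessianMat (ld u) x i j +
        c ^ 2 * (pderiv i (ld u) x * pderiv j (ld u) x)) := by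
    intro i j
    have hs := sm_ld h hx
    rw [hess_congr he, hess_comp_exp (contDiffAt_const.mul hs), hess_cmul hs,
      pderiv_cmul (sm_diff hs), pderiv_cmul (sm_diff hs)]
    ring
  unfold affineMaximalOp at hmax
  have h1 : ∑ i, ∑ j, (hessianMat u x).det * (hessianMat u x)⁻¹ i j *
      hessianMat (detPower n u) x i j =
      ((hessianMat u x).det * Real.exp (c * ld u x) * c) *
        (∑ i, ∑ j, (hessianMat u x)⁻¹ i j * hessianMat (ld u) x i j +
        c * ∑ i, ∑ j, (hessianMat u x)⁻¹ i j * (pderiv i (ld u) x * pderiv j (ld u) x)) := by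
    rw [Finset.mul_sum, ← Finset.sum_add_distrib, Finset.mul_sum]
    refine Finset.sum_congr rfl fun i _ => ?_
    rw [Finset.mul_sum, ← Finset.sum_add_distrib, Finset.mul_sum]
    refine Finset.sum_congr rfl fun j _ => ?_
    rw [hh]; ring
  rw [h1] at hmax
  have h2 : ((hessianMat u x).det * Real.exp (c * ld u x) * c) ≠ 0 :=
    mul_ne_zero (mul_pos (det_pos h hx) (Real.exp_pos _)).ne' hc0
  have h3 := (mul_eq_zero.1 hmax).resolve_left h2
  have h4 : (((n : ℝ) + 1) / ((n : ℝ) + 2)) = -c := by rw [hc]; ring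
  rw [h4]; linarith

end pde_calc

/-! bilinear algebra -/

theorem sum_eq_dot (G : Matrix (Fin n) (Fin n) ℝ) (v w : Fin n → ℝ) :
    ∑ i, ∑ j, G i j * (v i * w j) = v ⬝ᵥ (G *ᵥ w) := by
  simp only [dotProduct, Matrix.mulVec, Finset.mul_sum]
  refine Finset.sum_congr rfl fun i _ => Finset.sum_congr rfl fun j _ => by ring

theorem sum_inv_mul {H : Matrix (Fin n) (Fin n) ℝ} (hH : H.PosDef) :
    ∑ i, ∑ j, H⁻¹ i j * H i j = n := by
  have h1 : H⁻¹ * H = 1 := Matrix.nonsing_inv_mul _ hH.det_pos.ne'.isUnit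
  have h2 : (H⁻¹ * H).trace = n := by rw [h1]; simp
  rw [Matrix.trace] at h2
  simp only [Matrix.diag_apply, Matrix.mul_apply] at h2
  rw [← h2]
  refine Finset.sum_congr rfl fun i _ => Finset.sum_congr rfl fun j _ => ?_
  have : H i j = H j i := by
    have := hH.1.apply i j
    simpa using this.symm
  rw [this]

theorem symm_of_posDef {H : Matrix (Fin n) (Fin n) ℝ} (hH : H.PosDef) (i j : Fin n) :
    H i j = H j i := by
  have := hH.1.apply i j
  simpa using this.symm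

theorem transpose_of_posDef {H : Matrix (Fin n) (Fin n) ℝ} (hH : H.PosDef) : Hᵀ = H := by
  ext i j; exact symm_of_posDef hH j i

theorem inv_mulVec {H : Matrix (Fin n) (Fin n) ℝ} (hH : H.PosDef) (p : Fin n → ℝ) :
    H⁻¹ *ᵥ (H *ᵥ p) = p := by
  rw [Matrix.mulVec_mulVec, Matrix.nonsing_inv_mul _ hH.det_pos.ne'.isUnit, Matrix.one_mulVec]

theorem mulVec_inv {H : Matrix (Fin n) (Fin n) ℝ} (hH : H.PosDef) (p : Fin n → ℝ) :
    H *ᵥ (H⁻¹ *ᵥ p) = p := by
  rw [Matrix.mulVec_mulVec, Matrix.mul_nonsing_inv _ hH.det_pos.ne'.isUnit, Matrix.one_mulVec]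

theorem dot_symm {H : Matrix (Fin n) (Fin n) ℝ} (hH : Hᵀ = H) (p q : Fin n → ℝ) :
    (H *ᵥ p) ⬝ᵥ q = p ⬝ᵥ (H *ᵥ q) := by
  rw [Matrix.dotProduct_mulVec, ← Matrix.mulVec_transpose, hH]

theorem dot_quad_le {G : Matrix (Fin n) (Fin n) ℝ} (hG : G.PosSemidef) (p : Fin n → ℝ) :
    p ⬝ᵥ (G *ᵥ p) ≤ (p ⬝ᵥ p) * G.trace := by
  have h1 := quad_le_trace hG p
  have h2 : ∑ i, ∑ j, G i j * p i * p j = p ⬝ᵥ (G *ᵥ p) := by
    rw [← sum_eq_dot]
    refine Finset.sum_congr rfl fun i _ => Finset.sum_congr rfl fun j _ => by ring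
  have h3 : ∑ i, p i ^ 2 = p ⬝ᵥ p := by
    simp [dotProduct, sq]
  rw [h2, h3] at h1
  exact h1

theorem dot_quad_nonneg {G : Matrix (Fin n) (Fin n) ℝ} (hG : G.PosSemidef) (p : Fin n → ℝ) :
    0 ≤ p ⬝ᵥ (G *ᵥ p) := by
  have h1 := quad_nonneg hG p
  have h2 : ∑ i, ∑ j, G i j * p i * p j = p ⬝ᵥ (G *ᵥ p) := by
    rw [← sum_eq_dot]
    refine Finset.sum_congr rfl fun i _ => Finset.sum_congr rfl fun j _ => by ring
  rwa [h2] at h1

theorem upper_alg (hn : 2 ≤ n) {H : Matrix (Fin n) (Fin n) ℝ} (hH : H.PosDef) (p s : Fin n → ℝ)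
    {η a Γ : ℝ} (hη : 0 < η) (hΓ : 0 < Γ) (ha : a = ((n : ℝ) + 2) / (2 * Γ ^ 2))
    (hp : p ⬝ᵥ p ≤ Γ ^ 2) (hs : s = ((n : ℝ) / η) • p - a • (H *ᵥ p))
    (htr : (((n : ℝ) + 1) / ((n : ℝ) + 2)) * (s ⬝ᵥ (H⁻¹ *ᵥ s))
      + (n : ℝ) * (-(n / η) - (p ⬝ᵥ (H⁻¹ *ᵥ p)) / η ^ 2) + a * (H.trace + p ⬝ᵥ s) ≤ 0) :
    η * H.trace ≤ 6 * (n : ℝ) ^ 2 * Γ ^ 2 / ((n : ℝ) + 2) := by
  set N : ℝ := (n : ℝ) with hNdef
  have hN2 : (2 : ℝ) ≤ N := by rw [hNdef]; exact_mod_cast hn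
  set g : ℝ := p ⬝ᵥ (H⁻¹ *ᵥ p) with hg
  set q : ℝ := p ⬝ᵥ p with hq
  set hh : ℝ := p ⬝ᵥ (H *ᵥ p) with hhh
  set T : ℝ := H.trace with hT
  have hg0 : 0 ≤ g := dot_quad_nonneg hH.inv.posSemidef p
  have hh0 : 0 ≤ hh := dot_quad_nonneg hH.posSemidef p
  have hq0 : 0 ≤ q := by
    rw [hq]; exact Finset.sum_nonneg fun i _ => mul_self_nonneg _
  have hhle : hh ≤ q * T := dot_quad_le hH.posSemidef p
  have hT0 : 0 ≤ T := hH.posSemidef.trace_nonneg
  have hsG : H⁻¹ *ᵥ s = (N / η) • (H⁻¹ *ᵥ p) - a • p := by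
    rw [hs, Matrix.mulVec_sub, Matrix.mulVec_smul, Matrix.mulVec_smul, inv_mulVec hH]
  have hHG : (H *ᵥ p) ⬝ᵥ (H⁻¹ *ᵥ p) = q := by
    rw [dot_symm (transpose_of_posDef hH), mulVec_inv hH]
  have hHp : (H *ᵥ p) ⬝ᵥ p = hh := by rw [dotProduct_comm]
  have h1 : s ⬝ᵥ (H⁻¹ *ᵥ s) = (N / η) ^ 2 * g - 2 * (N / η) * a * q + a ^ 2 * hh := by
    rw [hsG, hs]
    simp only [sub_dotProduct, dotProduct_sub, smul_dotProduct, dotProduct_smul, smul_eq_mul]
    rw [hHG, hHp]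
    ring
  have h2 : p ⬝ᵥ s = (N / η) * q - a * hh := by
    rw [hs]
    simp only [dotProduct_sub, dotProduct_smul, smul_eq_mul]
    rw [← hq, ← hhh]
  rw [h1, h2] at htr
  have hapos : 0 < a := by rw [ha]; positivity
  have haΓ : a * Γ ^ 2 = (N + 2) / 2 := by
    rw [ha]; field_simp
  -- multiply by (N+2) η
  have hN2pos : (0 : ℝ) < N + 2 := by linarith
  have e1 : ((N + 1) / (N + 2)) * ((N / η) ^ 2 * g - 2 * (N / η) * a * q + a ^ 2 * hh)
      + N * (-(N / η) - g / η ^ 2) + a * (T + ((N / η) * q - a * hh)) =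
      ((N * (N ^ 2 - 2)) / (N + 2)) * (g / η ^ 2) - (N ^ 2 / (N + 2)) * (a * q / η)
        - (1 / (N + 2)) * (a ^ 2 * hh) - N ^ 2 / η + a * T := by
    field_simp
    ring
  rw [e1] at htr
  have h3 : 0 ≤ ((N * (N ^ 2 - 2)) / (N + 2)) * (g / η ^ 2) := by
    apply mul_nonneg
    · apply div_nonneg _ hN2pos.le
      apply mul_nonneg (by linarith)
      nlinarith
    · positivity
  have h4 : (1 / (N + 2)) * (a ^ 2 * hh) ≤ (a / 2) * T := by
    have : a ^ 2 * hh ≤ a * ((a * Γ ^ 2) * T) := by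
      have h5 : hh ≤ Γ ^ 2 * T := hhle.trans (mul_le_mul_of_nonneg_right hp hT0)
      calc a ^ 2 * hh ≤ a ^ 2 * (Γ ^ 2 * T) := mul_le_mul_of_nonneg_left h5 (by positivity)
        _ = a * ((a * Γ ^ 2) * T) := by ring
    rw [haΓ] at this
    rw [div_mul_eq_mul_div, one_mul, div_le_iff₀ hN2pos]
    calc a ^ 2 * hh ≤ a * ((N + 2) / 2 * T) := this
      _ = a / 2 * T * (N + 2) := by ring
  have h6 : (N ^ 2 / (N + 2)) * (a * q / η) ≤ N ^ 2 / (2 * η) := by
    have h7 : a * q ≤ (N + 2) / 2 := by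
      rw [← haΓ]; exact mul_le_mul_of_nonneg_left hp hapos.le
    have h8 : a * q / η ≤ ((N + 2) / 2) / η := div_le_div_of_nonneg_right h7 hη.le
    calc (N ^ 2 / (N + 2)) * (a * q / η) ≤ (N ^ 2 / (N + 2)) * (((N + 2) / 2) / η) :=
          mul_le_mul_of_nonneg_left h8 (by positivity)
      _ = N ^ 2 / (2 * η) := by field_simp
  have h9 : (a / 2) * T ≤ (3 / 2) * (N ^ 2 / η) := by
    have : N ^ 2 / (2 * η) = (1 / 2) * (N ^ 2 / η) := by field_simp
    linarith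
  have h10 : a * (η * T) ≤ 3 * N ^ 2 := by
    have := mul_le_mul_of_nonneg_left h9 (by positivity : (0 : ℝ) ≤ 2 * η)
    calc a * (η * T) = 2 * η * (a / 2 * T) := by ring
      _ ≤ 2 * η * (3 / 2 * (N ^ 2 / η)) := this
      _ = 3 * N ^ 2 := by field_simp
  have h11 : η * T ≤ 3 * N ^ 2 / a := by
    rw [le_div_iff₀ hapos]; linarith
  refine h11.trans (le_of_eq ?_)
  rw [ha]; field_simp; ring

theorem lower_alg {H : Matrix (Fin n) (Fin n) ℝ} (hH : H.PosDef) (ξ s : Fin n → ℝ)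
    {η A Γ : ℝ} (hη : 0 < η) (hΓ : 0 < Γ) (hA : A = 1 / (2 * ((n : ℝ) + 1) * Γ ^ 2))
    (hξ : ξ ⬝ᵥ ξ ≤ Γ ^ 2) (hs : s = ((n : ℝ) + 2) • (A • ξ - (1 / η) • (H *ᵥ ξ)))
    (htr : -(1 / ((n : ℝ) + 2)) * ((((n : ℝ) + 1) / ((n : ℝ) + 2)) * (s ⬝ᵥ (H⁻¹ *ᵥ s)))
      - (1 / η) * (n + ξ ⬝ᵥ s) - (ξ ⬝ᵥ (H *ᵥ ξ)) / η ^ 2 + A * (H⁻¹).trace ≤ 0) :
    η * (H⁻¹).trace ≤ 4 * (n : ℝ) * ((n : ℝ) + 1) * Γ ^ 2 := by
  set N : ℝ := (n : ℝ) with hNdef
  have hN0 : (0 : ℝ) ≤ N := by rw [hNdef]; exact Nat.cast_nonneg n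
  set g : ℝ := ξ ⬝ᵥ (H⁻¹ *ᵥ ξ) with hg
  set q : ℝ := ξ ⬝ᵥ ξ with hq
  set hh : ℝ := ξ ⬝ᵥ (H *ᵥ ξ) with hhh
  set T : ℝ := (H⁻¹).trace with hT
  have hg0 : 0 ≤ g := dot_quad_nonneg hH.inv.posSemidef ξ
  have hq0 : 0 ≤ q := by
    rw [hq]; exact Finset.sum_nonneg fun i _ => mul_self_nonneg _
  have hgle : g ≤ q * T := dot_quad_le hH.inv.posSemidef ξ
  have hT0 : 0 ≤ T := hH.inv.posSemidef.trace_nonneg
  have hsG : H⁻¹ *ᵥ s = (N + 2) • (A • (H⁻¹ *ᵥ ξ) - (1 / η) • ξ) := by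
    rw [hs, Matrix.mulVec_smul, Matrix.mulVec_sub, Matrix.mulVec_smul, Matrix.mulVec_smul,
      inv_mulVec hH]
  have hHG : (H *ᵥ ξ) ⬝ᵥ (H⁻¹ *ᵥ ξ) = q := by
    rw [dot_symm (transpose_of_posDef hH), mulVec_inv hH]
  have hHp : (H *ᵥ ξ) ⬝ᵥ ξ = hh := by rw [dotProduct_comm]
  have h1 : s ⬝ᵥ (H⁻¹ *ᵥ s) = (N + 2) ^ 2 * (A ^ 2 * g - 2 * A * q / η + hh / η ^ 2) := by
    rw [hsG, hs]
    simp only [sub_dotProduct, dotProduct_sub, smul_dotProduct, dotProduct_smul, smul_eq_mul]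
    rw [hHG, hHp]
    field_simp
    ring
  have h2 : ξ ⬝ᵥ s = (N + 2) * (A * q - hh / η) := by
    rw [hs]
    simp only [dotProduct_sub, dotProduct_smul, smul_eq_mul]
    rw [← hq, ← hhh]
    ring
  rw [h1, h2] at htr
  have hApos : 0 < A := by rw [hA]; positivity
  have hN2pos : (0 : ℝ) < N + 2 := by linarith
  have e1 : -(1 / (N + 2)) * (((N + 1) / (N + 2)) *
      ((N + 2) ^ 2 * (A ^ 2 * g - 2 * A * q / η + hh / η ^ 2)))
      - (1 / η) * (N + (N + 2) * (A * q - hh / η)) - hh / η ^ 2 + A * T =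
      A * T - (N + 1) * A ^ 2 * g - N / η + N * (A * q / η) := by
    field_simp
    ring
  rw [e1] at htr
  have h3 : (N + 1) * A ^ 2 * g ≤ (A / 2) * T := by
    have h5 : g ≤ Γ ^ 2 * T := hgle.trans (mul_le_mul_of_nonneg_right hξ hT0)
    calc (N + 1) * A ^ 2 * g ≤ (N + 1) * A ^ 2 * (Γ ^ 2 * T) :=
          mul_le_mul_of_nonneg_left h5 (by positivity)
      _ = A * ((N + 1) * A * Γ ^ 2) * T := by ring
      _ = A * (1 / 2) * T := by
          congr 2
          rw [hA]; field_simp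
      _ = (A / 2) * T := by ring
  have h4 : 0 ≤ N * (A * q / η) := by positivity
  have h5 : (A / 2) * T ≤ N / η := by linarith
  have h6 : A * (η * T) ≤ 2 * N := by
    have := mul_le_mul_of_nonneg_left h5 (by positivity : (0 : ℝ) ≤ 2 * η)
    calc A * (η * T) = 2 * η * (A / 2 * T) := by ring
      _ ≤ 2 * η * (N / η) := this
      _ = 2 * N := by field_simp
  have h7 : η * T ≤ 2 * N / A := by
    rw [le_div_iff₀ hApos]; linarith
  refine h7.trans (le_of_eq ?_)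
  rw [hA]; field_simp; ring

end Crest.Agent.R236.Det
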