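import Mathlib
import Crest.Agent.R236.Det

/-!
Row 236, P3: determinant bounds for affine maximal functions by the maximum principle
(main theorems `det_upper`, `det_lower`).
-/

set_option autoImplicit false

open scoped ContDiff Topology Matrix
open Crest.GeometryTopology.CoordMetric Crest.GeometryTopology.AffineMaximal Filter Matrix

namespace Crest.Agent.R236.Det

open Crest.Agent.R236 Crest.Agent.R236.Jet

variable {n : ℕ} {Ω : Set (EuclideanSpace ℝ (Fin n))} {u : EuclideanSpace ℝ (Fin n) → ℝ}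

theorem trace_hess_nonpos {z : EuclideanSpace ℝ (Fin n) → ℝ} {x : EuclideanSpace ℝ (Fin n)}
    (hz : ContDiffAt ℝ ∞ z x) (hmax : IsLocalMax z x) {G : Matrix (Fin n) (Fin n) ℝ}
    (hG : G.PosSemidef) : ∑ i, ∑ j, G i j * hessianMat z x i j ≤ 0 := by
  apply sum_mul_nonpos hG
  intro v
  have := quad_nonpos hz hmax (WithLp.toLp 2 v)
  simpa using this

theorem sum_inv_col {H : Matrix (Fin n) (Fin n) ℝ} (hH : H.PosDef) (k : Fin n) :
    ∑ i, ∑ j, H⁻¹ i j * (H i k * H j k) = H k k := by
  rw [sum_eq_dot (H⁻¹) (fun i => H i k) (fun i => H i k)]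
  have h1 : (fun i => H i k) = H *ᵥ (Pi.single k 1) := by
    rw [Matrix.mulVec_single_one]; rfl
  conv_lhs => rw [h1]
  rw [inv_mulVec hH, ← h1]
  simp

/-- gradient of the upper auxiliary function -/
theorem upper_grad (h : SC Ω u) {x : EuclideanSpace ℝ (Fin n)} (hx : x ∈ Ω)
    (l : EuclideanSpace ℝ (Fin n) →L[ℝ] ℝ) (c a : ℝ) (hη : 0 < l x + c - u x) (i : Fin n) :
    pderiv i (fun y => ld u y + ((n : ℝ) * Real.log (l y + c - u y) +
      (a / 2) * ∑ k, (pderiv k u y - l (EuclideanSpace.single k 1)) *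
        (pderiv k u y - l (EuclideanSpace.single k 1)))) x =
      pderiv i (ld u) x - (n : ℝ) * ((l x + c - u x)⁻¹ *
        (pderiv i u x - l (EuclideanSpace.single i 1))) +
      a * ∑ k, hessianMat u x i k * (pderiv k u x - l (EuclideanSpace.single k 1)) := by
  have hu := h.contDiffAt hx
  have hsl : ContDiffAt ℝ ∞ (fun y => l y + c - u y) x :=
    ((l.contDiff.contDiffAt).add contDiffAt_const).sub hu
  have hlog : ContDiffAt ℝ ∞ (fun y => Real.log (l y + c - u y)) x := hsl.log hη.ne'
  have hp : ∀ k, ContDiffAt ℝ ∞ (fun y => pderiv k u y - l (EuclideanSpace.single k 1)) x :=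
    fun k => (sm_pderiv hu k).sub contDiffAt_const
  have hpp : ∀ k, ContDiffAt ℝ ∞ (fun y => (pderiv k u y - l (EuclideanSpace.single k 1)) *
      (pderiv k u y - l (EuclideanSpace.single k 1))) x := fun k => (hp k).mul (hp k)
  have hsum : ContDiffAt ℝ ∞ (fun y => ∑ k, (pderiv k u y - l (EuclideanSpace.single k 1)) *
      (pderiv k u y - l (EuclideanSpace.single k 1))) x := ContDiffAt.sum fun k _ => hpp k
  rw [pderiv_add (sm_diff (sm_ld h hx))
    (sm_diff ((contDiffAt_const.mul hlog).add (contDiffAt_const.mul hsum))),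
    pderiv_add (sm_diff (contDiffAt_const.mul hlog)) (sm_diff (contDiffAt_const.mul hsum)),
    pderiv_cmul (sm_diff hlog), pderiv_cmul (sm_diff hsum),
    pderiv_log (sm_diff hsl) hη.ne',
    pderiv_sub (f := fun y => l y + c) (sm_diff ((l.contDiff.contDiffAt).add contDiffAt_const))
      (sm_diff hu),
    pderiv_add (f := fun y => l y) (g := fun _ => c) (sm_diff l.contDiff.contDiffAt)
      (differentiableAt_const _), pderiv_const,
    pderiv_lin, pderiv_sum (fun k _ => sm_diff (hpp k))]
  have e1 : ∀ k, pderiv i (fun y => (pderiv k u y - l (EuclideanSpace.single k 1)) *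
      (pderiv k u y - l (EuclideanSpace.single k 1))) x =
      2 * (hessianMat u x i k * (pderiv k u x - l (EuclideanSpace.single k 1))) := by
    intro k
    rw [pderiv_mul (sm_diff (hp k)) (sm_diff (hp k)),
      pderiv_sub (sm_diff (sm_pderiv hu k)) (differentiableAt_const _), pderiv_const]
    have : pderiv i (fun y => pderiv k u y) x = hessianMat u x i k := rfl
    rw [this]; ring
  simp only [e1]
  rw [← Finset.mul_sum]
  ring

/-- Hessian of the upper auxiliary function -/
theorem upper_hess (h : SC Ω u) {x : EuclideanSpace ℝ (Fin n)} (hx : x ∈ Ω)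
    (l : EuclideanSpace ℝ (Fin n) →L[ℝ] ℝ) (c a : ℝ) (hη : 0 < l x + c - u x) (i j : Fin n) :
    hessianMat (fun y => ld u y + ((n : ℝ) * Real.log (l y + c - u y) +
      (a / 2) * ∑ k, (pderiv k u y - l (EuclideanSpace.single k 1)) *
        (pderiv k u y - l (EuclideanSpace.single k 1)))) x i j =
      hessianMat (ld u) x i j - (n : ℝ) * ((l x + c - u x)⁻¹ * hessianMat u x i j +
        ((l x + c - u x) ^ 2)⁻¹ * ((pderiv i u x - l (EuclideanSpace.single i 1)) *
          (pderiv j u x - l (EuclideanSpace.single j 1)))) +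
      a * ∑ k, ((pderiv k u x - l (EuclideanSpace.single k 1)) *
        hessianMat (fun y => pderiv k u y) x i j + hessianMat u x i k * hessianMat u x j k) := by
  have hu := h.contDiffAt hx
  have hsl : ContDiffAt ℝ ∞ (fun y => l y + c - u y) x :=
    ((l.contDiff.contDiffAt).add contDiffAt_const).sub hu
  have hlog : ContDiffAt ℝ ∞ (fun y => Real.log (l y + c - u y)) x := hsl.log hη.ne'
  have hp : ∀ k, ContDiffAt ℝ ∞ (fun y => pderiv k u y - l (EuclideanSpace.single k 1)) x :=
    fun k => (sm_pderiv hu k).sub contDiffAt_const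
  have hpp : ∀ k, ContDiffAt ℝ ∞ (fun y => (pderiv k u y - l (EuclideanSpace.single k 1)) *
      (pderiv k u y - l (EuclideanSpace.single k 1))) x := fun k => (hp k).mul (hp k)
  have hsum : ContDiffAt ℝ ∞ (fun y => ∑ k, (pderiv k u y - l (EuclideanSpace.single k 1)) *
      (pderiv k u y - l (EuclideanSpace.single k 1))) x := ContDiffAt.sum fun k _ => hpp k
  have hlin : ContDiffAt ℝ ∞ (fun y => l y) x := l.contDiff.contDiffAt
  have hlc : ContDiffAt ℝ ∞ (fun y => l y + c) x := hlin.add contDiffAt_const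
  rw [hess_add (sm_ld h hx) ((contDiffAt_const.mul hlog).add (contDiffAt_const.mul hsum)),
    hess_add (contDiffAt_const.mul hlog) (contDiffAt_const.mul hsum),
    hess_cmul hlog, hess_cmul hsum, hess_log hsl hη.ne', hess_sub hlc hu,
    hess_add hlin contDiffAt_const, hess_lin, hess_const,
    pderiv_sub (sm_diff hlc) (sm_diff hu), pderiv_sub (sm_diff hlc) (sm_diff hu),
    pderiv_add (sm_diff hlin) (differentiableAt_const _),
    pderiv_add (sm_diff hlin) (differentiableAt_const _), pderiv_const, pderiv_const,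
    pderiv_lin, pderiv_lin, hess_sum (fun k _ => hpp k)]
  have e1 : ∀ k, hessianMat (fun y => (pderiv k u y - l (EuclideanSpace.single k 1)) *
      (pderiv k u y - l (EuclideanSpace.single k 1))) x i j =
      2 * ((pderiv k u x - l (EuclideanSpace.single k 1)) *
        hessianMat (fun y => pderiv k u y) x i j + hessianMat u x i k * hessianMat u x j k) := by
    intro k
    rw [hess_mul (hp k) (hp k),
      pderiv_sub (sm_diff (sm_pderiv hu k)) (differentiableAt_const _), pderiv_const,
      pderiv_sub (sm_diff (sm_pderiv hu k)) (differentiableAt_const _), pderiv_const,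
      hess_sub (sm_pderiv hu k) contDiffAt_const, hess_const]
    have e2 : pderiv i (fun y => pderiv k u y) x = hessianMat u x i k := rfl
    have e3 : pderiv j (fun y => pderiv k u y) x = hessianMat u x j k := rfl
    rw [e2, e3]; ring
  simp only [e1]
  rw [← Finset.mul_sum]
  ring

theorem upper_point (hn : 2 ≤ n) (h : SC Ω u) {x : EuclideanSpace ℝ (Fin n)} (hx : x ∈ Ω)
    (hmax : affineMaximalOp n u x = 0) (l : EuclideanSpace ℝ (Fin n) →L[ℝ] ℝ) {c a Γ : ℝ}
    (hη : 0 < l x + c - u x) (hΓ : 0 < Γ) (ha : a = ((n : ℝ) + 2) / (2 * Γ ^ 2))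
    (hp : ∑ k, (pderiv k u x - l (EuclideanSpace.single k 1)) ^ 2 ≤ Γ ^ 2)
    (hloc : IsLocalMax (fun y => ld u y + ((n : ℝ) * Real.log (l y + c - u y) +
      (a / 2) * ∑ k, (pderiv k u y - l (EuclideanSpace.single k 1)) *
        (pderiv k u y - l (EuclideanSpace.single k 1)))) x) :
    (l x + c - u x) * (hessianMat u x).trace ≤ 6 * (n : ℝ) ^ 2 * Γ ^ 2 / ((n : ℝ) + 2) := by
  have hu := h.contDiffAt hx
  set H := hessianMat u x with hH
  have hHp : H.PosDef := h.posDef x hx
  set p : Fin n → ℝ := fun k => pderiv k u x - l (EuclideanSpace.single k 1) with hpdef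
  set s : Fin n → ℝ := fun k => pderiv k (ld u) x with hsdef
  set η : ℝ := l x + c - u x with hηdef
  have hsl : ContDiffAt ℝ ∞ (fun y => l y + c - u y) x :=
    ((l.contDiff.contDiffAt).add contDiffAt_const).sub hu
  have hlog : ContDiffAt ℝ ∞ (fun y => Real.log (l y + c - u y)) x := hsl.log hη.ne'
  have hp' : ∀ k, ContDiffAt ℝ ∞ (fun y => pderiv k u y - l (EuclideanSpace.single k 1)) x :=
    fun k => (sm_pderiv hu k).sub contDiffAt_const
  have hsum : ContDiffAt ℝ ∞ (fun y => ∑ k, (pderiv k u y - l (EuclideanSpace.single k 1)) *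
      (pderiv k u y - l (EuclideanSpace.single k 1))) x :=
    ContDiffAt.sum fun k _ => (hp' k).mul (hp' k)
  have hz : ContDiffAt ℝ ∞ (fun y => ld u y + ((n : ℝ) * Real.log (l y + c - u y) +
      (a / 2) * ∑ k, (pderiv k u y - l (EuclideanSpace.single k 1)) *
        (pderiv k u y - l (EuclideanSpace.single k 1)))) x :=
    (sm_ld h hx).add ((contDiffAt_const.mul hlog).add (contDiffAt_const.mul hsum))
  refine upper_alg hn hHp p s hη hΓ ha ?_ ?_ ?_
  · have : p ⬝ᵥ p = ∑ k, (pderiv k u x - l (EuclideanSpace.single k 1)) ^ 2 := by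
      simp only [dotProduct, hpdef, sq]
    rw [this]; exact hp
  · funext i
    have h1 := pderiv_eq_zero_of_max hloc i
    rw [upper_grad h hx l c a hη i] at h1
    have h2 : (H *ᵥ p) i = ∑ k, hessianMat u x i k * (pderiv k u x - l (EuclideanSpace.single k 1)) :=
      rfl
    simp only [Pi.sub_apply, Pi.smul_apply, smul_eq_mul]
    rw [h2]
    have h3 : s i = pderiv i (ld u) x := rfl
    have h4 : p i = pderiv i u x - l (EuclideanSpace.single i 1) := rfl
    rw [h3, h4, div_eq_mul_inv]
    rw [← hηdef] at h1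
    linarith
  · have h1 := trace_hess_nonpos hz hloc hHp.inv.posSemidef
    have h2 : ∀ i j, H⁻¹ i j * hessianMat (fun y => ld u y + ((n : ℝ) * Real.log (l y + c - u y) +
      (a / 2) * ∑ k, (pderiv k u y - l (EuclideanSpace.single k 1)) *
        (pderiv k u y - l (EuclideanSpace.single k 1)))) x i j =
        H⁻¹ i j * hessianMat (ld u) x i j - (n : ℝ) * (η⁻¹ * (H⁻¹ i j * H i j) +
          (η ^ 2)⁻¹ * (H⁻¹ i j * (p i * p j))) + a * ∑ k, (p k * (H⁻¹ i j *
            hessianMat (fun y => pderiv k u y) x i j) + H⁻¹ i j * (H i k * H j k)) := by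
      intro i j
      rw [upper_hess h hx l c a hη i j]
      have e1 : ∑ k, (p k * (H⁻¹ i j * hessianMat (fun y => pderiv k u y) x i j) +
          H⁻¹ i j * (H i k * H j k)) = H⁻¹ i j * ∑ k, (p k *
            hessianMat (fun y => pderiv k u y) x i j + H i k * H j k) := by
        rw [Finset.mul_sum]
        refine Finset.sum_congr rfl fun k _ => by ring
      rw [e1]
      simp only [hpdef, hH]
      rw [← hηdef]
      ring
    simp only [h2] at h1
    have h3 : ∑ i, ∑ j, (H⁻¹ i j * hessianMat (ld u) x i j - (n : ℝ) * (η⁻¹ * (H⁻¹ i j * H i j) +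
          (η ^ 2)⁻¹ * (H⁻¹ i j * (p i * p j))) + a * ∑ k, (p k * (H⁻¹ i j *
            hessianMat (fun y => pderiv k u y) x i j) + H⁻¹ i j * (H i k * H j k))) =
        (∑ i, ∑ j, H⁻¹ i j * hessianMat (ld u) x i j) - (n : ℝ) *
          (η⁻¹ * (∑ i, ∑ j, H⁻¹ i j * H i j) + (η ^ 2)⁻¹ * ∑ i, ∑ j, H⁻¹ i j * (p i * p j)) +
        a * ∑ k, (p k * (∑ i, ∑ j, H⁻¹ i j * hessianMat (fun y => pderiv k u y) x i j) +
          ∑ i, ∑ j, H⁻¹ i j * (H i k * H j k)) := by
      simp only [Finset.sum_add_distrib, Finset.sum_sub_distrib, ← Finset.mul_sum]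
      congr 1
      congr 1
      have e2 : ∑ i, ∑ j, ∑ k, p k * (H⁻¹ i j * hessianMat (fun y => pderiv k u y) x i j) =
          ∑ k, p k * ∑ i, ∑ j, H⁻¹ i j * hessianMat (fun y => pderiv k u y) x i j := by
        rw [sum3]
        refine Finset.sum_congr rfl fun k _ => ?_
        simp only [Finset.mul_sum]
      have e3 : ∑ i, ∑ j, ∑ k, H⁻¹ i j * (H i k * H j k) =
          ∑ k, ∑ i, ∑ j, H⁻¹ i j * (H i k * H j k) := sum3 _
      simp only [Finset.mul_sum] at e2 e3 ⊢
      linarith
    rw [h3, pde h hx hmax, sum_inv_mul hHp] at h1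
    have h4 : ∑ k, (p k * (∑ i, ∑ j, H⁻¹ i j * hessianMat (fun y => pderiv k u y) x i j) +
          ∑ i, ∑ j, H⁻¹ i j * (H i k * H j k)) = H.trace + p ⬝ᵥ s := by
      rw [Finset.sum_add_distrib, add_comm, Matrix.trace, dotProduct]
      congr 1
      · refine Finset.sum_congr rfl fun k _ => ?_
        rw [sum_inv_col hHp, Matrix.diag_apply]
      · refine Finset.sum_congr rfl fun k _ => ?_
        rw [← pderiv_ld h hx]
    rw [h4] at h1
    have h5 : ∑ i, ∑ j, (hessianMat u x)⁻¹ i j * (pderiv i (ld u) x * pderiv j (ld u) x) =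
        s ⬝ᵥ (H⁻¹ *ᵥ s) := sum_eq_dot H⁻¹ s s
    have h6 : ∑ i, ∑ j, H⁻¹ i j * (p i * p j) = p ⬝ᵥ (H⁻¹ *ᵥ p) := sum_eq_dot H⁻¹ p p
    rw [h5, h6] at h1
    refine le_trans (le_of_eq ?_) h1
    field_simp
    ring

/-- **Upper determinant bound.** Gradient bound on a compact sublevel set `u ≤ l + c` gives
`det D²u · (l + c - u)^n ≤ (6Γ²)^n e^{(n+2)/4}`. -/
theorem det_upper (hn : 2 ≤ n) (h : SC Ω u) (hpde : ∀ x ∈ Ω, affineMaximalOp n u x = 0)
    (l : EuclideanSpace ℝ (Fin n) →L[ℝ] ℝ) (c : ℝ)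
    (hK : IsCompact {x | x ∈ Ω ∧ u x ≤ l x + c}) {Γ : ℝ} (hΓ : 0 < Γ)
    (hgrad : ∀ x ∈ Ω, u x ≤ l x + c →
      ∑ k, (pderiv k u x - l (EuclideanSpace.single k 1)) ^ 2 ≤ Γ ^ 2)
    {x : EuclideanSpace ℝ (Fin n)} (hx : x ∈ Ω) (hxl : u x ≤ l x + c) :
    (hessianMat u x).det * (l x + c - u x) ^ n ≤
      (6 * Γ ^ 2) ^ n * Real.exp (((n : ℝ) + 2) / 4) := by
  set a : ℝ := ((n : ℝ) + 2) / (2 * Γ ^ 2) with ha
  have hapos : 0 < a := by rw [ha]; positivity
  set P : EuclideanSpace ℝ (Fin n) → ℝ := fun y =>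
    ∑ k, (pderiv k u y - l (EuclideanSpace.single k 1)) *
      (pderiv k u y - l (EuclideanSpace.single k 1)) with hP
  set F : EuclideanSpace ℝ (Fin n) → ℝ := fun y =>
    (hessianMat u y).det * (l y + c - u y) ^ n * Real.exp ((a / 2) * P y) with hF
  have hPnn : ∀ y, 0 ≤ P y := fun y => Finset.sum_nonneg fun k _ => mul_self_nonneg _
  have hn0 : n ≠ 0 := by omega
  have hcP : ∀ y ∈ Ω, ContinuousAt P y := by
    intro y hy
    have hp' : ∀ k, ContDiffAt ℝ ∞ (fun y => pderiv k u y - l (EuclideanSpace.single k 1)) y :=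
      fun k => (sm_pderiv (h.contDiffAt hy) k).sub contDiffAt_const
    exact (ContDiffAt.sum fun k _ => (hp' k).mul (hp' k)).continuousAt
  have hcF : ContinuousOn F {x | x ∈ Ω ∧ u x ≤ l x + c} := by
    intro y hy
    apply ContinuousAt.continuousWithinAt
    have h1 : ContinuousAt (fun y => (hessianMat u y).det) y := (sm_det h hy.1).continuousAt
    have h2 : ContinuousAt (fun y => l y + c - u y) y :=
      ((l.continuous.continuousAt).add continuousAt_const).sub (h.contDiffAt hy.1).continuousAt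
    have h3 : ContinuousAt (fun y => Real.exp ((a / 2) * P y)) y :=
      (Real.continuous_exp.continuousAt).comp (continuousAt_const.mul (hcP y hy.1))
    exact (h1.mul (h2.pow n)).mul h3
  obtain ⟨x1, hx1, hmax⟩ := hK.exists_isMaxOn ⟨x, hx, hxl⟩ hcF
  have hFx : F x ≤ F x1 := hmax ⟨hx, hxl⟩
  have hdet : 0 < (hessianMat u x).det := det_pos h hx
  have hηx : 0 ≤ l x + c - u x := by linarith
  have hlow : (hessianMat u x).det * (l x + c - u x) ^ n ≤ F x := by
    have h1 : 1 ≤ Real.exp ((a / 2) * P x) :=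
      Real.one_le_exp (mul_nonneg (by positivity) (hPnn x))
    have h2 : 0 ≤ (hessianMat u x).det * (l x + c - u x) ^ n := by positivity
    exact le_mul_of_one_le_right h2 h1
  refine hlow.trans (hFx.trans ?_)
  have hη1 : 0 ≤ l x1 + c - u x1 := by linarith [hx1.2]
  rcases hη1.eq_or_lt with h0 | hpos
  · have : F x1 = 0 := by
      simp only [hF]
      rw [← h0, zero_pow hn0]; ring
    rw [this]; positivity
  -- local maximum of the logarithm
  have hloc : IsLocalMax (fun y => ld u y + ((n : ℝ) * Real.log (l y + c - u y) +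
      (a / 2) * ∑ k, (pderiv k u y - l (EuclideanSpace.single k 1)) *
        (pderiv k u y - l (EuclideanSpace.single k 1)))) x1 := by
    have hcη : ContinuousAt (fun y => l y + c - u y) x1 :=
      ((l.continuous.continuousAt).add continuousAt_const).sub (h.contDiffAt hx1.1).continuousAt
    have hev : ∀ᶠ y in 𝓝 x1, 0 < l y + c - u y := hcη.eventually (lt_mem_nhds hpos)
    have key : ∀ y ∈ Ω, 0 < l y + c - u y →
        ld u y + ((n : ℝ) * Real.log (l y + c - u y) + (a / 2) * P y) = Real.log (F y) := by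
      intro y hy hy0
      simp only [hF]
      have hd := det_pos h hy
      rw [Real.log_mul (mul_pos hd (pow_pos hy0 n)).ne' (Real.exp_pos _).ne',
        Real.log_mul hd.ne' (pow_pos hy0 n).ne', Real.log_pow, Real.log_exp]
      unfold ld
      ring
    filter_upwards [hev, h.isOpen.mem_nhds hx1.1] with y hy0 hy
    have h1 := key y hy hy0
    have h2 := key x1 hx1.1 hpos
    simp only [hP] at h1 h2
    rw [h1, h2]
    have hFy : 0 < F y := by
      simp only [hF]
      have hd := det_pos h hy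
      positivity
    exact Real.log_le_log hFy (hmax ⟨hy, by linarith⟩)
  have hpx1 := hgrad x1 hx1.1 hx1.2
  have hpt := upper_point hn h hx1.1 (hpde x1 hx1.1) l hpos hΓ ha hpx1 hloc
  have hHp := h.posDef x1 hx1.1
  have hT0 : 0 ≤ (hessianMat u x1).trace := hHp.posSemidef.trace_nonneg
  have hdt : (hessianMat u x1).det ≤ ((hessianMat u x1).trace / n) ^ n :=
    det_le_trace_pow hHp.posSemidef (by omega)
  have hnR : (0 : ℝ) < n := by exact_mod_cast Nat.pos_of_ne_zero hn0
  have e1 : (hessianMat u x1).det * (l x1 + c - u x1) ^ n ≤ (6 * Γ ^ 2) ^ n := by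
    calc (hessianMat u x1).det * (l x1 + c - u x1) ^ n
        ≤ ((hessianMat u x1).trace / n) ^ n * (l x1 + c - u x1) ^ n :=
          mul_le_mul_of_nonneg_right hdt (by positivity)
      _ = (((l x1 + c - u x1) * (hessianMat u x1).trace) / n) ^ n := by
          rw [← mul_pow]; congr 1; ring
      _ ≤ (6 * Γ ^ 2) ^ n := by
          apply pow_le_pow_left₀ (by positivity)
          rw [div_le_iff₀ hnR]
          refine hpt.trans ?_
          rw [div_le_iff₀ (by positivity)]
          nlinarith [sq_nonneg Γ, mul_nonneg hnR.le (sq_nonneg Γ)]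
  have e2 : Real.exp ((a / 2) * P x1) ≤ Real.exp (((n : ℝ) + 2) / 4) := by
    apply Real.exp_le_exp.2
    have h1 : P x1 ≤ Γ ^ 2 := by
      refine le_trans (le_of_eq ?_) hpx1
      simp only [hP, sq]
    calc (a / 2) * P x1 ≤ (a / 2) * Γ ^ 2 := mul_le_mul_of_nonneg_left h1 (by positivity)
      _ = ((n : ℝ) + 2) / 4 := by rw [ha]; field_simp; ring
  exact mul_le_mul e1 e2 (Real.exp_pos _).le (by positivity)

end Crest.Agent.R236.Det
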