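import Crest.Agent.R236.SecPre
import Crest.Agent.R236.DetBounds

/-! Row 236: adapters for helper877's determinant bounds (helper202). -/

set_option autoImplicit false
open scoped ContDiff Topology
open Crest.GeometryTopology.CoordMetric Crest.GeometryTopology.AffineMaximal
open Set Filter MeasureTheory

noncomputable section

namespace Crest.Agent.R236.Sec

variable {n : ℕ} {u : EuclideanSpace ℝ (Fin n) → ℝ}

lemma sum_pderiv_sq_le (x : EuclideanSpace ℝ (Fin n)) {G : ℝ} (hG : ‖fderiv ℝ u x‖ ≤ G) :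
    ∑ k, (pderiv k u x) ^ 2 ≤ G ^ 2 := by
  set g : EuclideanSpace ℝ (Fin n) := ∑ k, pderiv k u x • EuclideanSpace.single k (1:ℝ) with hg
  have hgk : ∀ k, g k = pderiv k u x := by
    intro k
    simp [hg, Pi.single_apply]
  have h1 : ‖g‖ ^ 2 = ∑ k, (pderiv k u x) ^ 2 := by
    rw [EuclideanSpace.real_norm_sq_eq]
    exact Finset.sum_congr rfl fun k _ => by rw [hgk]
  have h2 : fderiv ℝ u x g = ‖g‖ ^ 2 := by
    rw [fderiv_eq_sum, h1]
    refine Finset.sum_congr rfl fun k _ => ?_
    rw [hgk, pow_two]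
  have h3 : ‖g‖ ^ 2 ≤ G * ‖g‖ := by
    rw [← h2]
    refine (le_abs_self _).trans (((fderiv ℝ u x).le_opNorm g).trans ?_)
    exact mul_le_mul_of_nonneg_right hG (norm_nonneg _)
  have hG0 : 0 ≤ G := (norm_nonneg _).trans hG
  rw [← h1]
  rcases eq_or_lt_of_le (norm_nonneg g) with h0 | h0
  · rw [← h0]; nlinarith [sq_nonneg G]
  · have : ‖g‖ ≤ G := by
      rw [pow_two] at h3
      exact le_of_mul_le_mul_right h3 h0
    exact pow_le_pow_left₀ h0.le this 2

theorem detUpper (hn : 2 ≤ n) : DetUpper n := by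
  intro u h hp G hG hK hgrad x hx
  have hset : {x | x ∈ (univ : Set (EuclideanSpace ℝ (Fin n))) ∧
      u x ≤ (0 : EuclideanSpace ℝ (Fin n) →L[ℝ] ℝ) x + 4} = {x | u x ≤ 4} := by
    ext x; simp
  have := Det.det_upper hn h hp (0 : EuclideanSpace ℝ (Fin n) →L[ℝ] ℝ) 4 (by rw [hset]; exact hK)
    hG (fun y _ hy => by
      simp only [zero_apply, sub_zero]
      exact sum_pderiv_sq_le y (hgrad y (by simpa using hy)))
    (mem_univ x) (by simpa using hx)
  simp only [zero_apply, zero_add] at this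
  refine this.trans (le_of_eq ?_)
  rw [mul_pow, ← pow_mul]
  ring

end Crest.Agent.R236.Sec
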