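import Mathlib
import Crest.Agent.R236.DetBounds

/-!
Row 236, P3: lower determinant bound for affine maximal functions by the maximum principle
(main theorem `det_lower`).
-/

set_option autoImplicit false

open scoped ContDiff Topology Matrix
open Crest.GeometryTopology.CoordMetric Crest.GeometryTopology.AffineMaximal Filter Matrix

namespace Crest.Agent.R236.Det

open Crest.Agent.R236 Crest.Agent.R236.Jet

variable {n : ℕ} {Ω : Set (EuclideanSpace ℝ (Fin n))} {u : EuclideanSpace ℝ (Fin n) → ℝ}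

/-- the function `v x = u x0 - u x - Du(x)(x0 - x)` in coordinates -/
noncomputable def lv (u : EuclideanSpace ℝ (Fin n) → ℝ) (x0 x : EuclideanSpace ℝ (Fin n)) : ℝ :=
  u x0 - u x + ∑ k, (x k - x0 k) * pderiv k u x

theorem lv_eq (u : EuclideanSpace ℝ (Fin n) → ℝ) (x0 x : EuclideanSpace ℝ (Fin n)) :
    lv u x0 x = u x0 - u x - fderiv ℝ u x (x0 - x) := by
  unfold lv
  rw [Jet.fderiv_eq_sum, sub_eq_add_neg (u x0 - u x), ← Finset.sum_neg_distrib]
  congr 1
  refine Finset.sum_congr rfl fun k _ => ?_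
  simp only [PiLp.sub_apply]
  ring

section lower
variable (h : SC Ω u) {x : EuclideanSpace ℝ (Fin n)} (hx : x ∈ Ω) (x0 : EuclideanSpace ℝ (Fin n))

theorem sm_coord (k : Fin n) (x : EuclideanSpace ℝ (Fin n)) :
    ContDiffAt ℝ ∞ (fun y : EuclideanSpace ℝ (Fin n) => y k - x0 k) x :=
  ((EuclideanSpace.proj k : EuclideanSpace ℝ (Fin n) →L[ℝ] ℝ).contDiff.contDiffAt).sub
    contDiffAt_const

theorem pderiv_coord_sub (k i : Fin n) (x : EuclideanSpace ℝ (Fin n)) :
    pderiv i (fun y : EuclideanSpace ℝ (Fin n) => y k - x0 k) x = if k = i then 1 else 0 := by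
  rw [pderiv_sub (f := fun y : EuclideanSpace ℝ (Fin n) => y k) (g := fun _ => x0 k)
    (EuclideanSpace.proj k : EuclideanSpace ℝ (Fin n) →L[ℝ] ℝ).differentiableAt
    (differentiableAt_const _), pderiv_coord, pderiv_const, sub_zero]

include h hx

theorem sm_lv : ContDiffAt ℝ ∞ (lv u x0) x :=
  (contDiffAt_const.sub (h.contDiffAt hx)).add
    (ContDiffAt.sum fun k _ => (sm_coord x0 k x).mul (sm_pderiv (h.contDiffAt hx) k))

theorem pderiv_lv (i : Fin n) :
    pderiv i (lv u x0) x = ∑ k, (x k - x0 k) * hessianMat u x i k := by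
  have hu := h.contDiffAt hx
  have hs : ∀ k, ContDiffAt ℝ ∞ (fun y => (y k - x0 k) * pderiv k u y) x :=
    fun k => (sm_coord x0 k x).mul (sm_pderiv hu k)
  have hsum : ContDiffAt ℝ ∞ (fun y => ∑ k, (y k - x0 k) * pderiv k u y) x :=
    ContDiffAt.sum fun k _ => hs k
  have e : lv u x0 = fun y => (u x0 - u y) + ∑ k, (y k - x0 k) * pderiv k u y := rfl
  rw [e, pderiv_add (sm_diff (contDiffAt_const.sub hu)) (sm_diff hsum),
    pderiv_sub (f := fun _ => u x0) (differentiableAt_const _) (sm_diff hu), pderiv_const,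
    pderiv_sum (fun k _ => sm_diff (hs k))]
  have e1 : ∀ k, pderiv i (fun y => (y k - x0 k) * pderiv k u y) x =
      (x k - x0 k) * hessianMat u x i k + (if k = i then pderiv k u x else 0) := by
    intro k
    rw [pderiv_mul (sm_diff (sm_coord x0 k x)) (sm_diff (sm_pderiv hu k)),
      pderiv_coord_sub]
    have e2 : pderiv i (fun y => pderiv k u y) x = hessianMat u x i k := rfl
    rw [e2]
    split_ifs <;> ring
  simp only [e1]
  rw [Finset.sum_add_distrib]
  simp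

theorem hess_lv (i j : Fin n) :
    hessianMat (lv u x0) x i j = hessianMat u x i j +
      ∑ k, (x k - x0 k) * hessianMat (fun y => pderiv k u y) x i j := by
  have hu := h.contDiffAt hx
  have e0 : hessianMat (lv u x0) x i j = pderiv i (fun y => pderiv j (lv u x0) y) x := rfl
  have e1 : (fun y => pderiv j (lv u x0) y) =ᶠ[𝓝 x]
      fun y => ∑ k, (y k - x0 k) * hessianMat u y j k := by
    filter_upwards [h.isOpen.mem_nhds hx] with y hy
    exact pderiv_lv h hy x0 j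
  have hs : ∀ k, ContDiffAt ℝ ∞ (fun y => (y k - x0 k) * hessianMat u y j k) x :=
    fun k => (sm_coord x0 k x).mul (sm_hess h hx j k)
  rw [e0, pderiv_congr e1, pderiv_sum (fun k _ => sm_diff (hs k))]
  have e2 : ∀ k, pderiv i (fun y => (y k - x0 k) * hessianMat u y j k) x =
      (x k - x0 k) * hessianMat (fun y => pderiv k u y) x i j +
        (if k = i then hessianMat u x j k else 0) := by
    intro k
    rw [pderiv_mul (sm_diff (sm_coord x0 k x)) (sm_diff (sm_hess h hx j k)), pderiv_coord_sub]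
    have e3 : pderiv i (fun y => hessianMat u y j k) x =
      hessianMat (fun y => pderiv k u y) x i j := rfl
    rw [e3]
    split_ifs <;> ring
  simp only [e2]
  rw [Finset.sum_add_distrib]
  simp only [Finset.sum_ite_eq', Finset.mem_univ, if_true]
  rw [hess_symm hu j i]
  ring

/-- gradient of the lower auxiliary function -/
theorem lower_grad (hh A : ℝ) (hη : 0 < hh - lv u x0 x) (i : Fin n) :
    pderiv i (fun y => (-(1 / ((n : ℝ) + 2))) * ld u y + (Real.log (hh - lv u x0 y) +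
      (A / 2) * ∑ k, (y k - x0 k) * (y k - x0 k))) x =
      (-(1 / ((n : ℝ) + 2))) * pderiv i (ld u) x -
        (hh - lv u x0 x)⁻¹ * ∑ k, (x k - x0 k) * hessianMat u x i k + A * (x i - x0 i) := by
  have hsl : ContDiffAt ℝ ∞ (fun y => hh - lv u x0 y) x :=
    contDiffAt_const.sub (sm_lv h hx x0)
  have hlog : ContDiffAt ℝ ∞ (fun y => Real.log (hh - lv u x0 y)) x := hsl.log hη.ne'
  have hpp : ∀ k, ContDiffAt ℝ ∞ (fun y : EuclideanSpace ℝ (Fin n) =>
      (y k - x0 k) * (y k - x0 k)) x := fun k => (sm_coord x0 k x).mul (sm_coord x0 k x)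
  have hsum : ContDiffAt ℝ ∞ (fun y : EuclideanSpace ℝ (Fin n) =>
      ∑ k, (y k - x0 k) * (y k - x0 k)) x := ContDiffAt.sum fun k _ => hpp k
  rw [pderiv_add (sm_diff (contDiffAt_const.mul (sm_ld h hx)))
    (sm_diff (hlog.add (contDiffAt_const.mul hsum))),
    pderiv_add (sm_diff hlog) (sm_diff (contDiffAt_const.mul hsum)),
    pderiv_cmul (sm_diff (sm_ld h hx)), pderiv_cmul (sm_diff hsum),
    pderiv_log (sm_diff hsl) hη.ne',
    pderiv_sub (f := fun _ => hh) (differentiableAt_const _) (sm_diff (sm_lv h hx x0)),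
    pderiv_const, pderiv_lv h hx, pderiv_sum (fun k _ => sm_diff (hpp k))]
  have e1 : ∀ k, pderiv i (fun y : EuclideanSpace ℝ (Fin n) => (y k - x0 k) * (y k - x0 k)) x =
      if k = i then 2 * (x k - x0 k) else 0 := by
    intro k
    rw [pderiv_mul (sm_diff (sm_coord x0 k x)) (sm_diff (sm_coord x0 k x)), pderiv_coord_sub]
    split_ifs <;> ring
  simp only [e1]
  simp only [Finset.sum_ite_eq', Finset.mem_univ, if_true]
  ring

/-- Hessian of the lower auxiliary function -/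
theorem lower_hess (hh A : ℝ) (hη : 0 < hh - lv u x0 x) (i j : Fin n) :
    hessianMat (fun y => (-(1 / ((n : ℝ) + 2))) * ld u y + (Real.log (hh - lv u x0 y) +
      (A / 2) * ∑ k, (y k - x0 k) * (y k - x0 k))) x i j =
      (-(1 / ((n : ℝ) + 2))) * hessianMat (ld u) x i j -
        ((hh - lv u x0 x)⁻¹ * (hessianMat u x i j +
          ∑ k, (x k - x0 k) * hessianMat (fun y => pderiv k u y) x i j) +
        ((hh - lv u x0 x) ^ 2)⁻¹ * ((∑ k, (x k - x0 k) * hessianMat u x i k) *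
          (∑ k, (x k - x0 k) * hessianMat u x j k))) + A * (if j = i then 1 else 0) := by
  have hsl : ContDiffAt ℝ ∞ (fun y => hh - lv u x0 y) x :=
    contDiffAt_const.sub (sm_lv h hx x0)
  have hlog : ContDiffAt ℝ ∞ (fun y => Real.log (hh - lv u x0 y)) x := hsl.log hη.ne'
  have hpp : ∀ k, ContDiffAt ℝ ∞ (fun y : EuclideanSpace ℝ (Fin n) =>
      (y k - x0 k) * (y k - x0 k)) x := fun k => (sm_coord x0 k x).mul (sm_coord x0 k x)
  have hsum : ContDiffAt ℝ ∞ (fun y : EuclideanSpace ℝ (Fin n) =>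
      ∑ k, (y k - x0 k) * (y k - x0 k)) x := ContDiffAt.sum fun k _ => hpp k
  rw [hess_add (contDiffAt_const.mul (sm_ld h hx)) (hlog.add (contDiffAt_const.mul hsum)),
    hess_add hlog (contDiffAt_const.mul hsum),
    hess_cmul (sm_ld h hx), hess_cmul hsum,
    hess_log hsl hη.ne',
    hess_sub (f := fun _ => hh) contDiffAt_const (sm_lv h hx x0),
    pderiv_sub (f := fun _ => hh) (differentiableAt_const _) (sm_diff (sm_lv h hx x0)),
    pderiv_sub (f := fun _ => hh) (differentiableAt_const _) (sm_diff (sm_lv h hx x0)),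
    pderiv_const, pderiv_const, hess_const, pderiv_lv h hx, pderiv_lv h hx, hess_lv h hx,
    hess_sum (fun k _ => hpp k)]
  have e1 : ∀ k, hessianMat (fun y : EuclideanSpace ℝ (Fin n) => (y k - x0 k) * (y k - x0 k)) x i j =
      if k = i then (if k = j then 2 else 0) else 0 := by
    intro k
    rw [hess_mul (sm_coord x0 k x) (sm_coord x0 k x), pderiv_coord_sub, pderiv_coord_sub]
    have e2 : hessianMat (fun y : EuclideanSpace ℝ (Fin n) => y k - x0 k) x i j = 0 := by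
      rw [hess_sub (f := fun y : EuclideanSpace ℝ (Fin n) => y k) (g := fun _ => x0 k)
        ((EuclideanSpace.proj k : EuclideanSpace ℝ (Fin n) →L[ℝ] ℝ).contDiff.contDiffAt)
        contDiffAt_const, hess_const]
      have := hess_lin (EuclideanSpace.proj k : EuclideanSpace ℝ (Fin n) →L[ℝ] ℝ) i j x
      rw [sub_zero]; exact this
    rw [e2]
    split_ifs <;> ring
  simp only [e1]
  simp only [Finset.sum_ite_eq', Finset.mem_univ, if_true]
  have e3 : (if i = j then (2 : ℝ) else 0) = 2 * (if j = i then 1 else 0) := by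
    by_cases hij : i = j
    · simp [hij]
    · simp [hij, Ne.symm hij]
  rw [e3]
  ring

end lower

theorem lower_point (h : SC Ω u) {x : EuclideanSpace ℝ (Fin n)} (hx : x ∈ Ω)
    (hmax : affineMaximalOp n u x = 0) (x0 : EuclideanSpace ℝ (Fin n)) {hh A Γ : ℝ}
    (hη : 0 < hh - lv u x0 x) (hΓ : 0 < Γ) (hA : A = 1 / (2 * ((n : ℝ) + 1) * Γ ^ 2))
    (hξ : ∑ k, (x k - x0 k) ^ 2 ≤ Γ ^ 2)
    (hloc : IsLocalMax (fun y => (-(1 / ((n : ℝ) + 2))) * ld u y +
      (Real.log (hh - lv u x0 y) + (A / 2) * ∑ k, (y k - x0 k) * (y k - x0 k))) x) :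
    (hh - lv u x0 x) * ((hessianMat u x)⁻¹).trace ≤ 4 * (n : ℝ) * ((n : ℝ) + 1) * Γ ^ 2 := by
  have hu := h.contDiffAt hx
  set H := hessianMat u x with hH
  have hHp : H.PosDef := h.posDef x hx
  set ξ : Fin n → ℝ := fun k => x k - x0 k with hξdef
  set s : Fin n → ℝ := fun k => pderiv k (ld u) x with hsdef
  set η : ℝ := hh - lv u x0 x with hηdef
  have hN2 : (0 : ℝ) < (n : ℝ) + 2 := by positivity
  have hsl : ContDiffAt ℝ ∞ (fun y => hh - lv u x0 y) x :=
    contDiffAt_const.sub (sm_lv h hx x0)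
  have hlog : ContDiffAt ℝ ∞ (fun y => Real.log (hh - lv u x0 y)) x := hsl.log hη.ne'
  have hpp : ∀ k, ContDiffAt ℝ ∞ (fun y : EuclideanSpace ℝ (Fin n) =>
      (y k - x0 k) * (y k - x0 k)) x := fun k => (sm_coord x0 k x).mul (sm_coord x0 k x)
  have hsum : ContDiffAt ℝ ∞ (fun y : EuclideanSpace ℝ (Fin n) =>
      ∑ k, (y k - x0 k) * (y k - x0 k)) x := ContDiffAt.sum fun k _ => hpp k
  have hz : ContDiffAt ℝ ∞ (fun y => (-(1 / ((n : ℝ) + 2))) * ld u y +
      (Real.log (hh - lv u x0 y) + (A / 2) * ∑ k, (y k - x0 k) * (y k - x0 k))) x :=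
    (contDiffAt_const.mul (sm_ld h hx)).add (hlog.add (contDiffAt_const.mul hsum))
  have hHξ : ∀ i, ∑ k, (x k - x0 k) * hessianMat u x i k = (H *ᵥ ξ) i := by
    intro i
    simp only [Matrix.mulVec, dotProduct, hH, hξdef]
    exact Finset.sum_congr rfl fun k _ => mul_comm _ _
  refine lower_alg hHp ξ s hη hΓ hA ?_ ?_ ?_
  · have : ξ ⬝ᵥ ξ = ∑ k, (x k - x0 k) ^ 2 := by
      simp only [dotProduct, hξdef, sq]
    rw [this]; exact hξ
  · funext i
    have h1 := pderiv_eq_zero_of_max hloc i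
    rw [lower_grad h hx x0 hh A hη i, hHξ i] at h1
    simp only [Pi.sub_apply, Pi.smul_apply, smul_eq_mul]
    have h3 : s i = pderiv i (ld u) x := rfl
    have h4 : ξ i = x i - x0 i := rfl
    rw [← h3, ← h4, ← hηdef] at h1
    have h5 : s i = ((n : ℝ) + 2) * (1 / ((n : ℝ) + 2) * s i) := by
      field_simp
    rw [h5]
    congr 1
    rw [one_div η]
    linarith
  · have h1 := trace_hess_nonpos hz hloc hHp.inv.posSemidef
    have h2 : ∀ i j, H⁻¹ i j * hessianMat (fun y => (-(1 / ((n : ℝ) + 2))) * ld u y +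
      (Real.log (hh - lv u x0 y) + (A / 2) * ∑ k, (y k - x0 k) * (y k - x0 k))) x i j =
        (-(1 / ((n : ℝ) + 2))) * (H⁻¹ i j * hessianMat (ld u) x i j) -
        (η⁻¹ * (H⁻¹ i j * H i j +
          ∑ k, ξ k * (H⁻¹ i j * hessianMat (fun y => pderiv k u y) x i j)) +
        (η ^ 2)⁻¹ * (H⁻¹ i j * ((H *ᵥ ξ) i * (H *ᵥ ξ) j))) +
          A * (if j = i then H⁻¹ i j else 0) := by
      intro i j
      rw [lower_hess h hx x0 hh A hη i j, hHξ, hHξ]
      have e1 : ∑ k, ξ k * (H⁻¹ i j * hessianMat (fun y => pderiv k u y) x i j) =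
          H⁻¹ i j * ∑ k, ξ k * hessianMat (fun y => pderiv k u y) x i j := by
        rw [Finset.mul_sum]
        refine Finset.sum_congr rfl fun k _ => by ring
      rw [e1]
      have e2 : ∑ k, (x k - x0 k) * hessianMat (fun y => pderiv k u y) x i j =
        ∑ k, ξ k * hessianMat (fun y => pderiv k u y) x i j := rfl
      rw [e2, ← hηdef, ← hH]
      split_ifs <;> ring
    simp only [h2] at h1
    have h3 : ∑ i, ∑ j, ((-(1 / ((n : ℝ) + 2))) * (H⁻¹ i j * hessianMat (ld u) x i j) -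
        (η⁻¹ * (H⁻¹ i j * H i j +
          ∑ k, ξ k * (H⁻¹ i j * hessianMat (fun y => pderiv k u y) x i j)) +
        (η ^ 2)⁻¹ * (H⁻¹ i j * ((H *ᵥ ξ) i * (H *ᵥ ξ) j))) +
          A * (if j = i then H⁻¹ i j else 0)) =
        (-(1 / ((n : ℝ) + 2))) * (∑ i, ∑ j, H⁻¹ i j * hessianMat (ld u) x i j) -
        (η⁻¹ * ((∑ i, ∑ j, H⁻¹ i j * H i j) +
          ∑ k, ξ k * (∑ i, ∑ j, H⁻¹ i j * hessianMat (fun y => pderiv k u y) x i j)) +
        (η ^ 2)⁻¹ * (∑ i, ∑ j, H⁻¹ i j * ((H *ᵥ ξ) i * (H *ᵥ ξ) j))) + A * (H⁻¹).trace := by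
      simp only [Finset.sum_add_distrib, Finset.sum_sub_distrib, ← Finset.mul_sum]
      have e4 : ∑ i, ∑ j, (if j = i then H⁻¹ i j else 0) = (H⁻¹).trace := by
        simp [Matrix.trace]
      have e2 : ∑ i, ∑ j, ∑ k, ξ k * (H⁻¹ i j * hessianMat (fun y => pderiv k u y) x i j) =
          ∑ k, ξ k * ∑ i, ∑ j, H⁻¹ i j * hessianMat (fun y => pderiv k u y) x i j := by
        rw [sum3]
        refine Finset.sum_congr rfl fun k _ => ?_
        simp only [Finset.mul_sum]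
      rw [e4, e2]
    rw [h3, pde h hx hmax, sum_inv_mul hHp] at h1
    have h4 : ∑ k, ξ k * (∑ i, ∑ j, H⁻¹ i j * hessianMat (fun y => pderiv k u y) x i j) =
        ξ ⬝ᵥ s := by
      rw [dotProduct]
      refine Finset.sum_congr rfl fun k _ => ?_
      rw [← pderiv_ld h hx]
    have h5 : ∑ i, ∑ j, (hessianMat u x)⁻¹ i j * (pderiv i (ld u) x * pderiv j (ld u) x) =
        s ⬝ᵥ (H⁻¹ *ᵥ s) := sum_eq_dot H⁻¹ s s
    have h6 : ∑ i, ∑ j, H⁻¹ i j * ((H *ᵥ ξ) i * (H *ᵥ ξ) j) = ξ ⬝ᵥ (H *ᵥ ξ) := by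
      rw [sum_eq_dot H⁻¹ (H *ᵥ ξ) (H *ᵥ ξ), inv_mulVec hHp, dot_symm (transpose_of_posDef hHp)]
    rw [h4, h5, h6] at h1
    refine le_trans (le_of_eq ?_) h1
    field_simp
    ring

/-- **Lower determinant bound.** With `v x = u x0 - u x - Du(x)(x0 - x)`; if the points of the
compact set `{v ≤ h}` are within `Γ` of `x0` then
`(h - v)^{n+2} ≤ (4(n+1)Γ²)^n e^{(n+2)/(4(n+1))} h² det D²u`. -/
theorem det_lower (hn : 1 ≤ n) (h : SC Ω u) (hpde : ∀ x ∈ Ω, affineMaximalOp n u x = 0)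
    {x0 : EuclideanSpace ℝ (Fin n)} (hx0 : x0 ∈ Ω) {hh : ℝ}
    (hK : IsCompact {x | x ∈ Ω ∧ u x0 - u x - fderiv ℝ u x (x0 - x) ≤ hh}) {Γ : ℝ} (hΓ : 0 < Γ)
    (hball : ∀ x ∈ Ω, u x0 - u x - fderiv ℝ u x (x0 - x) ≤ hh → ‖x - x0‖ ≤ Γ)
    {x : EuclideanSpace ℝ (Fin n)} (hx : x ∈ Ω)
    (hxl : u x0 - u x - fderiv ℝ u x (x0 - x) ≤ hh) :
    (hh - (u x0 - u x - fderiv ℝ u x (x0 - x))) ^ (n + 2) ≤
      (4 * ((n : ℝ) + 1) * Γ ^ 2) ^ n * Real.exp (((n : ℝ) + 2) / (4 * ((n : ℝ) + 1))) *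
        hh ^ 2 * (hessianMat u x).det := by
  simp only [← lv_eq] at hK hball hxl ⊢
  set A : ℝ := 1 / (2 * ((n : ℝ) + 1) * Γ ^ 2) with hA
  have hApos : 0 < A := by rw [hA]; positivity
  have hN2 : (0 : ℝ) < (n : ℝ) + 2 := by positivity
  set P : EuclideanSpace ℝ (Fin n) → ℝ := fun y => ∑ k, (y k - x0 k) * (y k - x0 k) with hP
  have hPnorm : ∀ y, P y = ‖y - x0‖ ^ 2 := by
    intro y
    rw [EuclideanSpace.real_norm_sq_eq]
    simp only [hP, sq, PiLp.sub_apply]
  have hlv0 : ∀ y ∈ Ω, 0 ≤ lv u x0 y := by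
    intro y hy
    rw [lv_eq]
    have := h.tangent_le hy hx0
    linarith
  set F : EuclideanSpace ℝ (Fin n) → ℝ := fun y =>
    ((hessianMat u y).det)⁻¹ * (hh - lv u x0 y) ^ (n + 2) *
      Real.exp (((n : ℝ) + 2) * ((A / 2) * P y)) with hF
  have hPnn : ∀ y, 0 ≤ P y := fun y => Finset.sum_nonneg fun k _ => mul_self_nonneg _
  have hcP : ∀ y, ContinuousAt P y := fun y =>
    (ContDiffAt.sum fun k _ => (sm_coord x0 k y).mul (sm_coord x0 k y)).continuousAt
  have hcF : ContinuousOn F {x | x ∈ Ω ∧ lv u x0 x ≤ hh} := by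
    intro y hy
    apply ContinuousAt.continuousWithinAt
    have h1 : ContinuousAt (fun y => ((hessianMat u y).det)⁻¹) y :=
      (sm_det h hy.1).continuousAt.inv₀ (det_pos h hy.1).ne'
    have h2 : ContinuousAt (fun y => hh - lv u x0 y) y :=
      continuousAt_const.sub (sm_lv h hy.1 x0).continuousAt
    have h3 : ContinuousAt (fun y => Real.exp (((n : ℝ) + 2) * ((A / 2) * P y))) y :=
      (Real.continuous_exp.continuousAt).comp
        (continuousAt_const.mul (continuousAt_const.mul (hcP y)))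
    exact (h1.mul (h2.pow (n + 2))).mul h3
  obtain ⟨x1, hx1, hmax⟩ := hK.exists_isMaxOn ⟨x, hx, hxl⟩ hcF
  have hFx : F x ≤ F x1 := hmax ⟨hx, hxl⟩
  have hdet : 0 < (hessianMat u x).det := det_pos h hx
  have hηx : 0 ≤ hh - lv u x0 x := by linarith
  have hlow : ((hessianMat u x).det)⁻¹ * (hh - lv u x0 x) ^ (n + 2) ≤ F x := by
    have h1 : 1 ≤ Real.exp (((n : ℝ) + 2) * ((A / 2) * P x)) :=
      Real.one_le_exp (mul_nonneg hN2.le (mul_nonneg (by positivity) (hPnn x)))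
    have h2 : 0 ≤ ((hessianMat u x).det)⁻¹ * (hh - lv u x0 x) ^ (n + 2) := by positivity
    exact le_mul_of_one_le_right h2 h1
  suffices hs : F x1 ≤ (4 * ((n : ℝ) + 1) * Γ ^ 2) ^ n *
      Real.exp (((n : ℝ) + 2) / (4 * ((n : ℝ) + 1))) * hh ^ 2 by
    have h1 := hlow.trans (hFx.trans hs)
    rw [inv_mul_le_iff₀ hdet] at h1
    linarith
  have hη1 : 0 ≤ hh - lv u x0 x1 := by linarith [hx1.2]
  rcases hη1.eq_or_lt with h0 | hpos
  · have : F x1 = 0 := by
      simp only [hF]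
      rw [← h0, zero_pow (by omega)]; ring
    rw [this]; positivity
  -- local maximum of the logarithm
  have hloc : IsLocalMax (fun y => (-(1 / ((n : ℝ) + 2))) * ld u y +
      (Real.log (hh - lv u x0 y) + (A / 2) * ∑ k, (y k - x0 k) * (y k - x0 k))) x1 := by
    have hcη : ContinuousAt (fun y => hh - lv u x0 y) x1 :=
      continuousAt_const.sub (sm_lv h hx1.1 x0).continuousAt
    have hev : ∀ᶠ y in 𝓝 x1, 0 < hh - lv u x0 y := hcη.eventually (lt_mem_nhds hpos)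
    have key : ∀ y ∈ Ω, 0 < hh - lv u x0 y →
        (-(1 / ((n : ℝ) + 2))) * ld u y + (Real.log (hh - lv u x0 y) + (A / 2) * P y) =
          (1 / ((n : ℝ) + 2)) * Real.log (F y) := by
      intro y hy hy0
      simp only [hF]
      have hd := det_pos h hy
      rw [Real.log_mul (mul_pos (inv_pos.2 hd) (pow_pos hy0 _)).ne' (Real.exp_pos _).ne',
        Real.log_mul (inv_pos.2 hd).ne' (pow_pos hy0 _).ne', Real.log_pow, Real.log_exp,
        Real.log_inv]
      unfold ld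
      push_cast
      field_simp
      ring
    filter_upwards [hev, h.isOpen.mem_nhds hx1.1] with y hy0 hy
    have h1 := key y hy hy0
    have h2 := key x1 hx1.1 hpos
    simp only [hP] at h1 h2
    rw [h1, h2]
    have hFy : 0 < F y := by
      simp only [hF]
      have hd := det_pos h hy
      positivity
    exact mul_le_mul_of_nonneg_left (Real.log_le_log hFy (hmax ⟨hy, by linarith⟩)) (by positivity)
  have hPx1 : P x1 ≤ Γ ^ 2 := by
    rw [hPnorm]
    exact pow_le_pow_left₀ (norm_nonneg _) (hball x1 hx1.1 hx1.2) 2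
  have hξ1 : ∑ k, (x1 k - x0 k) ^ 2 ≤ Γ ^ 2 := by
    refine le_trans (le_of_eq ?_) hPx1
    simp only [hP, sq]
  have hpt := lower_point h hx1.1 (hpde x1 hx1.1) x0 hpos hΓ hA hξ1 hloc
  have hHp := h.posDef x1 hx1.1
  have hT0 : 0 ≤ ((hessianMat u x1)⁻¹).trace := hHp.inv.posSemidef.trace_nonneg
  have hdt : ((hessianMat u x1)⁻¹).det ≤ (((hessianMat u x1)⁻¹).trace / n) ^ n :=
    det_le_trace_pow hHp.inv.posSemidef (by omega)
  have hnR : (0 : ℝ) < n := by exact_mod_cast (by omega : 0 < n)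
  have hdi : ((hessianMat u x1)⁻¹).det = ((hessianMat u x1).det)⁻¹ := by
    rw [Matrix.det_nonsing_inv, Ring.inverse_eq_inv']
  have e1 : ((hessianMat u x1).det)⁻¹ * (hh - lv u x0 x1) ^ n ≤
      (4 * ((n : ℝ) + 1) * Γ ^ 2) ^ n := by
    rw [← hdi]
    calc ((hessianMat u x1)⁻¹).det * (hh - lv u x0 x1) ^ n
        ≤ (((hessianMat u x1)⁻¹).trace / n) ^ n * (hh - lv u x0 x1) ^ n :=
          mul_le_mul_of_nonneg_right hdt (by positivity)
      _ = (((hh - lv u x0 x1) * ((hessianMat u x1)⁻¹).trace) / n) ^ n := by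
          rw [← mul_pow]; congr 1; ring
      _ ≤ (4 * ((n : ℝ) + 1) * Γ ^ 2) ^ n := by
          apply pow_le_pow_left₀ (by positivity)
          rw [div_le_iff₀ hnR]
          refine hpt.trans (le_of_eq (by ring))
  have e2 : Real.exp (((n : ℝ) + 2) * ((A / 2) * P x1)) ≤
      Real.exp (((n : ℝ) + 2) / (4 * ((n : ℝ) + 1))) := by
    apply Real.exp_le_exp.2
    calc ((n : ℝ) + 2) * ((A / 2) * P x1) ≤ ((n : ℝ) + 2) * ((A / 2) * Γ ^ 2) :=
          mul_le_mul_of_nonneg_left (mul_le_mul_of_nonneg_left hPx1 (by positivity)) hN2.le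
      _ = ((n : ℝ) + 2) / (4 * ((n : ℝ) + 1)) := by rw [hA]; field_simp; ring
  have e3 : (hh - lv u x0 x1) ^ 2 ≤ hh ^ 2 :=
    pow_le_pow_left₀ hη1 (by linarith [hlv0 x1 hx1.1]) 2
  calc F x1 = (((hessianMat u x1).det)⁻¹ * (hh - lv u x0 x1) ^ n) *
        Real.exp (((n : ℝ) + 2) * ((A / 2) * P x1)) * (hh - lv u x0 x1) ^ 2 := by
        simp only [hF]; rw [pow_add]; ring
    _ ≤ (4 * ((n : ℝ) + 1) * Γ ^ 2) ^ n *
        Real.exp (((n : ℝ) + 2) / (4 * ((n : ℝ) + 1))) * hh ^ 2 := by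
        apply mul_le_mul _ e3 (by positivity) (by positivity)
        exact mul_le_mul e1 e2 (Real.exp_pos _).le (by positivity)

/-- the lower bound at the base point: `h^n ≤ C det D²u(x0)`. -/
theorem det_lower_base (hn : 1 ≤ n) (h : SC Ω u) (hpde : ∀ x ∈ Ω, affineMaximalOp n u x = 0)
    {x0 : EuclideanSpace ℝ (Fin n)} (hx0 : x0 ∈ Ω) {hh : ℝ} (hh0 : 0 < hh)
    (hK : IsCompact {x | x ∈ Ω ∧ u x0 - u x - fderiv ℝ u x (x0 - x) ≤ hh}) {Γ : ℝ} (hΓ : 0 < Γ)
    (hball : ∀ x ∈ Ω, u x0 - u x - fderiv ℝ u x (x0 - x) ≤ hh → ‖x - x0‖ ≤ Γ) :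
    hh ^ n ≤ (4 * ((n : ℝ) + 1) * Γ ^ 2) ^ n * Real.exp (((n : ℝ) + 2) / (4 * ((n : ℝ) + 1))) *
        (hessianMat u x0).det := by
  have h1 := det_lower hn h hpde hx0 hK hΓ hball hx0 (by simpa using hh0.le)
  simp only [sub_self, map_zero, sub_zero] at h1
  have h2 : hh ^ 2 * hh ^ n ≤ hh ^ 2 * ((4 * ((n : ℝ) + 1) * Γ ^ 2) ^ n *
      Real.exp (((n : ℝ) + 2) / (4 * ((n : ℝ) + 1))) * (hessianMat u x0).det) := by
    refine le_trans (le_of_eq ?_) (h1.trans (le_of_eq ?_))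
    · rw [← pow_add, add_comm]
    · ring
  exact le_of_mul_le_mul_left h2 (by positivity)

/-- `det_upper` with the norm of the gradient of `u - l`. -/
theorem det_upper_norm (hn : 2 ≤ n) (h : SC Ω u) (hpde : ∀ x ∈ Ω, affineMaximalOp n u x = 0)
    (l : EuclideanSpace ℝ (Fin n) →L[ℝ] ℝ) (c : ℝ)
    (hK : IsCompact {x | x ∈ Ω ∧ u x ≤ l x + c}) {Γ : ℝ} (hΓ : 0 < Γ)
    (hgrad : ∀ x ∈ Ω, u x ≤ l x + c → ‖fderiv ℝ u x - l‖ ≤ Γ)
    {x : EuclideanSpace ℝ (Fin n)} (hx : x ∈ Ω) (hxl : u x ≤ l x + c) :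
    (hessianMat u x).det * (l x + c - u x) ^ n ≤
      (6 * Γ ^ 2) ^ n * Real.exp (((n : ℝ) + 2) / 4) := by
  refine det_upper hn h hpde l c hK hΓ (fun y hy hyl => ?_) hx hxl
  -- the sum of squares is the squared norm of the functional
  set p : Fin n → ℝ := fun k => pderiv k u y - l (EuclideanSpace.single k 1) with hp
  set w : EuclideanSpace ℝ (Fin n) := WithLp.toLp 2 p with hw
  have h1 : (fderiv ℝ u y - l) w = ∑ k, p k ^ 2 := by
    rw [_root_.sub_apply, Jet.fderiv_eq_sum]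
    have h2 : l w = ∑ k, l (EuclideanSpace.single k 1) * w k := by
      have := Jet.fderiv_eq_sum (fun y => l y) y w
      rw [show (fun y => l y) = l from rfl, l.fderiv] at this
      rw [this]
      refine Finset.sum_congr rfl fun k _ => ?_
      rw [← pderiv_lin l k y]
    rw [h2, ← Finset.sum_sub_distrib]
    refine Finset.sum_congr rfl fun k _ => ?_
    have : w k = p k := rfl
    rw [this, sq, ← sub_mul]
  have h3 : ‖w‖ ^ 2 = ∑ k, p k ^ 2 := by
    rw [EuclideanSpace.real_norm_sq_eq]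
  have h4 : ‖w‖ ^ 2 ≤ Γ * ‖w‖ := by
    rw [h3, ← h1]
    calc (fderiv ℝ u y - l) w ≤ ‖(fderiv ℝ u y - l) w‖ := Real.le_norm_self _
      _ ≤ ‖fderiv ℝ u y - l‖ * ‖w‖ := (fderiv ℝ u y - l).le_opNorm w
      _ ≤ Γ * ‖w‖ := mul_le_mul_of_nonneg_right (hgrad y hy hyl) (norm_nonneg _)
  have h5 : ‖w‖ ≤ Γ := by
    rcases (norm_nonneg w).eq_or_lt with h0 | h0
    · rw [← h0]; exact hΓ.le
    · nlinarith
  rw [← h3]
  exact pow_le_pow_left₀ (norm_nonneg _) h5 2

end Crest.Agent.R236.Det
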