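import Crest.Agent.R236.BCor3
import Crest.Agent.R236.BFinal
import Crest.Agent.R236.BVolF

/-! Row 236 (helper418): `EnergyStmt n` from the mass bound. -/

set_option autoImplicit false
open scoped ContDiff
open MeasureTheory Set
open Crest.GeometryTopology.CoordMetric Crest.GeometryTopology.AffineMaximal

namespace Crest.Agent.R236.BCor

open Crest.Agent.R236.B (VV APX Grid sg)
open Crest.Agent.R236.A (EE epi SOL)

/-- the mass bound `∫_{D_s} N(e_*)^{-n/2} dx/ρ ≤ C` -/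
def MassStmt (n : ℕ) : Prop := ∀ Θ K c2 C0 : ℝ, 16 ≤ Θ → 0 < K → 0 < c2 → 1 ≤ C0 →
  ∃ Cm : ℝ, 0 ≤ Cm ∧
  ∀ (N : ℕ) (ε0 : ℝ), 0 < ε0 → ε0 ≤ 1 → ∀ (Ω : Set (EE n)) (u : EE n → ℝ) (P0 W0 : VV n →L[ℝ] ℝ)
    (pc wc : ℝ) (eP eW O : VV n) (es Q : ℝ → ℝ → VV n) (nrm : ℝ → ℝ → Seminorm ℝ (VV n)),
    APX n Θ K c2 C0 N ε0 Ω u P0 W0 pc wc eP eW O es Q nrm →
    ∀ lam tau : ℝ, Grid N lam tau →
    ∫⁻ x in {x | x ∈ Ω ∧ B.aff P0 pc (x, u x) / lam + B.aff W0 wc (x, u x) / tau < Θ},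
      ENNReal.ofReal (Bla.Nv u (es lam tau) x ^ (-(n : ℝ) / 2) * (1 / Bla.rho u x))
        ≤ ENNReal.ofReal Cm

/-- pointwise: `N^{-n/2}/ρ = (N/ρ)^{1/2} (N^{-(n+1)}/ρ)^{1/2}` -/
theorem mass_pointwise {n : ℕ} {Ω : Set (EE n)} {u : EE n → ℝ} (h : SC Ω u) {x : EE n} (hx : x ∈ Ω)
    {s : ℝ} (hs : 0 < s) :
    (Bla.rho u x * s) ^ (-(n : ℝ) / 2) * (1 / Bla.rho u x) =
      s ^ ((1 : ℝ) / 2) * ((hessianMat u x).det / s ^ (n + 1)) ^ ((1 : ℝ) / 2) := by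
  have hr := Bla.rho_pos h hx
  have hd := h.det_pos hx
  have h1 := Bla.rho_pow_det h hx
  have e1 : (hessianMat u x).det = Bla.rho u x ^ (-((n : ℝ) + 2)) := by
    have e2 : Bla.rho u x ^ (-((n : ℝ) + 2)) = (Bla.rho u x ^ (n + 2))⁻¹ := by
      rw [Real.rpow_neg hr.le]
      congr 1
      rw [← Real.rpow_natCast]
      push_cast
      rfl
    rw [e2]
    exact eq_inv_of_mul_eq_one_right h1
  have e3 : (hessianMat u x).det / s ^ (n + 1) =
      Bla.rho u x ^ (-((n : ℝ) + 2)) * s ^ (-((n : ℝ) + 1)) := by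
    rw [e1, div_eq_mul_inv]
    congr 1
    rw [Real.rpow_neg hs.le]
    congr 1
    rw [← Real.rpow_natCast]
    push_cast
    rfl
  rw [e3, Real.mul_rpow hr.le hs.le, Real.mul_rpow (by positivity) (by positivity),
    ← Real.rpow_mul hr.le, ← Real.rpow_mul hs.le, one_div, ← Real.rpow_neg_one]
  have e4 : Bla.rho u x ^ (-(n : ℝ) / 2) * s ^ (-(n : ℝ) / 2) * Bla.rho u x ^ (-1 : ℝ)
      = (Bla.rho u x ^ (-(n : ℝ) / 2) * Bla.rho u x ^ (-1 : ℝ)) * s ^ (-(n : ℝ) / 2) := by ring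
  have e5 : s ^ ((1 / 2 : ℝ)) * (Bla.rho u x ^ (-((n : ℝ) + 2) * (1 / 2 : ℝ)) *
      s ^ (-((n : ℝ) + 1) * (1 / 2 : ℝ)))
      = Bla.rho u x ^ (-((n : ℝ) + 2) * (1 / 2 : ℝ)) *
        (s ^ ((1 / 2 : ℝ)) * s ^ (-((n : ℝ) + 1) * (1 / 2 : ℝ))) := by ring
  rw [e4, e5, ← Real.rpow_add hr, ← Real.rpow_add hs]
  congr 2 <;> ring

theorem massStmt (n : ℕ) : MassStmt n := by
  intro Θ K c2 C0 hΘ hK hc2 hC0
  have hA : 0 ≤ (K + C0) ^ (n + 1) := by positivity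
  have hB : 0 ≤ ((n : ℝ) + 1) * (4 * C0) ^ (n + 1) := by positivity
  refine ⟨((K + C0) ^ (n + 1) * (((n : ℝ) + 1) * (4 * C0) ^ (n + 1))) ^ ((1 : ℝ) / 2),
    by positivity, ?_⟩
  intro N ε0 hε0 hε1 Ω u P0 W0 pc wc eP eW O es Q nrm h lam tau hg
  have hsc := h.sol.sc
  have hsub : {x | x ∈ Ω ∧ B.aff P0 pc (x, u x) / lam + B.aff W0 wc (x, u x) / tau < Θ} ⊆
      BVolC.DD Ω u P0 W0 pc wc Θ lam tau := fun x hx => ⟨hx.1, hx.2.le⟩
  refine (lintegral_mono_set hsub).trans ?_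
  have hDm := BVolC.measurableSet_DD (P0 := P0) (W0 := W0) (pc := pc) (wc := wc) (Θ := Θ)
    hsc lam tau
  have m1 := BVolC.M1 h hg
  have m2 := BVolC.M2 h hg
  set D := BVolC.DD Ω u P0 W0 pc wc Θ lam tau with hD
  have hk : 0 < BVolC.kap (nrm lam tau) := BVolC.kap_pos _ (h.definite lam tau hg)
  set kp := BVolC.kap (nrm lam tau) with hkp
  have hDΩ : D ⊆ Ω := fun x hx => hx.1
  have hf : AEMeasurable (fun x => ENNReal.ofReal (sg u (es lam tau) x)) (volume.restrict D) :=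
    (((BVolC.continuousOn_sg hsc (es lam tau)).mono hDΩ).aemeasurable hDm).ennreal_ofReal
  have hspos : ∀ x ∈ D, 0 < sg u (es lam tau) x := fun x hx => h.sg_es lam tau hg x hx.1 hx.2
  have hgm : AEMeasurable (fun x => ENNReal.ofReal
      ((hessianMat u x).det / (sg u (es lam tau) x) ^ (n + 1))) (volume.restrict D) := by
    have hc : ContinuousOn (fun x => (hessianMat u x).det / (sg u (es lam tau) x) ^ (n + 1)) D := by
      apply ContinuousOn.div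
      · exact hsc.contDiffOn_det.continuousOn.mono hDΩ
      · exact ((BVolC.continuousOn_sg hsc (es lam tau)).mono hDΩ).pow _
      · intro x hx; exact pow_ne_zero _ (hspos x hx).ne'
    exact (hc.aemeasurable hDm).ennreal_ofReal
  have hold := ENNReal.lintegral_mul_norm_pow_le (μ := volume.restrict D)
    (f := fun x => ENNReal.ofReal (sg u (es lam tau) x))
    (g := fun x => ENNReal.ofReal ((hessianMat u x).det / (sg u (es lam tau) x) ^ (n + 1)))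
    hf hgm (p := 1 / 2) (q := 1 / 2) (by norm_num) (by norm_num) (by norm_num)
  have e0 : ∫⁻ x in D, ENNReal.ofReal (Bla.Nv u (es lam tau) x ^ (-(n : ℝ) / 2) *
      (1 / Bla.rho u x)) = ∫⁻ x in D, ENNReal.ofReal (sg u (es lam tau) x) ^ ((1 : ℝ) / 2) *
        ENNReal.ofReal ((hessianMat u x).det / (sg u (es lam tau) x) ^ (n + 1)) ^ ((1 : ℝ) / 2) := by
    refine setLIntegral_congr_fun hDm fun x hx => ?_
    have hs := hspos x hx
    have hd := hsc.det_pos (hDΩ hx)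
    rw [ENNReal.ofReal_rpow_of_pos hs, ENNReal.ofReal_rpow_of_pos (by positivity),
      ← ENNReal.ofReal_mul (by positivity)]
    congr 1
    exact mass_pointwise hsc (hDΩ hx) hs
  rw [e0]
  refine hold.trans ?_
  calc (∫⁻ x in D, ENNReal.ofReal (sg u (es lam tau) x)) ^ ((1 : ℝ) / 2) *
        (∫⁻ x in D, ENNReal.ofReal ((hessianMat u x).det / (sg u (es lam tau) x) ^ (n + 1))) ^
          ((1 : ℝ) / 2)
      ≤ ENNReal.ofReal ((K + C0) ^ (n + 1) * kp) ^ ((1 : ℝ) / 2) *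
        ENNReal.ofReal (((n : ℝ) + 1) * (4 * C0) ^ (n + 1) / kp) ^ ((1 : ℝ) / 2) := by
        gcongr
    _ = ENNReal.ofReal (((K + C0) ^ (n + 1) * (((n : ℝ) + 1) * (4 * C0) ^ (n + 1))) ^
          ((1 : ℝ) / 2)) := by
        rw [ENNReal.ofReal_rpow_of_nonneg (by positivity) (by norm_num),
          ENNReal.ofReal_rpow_of_nonneg (by positivity) (by norm_num),
          ← ENNReal.ofReal_mul (by positivity), ← Real.mul_rpow (by positivity) (by positivity)]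
        congr 2
        field_simp

theorem energyStmt_of_mass {n : ℕ} (hM : MassStmt n) : BF.EnergyStmt n := by
  intro Θ K c2 C0 hΘ hK hc2 hC0
  obtain ⟨Cm, hCm, hm⟩ := hM Θ K c2 C0 hΘ hK hc2 hC0
  refine ⟨Cbox n Θ Θ * (C0 ^ ((n : ℝ) / 2) * Cm), ?_⟩
  intro N ε0 hε0 hε1 Ω u P0 W0 pc wc eP eW O es Q nrm h a b ha hb
  have hg : Grid N ((2 : ℝ) ^ a) ((2 : ℝ) ^ b) := ⟨a, b, ha, hb, rfl, rfl⟩
  have hmass := hm N ε0 hε0 hε1 Ω u P0 W0 pc wc eP eW O es Q nrm h _ _ hg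
  have key := energy_apx h hε0.le hε1 hg hCm hmass
  refine le_trans ?_ key
  have hsub : {x | x ∈ Ω ∧ B.aff P0 pc (x, u x) / (2:ℝ)^a + B.aff W0 wc (x, u x) / (2:ℝ)^b ≤ 2} ⊆
      {x | x ∈ Ω ∧ B.aff P0 pc (x, u x) / (2:ℝ)^a + B.aff W0 wc (x, u x) / (2:ℝ)^b < Θ / 4} := by
    intro x hx
    refine ⟨hx.1, ?_⟩
    have := hx.2
    linarith
  refine le_trans (le_of_eq ?_) (lintegral_mono_set hsub)
  congr 1

theorem energyStmt (n : ℕ) : BF.EnergyStmt n := energyStmt_of_mass (massStmt n)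

end Crest.Agent.R236.BCor
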