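import Mathlib
import Crest.Prelude.Def_AffineMaximal

/-!
Row 236, S0366, part (C): from the scalar ODE to the affine maximal equation on `ℝ¹⁰`
for `u = √(g(|x'|²) + x₁₀²)`.
-/

set_option autoImplicit false
open scoped ContDiff
open Crest.GeometryTopology.CoordMetric Crest.GeometryTopology.AffineMaximal

noncomputable section
namespace Crest.Agent.R236.Ex

abbrev E10 := EuclideanSpace ℝ (Fin 10)

/-- sum of squares of the first nine coordinates -/
def S (x : E10) : ℝ := ∑ i : Fin 9, (x (Fin.castSucc i)) ^ 2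

def cv (x : E10) : Fin 10 → ℝ := fun i => if i = 9 then 0 else 2 * x i

def dv : Fin 10 → ℝ := fun i => if i = 9 then 1 else 0

/-- diagonal of the projection on the first nine coordinates -/
def pv : Fin 10 → ℝ := fun i => if i = 9 then 0 else 1

/-- coordinate functional -/
def pr (i : Fin 10) : E10 →L[ℝ] ℝ := EuclideanSpace.proj (𝕜 := ℝ) i

def dS (x : E10) : E10 →L[ℝ] ℝ :=
  ∑ i : Fin 9, (2 * x (Fin.castSucc i)) • pr (Fin.castSucc i)

def dcv (i : Fin 10) : E10 →L[ℝ] ℝ := (if i = 9 then (0 : ℝ) else 2) • pr i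

def p9 : E10 →L[ℝ] ℝ := pr 9

lemma S_nonneg (x : E10) : 0 ≤ S x := Finset.sum_nonneg (fun i _ => sq_nonneg _)

lemma hasFDerivAt_coord (i : Fin 10) (x : E10) :
    HasFDerivAt (fun x : E10 => x i) (pr i) x :=
  (pr i).hasFDerivAt

lemma hasFDerivAt_S (x : E10) : HasFDerivAt S (dS x) x := by
  unfold S dS
  have := HasFDerivAt.fun_sum (u := (Finset.univ : Finset (Fin 9)))
    (A := fun i (x : E10) => (x (Fin.castSucc i)) ^ 2)
    (A' := fun i => (2 * x (Fin.castSucc i)) • pr (Fin.castSucc i)) (x := x)
    (by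
      intro i _
      have h := (hasFDerivAt_coord (Fin.castSucc i) x).pow 2
      simpa [smul_smul] using h)
  exact this

lemma hasFDerivAt_cv (i : Fin 10) (x : E10) : HasFDerivAt (fun x => cv x i) (dcv i) x := by
  unfold cv dcv
  by_cases h : i = 9
  · simp only [h, if_true, zero_smul]
    exact hasFDerivAt_const _ _
  · simp only [h, if_false]
    exact (hasFDerivAt_coord i x).const_mul 2

lemma hasFDerivAt_y (x : E10) : HasFDerivAt (fun x : E10 => x 9) p9 x := hasFDerivAt_coord 9 x

lemma proj_single (i j : Fin 10) :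
    pr i (EuclideanSpace.single j 1) = if i = j then 1 else 0 := by
  change (EuclideanSpace.single j (1 : ℝ)) i = _
  simp

lemma p9_single (j : Fin 10) : p9 (EuclideanSpace.single j 1) = dv j := by
  rw [p9, proj_single, dv]
  simp [eq_comm]

lemma dcv_single (i j : Fin 10) : dcv i (EuclideanSpace.single j 1) = if i = j then 2 * pv i else 0 := by
  simp only [dcv, pv, smul_apply, proj_single, smul_eq_mul]
  by_cases h : i = j
  · subst h
    by_cases h9 : i = 9 <;> simp [h9]
  · simp [h]

lemma dS_single (x : E10) (j : Fin 10) : dS x (EuclideanSpace.single j 1) = cv x j := by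
  simp only [dS, sum_apply, smul_apply, proj_single, smul_eq_mul, cv]
  induction j using Fin.lastCases with
  | last =>
    have h9 : (Fin.last 9 : Fin 10) = 9 := rfl
    simp only [h9, if_true]
    apply Finset.sum_eq_zero
    intro i _
    have hne : Fin.castSucc i ≠ (9 : Fin 10) := by
      have := Fin.castSucc_lt_last i
      rw [h9] at this
      exact ne_of_lt this
    simp [hne]
  | cast k =>
    have hne : Fin.castSucc k ≠ (9 : Fin 10) := by
      have := Fin.castSucc_lt_last k
      exact ne_of_lt this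
    simp only [hne, if_false]
    rw [Finset.sum_eq_single k]
    · simp
    · intro i _ hik
      have : Fin.castSucc i ≠ Fin.castSucc k := fun h => hik (Fin.castSucc_injective _ h)
      rw [if_neg this]; simp
    · simp

/-- algebra of the vectors `cv`, `dv`, `pv` -/
lemma cv_mul_dv (x : E10) (i : Fin 10) : cv x i * dv i = 0 := by
  unfold cv dv; by_cases h : i = 9 <;> simp [h]

lemma pv_mul_dv (i : Fin 10) : pv i * dv i = 0 := by
  unfold pv dv; by_cases h : i = 9 <;> simp [h]

lemma pv_mul_cv (x : E10) (i : Fin 10) : pv i * cv x i = cv x i := by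
  unfold cv pv; by_cases h : i = 9 <;> simp [h]

lemma pv_mul_pv (i : Fin 10) : pv i * pv i = pv i := by
  unfold pv; by_cases h : i = 9 <;> simp [h]

lemma dv_mul_dv (i : Fin 10) : dv i * dv i = dv i := by
  unfold dv; by_cases h : i = 9 <;> simp [h]

lemma sum_dv : ∑ i, dv i = 1 := by
  simp [dv]

lemma sum_pv : ∑ i, pv i = 9 := by
  simp [pv, Finset.sum_ite, Finset.filter_ne']

lemma sum_cv_sq (x : E10) : ∑ i, cv x i * cv x i = 4 * S x := by
  rw [Fin.sum_univ_castSucc]
  have h9 : cv x (Fin.last 9) = 0 := by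
    simp [cv]
  rw [h9, S, Finset.mul_sum]
  simp only [mul_zero, add_zero]
  apply Finset.sum_congr rfl
  intro i _
  have hne : Fin.castSucc i ≠ (9 : Fin 10) := ne_of_lt (Fin.castSucc_lt_last i)
  simp only [cv, hne, if_false]; ring

lemma pv_add_dv (i : Fin 10) : pv i + dv i = 1 := by
  unfold pv dv; by_cases h : i = 9 <;> simp [h]

end Crest.Agent.R236.Ex
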