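import Mathlib

/-!
# Row 236 / S0366: data of the radial profile (`u = √(g(|x'|²) + y²)`)
-/

set_option autoImplicit false
open scoped ContDiff

namespace Crest.Agent.R236.Ex

/-- Local solution at the singular point `s = 0` of the profile system
`a' = a (b - a) / 2`, `σ' = σ (a - 9 b + 12 a (2σ - 1) / (9 + 2 s a)) / 2`, `σ = 1 + s b`. -/
structure Loc where
  eps : ℝ
  a : ℝ → ℝ
  b : ℝ → ℝ
  heps : 0 < eps
  sa : ContDiffOn ℝ ∞ a (Set.Ioo (-eps) eps)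
  sb : ContDiffOn ℝ ∞ b (Set.Ioo (-eps) eps)
  a0 : 0 < a 0
  da : ∀ s, 0 ≤ s → s < eps → HasDerivAt a (a s * (b s - a s) / 2) s
  db : ∀ s, 0 ≤ s → s < eps → HasDerivAt (fun s => 1 + s * b s)
    ((1 + s * b s) * (a s - 9 * b s + 12 * a s * (1 + 2 * s * b s) / (9 + 2 * s * a s)) / 2) s

/-- Global profile. -/
structure GProf where
  e : ℝ
  g : ℝ → ℝ
  a : ℝ → ℝ
  b : ℝ → ℝ
  he : 0 < e
  sg : ContDiffOn ℝ ∞ g (Set.Ioi (-e))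
  sa : ContDiffOn ℝ ∞ a (Set.Ioi (-e))
  sb : ContDiffOn ℝ ∞ b (Set.Ioi (-e))
  g_pos : ∀ s, 0 ≤ s → 0 < g s
  a_pos : ∀ s, 0 ≤ s → 0 < a s
  b_pos : ∀ s, 0 ≤ s → 0 < b s
  dg : ∀ s, 0 ≤ s → HasDerivAt g (a s * g s) s
  da : ∀ s, 0 ≤ s → HasDerivAt a (a s * (b s - a s) / 2) s
  db : ∀ s, 0 ≤ s → HasDerivAt (fun s => 1 + s * b s)
    ((1 + s * b s) * (a s - 9 * b s + 12 * a s * (1 + 2 * s * b s) / (9 + 2 * s * a s)) / 2) s

end Crest.Agent.R236.Ex
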