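import Crest.Agent.R236.ExU

/-!
Row 236, S0366: from the profile (solution of the planar system) to the entire affine maximal graph.
-/

set_option autoImplicit false
open scoped ContDiff
open Crest.GeometryTopology.CoordMetric Crest.GeometryTopology.AffineMaximal

noncomputable section
namespace Crest.Agent.R236.Ex

/-- logarithmic derivative of `ψ` -/
def LL (a b : ℝ → ℝ) (s : ℝ) : ℝ := -11 * (a s * (4 + s * a s + (1 + s * b s))) / (9 + 2 * (s * a s))

def PS (g a b : ℝ → ℝ) (s : ℝ) : ℝ := (a s ^ 9 * g s ^ 10 * (1 + s * b s)) ^ (-(11 : ℝ) / 12)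

def aD (a b : ℝ → ℝ) (s : ℝ) : ℝ := a s * (b s - a s) / 2

def sD (a b : ℝ → ℝ) (s : ℝ) : ℝ :=
  (1 + s * b s) * (a s - 9 * b s + 12 * a s * (1 + 2 * s * b s) / (9 + 2 * s * a s)) / 2

def LD (a b : ℝ → ℝ) (s : ℝ) : ℝ :=
  (-11 * (aD a b s * (4 + s * a s + (1 + s * b s)) + a s * ((a s + s * aD a b s) + sD a b s)) *
    (9 + 2 * (s * a s)) - (-11 * (a s * (4 + s * a s + (1 + s * b s)))) * (2 * (a s + s * aD a b s)))
    / (9 + 2 * (s * a s)) ^ 2

structure Prof (g a b : ℝ → ℝ) : Prop where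
  gpos : ∀ s, 0 ≤ s → 0 < g s
  apos : ∀ s, 0 ≤ s → 0 < a s
  spos : ∀ s, 0 ≤ s → 0 < 1 + s * b s
  dg : ∀ s, 0 ≤ s → HasDerivAt g (a s * g s) s
  da : ∀ s, 0 ≤ s → HasDerivAt a (a s * (b s - a s) / 2) s
  ds : ∀ s, 0 ≤ s → HasDerivAt (fun s => 1 + s * b s)
    ((1 + s * b s) * (a s - 9 * b s + 12 * a s * (1 + 2 * s * b s) / (9 + 2 * s * a s)) / 2) s

variable {g a b : ℝ → ℝ}

lemma den_pos (h : Prof g a b) (s : ℝ) (hs : 0 ≤ s) : 0 < 9 + 2 * (s * a s) := by
  have := h.apos s hs; positivity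

lemma algP (A B G s P σ : ℝ) (hA : A ≠ 0) (hG : G ≠ 0) (hσ : σ ≠ 0) (hd : 9 + 2 * s * A ≠ 0)
    (hsig : σ = 1 + s * B) :
    ((9 * A ^ (9 - 1) * (A * (B - A) / 2) * G ^ 10 + A ^ 9 * (10 * G ^ (10 - 1) * (A * G))) * σ +
      A ^ 9 * G ^ 10 * (σ * (A - 9 * B + 12 * A * (1 + 2 * s * B) / (9 + 2 * s * A)) / 2)) *
      (-(11 : ℝ) / 12) * (P / (A ^ 9 * G ^ 10 * σ)) =
    P * (-11 * (A * (4 + s * A + σ)) / (9 + 2 * (s * A))) := by
  have e : 9 + 2 * (s * A) = 9 + 2 * s * A := by ring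
  rw [e]
  generalize hdd : 9 + 2 * s * A = d at *
  field_simp
  rw [hsig, ← hdd]
  ring

lemma hasDerivAt_PS (h : Prof g a b) (s : ℝ) (hs : 0 ≤ s) :
    HasDerivAt (PS g a b) (PS g a b s * LL a b s) s := by
  have hg := h.gpos s hs
  have ha := h.apos s hs
  have hσ := h.spos s hs
  have hden := den_pos h s hs
  have hden' : 0 < 9 + 2 * s * a s := by rw [mul_assoc]; exact hden
  have hbase : HasDerivAt (fun s => a s ^ 9 * g s ^ 10 * (1 + s * b s)) _ s :=
    (((h.da s hs).pow 9).mul ((h.dg s hs).pow 10)).mul (h.ds s hs)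
  have hpos : 0 < a s ^ 9 * g s ^ 10 * (1 + s * b s) := by positivity
  have hr := hbase.rpow_const (p := (-(11 : ℝ) / 12)) (Or.inl hpos.ne')
  have hr' : HasDerivAt (PS g a b) _ s := hr
  refine hr'.congr_deriv ?_
  have e : (a s ^ 9 * g s ^ 10 * (1 + s * b s)) ^ (-(11 : ℝ) / 12 - 1) =
      PS g a b s / (a s ^ 9 * g s ^ 10 * (1 + s * b s)) := by
    unfold PS; rw [Real.rpow_sub_one hpos.ne']
  simp only [Pi.mul_apply, Pi.pow_apply]
  rw [e]
  have := algP (a s) (b s) (g s) s (PS g a b s) (1 + s * b s) ha.ne' hg.ne' hσ.ne' hden'.ne' rfl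
  push_cast
  unfold LL
  rw [← this]

lemma hasDerivAt_LL (h : Prof g a b) (s : ℝ) (hs : 0 ≤ s) :
    HasDerivAt (LL a b) (LD a b s) s := by
  have hden := den_pos h s hs
  have h1 : HasDerivAt (fun s => s * a s) (1 * a s + s * aD a b s) s :=
    (hasDerivAt_id s).mul (h.da s hs)
  have h2 : HasDerivAt (fun s => 4 + s * a s + (1 + s * b s)) ((1 * a s + s * aD a b s) + sD a b s) s :=
    (h1.const_add 4).add (h.ds s hs)
  have h3 : HasDerivAt (fun s => -11 * (a s * (4 + s * a s + (1 + s * b s)))) _ s :=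
    ((h.da s hs).mul h2).const_mul (-11)
  have h4 : HasDerivAt (fun s => 9 + 2 * (s * a s)) _ s := (h1.const_mul 2).const_add 9
  have h5 : HasDerivAt (LL a b) _ s := h3.fun_div h4 hden.ne'
  refine h5.congr_deriv ?_
  unfold LD
  congr 1
  unfold aD
  ring

theorem dat_of_prof (h : Prof g a b) : Dat g (fun s => a s * g s)
    (fun s => aD a b s * g s + a s * (a s * g s)) (PS g a b) (fun s => PS g a b s * LL a b s)
    (fun s => (PS g a b s * LL a b s) * LL a b s + PS g a b s * LD a b s) where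
  dg := h.dg
  dg1 := fun s hs => (h.da s hs).mul (h.dg s hs)
  dψ := hasDerivAt_PS h
  dψ1 := fun s hs => (hasDerivAt_PS h s hs).mul (hasDerivAt_LL h s hs)
  gpos := h.gpos
  g1pos := fun s hs => mul_pos (h.apos s hs) (h.gpos s hs)
  Kpos := fun s hs => by
    have hg := h.gpos s hs
    have ha := h.apos s hs
    have hσ := h.spos s hs
    have : g s * (a s * g s) + s * (2 * g s * (aD a b s * g s + a s * (a s * g s)) - (a s * g s) ^ 2)
        = g s ^ 2 * a s * (1 + s * b s) := by unfold aD; ring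
    rw [this]; positivity
  ψeq := fun s hs => by
    unfold PS
    congr 1
    unfold aD
    ring
  ode := fun s hs => by
    have hg := h.gpos s hs
    have ha := h.apos s hs
    have hσ := h.spos s hs
    have hden := den_pos h s hs
    have hden' : 0 < 9 + 2 * s * a s := by rw [mul_assoc]; exact hden
    generalize PS g a b s = P
    unfold LD LL sD aD
    field_simp
    ring

lemma contDiff_S : ContDiff ℝ ∞ S := by
  unfold S
  apply ContDiff.sum
  intro i _
  have : ContDiff ℝ ∞ (fun x : E10 => x (Fin.castSucc i)) := (pr (Fin.castSucc i)).contDiff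
  exact this.pow 2

lemma contDiff_UU (h : Prof g a b) {e : ℝ} (he : 0 < e) (hg : ContDiffOn ℝ ∞ g (Set.Ioi (-e))) :
    ContDiff ℝ ∞ (UU g) := by
  have h1 : ContDiff ℝ ∞ (fun x : E10 => g (S x)) := by
    rw [← contDiffOn_univ]
    refine hg.comp contDiff_S.contDiffOn ?_
    intro x _
    have := S_nonneg x
    show -e < S x
    linarith
  have h2 : ContDiff ℝ ∞ (fun x : E10 => x 9) := (pr 9).contDiff
  have h3 : ContDiff ℝ ∞ (fun x : E10 => g (S x) + (x 9) ^ 2) := h1.add (h2.pow 2)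
  exact h3.sqrt (fun x => (E_pos (dat_of_prof h) x).ne')

theorem S0366_of_prof (h : Prof g a b) {e : ℝ} (he : 0 < e) (hg : ContDiffOn ℝ ∞ g (Set.Ioi (-e))) :
    ∃ u : EuclideanSpace ℝ (Fin 10) → ℝ, ContDiff ℝ ∞ u ∧ (∀ x, (hessianMat u x).PosDef) ∧
      (∀ x, affineMaximalOp 10 u x = 0) ∧
      ¬ ∃ (A : Matrix (Fin 10) (Fin 10) ℝ) (b : EuclideanSpace ℝ (Fin 10)) (c : ℝ),
        ∀ x, u x = (1 / 2) * (∑ i, ∑ j, A i j * x i * x j) + (∑ i, b i * x i) + c :=
  ⟨UU g, contDiff_UU h he hg, posDef_UU (dat_of_prof h), op_zero (dat_of_prof h),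
    not_quadratic (dat_of_prof h)⟩

end Crest.Agent.R236.Ex
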