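import Crest.Agent.R236.ExGlobB
import Crest.Agent.R236.ExTop

/-!
# Row 236 / S0366: statement S0366 from a local solution
-/

set_option autoImplicit false
open scoped ContDiff
open Crest.GeometryTopology.CoordMetric Crest.GeometryTopology.AffineMaximal

namespace Crest.Agent.R236.Ex

/-- S0366 follows from the existence of a local solution of the profile system. -/
theorem S0366_of_loc (h : Nonempty Loc) :
    ∃ u : EuclideanSpace ℝ (Fin 10) → ℝ, ContDiff ℝ ∞ u ∧ (∀ x, (hessianMat u x).PosDef) ∧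
      (∀ x, affineMaximalOp 10 u x = 0) ∧
      ¬ ∃ (A : Matrix (Fin 10) (Fin 10) ℝ) (b : EuclideanSpace ℝ (Fin 10)) (c : ℝ),
        ∀ x, u x = (1 / 2) * (∑ i, ∑ j, A i j * x i * x j) + (∑ i, b i * x i) + c := by
  obtain ⟨L⟩ := h
  obtain ⟨p⟩ := prof_of_loc L
  refine S0366_of_prof (g := p.g) (a := p.a) (b := p.b) ⟨p.g_pos, p.a_pos, fun s hs => ?_,
    p.dg, p.da, p.db⟩ p.he p.sg
  have := p.b_pos s hs
  positivity

end Crest.Agent.R236.Ex
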