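import Crest.Agent.R236.ExDefs
import Crest.Agent.Lib.ODEFlow

/-!
# Row 236 / S0366: the planar autonomous system and its trapping region
-/

set_option autoImplicit false
open scoped ContDiff
open Set Crest.Agent.Lib.ODEFlow

namespace Crest.Agent.R236.Ex.Glob

def P (z : ℝ × ℝ) : ℝ := z.2 - 2 * z.1 + 1
def Q (z : ℝ × ℝ) : ℝ := 81 + 30 * z.1 + 8 * z.1 ^ 2 - z.2 * (81 - 12 * z.1)

/-- the trapping region -/
def Rg : Set (ℝ × ℝ) := {z | 0 < z.1 ∧ z.1 < 9 / 4 ∧ 0 < z.2 ∧ 0 < P z ∧ 0 < Q z}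

/-- the vector field -/
noncomputable def V (z : ℝ × ℝ) : ℝ × ℝ := (z.1 * P z / 2, z.2 * Q z / (2 * (9 + 4 * z.1)))

lemma continuous_P : Continuous P := by unfold P; fun_prop
lemma continuous_Q : Continuous Q := by unfold Q; fun_prop

lemma isOpen_Rg : IsOpen Rg := by
  have h1 : IsOpen {z : ℝ × ℝ | 0 < z.1} := isOpen_lt continuous_const continuous_fst
  have h2 : IsOpen {z : ℝ × ℝ | z.1 < 9 / 4} := isOpen_lt continuous_fst continuous_const
  have h3 : IsOpen {z : ℝ × ℝ | 0 < z.2} := isOpen_lt continuous_const continuous_snd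
  have h4 : IsOpen {z : ℝ × ℝ | 0 < P z} := isOpen_lt continuous_const continuous_P
  have h5 : IsOpen {z : ℝ × ℝ | 0 < Q z} := isOpen_lt continuous_const continuous_Q
  exact h1.inter (h2.inter (h3.inter (h4.inter h5)))

lemma contDiffOn_V : ContDiffOn ℝ ∞ V Rg := by
  unfold V P Q
  refine ContDiffOn.prodMk (by fun_prop) ?_
  refine ContDiffOn.div (by fun_prop) (by fun_prop) ?_
  intro z hz
  have := hz.1
  positivity

lemma contDiffOn_V1 : ContDiffOn ℝ 1 V Rg := contDiffOn_V.of_le (by exact_mod_cast le_top)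

lemma snd_lt {z : ℝ × ℝ} (hz : z ∈ Rg) : z.2 < 7 / 2 := by
  obtain ⟨h1, h2, h3, h4, h5⟩ := hz
  unfold Q at h5
  by_contra h
  push Not at h
  nlinarith [mul_nonneg (sub_nonneg.2 h) (by linarith : (0:ℝ) ≤ 81 - 12 * z.1),
    mul_pos (by linarith : (0:ℝ) < 9 / 4 - z.1) h1]

lemma exp_lower {f f' : ℝ → ℝ} {C t : ℝ} (ht : 0 ≤ t)
    (hf : ∀ s ∈ Icc 0 t, HasDerivAt f (f' s) s) (hb : ∀ s ∈ Icc 0 t, 0 ≤ f' s + C * f s) :
    f 0 * Real.exp (-(C * t)) ≤ f t := by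
  have hd : ∀ s ∈ Icc 0 t, HasDerivAt (fun s => f s * Real.exp (C * s))
      ((f' s + C * f s) * Real.exp (C * s)) s := by
    intro s hs
    have h2 : HasDerivAt (fun s : ℝ => C * s) C s := by simpa using (hasDerivAt_id s).const_mul C
    exact ((hf s hs).mul h2.exp).congr_deriv (by ring)
  have hm : MonotoneOn (fun s => f s * Real.exp (C * s)) (Icc 0 t) := by
    apply monotoneOn_of_deriv_nonneg (convex_Icc 0 t)
    · exact fun s hs => (hd s hs).continuousAt.continuousWithinAt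
    · intro s hs
      exact (hd s (interior_subset hs)).differentiableAt.differentiableWithinAt
    · intro s hs
      rw [(hd s (interior_subset hs)).deriv]
      exact mul_nonneg (hb s (interior_subset hs)) (Real.exp_pos _).le
  have h := hm (left_mem_Icc.2 ht) (right_mem_Icc.2 ht) ht
  simp only [mul_zero, Real.exp_zero, mul_one] at h
  rw [Real.exp_neg, ← div_eq_mul_inv, div_le_iff₀ (Real.exp_pos _)]
  exact h

variable {z₀ : ℝ × ℝ}

/-- bounds along a flow line in the region -/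
lemma bounds (hz₀ : z₀ ∈ Rg) {t : ℝ} (ht : 0 ≤ t) (hd : (z₀, t) ∈ dom V Rg) :
    z₀.1 ≤ (flow V Rg (z₀, t)).1 ∧ z₀.2 ≤ (flow V Rg (z₀, t)).2 ∧
    P z₀ * Real.exp (-(9 / 4 * t)) ≤ P (flow V Rg (z₀, t)) ∧
    Q z₀ * Real.exp (-(16 * t)) ≤ Q (flow V Rg (z₀, t)) := by
  set c : ℝ → ℝ × ℝ := fun s => flow V Rg (z₀, s) with hc
  have hdom : ∀ s ∈ Icc 0 t, (z₀, s) ∈ dom V Rg := fun s hs =>
    mem_dom_of_uIcc hd (by rwa [uIcc_of_le ht])
  have hmem : ∀ s ∈ Icc 0 t, c s ∈ Rg := fun s hs => flow_mem isOpen_Rg contDiffOn_V1 (hdom s hs)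
  have hder : ∀ s ∈ Icc 0 t, HasDerivAt c (V (c s)) s := fun s hs =>
    hasDerivAt_flow isOpen_Rg contDiffOn_V1 (hdom s hs)
  have h1 : ∀ s ∈ Icc 0 t, HasDerivAt (fun s => (c s).1) ((c s).1 * P (c s) / 2) s := by
    intro s hs
    exact (hasDerivAt_iff_hasFDerivAt.1 (hder s hs)).fst.hasDerivAt.congr_deriv (by simp [V])
  have h2 : ∀ s ∈ Icc 0 t, HasDerivAt (fun s => (c s).2)
      ((c s).2 * Q (c s) / (2 * (9 + 4 * (c s).1))) s := by
    intro s hs
    exact (hasDerivAt_iff_hasFDerivAt.1 (hder s hs)).snd.hasDerivAt.congr_deriv (by simp [V])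
  have hc0 : c 0 = z₀ := flow_zero isOpen_Rg contDiffOn_V1 hz₀
  have e1 := exp_lower (C := 0) ht h1 (by
    intro s hs
    obtain ⟨k1, k2, k3, k4, k5⟩ := hmem s hs
    have := mul_pos k1 k4
    linarith)
  have e2 := exp_lower (C := 0) ht h2 (by
    intro s hs
    obtain ⟨k1, k2, k3, k4, k5⟩ := hmem s hs
    have : 0 < (c s).2 * Q (c s) / (2 * (9 + 4 * (c s).1)) := by positivity
    linarith)
  have e3 := exp_lower (f := fun s => P (c s)) (C := 9 / 4) ht (by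
    intro s hs
    have := ((h2 s hs).sub ((h1 s hs).const_mul 2)).add_const 1
    exact this) (by
    intro s hs
    obtain ⟨k1, k2, k3, k4, k5⟩ := hmem s hs
    have h : 0 < (c s).2 * Q (c s) / (2 * (9 + 4 * (c s).1)) := by positivity
    nlinarith [mul_pos (sub_pos.2 k2) k4])
  have e4 := exp_lower (f := fun s => Q (c s)) (C := 16) ht (by
    intro s hs
    have := ((((h1 s hs).const_mul 30).const_add 81).add (((h1 s hs).pow 2).const_mul 8)).sub
      ((h2 s hs).mul (((h1 s hs).const_mul 12).const_sub 81))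
    exact this) (by
    intro s hs
    have k6 := snd_lt (hmem s hs)
    obtain ⟨k1, k2, k3, k4, k5⟩ := hmem s hs
    have h : 0 < (c s).1 * P (c s) / 2 := by positivity
    have h8 : (c s).2 * Q (c s) / (2 * (9 + 4 * (c s).1)) * (81 - 12 * (c s).1) ≤ 16 * Q (c s) := by
      have h9 : (c s).2 * (81 - 12 * (c s).1) / (2 * (9 + 4 * (c s).1)) ≤ 16 := by
        rw [div_le_iff₀ (by positivity)]
        nlinarith [mul_nonneg (sub_nonneg.2 k6.le) (by linarith : (0:ℝ) ≤ 81 - 12 * (c s).1)]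
      calc _ = (c s).2 * (81 - 12 * (c s).1) / (2 * (9 + 4 * (c s).1)) * Q (c s) := by ring
        _ ≤ _ := mul_le_mul_of_nonneg_right h9 k5.le
    have h10 : 0 ≤ (c s).2 * (12 * ((c s).1 * P (c s) / 2)) := by positivity
    have h11 : 0 ≤ 8 * (2 * (c s).1 ^ (2 - 1) * ((c s).1 * P (c s) / 2)) := by positivity
    norm_num at h11 ⊢
    nlinarith)
  rw [hc0] at e1 e2 e3 e4
  simp only [zero_mul, neg_zero, Real.exp_zero, mul_one] at e1 e2
  exact ⟨e1, e2, e3, e4⟩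

/-- compact sets in the region -/
def K (z₀ : ℝ × ℝ) (T : ℝ) : Set (ℝ × ℝ) :=
  (Icc z₀.1 (9 / 4) ×ˢ Icc z₀.2 (7 / 2)) ∩
    ({z | P z₀ * Real.exp (-(9 / 4 * T)) ≤ P z} ∩ {z | Q z₀ * Real.exp (-(16 * T)) ≤ Q z})

lemma isCompact_K (z₀ : ℝ × ℝ) (T : ℝ) : IsCompact (K z₀ T) := by
  refine (isCompact_Icc.prod isCompact_Icc).inter_right ?_
  exact (isClosed_le continuous_const continuous_P).inter
    (isClosed_le continuous_const continuous_Q)

lemma K_subset (hz₀ : z₀ ∈ Rg) (T : ℝ) : K z₀ T ⊆ Rg := by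
  rintro z ⟨⟨⟨h1, h2⟩, h3, h4⟩, h5, h6⟩
  obtain ⟨k1, k2, k3, k4, k5⟩ := hz₀
  have p1 : 0 < P z := lt_of_lt_of_le (mul_pos k4 (Real.exp_pos _)) h5
  have q1 : 0 < Q z := lt_of_lt_of_le (mul_pos k5 (Real.exp_pos _)) h6
  refine ⟨k1.trans_le h1, ?_, k3.trans_le h3, p1, q1⟩
  unfold P at p1
  linarith

lemma mem_dom (hz₀ : z₀ ∈ Rg) {T : ℝ} (hT : 0 ≤ T) : (z₀, T) ∈ dom V Rg := by
  refine mem_dom_of_compact isOpen_Rg contDiffOn_V1 (isCompact_K z₀ T) (K_subset hz₀ T) hz₀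
    ?_ hT
  intro t ht hd
  obtain ⟨b1, b2, b3, b4⟩ := bounds hz₀ ht.1 hd
  have hm := flow_mem isOpen_Rg contDiffOn_V1 hd
  have h7 := snd_lt hm
  refine ⟨⟨⟨b1, hm.2.1.le⟩, b2, h7.le⟩, ?_, ?_⟩
  · refine le_trans ?_ b3
    apply mul_le_mul_of_nonneg_left _ hz₀.2.2.2.1.le
    apply Real.exp_le_exp.2
    have := ht.2.le
    linarith
  · refine le_trans ?_ b4
    apply mul_le_mul_of_nonneg_left _ hz₀.2.2.2.2.le
    apply Real.exp_le_exp.2
    have := ht.2.le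
    linarith

end Crest.Agent.R236.Ex.Glob
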