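import Crest.Agent.R236.ExGlobA

/-!
# Row 236 / S0366: gluing of the local solution with the global flow
-/

set_option autoImplicit false
open scoped ContDiff Topology
open Set Filter Crest.Agent.Lib.ODEFlow

namespace Crest.Agent.R236.Ex.Glob

variable (L : Loc)

/-- the local solution in the coordinates of the planar system -/
noncomputable def zl (s : ℝ) : ℝ × ℝ := (s * L.a s / 2, 1 + s * L.b s)

lemma zl_P (s : ℝ) : P (zl L s) = 2 + s * (L.b s - L.a s) := by
  simp only [P, zl]; ring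

lemma zl_Q (s : ℝ) : Q (zl L s) =
    s * (21 * L.a s - 81 * L.b s + 2 * s * L.a s ^ 2 + 6 * s * L.a s * L.b s) := by
  simp only [Q, zl]; ring

lemma contDiffAt_a {s : ℝ} (h1 : -L.eps < s) (h2 : s < L.eps) : ContDiffAt ℝ ∞ L.a s :=
  L.sa.contDiffAt (Ioo_mem_nhds h1 h2)

lemma contDiffAt_b {s : ℝ} (h1 : -L.eps < s) (h2 : s < L.eps) : ContDiffAt ℝ ∞ L.b s :=
  L.sb.contDiffAt (Ioo_mem_nhds h1 h2)

lemma b_zero : L.b 0 = 7 / 33 * L.a 0 := by
  have h0 : (0:ℝ) ∈ Ioo (-L.eps) L.eps := ⟨by linarith [L.heps], L.heps⟩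
  have hb : DifferentiableAt ℝ L.b 0 :=
    (contDiffAt_b L h0.1 h0.2).differentiableAt (by simp)
  have h1 : HasDerivAt (fun s => 1 + s * L.b s) (L.b 0) 0 := by
    have := ((hasDerivAt_id (0:ℝ)).mul hb.hasDerivAt).const_add 1
    exact this.congr_deriv (by simp)
  have h2 := h1.unique (L.db 0 le_rfl L.heps)
  norm_num at h2
  linarith

/-- radius on which the local solution lies in the region -/
lemma exists_r1 : ∃ r1 : ℝ, 0 < r1 ∧ r1 ≤ L.eps ∧ (∀ s, |s| < r1 → 0 < L.a s ∧ 0 < L.b s) ∧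
    ∀ s, 0 < s → s < r1 → zl L s ∈ Rg := by
  have h0 : (0:ℝ) ∈ Ioo (-L.eps) L.eps := ⟨by linarith [L.heps], L.heps⟩
  have ha : ContinuousAt L.a 0 := (contDiffAt_a L h0.1 h0.2).continuousAt
  have hb : ContinuousAt L.b 0 := (contDiffAt_b L h0.1 h0.2).continuousAt
  have hid : ContinuousAt (fun s : ℝ => s) 0 := continuousAt_id
  have a0 := L.a0
  have b0 := b_zero L
  have e1 : ∀ᶠ s in 𝓝 (0:ℝ), 0 < L.a s := ha.eventually (lt_mem_nhds a0)
  have e2 : ∀ᶠ s in 𝓝 (0:ℝ), 0 < L.b s := hb.eventually (lt_mem_nhds (by rw [b0]; positivity))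
  have e3 : ∀ᶠ s in 𝓝 (0:ℝ), s * L.a s / 2 < 9 / 4 :=
    ((hid.mul ha).div_const 2).eventually (gt_mem_nhds (by norm_num))
  have e4 : ∀ᶠ s in 𝓝 (0:ℝ), 0 < 2 + s * (L.b s - L.a s) :=
    (continuousAt_const.add (hid.mul (hb.sub ha))).eventually (lt_mem_nhds (by norm_num))
  have e5 : ∀ᶠ s in 𝓝 (0:ℝ),
      0 < 21 * L.a s - 81 * L.b s + 2 * s * L.a s ^ 2 + 6 * s * L.a s * L.b s := by
    have hc : ContinuousAt
        (fun s => 21 * L.a s - 81 * L.b s + 2 * s * L.a s ^ 2 + 6 * s * L.a s * L.b s) 0 := by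
      fun_prop
    refine hc.eventually (lt_mem_nhds ?_)
    show 0 < 21 * L.a 0 - 81 * L.b 0 + 2 * 0 * L.a 0 ^ 2 + 6 * 0 * L.a 0 * L.b 0
    rw [b0]
    linarith
  obtain ⟨r, hr, hball⟩ := Metric.eventually_nhds_iff.1 (e1.and (e2.and (e3.and (e4.and e5))))
  refine ⟨min r L.eps, lt_min hr L.heps, min_le_right _ _, ?_, ?_⟩
  · intro s hs
    have := hball (y := s) (by rw [Real.dist_eq, sub_zero]; exact hs.trans_le (min_le_left _ _))
    exact ⟨this.1, this.2.1⟩
  · intro s hs0 hs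
    obtain ⟨k1, k2, k3, k4, k5⟩ := hball (y := s) (by
      rw [Real.dist_eq, sub_zero, abs_of_pos hs0]; exact hs.trans_le (min_le_left _ _))
    refine ⟨?_, k3, ?_, ?_, ?_⟩
    · simp only [zl]; positivity
    · simp only [zl]; positivity
    · rw [zl_P]; exact k4
    · rw [zl_Q]; exact mul_pos hs0 k5

lemma hasDerivAt_zl {s : ℝ} (h0 : 0 < s) (h1 : s < L.eps) (ha : 0 < L.a s) :
    HasDerivAt (zl L) (s⁻¹ • V (zl L s)) s := by
  have d1 : HasDerivAt (fun s => s * L.a s / 2)
      ((1 * L.a s + s * (L.a s * (L.b s - L.a s) / 2)) / 2) s :=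
    ((hasDerivAt_id s).mul (L.da s h0.le h1)).div_const 2
  have d2 := L.db s h0.le h1
  refine (d1.prodMk d2).congr_deriv ?_
  have h9 : (9 : ℝ) + 2 * s * L.a s ≠ 0 := by positivity
  have h9' : (9 : ℝ) + 4 * (s * L.a s / 2) ≠ 0 := by positivity
  ext
  · simp only [V, zl_P, Prod.smul_fst, smul_eq_mul]
    simp only [zl]
    field_simp
    try ring
  · simp only [V, zl_Q, Prod.smul_snd, smul_eq_mul]
    simp only [zl]
    field_simp
    try ring

section glue

variable {L} {r1 : ℝ} (hr1 : 0 < r1) (hre : r1 ≤ L.eps)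
  (hpos : ∀ s, |s| < r1 → 0 < L.a s ∧ 0 < L.b s)
  (hRg : ∀ s, 0 < s → s < r1 → zl L s ∈ Rg)

/-- the global curve -/
noncomputable def G (L : Loc) (r1 : ℝ) (r : ℝ) : ℝ × ℝ :=
  flow V Rg (zl L (r1 / 2), Real.log (r / (r1 / 2)))

include hr1 hre hpos hRg in
lemma local_flow {r : ℝ} (h0 : 0 < r) (h1 : r < r1) :
    (zl L (r1 / 2), Real.log (r / (r1 / 2))) ∈ dom V Rg ∧ G L r1 r = zl L r := by
  set l := Real.log (r / (r1 / 2)) with hl
  have hq : 0 < r / (r1 / 2) := by positivity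
  have hexp : r1 / 2 * Real.exp l = r := by
    rw [hl, Real.exp_log hq]; field_simp
  have key : ∀ t ∈ uIcc 0 l, 0 < r1 / 2 * Real.exp t ∧ r1 / 2 * Real.exp t < r1 := by
    intro t ht
    refine ⟨by positivity, ?_⟩
    rcases le_total 0 l with h | h
    · rw [uIcc_of_le h] at ht
      have : Real.exp t ≤ Real.exp l := Real.exp_le_exp.2 ht.2
      have : r1 / 2 * Real.exp t ≤ r1 / 2 * Real.exp l := by gcongr
      linarith
    · rw [uIcc_of_ge h] at ht
      have : Real.exp t ≤ Real.exp 0 := Real.exp_le_exp.2 ht.2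
      rw [Real.exp_zero] at this
      have : r1 / 2 * Real.exp t ≤ r1 / 2 * 1 := by gcongr
      linarith
  have h := flow_of_integralCurve' isOpen_Rg contDiffOn_V1
    (c := fun t => zl L (r1 / 2 * Real.exp t)) (x := zl L (r1 / 2)) (l := l)
    (by simp) (fun t ht => hRg _ (key t ht).1 (key t ht).2) (fun t ht => by
      obtain ⟨k1, k2⟩ := key t ht
      have d1 : HasDerivAt (fun t => r1 / 2 * Real.exp t) (r1 / 2 * Real.exp t) t :=
        (Real.hasDerivAt_exp t).const_mul _
      have d2 := hasDerivAt_zl L k1 (k2.trans_le hre) (hpos _ (by rwa [abs_of_pos k1])).1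
      have d3 := d2.scomp t d1
      refine d3.congr_deriv ?_
      rw [smul_smul, mul_inv_cancel₀ k1.ne', one_smul])
  refine ⟨h.1, ?_⟩
  rw [G, ← hl, h.2, hexp]

include hr1 hre hpos hRg in
lemma mem_dom_G {r : ℝ} (h0 : 0 < r) :
    (zl L (r1 / 2), Real.log (r / (r1 / 2))) ∈ dom V Rg := by
  rcases lt_or_ge r r1 with h | h
  · exact (local_flow hr1 hre hpos hRg h0 h).1
  · apply mem_dom (hRg _ (by linarith) (by linarith))
    apply Real.log_nonneg
    rw [le_div_iff₀ (by linarith)]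
    linarith

include hr1 hre hpos hRg in
lemma G_mem {r : ℝ} (h0 : 0 < r) : G L r1 r ∈ Rg :=
  flow_mem isOpen_Rg contDiffOn_V1 (mem_dom_G hr1 hre hpos hRg h0)

include hr1 hre hpos hRg in
lemma G_snd {r : ℝ} (h0 : r1 / 2 ≤ r) : 1 < (G L r1 r).2 := by
  have hr : 0 < r := by linarith
  have hm := hRg (r1 / 2) (by linarith) (by linarith)
  have h := (bounds hm (t := Real.log (r / (r1 / 2))) (by
    apply Real.log_nonneg
    rw [le_div_iff₀ (by linarith)]
    linarith) (mem_dom_G hr1 hre hpos hRg hr)).2.1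
  have hb := (hpos (r1 / 2) (by rw [abs_of_pos (by linarith)]; linarith)).2
  have : 1 < (zl L (r1 / 2)).2 := by
    simp only [zl]
    have : 0 < r1 / 2 * L.b (r1 / 2) := by positivity
    linarith
  exact this.trans_le h

include hr1 hre hpos hRg in
lemma hasDerivAt_G {r : ℝ} (h0 : 0 < r) : HasDerivAt (G L r1) (r⁻¹ • V (G L r1 r)) r := by
  have d1 : HasDerivAt (fun r => Real.log (r / (r1 / 2))) r⁻¹ r := by
    have h2 : HasDerivAt (fun r : ℝ => r / (r1 / 2)) (1 / (r1 / 2)) r :=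
      (hasDerivAt_id r).div_const _
    refine (h2.log (by positivity)).congr_deriv ?_
    field_simp
  have d2 := hasDerivAt_flow isOpen_Rg contDiffOn_V1 (mem_dom_G hr1 hre hpos hRg h0)
  exact d2.scomp r d1

include hr1 hre hpos hRg in
lemma contDiffAt_G {r : ℝ} (h0 : 0 < r) : ContDiffAt ℝ ∞ (G L r1) r := by
  have hdom := mem_dom_G hr1 hre hpos hRg h0
  have h1 : ContDiffAt ℝ ∞ (flow V Rg) (zl L (r1 / 2), Real.log (r / (r1 / 2))) :=
    (contDiffOn_flow (n := ⊤) (by exact_mod_cast le_top) isOpen_Rg contDiffOn_V).contDiffAt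
      ((isOpen_dom isOpen_Rg contDiffOn_V1).mem_nhds hdom)
  have h2 : ContDiffAt ℝ ∞ (fun r : ℝ => (zl L (r1 / 2), Real.log (r / (r1 / 2)))) r := by
    refine contDiffAt_const.prodMk ?_
    exact (contDiffAt_id.div_const _).log (by positivity)
  exact h1.comp r h2

/-- global `a` -/
noncomputable def A (L : Loc) (r1 : ℝ) (s : ℝ) : ℝ :=
  if s < r1 / 2 then L.a s else 2 * (G L r1 s).1 / s

/-- global `b` -/
noncomputable def B (L : Loc) (r1 : ℝ) (s : ℝ) : ℝ :=
  if s < r1 / 2 then L.b s else ((G L r1 s).2 - 1) / s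

include hr1 hre hpos hRg in
lemma A_eq_local {s : ℝ} (h : s < r1) : A L r1 s = L.a s := by
  unfold A
  split_ifs with h1
  · rfl
  · have h0 : 0 < s := by linarith
    rw [(local_flow hr1 hre hpos hRg h0 h).2]
    simp only [zl]
    field_simp

include hr1 hre hpos hRg in
lemma B_eq_local {s : ℝ} (h : s < r1) : B L r1 s = L.b s := by
  unfold B
  split_ifs with h1
  · rfl
  · have h0 : 0 < s := by linarith
    rw [(local_flow hr1 hre hpos hRg h0 h).2]
    simp only [zl]
    field_simp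
    ring

include hr1 hre hpos hRg in
lemma A_eq_global {s : ℝ} (h : 0 < s) : A L r1 s = 2 * (G L r1 s).1 / s := by
  unfold A
  split_ifs with h1
  · rw [(local_flow hr1 hre hpos hRg h (by linarith)).2]
    simp only [zl]
    field_simp
  · rfl

include hr1 hre hpos hRg in
lemma B_eq_global {s : ℝ} (h : 0 < s) : B L r1 s = ((G L r1 s).2 - 1) / s := by
  unfold B
  split_ifs with h1
  · rw [(local_flow hr1 hre hpos hRg h (by linarith)).2]
    simp only [zl]
    field_simp
    ring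
  · rfl

include hr1 hre hpos hRg in
lemma contDiffOn_A : ContDiffOn ℝ ∞ (A L r1) (Ioi (-L.eps)) := by
  intro s hs
  apply ContDiffAt.contDiffWithinAt
  rcases lt_or_ge s r1 with h | h
  · refine (contDiffAt_a L hs (h.trans_le hre)).congr_of_eventuallyEq ?_
    filter_upwards [Iio_mem_nhds h] with y hy using A_eq_local hr1 hre hpos hRg hy
  · have h0 : 0 < s := by linarith
    have h1 : ContDiffAt ℝ ∞ (fun s => 2 * (G L r1 s).1 / s) s :=
      (contDiffAt_const.mul (contDiffAt_G hr1 hre hpos hRg h0).fst).div contDiffAt_id h0.ne'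
    refine h1.congr_of_eventuallyEq ?_
    filter_upwards [Ioi_mem_nhds h0] with y hy using A_eq_global hr1 hre hpos hRg hy

include hr1 hre hpos hRg in
lemma contDiffOn_B : ContDiffOn ℝ ∞ (B L r1) (Ioi (-L.eps)) := by
  intro s hs
  apply ContDiffAt.contDiffWithinAt
  rcases lt_or_ge s r1 with h | h
  · refine (contDiffAt_b L hs (h.trans_le hre)).congr_of_eventuallyEq ?_
    filter_upwards [Iio_mem_nhds h] with y hy using B_eq_local hr1 hre hpos hRg hy
  · have h0 : 0 < s := by linarith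
    have h1 : ContDiffAt ℝ ∞ (fun s => ((G L r1 s).2 - 1) / s) s :=
      ((contDiffAt_G hr1 hre hpos hRg h0).snd.sub contDiffAt_const).div contDiffAt_id h0.ne'
    refine h1.congr_of_eventuallyEq ?_
    filter_upwards [Ioi_mem_nhds h0] with y hy using B_eq_global hr1 hre hpos hRg hy

include hr1 hre hpos hRg in
lemma A_pos {s : ℝ} (h : 0 ≤ s) : 0 < A L r1 s := by
  rcases lt_or_ge s r1 with h1 | h1
  · rw [A_eq_local hr1 hre hpos hRg h1]
    exact (hpos s (by rwa [abs_of_nonneg h])).1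
  · have h0 : 0 < s := by linarith
    rw [A_eq_global hr1 hre hpos hRg h0]
    have := (G_mem hr1 hre hpos hRg h0).1
    positivity

include hr1 hre hpos hRg in
lemma B_pos {s : ℝ} (h : 0 ≤ s) : 0 < B L r1 s := by
  rcases lt_or_ge s r1 with h1 | h1
  · rw [B_eq_local hr1 hre hpos hRg h1]
    exact (hpos s (by rwa [abs_of_nonneg h])).2
  · have h0 : 0 < s := by linarith
    rw [B_eq_global hr1 hre hpos hRg h0]
    have := G_snd hr1 hre hpos hRg (r := s) (by linarith)
    exact div_pos (by linarith) h0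

include hr1 hre hpos hRg in
lemma hasDerivAt_A {s : ℝ} (h : 0 ≤ s) :
    HasDerivAt (A L r1) (A L r1 s * (B L r1 s - A L r1 s) / 2) s := by
  rcases lt_or_ge s r1 with h1 | h1
  · rw [A_eq_local hr1 hre hpos hRg h1, B_eq_local hr1 hre hpos hRg h1]
    refine (L.da s h (h1.trans_le hre)).congr_of_eventuallyEq ?_
    filter_upwards [Iio_mem_nhds h1] with y hy using A_eq_local hr1 hre hpos hRg hy
  · have h0 : 0 < s := by linarith
    rw [A_eq_global hr1 hre hpos hRg h0, B_eq_global hr1 hre hpos hRg h0]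
    have dG := hasDerivAt_G hr1 hre hpos hRg h0
    have dG1 : HasDerivAt (fun s => (G L r1 s).1) (s⁻¹ * ((G L r1 s).1 * P (G L r1 s) / 2)) s :=
      (hasDerivAt_iff_hasFDerivAt.1 dG).fst.hasDerivAt.congr_deriv (by simp [V])
    have d : HasDerivAt (fun s => 2 * (G L r1 s).1 / s)
        ((2 * (s⁻¹ * ((G L r1 s).1 * P (G L r1 s) / 2)) * s - 2 * (G L r1 s).1 * 1) / s ^ 2) s :=
      (dG1.const_mul 2).div (hasDerivAt_id s) h0.ne'
    refine (d.congr_of_eventuallyEq ?_).congr_deriv ?_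
    · filter_upwards [Ioi_mem_nhds h0] with y hy using A_eq_global hr1 hre hpos hRg hy
    · simp only [P]
      field_simp
      ring

include hr1 hre hpos hRg in
lemma hasDerivAt_sB {s : ℝ} (h : 0 ≤ s) :
    HasDerivAt (fun s => 1 + s * B L r1 s)
      ((1 + s * B L r1 s) * (A L r1 s - 9 * B L r1 s +
        12 * A L r1 s * (1 + 2 * s * B L r1 s) / (9 + 2 * s * A L r1 s)) / 2) s := by
  rcases lt_or_ge s r1 with h1 | h1
  · rw [A_eq_local hr1 hre hpos hRg h1, B_eq_local hr1 hre hpos hRg h1]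
    refine (L.db s h (h1.trans_le hre)).congr_of_eventuallyEq ?_
    filter_upwards [Iio_mem_nhds h1] with y hy
    rw [B_eq_local hr1 hre hpos hRg hy]
  · have h0 : 0 < s := by linarith
    rw [A_eq_global hr1 hre hpos hRg h0, B_eq_global hr1 hre hpos hRg h0]
    have dG := hasDerivAt_G hr1 hre hpos hRg h0
    have dG2 : HasDerivAt (fun s => (G L r1 s).2)
        (s⁻¹ * ((G L r1 s).2 * Q (G L r1 s) / (2 * (9 + 4 * (G L r1 s).1)))) s :=
      (hasDerivAt_iff_hasFDerivAt.1 dG).snd.hasDerivAt.congr_deriv (by simp [V])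
    have hG1 := (G_mem hr1 hre hpos hRg h0).1
    have h9 : 9 + 4 * (G L r1 s).1 ≠ 0 := by positivity
    have h9' : 9 + 2 * s * (2 * (G L r1 s).1 / s) ≠ 0 := by positivity
    refine (dG2.congr_of_eventuallyEq ?_).congr_deriv ?_
    · filter_upwards [Ioi_mem_nhds h0] with y hy
      have hy' : y ≠ 0 := ne_of_gt hy
      rw [B_eq_global hr1 hre hpos hRg hy]
      field_simp
      ring
    · have e9 : 9 + 2 * s * (2 * (G L r1 s).1 / s) = 9 + 4 * (G L r1 s).1 := by
        field_simp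
        ring
      rw [e9]
      simp only [Q]
      field_simp
      ring

include hr1 hre hpos hRg in
lemma hasDerivAt_int {s : ℝ} (h : -L.eps < s) :
    HasDerivAt (fun s => ∫ t in (0:ℝ)..s, A L r1 t) (A L r1 s) s := by
  have hc := (contDiffOn_A hr1 hre hpos hRg).continuousOn
  have h0 : -L.eps < 0 := by linarith [L.heps]
  have hsub : uIcc 0 s ⊆ Ioi (-L.eps) := by
    intro y hy
    rcases le_total 0 s with h1 | h1
    · rw [uIcc_of_le h1] at hy; exact lt_of_lt_of_le h0 hy.1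
    · rw [uIcc_of_ge h1] at hy; exact lt_of_lt_of_le h hy.1
  refine intervalIntegral.integral_hasDerivAt_right (hc.mono hsub).intervalIntegrable ?_ ?_
  · exact hc.stronglyMeasurableAtFilter isOpen_Ioi s h
  · exact hc.continuousAt (Ioi_mem_nhds h)

include hr1 hre hpos hRg in
lemma contDiffOn_int : ContDiffOn ℝ ∞ (fun s => ∫ t in (0:ℝ)..s, A L r1 t) (Ioi (-L.eps)) := by
  rw [contDiffOn_infty_iff_deriv_of_isOpen isOpen_Ioi]
  refine ⟨fun s hs => (hasDerivAt_int hr1 hre hpos hRg hs).differentiableAt.differentiableWithinAt,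
    (contDiffOn_A hr1 hre hpos hRg).congr ?_⟩
  intro s hs
  exact (hasDerivAt_int hr1 hre hpos hRg hs).deriv

end glue

end Crest.Agent.R236.Ex.Glob

namespace Crest.Agent.R236.Ex

open Glob in
/-- Every local solution extends to a global profile. -/
theorem prof_of_loc (L : Loc) : Nonempty GProf := by
  obtain ⟨r1, hr1, hre, hpos, hRg⟩ := exists_r1 L
  refine ⟨{
    e := L.eps
    g := fun s => Real.exp (∫ t in (0:ℝ)..s, A L r1 t)
    a := A L r1
    b := B L r1
    he := L.heps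
    sg := (contDiffOn_int hr1 hre hpos hRg).exp
    sa := contDiffOn_A hr1 hre hpos hRg
    sb := contDiffOn_B hr1 hre hpos hRg
    g_pos := fun s _ => Real.exp_pos _
    a_pos := fun s hs => A_pos hr1 hre hpos hRg hs
    b_pos := fun s hs => B_pos hr1 hre hpos hRg hs
    dg := fun s hs => ?_
    da := fun s hs => hasDerivAt_A hr1 hre hpos hRg hs
    db := fun s hs => hasDerivAt_sB hr1 hre hpos hRg hs }⟩
  have := (hasDerivAt_int hr1 hre hpos hRg (s := s) (by linarith [L.heps])).exp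
  exact this.congr_deriv (by ring)

end Crest.Agent.R236.Ex
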