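import Mathlib

/-!
Row 236 (S0366), part (A), preliminaries: the averaging operators
`J m h s = ∫₀¹ 2 τ^m h(τ² s) dτ` and primitives.
-/

set_option autoImplicit false

open Set Filter Topology MeasureTheory
open scoped ContDiff

noncomputable section

namespace Crest.Agent.R236.ExLoc

/-- the averaging operator -/
def J (m : ℕ) (h : ℝ → ℝ) (s : ℝ) : ℝ := ∫ τ in (0:ℝ)..1, 2 * τ ^ m * h (τ ^ 2 * s)

/-- clamp to `[-r, r]` -/
def clamp (l u x : ℝ) : ℝ := max l (min u x)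

lemma continuous_clamp (l u : ℝ) : Continuous (clamp l u) := by
  unfold clamp; fun_prop

lemma clamp_mem {l u : ℝ} (h : l ≤ u) (x : ℝ) : clamp l u x ∈ Icc l u := by
  unfold clamp
  exact ⟨le_max_left _ _, max_le h (min_le_left _ _)⟩

lemma clamp_eq {l u x : ℝ} (h : x ∈ Icc l u) : clamp l u x = x := by
  unfold clamp
  rw [min_eq_right h.2, max_eq_right h.1]

lemma abs_clamp_sub (l u x y : ℝ) : |clamp l u x - clamp l u y| ≤ |x - y| := by
  unfold clamp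
  calc |max l (min u x) - max l (min u y)| ≤ |min u x - min u y| := by
        have := abs_max_sub_max_le_max l (min u x) l (min u y)
        simpa using this
    _ ≤ |x - y| := by
        have := abs_min_sub_min_le_max u x u y
        simpa using this

lemma sq_mul_mem {ρ s τ : ℝ} (hs : s ∈ Icc (-ρ) ρ) (hτ : τ ∈ Icc (0:ℝ) 1) :
    τ ^ 2 * s ∈ Icc (-ρ) ρ := by
  have h1 : 0 ≤ τ ^ 2 := by positivity
  have h2 : τ ^ 2 ≤ 1 := by nlinarith [hτ.1, hτ.2]
  have h3 : |τ ^ 2 * s| ≤ ρ := by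
    rw [abs_mul, abs_of_nonneg h1]
    have : |s| ≤ ρ := abs_le.2 hs
    calc τ ^ 2 * |s| ≤ 1 * |s| := by gcongr
      _ ≤ ρ := by linarith
  exact abs_le.1 h3

lemma sq_mul_mem' {ρ s τ : ℝ} (hs : s ∈ Ioo (-ρ) ρ) (hτ : τ ∈ Icc (0:ℝ) 1) :
    τ ^ 2 * s ∈ Ioo (-ρ) ρ := by
  have h3 : |s| < ρ := abs_lt.2 hs
  have h4 := sq_mul_mem (ρ := |s|) (s := s) (abs_le.1 le_rfl) hτ
  exact ⟨by linarith [h4.1], by linarith [h4.2]⟩

lemma J_congr {m : ℕ} {h k : ℝ → ℝ} {ρ s : ℝ} (hs : s ∈ Icc (-ρ) ρ)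
    (hhk : ∀ x ∈ Icc (-ρ) ρ, h x = k x) : J m h s = J m k s := by
  unfold J
  refine intervalIntegral.integral_congr fun τ hτ => ?_
  rw [uIcc_of_le zero_le_one] at hτ
  change 2 * τ ^ m * h (τ ^ 2 * s) = 2 * τ ^ m * k (τ ^ 2 * s)
  rw [hhk _ (sq_mul_mem hs hτ)]

lemma continuous_J {m : ℕ} {h : ℝ → ℝ} (hh : Continuous h) : Continuous (J m h) := by
  unfold J
  refine intervalIntegral.continuous_parametric_intervalIntegral_of_continuous' ?_ 0 1
  change Continuous fun p : ℝ × ℝ => 2 * p.2 ^ m * h (p.2 ^ 2 * p.1)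
  fun_prop

/-- local continuity -/
lemma continuousOn_J {m : ℕ} {h : ℝ → ℝ} {ε : ℝ} (hh : ContinuousOn h (Ioo (-ε) ε)) :
    ContinuousOn (J m h) (Ioo (-ε) ε) := by
  intro s hs
  have h1 : |s| < ε := abs_lt.2 hs
  obtain ⟨r, hr1, hr2⟩ := exists_between h1
  have hr0 : 0 < r := (abs_nonneg s).trans_lt hr1
  have hsub : Icc (-r) r ⊆ Ioo (-ε) ε := fun x hx => ⟨by linarith [hx.1], by linarith [hx.2]⟩
  have hc : Continuous fun x => h (clamp (-r) r x) :=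
    hh.comp_continuous (continuous_clamp _ _) fun x => hsub (clamp_mem (by linarith) x)
  have h2 : J m h =ᶠ[𝓝 s] J m fun x => h (clamp (-r) r x) := by
    have hn : Icc (-r) r ∈ 𝓝 s := Icc_mem_nhds (by linarith [(abs_lt.1 hr1).1]) (abs_lt.1 hr1).2
    filter_upwards [hn] with x hx
    exact J_congr hx fun y hy => by rw [clamp_eq hy]
  exact ((continuous_J hc).continuousAt.congr h2.symm).continuousWithinAt

lemma abs_J_le {m : ℕ} {h : ℝ → ℝ} {ρ s C : ℝ} (hs : s ∈ Icc (-ρ) ρ)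
    (hC : ∀ x ∈ Icc (-ρ) ρ, |h x| ≤ C) : |J m h s| ≤ 2 / (m + 1) * C := by
  unfold J
  have h1 : ∀ τ ∈ Ioc (0:ℝ) 1, ‖2 * τ ^ m * h (τ ^ 2 * s)‖ ≤ 2 * C * τ ^ m := by
    intro τ hτ
    have hτ' : τ ∈ Icc (0:ℝ) 1 := ⟨hτ.1.le, hτ.2⟩
    rw [Real.norm_eq_abs, abs_mul, abs_of_nonneg (by have := hτ'.1; positivity : 0 ≤ 2 * τ ^ m)]
    have := hC _ (sq_mul_mem hs hτ')
    have h2 : 0 ≤ τ ^ m := by have := hτ'.1; positivity
    nlinarith
  have h2 := intervalIntegral.norm_integral_le_of_norm_le (a := 0) (b := 1) zero_le_one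
    (Filter.Eventually.of_forall h1)
    ((by fun_prop : Continuous fun τ : ℝ => 2 * C * τ ^ m).intervalIntegrable (μ := volume) 0 1)
  rw [Real.norm_eq_abs] at h2
  refine h2.trans (le_of_eq ?_)
  rw [intervalIntegral.integral_const_mul, integral_pow]
  simp
  ring

lemma J_sub {m : ℕ} {h k : ℝ → ℝ} (hh : Continuous h) (hk : Continuous k) (s : ℝ) :
    J m (fun x => h x - k x) s = J m h s - J m k s := by
  unfold J
  rw [← intervalIntegral.integral_sub (μ := volume)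
    ((by fun_prop : Continuous fun τ : ℝ => 2 * τ ^ m * h (τ ^ 2 * s)).intervalIntegrable 0 1)
    ((by fun_prop : Continuous fun τ : ℝ => 2 * τ ^ m * k (τ ^ 2 * s)).intervalIntegrable 0 1)]
  refine intervalIntegral.integral_congr fun τ _ => ?_
  change 2 * τ ^ m * (h (τ ^ 2 * s) - k (τ ^ 2 * s)) =
    2 * τ ^ m * h (τ ^ 2 * s) - 2 * τ ^ m * k (τ ^ 2 * s)
  ring

/-- differentiation under the integral -/
lemma hasDerivAt_J {m : ℕ} {h h' : ℝ → ℝ} {ε : ℝ}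
    (hh : ∀ x ∈ Ioo (-ε) ε, HasDerivAt h (h' x) x) (hc : ContinuousOn h' (Ioo (-ε) ε)) {s : ℝ}
    (hs : s ∈ Ioo (-ε) ε) : HasDerivAt (J m h) (J (m + 2) h' s) s := by
  have h1 : |s| < ε := abs_lt.2 hs
  obtain ⟨r, hr1, hr2⟩ := exists_between h1
  have hr0 : 0 < r := (abs_nonneg s).trans_lt hr1
  have hsub : Icc (-r) r ⊆ Ioo (-ε) ε := fun x hx => ⟨by linarith [hx.1], by linarith [hx.2]⟩
  have hsr : s ∈ Ioo (-r) r := abs_lt.1 hr1
  obtain ⟨C, hC⟩ := isCompact_Icc.exists_bound_of_continuousOn (hc.mono hsub)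
  have hhc : ContinuousOn h (Ioo (-ε) ε) := fun x hx => (hh x hx).continuousAt.continuousWithinAt
  have hcomp : ∀ x ∈ Ioo (-r) r, ∀ k : ℝ → ℝ, ContinuousOn k (Ioo (-ε) ε) → ∀ n : ℕ,
      ContinuousOn (fun τ : ℝ => 2 * τ ^ n * k (τ ^ 2 * x)) (uIcc 0 1) := by
    intro x hx k hk n
    refine ContinuousOn.mul (by fun_prop) ?_
    refine hk.comp (by fun_prop) fun τ hτ => ?_
    rw [uIcc_of_le zero_le_one] at hτ
    exact hsub (sq_mul_mem ⟨hx.1.le, hx.2.le⟩ hτ)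
  have hmeas : ∀ x ∈ Ioo (-r) r, ∀ k : ℝ → ℝ, ContinuousOn k (Ioo (-ε) ε) → ∀ n : ℕ,
      AEStronglyMeasurable (fun τ : ℝ => 2 * τ ^ n * k (τ ^ 2 * x)) (volume.restrict (uIoc 0 1)) := by
    intro x hx k hk n
    exact ((hcomp x hx k hk n).mono uIoc_subset_uIcc).aestronglyMeasurable measurableSet_uIoc
  have key := intervalIntegral.hasDerivAt_integral_of_dominated_loc_of_deriv_le
    (μ := volume) (a := 0) (b := 1) (s := Ioo (-r) r) (x₀ := s)
    (F := fun x τ => 2 * τ ^ m * h (τ ^ 2 * x)) (F' := fun x τ => 2 * τ ^ (m + 2) * h' (τ ^ 2 * x))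
    (bound := fun _ => 2 * C) (Ioo_mem_nhds hsr.1 hsr.2)
    (by
      filter_upwards [Ioo_mem_nhds hsr.1 hsr.2] with x hx
      exact hmeas x hx h hhc m)
    ((hcomp s hsr h hhc m).intervalIntegrable)
    (hmeas s hsr h' hc (m + 2))
    (by
      refine Filter.Eventually.of_forall fun τ hτ x hx => ?_
      rw [uIoc_of_le zero_le_one] at hτ
      have hτ' : τ ∈ Icc (0:ℝ) 1 := ⟨hτ.1.le, hτ.2⟩
      have h2 := hC _ (sq_mul_mem (ρ := r) ⟨hx.1.le, hx.2.le⟩ hτ')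
      rw [norm_mul]
      have h3 : ‖2 * τ ^ (m + 2)‖ ≤ 2 := by
        rw [Real.norm_eq_abs, abs_of_nonneg (by have := hτ'.1; positivity)]
        have := pow_le_one₀ (n := m + 2) hτ'.1 hτ'.2
        linarith
      have h4 : 0 ≤ ‖h' (τ ^ 2 * x)‖ := norm_nonneg _
      calc ‖2 * τ ^ (m + 2)‖ * ‖h' (τ ^ 2 * x)‖ ≤ 2 * ‖h' (τ ^ 2 * x)‖ := by gcongr
        _ ≤ 2 * C := by linarith)
    (continuous_const.intervalIntegrable 0 1)
    (by
      refine Filter.Eventually.of_forall fun τ hτ x hx => ?_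
      rw [uIoc_of_le zero_le_one] at hτ
      have hτ' : τ ∈ Icc (0:ℝ) 1 := ⟨hτ.1.le, hτ.2⟩
      have h2 := hh _ (hsub (sq_mul_mem (ρ := r) ⟨hx.1.le, hx.2.le⟩ hτ'))
      have h3 : HasDerivAt (fun x : ℝ => τ ^ 2 * x) (τ ^ 2) x := by
        simpa using (hasDerivAt_id x).const_mul (τ ^ 2)
      have h4 := (h2.comp x h3).const_mul (2 * τ ^ m)
      refine h4.congr_deriv ?_
      ring)
  exact key.2

/-- `J` preserves smoothness -/
lemma contDiffOn_J {ε : ℝ} (n : ℕ) : ∀ {m : ℕ} {h : ℝ → ℝ}, ContDiffOn ℝ n h (Ioo (-ε) ε) →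
    ContDiffOn ℝ n (J m h) (Ioo (-ε) ε) := by
  induction n with
  | zero =>
    intro m h hh
    simp only [Nat.cast_zero, contDiffOn_zero] at hh ⊢
    exact continuousOn_J hh
  | succ n ih =>
    intro m h hh
    push_cast at hh ⊢
    rw [contDiffOn_succ_iff_deriv_of_isOpen isOpen_Ioo] at hh ⊢
    obtain ⟨hd, -, hc⟩ := hh
    have hd' : ∀ x ∈ Ioo (-ε) ε, HasDerivAt h (deriv h x) x := fun x hx =>
      (hd.differentiableAt (isOpen_Ioo.mem_nhds hx)).hasDerivAt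
    have h1 : ∀ s ∈ Ioo (-ε) ε, HasDerivAt (J m h) (J (m + 2) (deriv h) s) s := fun s hs =>
      hasDerivAt_J hd' hc.continuousOn hs
    refine ⟨fun s hs => (h1 s hs).differentiableAt.differentiableWithinAt, by simp, ?_⟩
    exact (ih (m := m + 2) hc).congr fun s hs => (h1 s hs).deriv

/-- integration by parts -/
lemma J_parts {m : ℕ} {h h' : ℝ → ℝ} {ε : ℝ}
    (hh : ∀ x ∈ Ioo (-ε) ε, HasDerivAt h (h' x) x) (hc : ContinuousOn h' (Ioo (-ε) ε)) {s : ℝ}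
    (hs : s ∈ Ioo (-ε) ε) : s * J (m + 2) h' s = h s - (m + 1) / 2 * J m h s := by
  have hhc : ContinuousOn h (Ioo (-ε) ε) := fun x hx => (hh x hx).continuousAt.continuousWithinAt
  have hcomp : ∀ k : ℝ → ℝ, ContinuousOn k (Ioo (-ε) ε) → ∀ n : ℕ,
      ContinuousOn (fun τ : ℝ => τ ^ n * k (τ ^ 2 * s)) (uIcc 0 1) := by
    intro k hk n
    refine ContinuousOn.mul (by fun_prop) ?_
    refine hk.comp (by fun_prop) fun τ hτ => ?_
    rw [uIcc_of_le zero_le_one] at hτ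
    exact sq_mul_mem' hs hτ
  have h1 : ∀ τ ∈ uIcc (0:ℝ) 1, HasDerivAt (fun τ : ℝ => τ ^ (m + 1) * h (τ ^ 2 * s))
      ((m + 1) * (τ ^ m * h (τ ^ 2 * s)) + 2 * s * (τ ^ (m + 2) * h' (τ ^ 2 * s))) τ := by
    intro τ hτ
    rw [uIcc_of_le zero_le_one] at hτ
    have h2 := hh _ (sq_mul_mem' hs hτ)
    have h3 : HasDerivAt (fun τ : ℝ => τ ^ 2 * s) (2 * τ * s) τ := by
      simpa using (hasDerivAt_pow 2 τ).mul_const s
    have h4 := h2.comp τ h3
    have h5 : HasDerivAt (fun τ : ℝ => τ ^ (m + 1)) ((m + 1 : ℕ) * τ ^ m) τ := by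
      simpa using hasDerivAt_pow (m + 1) τ
    have h6 := h5.mul h4
    refine h6.congr_deriv ?_
    push_cast
    simp only [Function.comp]
    ring
  have hi1 : IntervalIntegrable (fun τ : ℝ => ((m:ℝ) + 1) * (τ ^ m * h (τ ^ 2 * s))) volume 0 1 :=
    ((hcomp h hhc m).intervalIntegrable).const_mul _
  have hi2 : IntervalIntegrable (fun τ : ℝ => 2 * s * (τ ^ (m + 2) * h' (τ ^ 2 * s))) volume 0 1 :=
    ((hcomp h' hc (m + 2)).intervalIntegrable).const_mul _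
  have h2 := intervalIntegral.integral_eq_sub_of_hasDerivAt h1 (hi1.add hi2)
  rw [intervalIntegral.integral_add hi1 hi2,
    intervalIntegral.integral_const_mul, intervalIntegral.integral_const_mul] at h2
  have h3 : J m h s = 2 * ∫ τ in (0:ℝ)..1, τ ^ m * h (τ ^ 2 * s) := by
    unfold J
    rw [← intervalIntegral.integral_const_mul]
    refine intervalIntegral.integral_congr fun τ _ => ?_
    change 2 * τ ^ m * h (τ ^ 2 * s) = 2 * (τ ^ m * h (τ ^ 2 * s))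
    ring
  have h4 : J (m + 2) h' s = 2 * ∫ τ in (0:ℝ)..1, τ ^ (m + 2) * h' (τ ^ 2 * s) := by
    unfold J
    rw [← intervalIntegral.integral_const_mul]
    refine intervalIntegral.integral_congr fun τ _ => ?_
    change 2 * τ ^ (m + 2) * h' (τ ^ 2 * s) = 2 * (τ ^ (m + 2) * h' (τ ^ 2 * s))
    ring
  rw [h3, h4]
  simp at h2
  linarith

/-- primitives gain one derivative -/
lemma contDiffOn_prim {ε : ℝ} {n : ℕ} {h : ℝ → ℝ} (hc : Continuous h)
    (hh : ContDiffOn ℝ n h (Ioo (-ε) ε)) :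
    ContDiffOn ℝ (n + 1 : ℕ) (fun s => ∫ r in (0:ℝ)..s, h r) (Ioo (-ε) ε) := by
  have h1 : ∀ s, HasDerivAt (fun s => ∫ r in (0:ℝ)..s, h r) (h s) s := fun s =>
    intervalIntegral.integral_hasDerivAt_right (hc.intervalIntegrable _ _)
      hc.stronglyMeasurable.stronglyMeasurableAtFilter hc.continuousAt
  push_cast
  rw [contDiffOn_succ_iff_deriv_of_isOpen isOpen_Ioo]
  refine ⟨fun s _ => (h1 s).differentiableAt.differentiableWithinAt, by simp, ?_⟩
  exact hh.congr fun s _ => (h1 s).deriv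

end Crest.Agent.R236.ExLoc
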