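import Crest.Agent.R236.ExJ

/-!
Row 236 (S0366), part (A): local smooth solution at `s = 0` of the singular system
`a' = a (b - a) / 2`, `(1 + s b)' = (1 + s b) (a - 9 b + 12 a (1 + 2 s b) / (9 + 2 s a)) / 2`.
-/

set_option autoImplicit false
set_option linter.unusedSectionVars false

open Set Filter Topology MeasureTheory
open scoped ContDiff BoundedContinuousFunction NNReal

noncomputable section

namespace Crest.Agent.R236.ExLoc

/-- the remainder in `s b' = -(11/2) b + (7/6) a + s H(s,a,b)` -/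
def H (s a b : ℝ) : ℝ :=
  (8 * a * (9 * b - a) / (3 * (9 + 2 * s * a)) +
    b * (a - 9 * b + 12 * a * (1 + 2 * s * b) / (9 + 2 * s * a))) / 2

lemma H_identity {s a b : ℝ} (h : 9 + 2 * s * a ≠ 0) :
    b + (-(11 / 2) * b + 7 / 6 * a + s * H s a b) =
      (1 + s * b) * (a - 9 * b + 12 * a * (1 + 2 * s * b) / (9 + 2 * s * a)) / 2 := by
  unfold H
  have h3 : 8 * a * (9 * b - a) / (3 * (9 + 2 * s * a)) =
      8 * a * (9 * b - a) / 3 * (9 + 2 * s * a)⁻¹ := by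
    rw [div_mul_eq_div_div, div_eq_mul_inv _ (9 + 2 * s * a)]
  rw [h3, div_eq_mul_inv _ (9 + 2 * s * a)]
  have h4 : (9 + 2 * s * a) * (9 + 2 * s * a)⁻¹ = 1 := mul_inv_cancel₀ h
  set D := (9 + 2 * s * a)⁻¹ with hD
  linear_combination (-2 / 3 * a) * h4

/-- the compact box -/
def Box : Set (ℝ × ℝ × ℝ) := Icc (-1) 1 ×ˢ Icc (1 / 2) (3 / 2) ×ˢ Icc (-1) 1

lemma isCompact_Box : IsCompact Box := isCompact_Icc.prod (isCompact_Icc.prod isCompact_Icc)

/-- `H` as a function on triples -/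
def HT (p : ℝ × ℝ × ℝ) : ℝ := H p.1 p.2.1 p.2.2

lemma den_pos {p : ℝ × ℝ × ℝ} (hp : p ∈ Box) : 0 < 9 + 2 * p.1 * p.2.1 := by
  obtain ⟨h1, h2, h3⟩ := hp
  have h4 : -1 ≤ p.1 := h1.1
  have h5 : 1 / 2 ≤ p.2.1 := h2.1
  have h6 : p.2.1 ≤ 3 / 2 := h2.2
  nlinarith [h1.2]

lemma contDiffAt_HT {n : WithTop ℕ∞} {p : ℝ × ℝ × ℝ} (hp : 9 + 2 * p.1 * p.2.1 ≠ 0) :
    ContDiffAt ℝ n HT p := by
  have h1 : 3 * (9 + 2 * p.1 * p.2.1) ≠ 0 := by simpa using hp
  unfold HT H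
  refine ContDiffAt.div ?_ contDiffAt_const (by norm_num)
  refine ContDiffAt.add ?_ ?_
  · refine ContDiffAt.div ?_ ?_ h1 <;> fun_prop
  · refine ContDiffAt.mul (by fun_prop) ?_
    refine ContDiffAt.add (by fun_prop) ?_
    refine ContDiffAt.div ?_ ?_ hp <;> fun_prop

lemma exists_lip : ∃ L : ℝ, 0 ≤ L ∧ ∀ p ∈ Box, ∀ q ∈ Box, |HT p - HT q| ≤ L * dist p q := by
  have h1 : LocallyLipschitzOn Box HT := by
    intro p hp
    obtain ⟨K, t, ht, hK⟩ := (contDiffAt_HT (n := 1) (den_pos hp).ne').exists_lipschitzOnWith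
    exact ⟨K, t, mem_nhdsWithin_of_mem_nhds ht, hK⟩
  obtain ⟨K, hK⟩ := h1.exists_lipschitzOnWith_of_compact isCompact_Box
  exact ⟨K, K.2, fun p hp q hq => by simpa [Real.dist_eq] using hK.dist_le_mul p hp q hq⟩

lemma exists_bd : ∃ M : ℝ, 0 ≤ M ∧ ∀ p ∈ Box, |HT p| ≤ M := by
  have h1 : ContinuousOn HT Box := fun p hp =>
    (contDiffAt_HT (n := 0) (den_pos hp).ne').continuousAt.continuousWithinAt
  obtain ⟨M, hM⟩ := isCompact_Box.exists_bound_of_continuousOn h1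
  exact ⟨max M 0, le_max_right _ _, fun p hp => (hM p hp).trans (le_max_left _ _)⟩

/-- clamped triple -/
def cl (r : ℝ) (p : ℝ × ℝ) : ℝ × ℝ × ℝ :=
  (clamp (-1) 1 r, clamp (1 / 2) (3 / 2) p.1, clamp (-1) 1 p.2)

lemma cl_mem (r : ℝ) (p : ℝ × ℝ) : cl r p ∈ Box :=
  ⟨clamp_mem (by norm_num) _, clamp_mem (by norm_num) _, clamp_mem (by norm_num) _⟩

lemma continuous_cl : Continuous fun q : ℝ × ℝ × ℝ => cl q.1 q.2 := by
  unfold cl
  exact ((continuous_clamp _ _).comp continuous_fst).prodMk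
    (((continuous_clamp _ _).comp (continuous_fst.comp continuous_snd)).prodMk
      ((continuous_clamp _ _).comp (continuous_snd.comp continuous_snd)))

lemma dist_cl (r : ℝ) (p q : ℝ × ℝ) : dist (cl r p) (cl r q) ≤ dist p q := by
  have h1 : |p.1 - q.1| ≤ dist p q := by
    rw [Prod.dist_eq, Real.dist_eq, Real.dist_eq]; exact le_max_left _ _
  have h2 : |p.2 - q.2| ≤ dist p q := by
    rw [Prod.dist_eq, Real.dist_eq, Real.dist_eq]; exact le_max_right _ _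
  rw [Prod.dist_eq, Prod.dist_eq]
  refine max_le ?_ (max_le ?_ ?_)
  · simp [cl, dist_nonneg]
  · rw [Real.dist_eq]; exact (abs_clamp_sub _ _ _ _).trans h1
  · rw [Real.dist_eq]; exact (abs_clamp_sub _ _ _ _).trans h2

/-- the clamped remainder -/
def Hc (r : ℝ) (p : ℝ × ℝ) : ℝ := HT (cl r p)

lemma continuous_Hc : Continuous fun q : ℝ × ℝ × ℝ => Hc q.1 q.2 := by
  unfold Hc
  rw [continuous_iff_continuousAt]
  intro q
  exact (contDiffAt_HT (n := 0) (den_pos (cl_mem q.1 q.2)).ne').continuousAt.comp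
    (f := fun q : ℝ × ℝ × ℝ => cl q.1 q.2) continuous_cl.continuousAt

/-- the clamped right-hand side of the equation for `a` -/
def G0 (p : ℝ × ℝ) : ℝ :=
  clamp (1 / 2) (3 / 2) p.1 * (clamp (-1) 1 p.2 - clamp (1 / 2) (3 / 2) p.1) / 2

lemma continuous_G0 : Continuous G0 := by
  unfold G0
  have h1 : Continuous fun p : ℝ × ℝ => clamp (1 / 2) (3 / 2) p.1 :=
    (continuous_clamp _ _).comp continuous_fst
  have h2 : Continuous fun p : ℝ × ℝ => clamp (-1) 1 p.2 :=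
    (continuous_clamp _ _).comp continuous_snd
  fun_prop

lemma abs_G0_le (p : ℝ × ℝ) : |G0 p| ≤ 2 := by
  have h1 := clamp_mem (l := 1 / 2) (u := 3 / 2) (by norm_num) p.1
  have h2 := clamp_mem (l := -1) (u := 1) (by norm_num) p.2
  unfold G0
  set x := clamp (1 / 2) (3 / 2) p.1
  set y := clamp (-1) 1 p.2
  rw [abs_le]
  constructor <;> nlinarith [h1.1, h1.2, h2.1, h2.2]

lemma abs_G0_sub (p q : ℝ × ℝ) : |G0 p - G0 q| ≤ 4 * dist p q := by
  have h1 := clamp_mem (l := 1 / 2) (u := 3 / 2) (by norm_num) p.1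
  have h2 := clamp_mem (l := -1) (u := 1) (by norm_num) p.2
  have h3 := clamp_mem (l := 1 / 2) (u := 3 / 2) (by norm_num) q.1
  have h4 := clamp_mem (l := -1) (u := 1) (by norm_num) q.2
  have h5 : |clamp (1 / 2) (3 / 2) p.1 - clamp (1 / 2) (3 / 2) q.1| ≤ dist p q := by
    refine (abs_clamp_sub _ _ _ _).trans ?_
    rw [Prod.dist_eq, Real.dist_eq, Real.dist_eq]; exact le_max_left _ _
  have h6 : |clamp (-1) 1 p.2 - clamp (-1) 1 q.2| ≤ dist p q := by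
    refine (abs_clamp_sub _ _ _ _).trans ?_
    rw [Prod.dist_eq, Real.dist_eq, Real.dist_eq]; exact le_max_right _ _
  unfold G0
  set x := clamp (1 / 2) (3 / 2) p.1
  set y := clamp (-1) 1 p.2
  set z := clamp (1 / 2) (3 / 2) q.1
  set w := clamp (-1) 1 q.2
  set d := dist p q
  have e : x * (y - x) / 2 - z * (w - z) / 2 = ((x - z) * (y - x) + z * ((y - w) - (x - z))) / 2 := by
    ring
  have hd : 0 ≤ d := dist_nonneg
  rw [e, abs_div, abs_of_pos (by norm_num : (0:ℝ) < 2)]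
  have h7 : |(x - z) * (y - x)| ≤ d * (5 / 2) := by
    rw [abs_mul]
    have : |y - x| ≤ 5 / 2 := abs_le.2 ⟨by linarith [h1.2, h2.1], by linarith [h1.1, h2.2]⟩
    exact mul_le_mul h5 this (abs_nonneg _) hd
  have h8 : |z * ((y - w) - (x - z))| ≤ 3 / 2 * (2 * d) := by
    rw [abs_mul]
    have h9 : |z| ≤ 3 / 2 := abs_le.2 ⟨by linarith [h3.1], h3.2⟩
    have h10 : |(y - w) - (x - z)| ≤ 2 * d := (abs_sub _ _).trans (by linarith)
    exact mul_le_mul h9 h10 (abs_nonneg _) (by norm_num)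
  have h11 := abs_add_le ((x - z) * (y - x)) (z * ((y - w) - (x - z)))
  have h12 : |(x - z) * (y - x) + z * ((y - w) - (x - z))| ≤ d * (5 / 2) + 3 / 2 * (2 * d) := by
    linarith
  linarith

/-! ### The fixed point operator -/

/-- `h_f` -/
def hf (f : ℝ → ℝ × ℝ) (r : ℝ) : ℝ := Hc r (f r)

/-- primitive of `h_f` -/
def Pf (f : ℝ → ℝ × ℝ) (s : ℝ) : ℝ := ∫ r in (0:ℝ)..s, hf f r

/-- the averaged function -/
def uf (f : ℝ → ℝ × ℝ) (r : ℝ) : ℝ := 7 / 6 * clamp (1 / 2) (3 / 2) (f r).1 - 11 / 2 * Pf f r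

lemma continuous_hf {f : ℝ → ℝ × ℝ} (hfc : Continuous f) : Continuous (hf f) := by
  unfold hf
  exact continuous_Hc.comp (continuous_id.prodMk hfc)

lemma continuous_Pf {f : ℝ → ℝ × ℝ} (hfc : Continuous f) : Continuous (Pf f) := by
  unfold Pf
  exact intervalIntegral.continuous_primitive
    (fun a b => (continuous_hf hfc).intervalIntegrable a b) 0

lemma continuous_uf {f : ℝ → ℝ × ℝ} (hfc : Continuous f) : Continuous (uf f) := by
  unfold uf
  have h1 := continuous_Pf hfc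
  have h2 : Continuous fun r => clamp (1 / 2) (3 / 2) (f r).1 :=
    (continuous_clamp _ _).comp (continuous_fst.comp hfc)
  fun_prop

/-- the operator on functions -/
def Top (ε : ℝ) (f : ℝ → ℝ × ℝ) (s : ℝ) : ℝ × ℝ :=
  (1 + ∫ r in (0:ℝ)..(clamp (-ε) ε s), G0 (f r),
    J 10 (uf f) (clamp (-ε) ε s) + Pf f (clamp (-ε) ε s))

lemma continuous_Top {ε : ℝ} {f : ℝ → ℝ × ℝ} (hfc : Continuous f) : Continuous (Top ε f) := by
  unfold Top
  have h0 := continuous_clamp (-ε) ε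
  refine Continuous.prodMk ?_ ?_
  · refine continuous_const.add ?_
    exact (intervalIntegral.continuous_primitive
      (fun a b => (continuous_G0.comp hfc).intervalIntegrable a b) 0).comp h0
  · exact ((continuous_J (continuous_uf hfc)).comp h0).add ((continuous_Pf hfc).comp h0)

lemma abs_integral_le {h : ℝ → ℝ} {ρ s C : ℝ} (hs : s ∈ Icc (-ρ) ρ) (hC0 : 0 ≤ C)
    (hC : ∀ x, |h x| ≤ C) : |∫ r in (0:ℝ)..s, h r| ≤ C * ρ := by
  have h1 := intervalIntegral.norm_integral_le_of_norm_le_const (a := 0) (b := s) (f := h) (C := C)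
    (fun x _ => hC x)
  rw [Real.norm_eq_abs, sub_zero] at h1
  exact h1.trans (mul_le_mul_of_nonneg_left (abs_le.2 hs) hC0)

section
variable {ε L M : ℝ} (hε : 0 < ε) (hε8 : ε ≤ 1 / 8) (hL0 : 0 ≤ L) (hM0 : 0 ≤ M)
  (hL : ∀ p ∈ Box, ∀ q ∈ Box, |HT p - HT q| ≤ L * dist p q) (hM : ∀ p ∈ Box, |HT p| ≤ M)
  (hεL : ε * L ≤ 1 / 8) (hεM : ε * M ≤ 1 / 8)
include hε hε8 hL0 hM0 hL hM hεL hεM

lemma abs_Pf_le (f : ℝ → ℝ × ℝ) {s : ℝ} (hs : s ∈ Icc (-ε) ε) : |Pf f s| ≤ 1 / 8 := by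
  have := abs_integral_le (h := hf f) hs hM0 (fun x => hM _ (cl_mem _ _))
  unfold Pf
  linarith [mul_comm M ε]

lemma Top_bd (f : ℝ → ℝ × ℝ) (s : ℝ) :
    (Top ε f s).1 ∈ Icc (1 / 2 : ℝ) (3 / 2) ∧ (Top ε f s).2 ∈ Icc (-1 : ℝ) 1 := by
  have hs := clamp_mem (l := -ε) (u := ε) (by linarith) s
  set t := clamp (-ε) ε s with ht
  have h1 := abs_integral_le (h := fun r => G0 (f r)) hs (by norm_num : (0:ℝ) ≤ 2)
    (fun x => abs_G0_le _)
  have h2 := abs_Pf_le hε hε8 hL0 hM0 hL hM hεL hεM f hs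
  have h3 : |J 10 (uf f) t| ≤ 2 / ((10:ℕ) + 1) * (7 / 4 + 11 / 16) := by
    refine abs_J_le hs fun x hx => ?_
    have h4 := abs_Pf_le hε hε8 hL0 hM0 hL hM hεL hεM f hx
    have h5 := clamp_mem (l := 1 / 2) (u := 3 / 2) (by norm_num) (f x).1
    unfold uf
    rw [abs_le] at h4 ⊢
    constructor <;> linarith [h5.1, h5.2, h4.1, h4.2]
  unfold Top
  rw [← ht]
  rw [abs_le] at h1 h2 h3
  push_cast at h3
  refine ⟨⟨?_, ?_⟩, ⟨?_, ?_⟩⟩ <;> simp only <;> linarith [h1.1, h1.2, h2.1, h2.2, h3.1, h3.2]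

lemma Top_dist {f g : ℝ → ℝ × ℝ} (hfc : Continuous f) (hgc : Continuous g) {d : ℝ} (hd : 0 ≤ d)
    (hfg : ∀ r, dist (f r) (g r) ≤ d) (s : ℝ) :
    dist (Top ε f s) (Top ε g s) ≤ 1 / 2 * d := by
  have hs := clamp_mem (l := -ε) (u := ε) (by linarith) s
  set t := clamp (-ε) ε s with ht
  have hh : ∀ r, |hf f r - hf g r| ≤ L * d := fun r => by
    refine (hL _ (cl_mem _ _) _ (cl_mem _ _)).trans ?_
    exact mul_le_mul_of_nonneg_left ((dist_cl _ _ _).trans (hfg r)) hL0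
  have hP : ∀ x ∈ Icc (-ε) ε, |Pf f x - Pf g x| ≤ 1 / 8 * d := by
    intro x hx
    unfold Pf
    rw [← intervalIntegral.integral_sub ((continuous_hf hfc).intervalIntegrable _ _)
      ((continuous_hf hgc).intervalIntegrable _ _)]
    refine (abs_integral_le hx (by positivity) hh).trans ?_
    nlinarith
  have h1 : |(∫ r in (0:ℝ)..t, G0 (f r)) - ∫ r in (0:ℝ)..t, G0 (g r)| ≤ 1 / 2 * d := by
    have i1 : Continuous fun r => G0 (f r) := continuous_G0.comp hfc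
    have i2 : Continuous fun r => G0 (g r) := continuous_G0.comp hgc
    rw [← intervalIntegral.integral_sub (i1.intervalIntegrable _ _) (i2.intervalIntegrable _ _)]
    have h2 : ∀ r, |G0 (f r) - G0 (g r)| ≤ 4 * d := fun r =>
      (abs_G0_sub _ _).trans (by linarith [hfg r])
    refine (abs_integral_le hs (by positivity) h2).trans ?_
    nlinarith
  have h3 : |J 10 (uf f) t - J 10 (uf g) t| ≤ 2 / ((10:ℕ) + 1) * ((7 / 6 + 11 / 16) * d) := by
    rw [← J_sub (continuous_uf hfc) (continuous_uf hgc)]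
    refine abs_J_le hs fun x hx => ?_
    have h4 := hP x hx
    have h5 : |clamp (1 / 2) (3 / 2) (f x).1 - clamp (1 / 2) (3 / 2) (g x).1| ≤ d := by
      refine (abs_clamp_sub _ _ _ _).trans ((le_trans ?_ (hfg x)))
      rw [Prod.dist_eq, Real.dist_eq, Real.dist_eq]; exact le_max_left _ _
    unfold uf
    rw [abs_le] at h4 h5 ⊢
    constructor <;> linarith [h4.1, h4.2, h5.1, h5.2]
  have h6 := hP t hs
  rw [Prod.dist_eq, Real.dist_eq, Real.dist_eq]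
  unfold Top
  rw [← ht]
  refine max_le ?_ ?_
  · simp only
    rw [abs_le] at h1 ⊢
    constructor <;> linarith [h1.1, h1.2]
  · simp only
    push_cast at h3
    rw [abs_le] at h3 h6 ⊢
    constructor <;> linarith [h3.1, h3.2, h6.1, h6.2]

lemma exists_fixed : ∃ f : ℝ → ℝ × ℝ, Continuous f ∧ ∀ s, f s = Top ε f s := by
  have hbd : ∀ f : ℝ → ℝ × ℝ, ∀ s, ‖Top ε f s‖ ≤ 2 := by
    intro f s
    obtain ⟨h1, h2⟩ := Top_bd hε hε8 hL0 hM0 hL hM hεL hεM f s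
    rw [Prod.norm_def, Real.norm_eq_abs, Real.norm_eq_abs]
    refine max_le (abs_le.2 ⟨by linarith [h1.1], by linarith [h1.2]⟩)
      (abs_le.2 ⟨by linarith [h2.1], by linarith [h2.2]⟩)
  let T : (ℝ →ᵇ ℝ × ℝ) → (ℝ →ᵇ ℝ × ℝ) := fun f =>
    BoundedContinuousFunction.ofNormedAddCommGroup (Top ε f) (continuous_Top f.continuous) 2 (hbd f)
  have hT : ContractingWith (1 / 2 : ℝ≥0) T := by
    refine ⟨by rw [← NNReal.coe_lt_coe]; norm_num, LipschitzWith.of_dist_le_mul fun f g => ?_⟩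
    rw [BoundedContinuousFunction.dist_le (by positivity)]
    intro s
    have h1 := Top_dist hε hε8 hL0 hM0 hL hM hεL hεM f.continuous g.continuous
      (dist_nonneg (x := f) (y := g)) (fun r => BoundedContinuousFunction.dist_coe_le_dist r) s
    have h2 : ((1 / 2 : ℝ≥0) : ℝ) = 1 / 2 := by norm_num
    rw [h2]
    exact h1
  set F : ℝ →ᵇ ℝ × ℝ := ContractingWith.fixedPoint T hT with hF
  have h1 : T F = F := hT.fixedPoint_isFixedPt
  refine ⟨F, F.continuous, fun s => ?_⟩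
  conv_lhs => rw [← h1]
  rfl

end

/-! ### Smoothness and the differential equations -/

section
variable {ε : ℝ} {f : ℝ → ℝ × ℝ} (hε : 0 < ε) (hε8 : ε ≤ 1 / 8) (hfc : Continuous f)
  (hfix : ∀ s, f s = Top ε f s) (ha : ∀ s, (f s).1 ∈ Icc (1 / 2 : ℝ) (3 / 2))
  (hb : ∀ s, (f s).2 ∈ Icc (-1 : ℝ) 1)
include hε hε8 hfc hfix ha hb

lemma G0_eq (r : ℝ) : G0 (f r) = (f r).1 * ((f r).2 - (f r).1) / 2 := by
  unfold G0
  rw [clamp_eq (ha r), clamp_eq (hb r)]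

lemma hf_eq {r : ℝ} (hr : r ∈ Icc (-1 : ℝ) 1) : hf f r = H r (f r).1 (f r).2 := by
  unfold hf Hc HT cl
  simp only
  rw [clamp_eq (ha r), clamp_eq (hb r), clamp_eq hr]

lemma uf_eq (r : ℝ) : uf f r = 7 / 6 * (f r).1 - 11 / 2 * Pf f r := by
  unfold uf
  rw [clamp_eq (ha r)]

lemma fst_eq {s : ℝ} (hs : s ∈ Icc (-ε) ε) : (f s).1 = 1 + ∫ r in (0:ℝ)..s, G0 (f r) := by
  conv_lhs => rw [hfix s]
  unfold Top
  simp only
  rw [clamp_eq hs]

lemma snd_eq {s : ℝ} (hs : s ∈ Icc (-ε) ε) : (f s).2 = J 10 (uf f) s + Pf f s := by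
  conv_lhs => rw [hfix s]
  unfold Top
  simp only
  rw [clamp_eq hs]

lemma contDiffOn_hf {n : ℕ} (h1 : ContDiffOn ℝ n (fun s => (f s).1) (Ioo (-ε) ε))
    (h2 : ContDiffOn ℝ n (fun s => (f s).2) (Ioo (-ε) ε)) :
    ContDiffOn ℝ n (hf f) (Ioo (-ε) ε) := by
  have h3 : ContDiffOn ℝ n (fun s => HT (s, (f s).1, (f s).2)) (Ioo (-ε) ε) := by
    intro s hs
    have h4 : (s, (f s).1, (f s).2) ∈ Box :=
      ⟨⟨by linarith [hs.1], by linarith [hs.2]⟩, ha s, hb s⟩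
    have h5 := contDiffAt_HT (n := n) (den_pos h4).ne'
    exact h5.comp_contDiffWithinAt (f := fun s => (s, (f s).1, (f s).2)) s
      (contDiffWithinAt_id.prodMk ((h1 s hs).prodMk (h2 s hs)))
  refine h3.congr fun s hs => ?_
  rw [hf_eq hε hε8 hfc hfix ha hb ⟨by linarith [hs.1], by linarith [hs.2]⟩]
  rfl

lemma contDiffOn_nat (n : ℕ) : ContDiffOn ℝ n (fun s => (f s).1) (Ioo (-ε) ε) ∧
    ContDiffOn ℝ n (fun s => (f s).2) (Ioo (-ε) ε) := by
  induction n with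
  | zero =>
    simp only [Nat.cast_zero, contDiffOn_zero]
    exact ⟨(continuous_fst.comp hfc).continuousOn, (continuous_snd.comp hfc).continuousOn⟩
  | succ n ih =>
    obtain ⟨h1, h2⟩ := ih
    have hsub : Ioo (-ε) ε ⊆ Icc (-ε) ε := Ioo_subset_Icc_self
    have h3 : ContDiffOn ℝ n (fun s => G0 (f s)) (Ioo (-ε) ε) := by
      have : ContDiffOn ℝ n (fun s => (f s).1 * ((f s).2 - (f s).1) / 2) (Ioo (-ε) ε) :=
        (h1.mul (h2.sub h1)).div_const 2
      exact this.congr fun s _ => G0_eq hε hε8 hfc hfix ha hb s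
    have h4 : ContDiffOn ℝ (n + 1 : ℕ) (fun s => (f s).1) (Ioo (-ε) ε) := by
      have h5 : ContDiffOn ℝ (n + 1 : ℕ) (fun s => 1 + ∫ r in (0:ℝ)..s, G0 (f r)) (Ioo (-ε) ε) :=
        contDiffOn_const.add (contDiffOn_prim (continuous_G0.comp hfc) h3)
      exact h5.congr fun s hs => fst_eq hε hε8 hfc hfix ha hb (hsub hs)
    have h6 : ContDiffOn ℝ (n + 1 : ℕ) (Pf f) (Ioo (-ε) ε) :=
      contDiffOn_prim (continuous_hf hfc) (contDiffOn_hf hε hε8 hfc hfix ha hb h1 h2)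
    have h7 : ContDiffOn ℝ (n + 1 : ℕ) (uf f) (Ioo (-ε) ε) := by
      have : ContDiffOn ℝ (n + 1 : ℕ) (fun s => 7 / 6 * (f s).1 - 11 / 2 * Pf f s) (Ioo (-ε) ε) :=
        (contDiffOn_const.mul h4).sub (contDiffOn_const.mul h6)
      exact this.congr fun s _ => uf_eq hε hε8 hfc hfix ha hb s
    refine ⟨h4, ?_⟩
    have h8 : ContDiffOn ℝ (n + 1 : ℕ) (fun s => J 10 (uf f) s + Pf f s) (Ioo (-ε) ε) :=
      (contDiffOn_J (n + 1) h7).add h6
    exact h8.congr fun s hs => snd_eq hε hε8 hfc hfix ha hb (hsub hs)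

lemma hasDerivAt_fst {s : ℝ} (hs : s ∈ Ioo (-ε) ε) :
    HasDerivAt (fun s => (f s).1) ((f s).1 * ((f s).2 - (f s).1) / 2) s := by
  have hc : Continuous fun r => G0 (f r) := continuous_G0.comp hfc
  have h1 : HasDerivAt (fun s => ∫ r in (0:ℝ)..s, G0 (f r)) (G0 (f s)) s :=
    intervalIntegral.integral_hasDerivAt_right (hc.intervalIntegrable _ _)
      hc.stronglyMeasurable.stronglyMeasurableAtFilter hc.continuousAt
  have h2 := h1.const_add 1
  rw [G0_eq hε hε8 hfc hfix ha hb s] at h2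
  refine h2.congr_of_eventuallyEq ?_
  filter_upwards [Ioo_mem_nhds hs.1 hs.2] with x hx
  exact fst_eq hε hε8 hfc hfix ha hb ⟨hx.1.le, hx.2.le⟩

lemma hasDerivAt_Pf (s : ℝ) : HasDerivAt (Pf f) (hf f s) s := by
  have hc := continuous_hf hfc
  exact intervalIntegral.integral_hasDerivAt_right (hc.intervalIntegrable _ _)
      hc.stronglyMeasurable.stronglyMeasurableAtFilter hc.continuousAt

lemma exists_deriv_snd {s : ℝ} (hs : s ∈ Ioo (-ε) ε) : ∃ d, HasDerivAt (fun s => (f s).2) d s ∧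
    s * d = -(11 / 2) * (f s).2 + 7 / 6 * (f s).1 + s * H s (f s).1 (f s).2 := by
  set u' : ℝ → ℝ := fun x => 7 / 6 * ((f x).1 * ((f x).2 - (f x).1) / 2) - 11 / 2 * hf f x with hu'
  have h1 : ∀ x ∈ Ioo (-ε) ε, HasDerivAt (uf f) (u' x) x := by
    intro x hx
    have h2 := ((hasDerivAt_fst hε hε8 hfc hfix ha hb hx).const_mul (7 / 6)).sub
      ((hasDerivAt_Pf hε hε8 hfc hfix ha hb x).const_mul (11 / 2))
    refine h2.congr_of_eventuallyEq (Filter.Eventually.of_forall fun y => ?_)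
    exact uf_eq hε hε8 hfc hfix ha hb y
  have h2 : Continuous u' := by
    have := continuous_hf hfc
    have h3 : Continuous fun x => (f x).1 := continuous_fst.comp hfc
    have h4 : Continuous fun x => (f x).2 := continuous_snd.comp hfc
    fun_prop
  have h3 := hasDerivAt_J (m := 10) h1 h2.continuousOn hs
  have h4 := J_parts (m := 10) h1 h2.continuousOn hs
  have h5 := h3.add (hasDerivAt_Pf hε hε8 hfc hfix ha hb s)
  refine ⟨J (10 + 2) u' s + hf f s, ?_, ?_⟩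
  · refine h5.congr_of_eventuallyEq ?_
    filter_upwards [Ioo_mem_nhds hs.1 hs.2] with x hx
    exact snd_eq hε hε8 hfc hfix ha hb ⟨hx.1.le, hx.2.le⟩
  · have h6 := snd_eq hε hε8 hfc hfix ha hb (s := s) ⟨hs.1.le, hs.2.le⟩
    have h7 := uf_eq hε hε8 hfc hfix ha hb s
    have h8 := hf_eq hε hε8 hfc hfix ha hb (r := s) ⟨by linarith [hs.1], by linarith [hs.2]⟩
    rw [mul_add, h4, ← h8, h7]
    push_cast
    linarith

end

/-- **Part (A)**: the local smooth profile. -/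
theorem exists_local : ∃ (ε : ℝ) (a b : ℝ → ℝ), 0 < ε ∧ ε ≤ 1 / 8 ∧
    ContDiffOn ℝ ∞ a (Ioo (-ε) ε) ∧ ContDiffOn ℝ ∞ b (Ioo (-ε) ε) ∧ a 0 = 1 ∧ b 0 = 7 / 33 ∧
    (∀ s, a s ∈ Icc (1 / 2 : ℝ) (3 / 2)) ∧ (∀ s, b s ∈ Icc (-1 : ℝ) 1) ∧
    (∀ s ∈ Ioo (-ε) ε, HasDerivAt a (a s * (b s - a s) / 2) s) ∧
    (∀ s ∈ Ioo (-ε) ε, HasDerivAt (fun s => 1 + s * b s)
      ((1 + s * b s) * (a s - 9 * b s + 12 * a s * (1 + 2 * s * b s) / (9 + 2 * s * a s)) / 2) s) := by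
  obtain ⟨L, hL0, hL⟩ := exists_lip
  obtain ⟨M, hM0, hM⟩ := exists_bd
  set ε : ℝ := 1 / (8 * (L + M + 1)) with hεd
  have hpos : 0 < L + M + 1 := by positivity
  have hε : 0 < ε := by positivity
  have hεe : ε * (L + M + 1) = 1 / 8 := by
    rw [hεd]; field_simp
  have hε8 : ε ≤ 1 / 8 := by nlinarith
  have hεL : ε * L ≤ 1 / 8 := by nlinarith
  have hεM : ε * M ≤ 1 / 8 := by nlinarith
  obtain ⟨f, hfc, hfix⟩ := exists_fixed hε hε8 hL0 hM0 hL hM hεL hεM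
  have hbd := Top_bd hε hε8 hL0 hM0 hL hM hεL hεM f
  have ha : ∀ s, (f s).1 ∈ Icc (1 / 2 : ℝ) (3 / 2) := fun s => by rw [hfix s]; exact (hbd s).1
  have hb : ∀ s, (f s).2 ∈ Icc (-1 : ℝ) 1 := fun s => by rw [hfix s]; exact (hbd s).2
  have h0 : (0 : ℝ) ∈ Ioo (-ε) ε := ⟨by linarith, hε⟩
  have ha0 : (f 0).1 = 1 := by
    rw [fst_eq hε hε8 hfc hfix ha hb ⟨h0.1.le, h0.2.le⟩]
    simp
  refine ⟨ε, fun s => (f s).1, fun s => (f s).2, hε, hε8, ?_, ?_, ha0, ?_, ha, hb, ?_, ?_⟩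
  · rw [contDiffOn_infty]
    exact fun n => (contDiffOn_nat hε hε8 hfc hfix ha hb n).1
  · rw [contDiffOn_infty]
    exact fun n => (contDiffOn_nat hε hε8 hfc hfix ha hb n).2
  · obtain ⟨d, -, hd⟩ := exists_deriv_snd hε hε8 hfc hfix ha hb h0
    rw [ha0] at hd
    simp only
    linarith
  · exact fun s hs => hasDerivAt_fst hε hε8 hfc hfix ha hb hs
  · intro s hs
    obtain ⟨d, hd1, hd2⟩ := exists_deriv_snd hε hε8 hfc hfix ha hb hs
    have h1 : HasDerivAt (fun s => 1 + s * (f s).2) (1 * (f s).2 + s * d) s :=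
      ((hasDerivAt_id s).mul hd1).const_add 1
    refine h1.congr_deriv ?_
    have h2 : (s, (f s).1, (f s).2) ∈ Box :=
      ⟨⟨by linarith [hs.1], by linarith [hs.2]⟩, ha s, hb s⟩
    rw [← H_identity (s := s) (a := (f s).1) (b := (f s).2) (den_pos h2).ne', hd2]
    ring

end Crest.Agent.R236.ExLoc
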