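import Crest.Agent.R236.ExLoc
import Crest.Agent.R236.ExDefs

/-!
Row 236 (S0366), part (A): the local profile as a structure `Loc`.
-/

set_option autoImplicit false
open scoped ContDiff

namespace Crest.Agent.R236.Ex

theorem exists_loc : Nonempty Loc := by
  obtain ⟨ε, a, b, hε, -, h1, h2, h3, -, -, -, h4, h5⟩ := Crest.Agent.R236.ExLoc.exists_local
  exact ⟨{ eps := ε, a := a, b := b, heps := hε, sa := h1, sb := h2, a0 := by rw [h3]; norm_num,
           da := fun s hs hs' => h4 s ⟨by linarith, hs'⟩
           db := fun s hs hs' => h5 s ⟨by linarith, hs'⟩ }⟩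

end Crest.Agent.R236.Ex
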