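import Crest.Agent.R236.ExC

/-!
Row 236, S0366: linear algebra of the matrices `α P + β cc + γ (cd+dc) + δ dd`.
-/

set_option autoImplicit false
open scoped ContDiff

noncomputable section
namespace Crest.Agent.R236.Ex

def Idp (i j : Fin 10) : ℝ := if i = j then pv i else 0

/-- the matrix family -/
def MM (α β γ δ : ℝ) (x : E10) : Matrix (Fin 10) (Fin 10) ℝ := fun i j =>
  α * Idp i j + β * (cv x i * cv x j) + γ * (cv x i * dv j + dv i * cv x j) + δ * (dv i * dv j)

lemma Idp_symm (i j : Fin 10) : Idp i j = Idp j i := by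
  unfold Idp
  by_cases h : i = j
  · subst h; rfl
  · rw [if_neg h, if_neg (Ne.symm h)]

lemma sum_Idp_mul (i : Fin 10) (f : Fin 10 → ℝ) : ∑ j, Idp i j * f j = pv i * f i := by
  unfold Idp
  rw [Finset.sum_eq_single i]
  · simp
  · intro j _ hj; rw [if_neg (Ne.symm hj)]; simp
  · simp

lemma sum_mul_Idp (k : Fin 10) (f : Fin 10 → ℝ) : ∑ j, f j * Idp j k = f k * pv k := by
  have := sum_Idp_mul k f
  calc ∑ j, f j * Idp j k = ∑ j, Idp k j * f j := by
        apply Finset.sum_congr rfl; intro j _; rw [Idp_symm]; ring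
    _ = pv k * f k := this
    _ = _ := by ring

lemma sum_Idp_Idp (i k : Fin 10) : ∑ j, Idp i j * Idp j k = Idp i k := by
  rw [sum_Idp_mul]
  unfold Idp
  by_cases h : i = k
  · subst h; simp [pv_mul_pv]
  · simp [h]

lemma sum_cc (x : E10) : ∑ j, cv x j * cv x j = 4 * S x := sum_cv_sq x
lemma sum_cd (x : E10) : ∑ j, cv x j * dv j = 0 :=
  Finset.sum_eq_zero (fun j _ => cv_mul_dv x j)
lemma sum_dd : ∑ j, dv j * dv j = 1 := by
  simp only [dv_mul_dv]; exact sum_dv

lemma MM_mul (α β γ δ α' β' γ' δ' : ℝ) (x : E10) :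
    MM α β γ δ x * MM α' β' γ' δ' x = fun i k =>
      α * α' * Idp i k
      + (α * β' + β * α' + β * β' * (4 * S x) + γ * γ') * (cv x i * cv x k)
      + (α * γ' + β * γ' * (4 * S x) + γ * δ') * (cv x i * dv k)
      + (γ * α' + γ * β' * (4 * S x) + δ * γ') * (dv i * cv x k)
      + (γ * γ' * (4 * S x) + δ * δ') * (dv i * dv k) := by
  ext i k
  rw [Matrix.mul_apply]
  have h : ∀ j, MM α β γ δ x i j * MM α' β' γ' δ' x j k =
      α * α' * (Idp i j * Idp j k)
      + α * ((β' * cv x k + γ' * dv k) * (Idp i j * cv x j) + (γ' * cv x k + δ' * dv k) * (Idp i j * dv j))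
      + α' * ((β * cv x i + γ * dv i) * (cv x j * Idp j k) + (γ * cv x i + δ * dv i) * (dv j * Idp j k))
      + (β * cv x i + γ * dv i) * (β' * cv x k + γ' * dv k) * (cv x j * cv x j)
      + ((β * cv x i + γ * dv i) * (γ' * cv x k + δ' * dv k)
          + (γ * cv x i + δ * dv i) * (β' * cv x k + γ' * dv k)) * (cv x j * dv j)
      + (γ * cv x i + δ * dv i) * (γ' * cv x k + δ' * dv k) * (dv j * dv j) := by
    intro j; simp only [MM]; ring
  simp only [h, Finset.sum_add_distrib, ← Finset.mul_sum, sum_Idp_Idp, sum_Idp_mul, sum_mul_Idp,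
    sum_cc, sum_cd, sum_dd, pv_mul_dv, pv_mul_cv]
  have h1 : cv x k * pv k = cv x k := by rw [mul_comm]; exact pv_mul_cv x k
  have h2 : dv k * pv k = 0 := by rw [mul_comm]; exact pv_mul_dv k
  rw [h1, h2]
  ring

lemma one_eq : (1 : Matrix (Fin 10) (Fin 10) ℝ) = fun i k => Idp i k + dv i * dv k := by
  ext i k
  unfold Idp
  by_cases h : i = k
  · subst h
    simp only [Matrix.one_apply_eq, if_true, dv_mul_dv]
    exact (pv_add_dv i).symm
  · simp only [Matrix.one_apply_ne h, if_neg h, zero_add]
    unfold dv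
    by_cases h1 : i = 9
    · have : k ≠ 9 := fun hk => h (h1.trans hk.symm)
      simp [this]
    · simp [h1]

lemma MM_inv (α β γ δ : ℝ) (x : E10) (hα : α ≠ 0)
    (hΔ : (α + β * (4 * S x)) * δ - γ ^ 2 * (4 * S x) ≠ 0) :
    (MM α β γ δ x)⁻¹ = MM (1 / α)
      ((γ ^ 2 - β * δ) / (α * ((α + β * (4 * S x)) * δ - γ ^ 2 * (4 * S x))))
      (-γ / ((α + β * (4 * S x)) * δ - γ ^ 2 * (4 * S x)))
      ((α + β * (4 * S x)) / ((α + β * (4 * S x)) * δ - γ ^ 2 * (4 * S x))) x := by
  apply Matrix.inv_eq_right_inv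
  rw [MM_mul, one_eq]
  ext i k
  set n := 4 * S x
  set Δ := (α + β * n) * δ - γ ^ 2 * n with hΔd
  have e1 : α * (1 / α) = 1 := by field_simp
  have e2 : α * ((γ ^ 2 - β * δ) / (α * Δ)) + β * (1 / α) + β * ((γ ^ 2 - β * δ) / (α * Δ)) * n
      + γ * (-γ / Δ) = 0 := by
    field_simp
    rw [hΔd]; ring
  have e3 : α * (-γ / Δ) + β * (-γ / Δ) * n + γ * ((α + β * n) / Δ) = 0 := by
    field_simp; ring
  have e4 : γ * (1 / α) + γ * ((γ ^ 2 - β * δ) / (α * Δ)) * n + δ * (-γ / Δ) = 0 := by
    field_simp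
    rw [hΔd]; ring
  have e5 : γ * (-γ / Δ) * n + δ * ((α + β * n) / Δ) = 1 := by
    field_simp
    rw [hΔd]; ring
  rw [e1, e2, e3, e4, e5]
  ring

lemma sum_Idp_diag : ∑ i, Idp i i = 9 := by
  simp only [Idp, if_true]; exact sum_pv

lemma frob (α β γ δ α' β' γ' δ' : ℝ) (x : E10) :
    ∑ i, ∑ j, MM α β γ δ x i j * MM α' β' γ' δ' x i j =
      9 * (α * α') + (α * β' + β * α' + β * β' * (4 * S x)) * (4 * S x) + 2 * (γ * γ') * (4 * S x)
        + δ * δ' := by
  have hs : ∀ i j, MM α' β' γ' δ' x i j = MM α' β' γ' δ' x j i := by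
    intro i j; simp only [MM]; rw [Idp_symm]; ring
  have h1 : ∑ i, ∑ j, MM α β γ δ x i j * MM α' β' γ' δ' x i j =
      ∑ i, (MM α β γ δ x * MM α' β' γ' δ' x) i i := by
    apply Finset.sum_congr rfl; intro i _
    rw [Matrix.mul_apply]
    apply Finset.sum_congr rfl; intro j _
    rw [hs i j]
  rw [h1, MM_mul]
  simp only [Finset.sum_add_distrib, ← Finset.mul_sum, sum_Idp_diag, sum_cc, sum_cd, sum_dd]
  have h2 : ∑ i, dv i * cv x i = 0 := by
    rw [← sum_cd x]; apply Finset.sum_congr rfl; intro i _; ring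
  rw [h2]; ring

lemma MM_det (α β γ δ : ℝ) (x : E10) (hα : α ≠ 0) (hδ : δ ≠ 0) :
    (MM α β γ δ x).det = α ^ 8 * ((α + β * (4 * S x)) * δ - γ ^ 2 * (4 * S x)) := by
  set A : Matrix (Fin 10) (Fin 10) ℝ := Matrix.diagonal (fun i => if i = 9 then δ else α) with hA
  set U : Matrix (Fin 10) (Fin 2) ℝ := fun i k => if k = 0 then cv x i / α else dv i / δ with hU
  set V : Matrix (Fin 2) (Fin 10) ℝ := fun k j =>
    if k = 0 then β * cv x j + γ * dv j else γ * cv x j with hV
  have hfac : MM α β γ δ x = A * (1 + U * V) := by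
    ext i j
    rw [mul_add, Matrix.mul_one, Matrix.add_apply]
    have h1 : (A * (U * V)) i j = (if i = 9 then δ else α) *
        (cv x i / α * (β * cv x j + γ * dv j) + dv i / δ * (γ * cv x j)) := by
      rw [hA, Matrix.diagonal_mul, Matrix.mul_apply]
      simp [hU, hV, Fin.sum_univ_two]
    rw [h1, hA, Matrix.diagonal_apply]
    unfold MM Idp
    by_cases h9 : i = 9
    · have hc : cv x i = 0 := by simp [cv, h9]
      have hd : dv i = 1 := by simp [dv, h9]
      have hp : pv i = 0 := by simp [pv, h9]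
      rw [hc, hd, hp]
      simp only [h9, if_true]
      by_cases hj : (9 : Fin 10) = j
      · subst hj; simp [dv, cv]
      · have : dv j = 0 := by simp [dv, Ne.symm hj]
        rw [this]; simp [hj]; field_simp
    · have hd : dv i = 0 := by simp [dv, h9]
      have hp : pv i = 1 := by simp [pv, h9]
      rw [hd, hp]
      simp only [h9, if_false]
      by_cases hj : i = j
      · simp [hj]; first | (field_simp; ring) | field_simp
      · simp [hj]; first | (field_simp; ring) | field_simp
  rw [hfac, Matrix.det_mul, Matrix.det_one_add_mul_comm, hA, Matrix.det_diagonal]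
  have hprod : ∏ i : Fin 10, (if i = 9 then δ else α) = α ^ 9 * δ := by
    rw [Fin.prod_univ_castSucc]
    have : ∀ i : Fin 9, (if (Fin.castSucc i) = (9 : Fin 10) then δ else α) = α := by
      intro i
      have hne : Fin.castSucc i ≠ (9 : Fin 10) := ne_of_lt (Fin.castSucc_lt_last i)
      simp [hne]
    simp only [this, Finset.prod_const, Finset.card_univ, Fintype.card_fin]
    have h9 : (Fin.last 9 : Fin 10) = 9 := rfl
    simp [h9]
  rw [hprod, Matrix.det_fin_two]
  have v00 : (V * U) 0 0 = β * (4 * S x) / α := by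
    rw [Matrix.mul_apply]
    have : ∀ j, V 0 j * U j 0 = (β / α) * (cv x j * cv x j) + (γ / α) * (cv x j * dv j) := by
      intro j; simp [hU, hV]; ring
    simp only [this, Finset.sum_add_distrib, ← Finset.mul_sum, sum_cc, sum_cd]; ring
  have v01 : (V * U) 0 1 = γ / δ := by
    rw [Matrix.mul_apply]
    have : ∀ j, V 0 j * U j 1 = (β / δ) * (cv x j * dv j) + (γ / δ) * (dv j * dv j) := by
      intro j; simp [hU, hV]; ring
    simp only [this, Finset.sum_add_distrib, ← Finset.mul_sum, sum_dd, sum_cd]; ring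
  have v10 : (V * U) 1 0 = γ * (4 * S x) / α := by
    rw [Matrix.mul_apply]
    have : ∀ j, V 1 j * U j 0 = (γ / α) * (cv x j * cv x j) := by
      intro j; simp [hU, hV]; ring
    simp only [this, ← Finset.mul_sum, sum_cc]; ring
  have v11 : (V * U) 1 1 = 0 := by
    rw [Matrix.mul_apply]
    have : ∀ j, V 1 j * U j 1 = (γ / δ) * (cv x j * dv j) := by
      intro j; simp [hU, hV]; ring
    simp only [this, ← Finset.mul_sum, sum_cd]; ring
  simp only [Matrix.add_apply, v00, v01, v10, v11, Matrix.one_apply_eq]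
  rw [Matrix.one_apply_ne (by decide : (0 : Fin 2) ≠ 1), Matrix.one_apply_ne (by decide : (1 : Fin 2) ≠ 0)]
  field_simp
  ring

lemma MM_posDef (α β γ δ : ℝ) (x : E10) (hα : 0 < α) (hδ : 0 < δ)
    (hΔ : 0 < (α + β * (4 * S x)) * δ - γ ^ 2 * (4 * S x)) :
    (MM α β γ δ x).PosDef := by
  set n := 4 * S x with hn
  have hn0 : 0 ≤ n := by have := S_nonneg x; positivity
  apply Matrix.PosDef.of_dotProduct_mulVec_pos
  · ext i j
    simp only [Matrix.conjTranspose_apply, star_trivial, MM]
    rw [Idp_symm]; ring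
  · intro v hv
    simp only [star_trivial]
    set p := ∑ i, cv x i * v i with hp
    set q := ∑ i, dv i * v i with hq
    set w := ∑ i, pv i * (v i * v i) with hw
    have hform : v ⬝ᵥ (MM α β γ δ x).mulVec v = α * w + β * p ^ 2 + 2 * γ * (p * q) + δ * q ^ 2 := by
      simp only [dotProduct, Matrix.mulVec]
      have h1 : ∀ i, ∑ j, MM α β γ δ x i j * v j =
          α * (pv i * v i) + β * cv x i * p + γ * (cv x i * q + dv i * p) + δ * dv i * q := by
        intro i
        have : ∀ j, MM α β γ δ x i j * v j = α * (Idp i j * v j) + (β * cv x i + γ * dv i) * (cv x j * v j)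
            + (γ * cv x i + δ * dv i) * (dv j * v j) := by
          intro j; simp only [MM]; ring
        simp only [this, Finset.sum_add_distrib, ← Finset.mul_sum, sum_Idp_mul]
        rw [← hp, ← hq]; ring
      simp only [h1]
      have h2 : ∀ i, v i * (α * (pv i * v i) + β * cv x i * p + γ * (cv x i * q + dv i * p) + δ * dv i * q)
          = α * (pv i * (v i * v i)) + (β * p + γ * q) * (cv x i * v i) + (γ * p + δ * q) * (dv i * v i) := by
        intro i; ring
      simp only [h2, Finset.sum_add_distrib, ← Finset.mul_sum]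
      rw [← hp, ← hq, ← hw]; ring
    rw [hform]
    have hw0 : 0 ≤ w := by
      apply Finset.sum_nonneg; intro i _
      have : 0 ≤ pv i := by unfold pv; split_ifs <;> norm_num
      exact mul_nonneg this (mul_self_nonneg _)
    -- Cauchy-Schwarz
    have hcs : p ^ 2 ≤ n * w := by
      have h := Finset.sum_mul_sq_le_sq_mul_sq Finset.univ (fun i => cv x i) (fun i => pv i * v i)
      have e1 : ∑ i, cv x i * (pv i * v i) = p := by
        rw [hp]; apply Finset.sum_congr rfl; intro i _
        have := pv_mul_cv x i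
        calc cv x i * (pv i * v i) = (pv i * cv x i) * v i := by ring
          _ = _ := by rw [this]
      have e2 : ∑ i, (cv x i) ^ 2 = n := by
        rw [hn, ← sum_cc]; apply Finset.sum_congr rfl; intro i _; ring
      have e3 : ∑ i, (pv i * v i) ^ 2 = w := by
        rw [hw]; apply Finset.sum_congr rfl; intro i _
        have := pv_mul_pv i
        calc (pv i * v i) ^ 2 = (pv i * pv i) * (v i * v i) := by ring
          _ = _ := by rw [this]
      rw [e1, e2, e3] at h
      exact h
    have hpos : 0 < w ∨ q ≠ 0 := by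
      by_contra hcon
      push Not at hcon
      have hw' : w = 0 := le_antisymm hcon.1 hw0
      apply hv
      ext i
      by_cases h9 : i = 9
      · subst h9
        have : q = v 9 := by
          rw [hq]
          simp [dv]
        rw [← this]; simpa using hcon.2
      · have hz := (Finset.sum_eq_zero_iff_of_nonneg (fun i _ => by
            have : 0 ≤ pv i := by unfold pv; split_ifs <;> norm_num
            exact mul_nonneg this (mul_self_nonneg (v i)))).1 hw' i (Finset.mem_univ i)
        have hpi : pv i = 1 := by simp [pv, h9]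
        rw [hpi, one_mul] at hz
        simpa using mul_self_eq_zero.1 hz
    by_cases hn1 : n = 0
    · have hp0 : p = 0 := by
        have : p ^ 2 ≤ 0 := by rw [hn1] at hcs; simpa using hcs
        exact pow_eq_zero_iff (two_ne_zero) |>.1 (le_antisymm this (sq_nonneg _))
      rw [hp0]
      rcases hpos with h | h
      · have := mul_pos hα h
        nlinarith [mul_nonneg hδ.le (sq_nonneg q)]
      · have : 0 < δ * q ^ 2 := mul_pos hδ (by positivity)
        nlinarith [mul_nonneg hα.le hw0]
    · have hnpos : 0 < n := lt_of_le_of_ne hn0 (Ne.symm hn1)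
      -- n * form ≥ (α + β n) p² + 2 γ n p q + δ n q² when w ≥ p²/n
      by_cases hpq : p = 0 ∧ q = 0
      · rcases hpos with h | h
        · rw [hpq.1, hpq.2]
          have := mul_pos hα h
          nlinarith
        · exact absurd hpq.2 h
      · have key : 0 < (α + β * n) * p ^ 2 + 2 * (γ * n) * (p * q) + (δ * n) * q ^ 2 := by
          -- multiply by δ n > 0
          have hdn : 0 < δ * n := mul_pos hδ hnpos
          have h1 : (δ * n) * ((α + β * n) * p ^ 2 + 2 * (γ * n) * (p * q) + (δ * n) * q ^ 2) =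
              n * ((α + β * n) * δ - γ ^ 2 * n) * p ^ 2 + (γ * n * p + δ * n * q) ^ 2 := by ring
          have h2 : 0 < (δ * n) * ((α + β * n) * p ^ 2 + 2 * (γ * n) * (p * q) + (δ * n) * q ^ 2) := by
            rw [h1]
            by_cases hp0 : p = 0
            · have hq0 : q ≠ 0 := fun h => hpq ⟨hp0, h⟩
              rw [hp0]
              have : 0 < (δ * n * q) ^ 2 := by positivity
              nlinarith
            · have : 0 < n * ((α + β * n) * δ - γ ^ 2 * n) * p ^ 2 := by positivity
              nlinarith [sq_nonneg (γ * n * p + δ * n * q)]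
          exact (mul_pos_iff_of_pos_left hdn).1 h2
        have h3 : 0 < n * (α * w + β * p ^ 2 + 2 * γ * (p * q) + δ * q ^ 2) := by
          have : α * p ^ 2 ≤ α * (n * w) := mul_le_mul_of_nonneg_left hcs hα.le
          nlinarith
        exact (mul_pos_iff_of_pos_left hnpos).1 h3

end Crest.Agent.R236.Ex
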