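import Mathlib

/-!
# Row 236 / S0366: matrices of the form `α P + β b bᵀ + γ (b lᵀ + l bᵀ) + ε l lᵀ`
-/

set_option autoImplicit false

open Matrix BigOperators

namespace Crest.Agent.R236.Ex

/-- structured symmetric matrix on `ℝ⁹ × ℝ`. -/
def S (al be ga ep : ℝ) (b : Fin 9 → ℝ) : Matrix (Fin 10) (Fin 10) ℝ := fun i j =>
  Fin.lastCases (motive := fun _ => ℝ)
    (Fin.lastCases (motive := fun _ => ℝ) ep (fun j' => ga * b j') j)
    (fun i' => Fin.lastCases (motive := fun _ => ℝ) (ga * b i')
      (fun j' => al * (if i' = j' then 1 else 0) + be * b i' * b j') j) i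

@[simp] lemma S_ll (al be ga ep : ℝ) (b : Fin 9 → ℝ) :
    S al be ga ep b (Fin.last 9) (Fin.last 9) = ep := by
  unfold S
  rw [Fin.lastCases_last, Fin.lastCases_last]

@[simp] lemma S_lc (al be ga ep : ℝ) (b : Fin 9 → ℝ) (j : Fin 9) :
    S al be ga ep b (Fin.last 9) j.castSucc = ga * b j := by
  unfold S
  rw [Fin.lastCases_last, Fin.lastCases_castSucc]

@[simp] lemma S_cl (al be ga ep : ℝ) (b : Fin 9 → ℝ) (i : Fin 9) :
    S al be ga ep b i.castSucc (Fin.last 9) = ga * b i := by
  unfold S
  rw [Fin.lastCases_castSucc, Fin.lastCases_last]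

@[simp] lemma S_cc (al be ga ep : ℝ) (b : Fin 9 → ℝ) (i j : Fin 9) :
    S al be ga ep b i.castSucc j.castSucc = al * (if i = j then 1 else 0) + be * b i * b j := by
  unfold S
  rw [Fin.lastCases_castSucc, Fin.lastCases_castSucc]

/-- multiplication table -/
lemma S_mul_inv {al be ga ep a b' c e' : ℝ} (b : Fin 9 → ℝ)
    (h1 : al * a = 1)
    (h2 : al * b' + be * a + be * (∑ k, b k ^ 2) * b' + ga * c = 0)
    (h3 : al * c + be * (∑ k, b k ^ 2) * c + ga * e' = 0)
    (h4 : ga * a + ga * (∑ k, b k ^ 2) * b' + ep * c = 0)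
    (h5 : ga * (∑ k, b k ^ 2) * c + ep * e' = 1) :
    S al be ga ep b * S a b' c e' b = 1 := by
  set R : ℝ := ∑ k, b k ^ 2 with hR
  ext i j
  rw [Matrix.mul_apply, Fin.sum_univ_castSucc]
  refine Fin.lastCases ?_ (fun i => ?_) i
  · refine Fin.lastCases ?_ (fun j => ?_) j
    · simp only [S_lc, S_cl, S_ll, Matrix.one_apply_eq]
      have : ∑ k : Fin 9, ga * b k * (c * b k) = ga * R * c := by
        rw [hR, Finset.mul_sum, Finset.sum_mul]
        exact Finset.sum_congr rfl fun k _ => by ring
      rw [this, h5]
    · simp only [S_lc, S_cc, S_ll]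
      rw [Matrix.one_apply_ne (Fin.castSucc_lt_last j).ne']
      have : ∑ k : Fin 9, ga * b k * (a * (if k = j then 1 else 0) + b' * b k * b j) =
          (ga * a + ga * R * b') * b j := by
        simp only [mul_add, Finset.sum_add_distrib]
        have e1 : ∑ k : Fin 9, ga * b k * (a * (if k = j then (1:ℝ) else 0)) = ga * a * b j := by
          rw [Finset.sum_eq_single j]
          · simp; ring
          · intro k _ hk; simp [hk]
          · intro h; exact absurd (Finset.mem_univ _) h
        have e2 : ∑ k : Fin 9, ga * b k * (b' * b k * b j) = ga * R * b' * b j := by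
          rw [hR, Finset.mul_sum, Finset.sum_mul, Finset.sum_mul]
          exact Finset.sum_congr rfl fun k _ => by ring
        rw [e1, e2]; ring
      rw [this]
      have := congrArg (· * b j) h4
      simp only [zero_mul] at this
      linarith [this]
  · refine Fin.lastCases ?_ (fun j => ?_) j
    · simp only [S_cc, S_cl, S_ll]
      rw [Matrix.one_apply_ne (Fin.castSucc_lt_last i).ne]
      have : ∑ k : Fin 9, (al * (if i = k then 1 else 0) + be * b i * b k) * (c * b k) =
          (al * c + be * R * c) * b i := by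
        simp only [add_mul, Finset.sum_add_distrib]
        have e1 : ∑ k : Fin 9, al * (if i = k then (1:ℝ) else 0) * (c * b k) = al * c * b i := by
          rw [Finset.sum_eq_single i]
          · simp; ring
          · intro k _ hk; simp [Ne.symm hk]
          · intro h; exact absurd (Finset.mem_univ _) h
        have e2 : ∑ k : Fin 9, be * b i * b k * (c * b k) = be * R * c * b i := by
          rw [hR, Finset.mul_sum, Finset.sum_mul, Finset.sum_mul]
          exact Finset.sum_congr rfl fun k _ => by ring
        rw [e1, e2]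
      rw [this]
      have := congrArg (· * b i) h3
      simp only [zero_mul] at this
      linarith [this]
    · simp only [S_cc, S_cl, S_lc]
      have : ∑ k : Fin 9, (al * (if i = k then 1 else 0) + be * b i * b k) *
          (a * (if k = j then 1 else 0) + b' * b k * b j) =
          al * a * (if i = j then 1 else 0) + (al * b' + be * a + be * R * b') * (b i * b j) := by
        have e0 : ∀ k : Fin 9, (al * (if i = k then (1:ℝ) else 0) + be * b i * b k) *
          (a * (if k = j then 1 else 0) + b' * b k * b j) =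
            al * a * ((if i = k then (1:ℝ) else 0) * (if k = j then 1 else 0)) +
            (if i = k then (1:ℝ) else 0) * (al * b' * b k * b j) +
            (if k = j then (1:ℝ) else 0) * (be * a * b i * b k) +
            be * b' * (b i * b j) * b k ^ 2 := by
          intro k; ring
        simp only [e0, Finset.sum_add_distrib]
        have e1 : ∑ k : Fin 9, al * a * ((if i = k then (1:ℝ) else 0) * (if k = j then 1 else 0)) =
            al * a * (if i = j then 1 else 0) := by
          rw [Finset.sum_eq_single i]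
          · simp
          · intro k _ hk; simp [Ne.symm hk]
          · intro h; exact absurd (Finset.mem_univ _) h
        have e2 : ∑ k : Fin 9, (if i = k then (1:ℝ) else 0) * (al * b' * b k * b j) =
            al * b' * b i * b j := by
          rw [Finset.sum_eq_single i]
          · simp
          · intro k _ hk; simp [Ne.symm hk]
          · intro h; exact absurd (Finset.mem_univ _) h
        have e3 : ∑ k : Fin 9, (if k = j then (1:ℝ) else 0) * (be * a * b i * b k) =
            be * a * b i * b j := by
          rw [Finset.sum_eq_single j]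
          · simp
          · intro k _ hk; simp [hk]
          · intro h; exact absurd (Finset.mem_univ _) h
        have e4 : ∑ k : Fin 9, be * b' * (b i * b j) * b k ^ 2 = be * b' * (b i * b j) * R := by
          rw [hR, Finset.mul_sum]
        rw [e1, e2, e3, e4]; ring
      rw [this, h1]
      have hone : (1 : Matrix (Fin 10) (Fin 10) ℝ) i.castSucc j.castSucc =
          if i = j then 1 else 0 := by
        rw [Matrix.one_apply]
        simp [Fin.castSucc_inj]
      rw [hone]
      have := congrArg (· * (b i * b j)) h2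
      simp only [zero_mul] at this
      linarith [this]

/-- entrywise inner product of two structured matrices -/
lemma S_inner (a b' c e' al be ga ep k0 : ℝ) (b : Fin 9 → ℝ) :
    ∑ i, ∑ j, k0 * S a b' c e' b i j * S al be ga ep b i j =
      k0 * (9 * a * al + (∑ k, b k ^ 2) * (a * be + b' * al) +
        (∑ k, b k ^ 2) ^ 2 * (b' * be) + 2 * (∑ k, b k ^ 2) * (c * ga) + e' * ep) := by
  set R : ℝ := ∑ k, b k ^ 2 with hR
  rw [Fin.sum_univ_castSucc]
  have h1 : ∑ i : Fin 9, ∑ j, k0 * S a b' c e' b i.castSucc j * S al be ga ep b i.castSucc j =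
      k0 * (9 * a * al + R * (a * be + b' * al) + R ^ 2 * (b' * be) + R * (c * ga)) := by
    have e0 : ∀ i : Fin 9, ∑ j, k0 * S a b' c e' b i.castSucc j * S al be ga ep b i.castSucc j =
        k0 * (a * al + (a * be + b' * al) * b i ^ 2 + b' * be * R * b i ^ 2 +
          (c * ga) * b i ^ 2) := by
      intro i
      rw [Fin.sum_univ_castSucc]
      simp only [S_cc, S_cl]
      have e1 : ∑ j : Fin 9, k0 * (a * (if i = j then (1:ℝ) else 0) + b' * b i * b j) *
          (al * (if i = j then (1:ℝ) else 0) + be * b i * b j) =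
          k0 * (a * al + (a * be + b' * al) * b i ^ 2 + b' * be * R * b i ^ 2) := by
        have e2 : ∀ j : Fin 9, k0 * (a * (if i = j then (1:ℝ) else 0) + b' * b i * b j) *
          (al * (if i = j then (1:ℝ) else 0) + be * b i * b j) =
            (if i = j then (1:ℝ) else 0) * (k0 * (a * al + (a * be + b' * al) * b i * b j)) +
              k0 * b' * be * b i ^ 2 * b j ^ 2 := by
          intro j
          split_ifs <;> ring
        simp only [e2, Finset.sum_add_distrib]
        rw [← Finset.mul_sum, ← hR]
        have e3 : ∑ j : Fin 9, (if i = j then (1:ℝ) else 0) *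
            (k0 * (a * al + (a * be + b' * al) * b i * b j)) =
            k0 * (a * al + (a * be + b' * al) * b i * b i) := by
          rw [Finset.sum_eq_single i]
          · simp
          · intro k _ hk; simp [Ne.symm hk]
          · intro h; exact absurd (Finset.mem_univ _) h
        rw [e3]; ring
      rw [e1]; ring
    simp only [e0]
    rw [← Finset.mul_sum]
    congr 1
    simp only [Finset.sum_add_distrib, ← Finset.mul_sum]
    rw [← hR, Finset.sum_const, Finset.card_univ, Fintype.card_fin, nsmul_eq_mul]
    push_cast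
    ring
  have h2 : ∑ j, k0 * S a b' c e' b (Fin.last 9) j * S al be ga ep b (Fin.last 9) j =
      k0 * (R * (c * ga) + e' * ep) := by
    rw [Fin.sum_univ_castSucc]
    simp only [S_lc, S_ll]
    have : ∑ j : Fin 9, k0 * (c * b j) * (ga * b j) = k0 * (R * (c * ga)) := by
      rw [hR, Finset.sum_mul, Finset.mul_sum]
      exact Finset.sum_congr rfl fun k _ => by ring
    rw [this]; ring
  rw [h1, h2]; ring

/-- determinant -/
lemma S_det {al : ℝ} (hal : al ≠ 0) (be ga ep : ℝ) (b : Fin 9 → ℝ) :
    (S al be ga ep b).det =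
      al ^ 8 * ((al + be * ∑ k, b k ^ 2) * ep - ga ^ 2 * ∑ k, b k ^ 2) := by
  set R : ℝ := ∑ k, b k ^ 2 with hR
  obtain ⟨bb, hbl, hbc⟩ : ∃ bb : Fin 10 → ℝ, bb (Fin.last 9) = 0 ∧ ∀ i : Fin 9, bb i.castSucc = b i :=
    ⟨Fin.snoc (α := fun _ => ℝ) b 0, Fin.snoc_last (α := fun _ => ℝ) _ _,
      fun i => Fin.snoc_castSucc (α := fun _ => ℝ) _ _ i⟩
  obtain ⟨l, hll, hlc⟩ : ∃ l : Fin 10 → ℝ, l (Fin.last 9) = 1 ∧ ∀ i : Fin 9, l i.castSucc = 0 :=
    ⟨Fin.snoc (α := fun _ => ℝ) (fun _ : Fin 9 => (0:ℝ)) 1, Fin.snoc_last (α := fun _ => ℝ) _ _,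
      fun i => Fin.snoc_castSucc (α := fun _ => ℝ) _ _ i⟩
  let U : Matrix (Fin 10) (Fin 2) ℝ := fun i k => ![bb i, l i] k
  let V : Matrix (Fin 2) (Fin 10) ℝ := fun k j =>
    ![(be * bb j + ga * l j) / al, (ga * bb j + (ep - al) * l j) / al] k
  have hU0 : ∀ i, U i 0 = bb i := fun i => rfl
  have hU1 : ∀ i, U i 1 = l i := fun i => rfl
  have hV0 : ∀ j, V 0 j = (be * bb j + ga * l j) / al := fun j => rfl
  have hV1 : ∀ j, V 1 j = (ga * bb j + (ep - al) * l j) / al := fun j => rfl
  have hM : S al be ga ep b = al • (1 + U * V) := by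
    ext i j
    rw [Matrix.smul_apply, Matrix.add_apply, Matrix.mul_apply, Fin.sum_univ_two, smul_eq_mul,
      hU0, hU1, hV0, hV1]
    refine Fin.lastCases ?_ (fun i => ?_) i
    · refine Fin.lastCases ?_ (fun j => ?_) j
      · rw [S_ll, Matrix.one_apply_eq, hbl, hll]
        field_simp
        ring
      · rw [Matrix.one_apply_ne (Fin.castSucc_lt_last j).ne', S_lc, hbl, hll, hbc, hlc]
        field_simp
        ring
    · refine Fin.lastCases ?_ (fun j => ?_) j
      · rw [Matrix.one_apply_ne (Fin.castSucc_lt_last i).ne, S_cl, hbl, hll, hbc, hlc]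
        field_simp
        ring
      · have hone : (1 : Matrix (Fin 10) (Fin 10) ℝ) i.castSucc j.castSucc =
            if i = j then 1 else 0 := by
          rw [Matrix.one_apply]
          simp [Fin.castSucc_inj]
        rw [hone, S_cc, hbc, hbc, hlc, hlc]
        split_ifs
        · field_simp
          ring
        · field_simp
          ring
  rw [hM, Matrix.det_smul, Matrix.det_one_add_mul_comm, Matrix.det_fin_two]
  have v00 : (1 + V * U : Matrix (Fin 2) (Fin 2) ℝ) 0 0 = 1 + be * R / al := by
    rw [Matrix.add_apply, Matrix.one_apply_eq, Matrix.mul_apply, Fin.sum_univ_castSucc (n := 9)]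
    simp only [hU0, hV0, hbl, hll, hbc, hlc]
    have : ∑ k : Fin 9, (be * b k + ga * 0) / al * b k = be * R / al := by
      rw [hR, Finset.mul_sum, Finset.sum_div]
      exact Finset.sum_congr rfl fun k _ => by ring
    rw [this]; ring
  have v01 : (1 + V * U : Matrix (Fin 2) (Fin 2) ℝ) 0 1 = ga / al := by
    rw [Matrix.add_apply, Matrix.one_apply_ne (by decide), Matrix.mul_apply,
      Fin.sum_univ_castSucc (n := 9)]
    simp only [hU1, hV0, hbl, hll, hbc, hlc]
    simp
  have v10 : (1 + V * U : Matrix (Fin 2) (Fin 2) ℝ) 1 0 = ga * R / al := by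
    rw [Matrix.add_apply, Matrix.one_apply_ne (by decide), Matrix.mul_apply,
      Fin.sum_univ_castSucc (n := 9)]
    simp only [hU0, hV1, hbl, hll, hbc, hlc]
    have : ∑ k : Fin 9, (ga * b k + (ep - al) * 0) / al * b k = ga * R / al := by
      rw [hR, Finset.mul_sum, Finset.sum_div]
      exact Finset.sum_congr rfl fun k _ => by ring
    rw [this]; ring
  have v11 : (1 + V * U : Matrix (Fin 2) (Fin 2) ℝ) 1 1 = ep / al := by
    rw [Matrix.add_apply, Matrix.one_apply_eq, Matrix.mul_apply, Fin.sum_univ_castSucc (n := 9)]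
    simp only [hU1, hV1, hbl, hll, hbc, hlc]
    simp
    field_simp
    ring
  rw [v00, v01, v10, v11]
  simp only [Fintype.card_fin]
  field_simp

end Crest.Agent.R236.Ex
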