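import Crest.Agent.R236.ExM

/-!
Row 236, S0366, part (C): the function `u = √(g(|x'|²) + x₁₀²)`, its Hessian, and the affine
maximal operator.
-/

set_option autoImplicit false
open scoped ContDiff
open Crest.GeometryTopology.CoordMetric Crest.GeometryTopology.AffineMaximal

noncomputable section
namespace Crest.Agent.R236.Ex

/-- `u` -/
def UU (g : ℝ → ℝ) (x : E10) : ℝ := Real.sqrt (g (S x) + (x 9) ^ 2)

/-- the scalar data -/
structure Dat (g g1 g2 ψ ψ1 ψ2 : ℝ → ℝ) : Prop where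
  dg : ∀ s, 0 ≤ s → HasDerivAt g (g1 s) s
  dg1 : ∀ s, 0 ≤ s → HasDerivAt g1 (g2 s) s
  dψ : ∀ s, 0 ≤ s → HasDerivAt ψ (ψ1 s) s
  dψ1 : ∀ s, 0 ≤ s → HasDerivAt ψ1 (ψ2 s) s
  gpos : ∀ s, 0 ≤ s → 0 < g s
  g1pos : ∀ s, 0 ≤ s → 0 < g1 s
  Kpos : ∀ s, 0 ≤ s → 0 < g s * g1 s + s * (2 * g s * g2 s - g1 s ^ 2)
  ψeq : ∀ s, 0 ≤ s → ψ s = (g1 s ^ 8 * (g s * g1 s + s * (2 * g s * g2 s - g1 s ^ 2))) ^ (-(11 : ℝ) / 12)
  ode : ∀ s, 0 ≤ s → 4 * s * g s * g1 s * ψ2 s +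
    (16 * (g s * g1 s + s * (2 * g s * g2 s - g1 s ^ 2)) + 2 * g s * g1 s + 44 * s * g1 s ^ 2) * ψ1 s +
    110 * g1 s * (g1 s + 2 * s * g2 s) * ψ s = 0

variable {g g1 g2 ψ ψ1 ψ2 : ℝ → ℝ}

lemma E_pos (h : Dat g g1 g2 ψ ψ1 ψ2) (x : E10) : 0 < g (S x) + (x 9) ^ 2 := by
  have := h.gpos (S x) (S_nonneg x); positivity

lemma UU_pos (h : Dat g g1 g2 ψ ψ1 ψ2) (x : E10) : 0 < UU g x := Real.sqrt_pos.2 (E_pos h x)

lemma UU_sq (h : Dat g g1 g2 ψ ψ1 ψ2) (x : E10) : UU g x ^ 2 = g (S x) + (x 9) ^ 2 :=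
  Real.sq_sqrt (E_pos h x).le

lemma hasFDerivAt_compS {f f' : ℝ → ℝ} (x : E10) (hf : HasDerivAt f (f' (S x)) (S x)) :
    HasFDerivAt (fun x => f (S x)) (f' (S x) • dS x) x :=
  hf.comp_hasFDerivAt x (hasFDerivAt_S x)

/-- differential of `u` -/
def dU (g g1 : ℝ → ℝ) (x : E10) : E10 →L[ℝ] ℝ :=
  (1 / (2 * UU g x)) • (g1 (S x) • dS x + (2 * x 9) • p9)

lemma hasFDerivAt_UU (h : Dat g g1 g2 ψ ψ1 ψ2) (x : E10) :
    HasFDerivAt (UU g) (dU g g1 x) x := by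
  have h1 : HasFDerivAt (fun x : E10 => g (S x) + (x 9) ^ 2) (g1 (S x) • dS x + (2 * x 9) • p9) x := by
    have ha := hasFDerivAt_compS x (h.dg (S x) (S_nonneg x))
    have hb := (hasFDerivAt_y x).pow 2
    have h3 := ha.add hb
    have h4 : HasFDerivAt (fun x : E10 => g (S x) + (x 9) ^ 2) _ x := h3
    refine h4.congr_fderiv ?_
    ext v
    simp
  exact h1.sqrt (E_pos h x).ne'

lemma dU_single (h : Dat g g1 g2 ψ ψ1 ψ2) (x : E10) (j : Fin 10) :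
    dU g g1 x (EuclideanSpace.single j 1) =
      (g1 (S x) * cv x j + 2 * x 9 * dv j) / (2 * UU g x) := by
  have := UU_pos h x
  simp only [dU, smul_apply, add_apply, dS_single, p9_single, smul_eq_mul]
  field_simp

lemma pderiv_UU (h : Dat g g1 g2 ψ ψ1 ψ2) (j : Fin 10) (x : E10) :
    pderiv j (UU g) x = (g1 (S x) * cv x j + 2 * x 9 * dv j) / (2 * UU g x) := by
  unfold pderiv
  rw [(hasFDerivAt_UU h x).fderiv]
  exact dU_single h x j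

/-- gradient numerator -/
def AA (g1 : ℝ → ℝ) (j : Fin 10) (x : E10) : ℝ := g1 (S x) * cv x j + 2 * x 9 * dv j

def dA (g1 g2 : ℝ → ℝ) (j : Fin 10) (x : E10) : E10 →L[ℝ] ℝ :=
  g1 (S x) • dcv j + cv x j • (g2 (S x) • dS x) + (2 * dv j) • p9

lemma hasFDerivAt_AA (h : Dat g g1 g2 ψ ψ1 ψ2) (j : Fin 10) (x : E10) :
    HasFDerivAt (AA g1 j) (dA g1 g2 j x) x := by
  have ha := (hasFDerivAt_compS x (h.dg1 (S x) (S_nonneg x))).mul (hasFDerivAt_cv j x)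
  have hb := ((hasFDerivAt_y x).const_mul 2).mul_const (dv j)
  have := ha.add hb
  refine this.congr_fderiv ?_
  ext v
  simp only [dA, add_apply, smul_apply, smul_eq_mul]
  ring

lemma dA_single (x : E10) (i j : Fin 10) :
    dA g1 g2 j x (EuclideanSpace.single i 1) =
      2 * g1 (S x) * Idp i j + g2 (S x) * (cv x i * cv x j) + 2 * (dv i * dv j) := by
  simp only [dA, smul_apply, add_apply, dS_single, p9_single, dcv_single, smul_eq_mul]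
  rw [Idp_symm]
  unfold Idp
  by_cases hij : j = i
  · simp [hij]; ring
  · simp [hij]; ring

lemma hess_UU (h : Dat g g1 g2 ψ ψ1 ψ2) (x : E10) :
    hessianMat (UU g) x = MM (g1 (S x) / UU g x)
      (g2 (S x) / (2 * UU g x) - g1 (S x) ^ 2 / (4 * UU g x ^ 3))
      (-(g1 (S x) * x 9) / (2 * UU g x ^ 3))
      (1 / UU g x - (x 9) ^ 2 / UU g x ^ 3) x := by
  ext i j
  unfold hessianMat
  have hfun : (fun y => pderiv j (UU g) y) = fun y => AA g1 j y * ((1 / 2) * (UU g y)⁻¹) := by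
    funext y; rw [pderiv_UU h]
    have := UU_pos h y
    unfold AA
    field_simp
  rw [hfun]
  have hU := UU_pos h x
  have hinv : HasFDerivAt (fun y => (UU g y)⁻¹) (-((UU g x) ^ 2)⁻¹ • dU g g1 x) x :=
    (hasDerivAt_inv hU.ne').comp_hasFDerivAt x (hasFDerivAt_UU h x)
  have hd : HasFDerivAt (fun y => AA g1 j y * ((1 / 2) * (UU g y)⁻¹)) _ x :=
    (hasFDerivAt_AA h j x).mul (hinv.const_mul (1 / 2))
  unfold pderiv
  rw [hd.fderiv]
  simp only [smul_apply, add_apply, smul_eq_mul, dU_single h x i, dA_single]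
  unfold MM AA
  field_simp
  ring

/-- the scalar `K` -/
def KK (g g1 g2 : ℝ → ℝ) (s : ℝ) : ℝ := g s * g1 s + s * (2 * g s * g2 s - g1 s ^ 2)

lemma Delta_UU (h : Dat g g1 g2 ψ ψ1 ψ2) (x : E10) :
    (g1 (S x) / UU g x + (g2 (S x) / (2 * UU g x) - g1 (S x) ^ 2 / (4 * UU g x ^ 3)) * (4 * S x)) *
      (1 / UU g x - (x 9) ^ 2 / UU g x ^ 3) - (-(g1 (S x) * x 9) / (2 * UU g x ^ 3)) ^ 2 * (4 * S x)
      = KK g g1 g2 (S x) / UU g x ^ 4 := by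
  have hU := UU_pos h x
  have hy : (x 9) ^ 2 = UU g x ^ 2 - g (S x) := by rw [UU_sq h]; ring
  have e : (-(g1 (S x) * x 9) / (2 * UU g x ^ 3)) ^ 2 = g1 (S x) ^ 2 * (UU g x ^ 2 - g (S x)) / (4 * UU g x ^ 6) := by
    rw [← hy]; field_simp; ring
  rw [e, hy]
  unfold KK
  field_simp
  ring

lemma det_UU (h : Dat g g1 g2 ψ ψ1 ψ2) (x : E10) :
    (hessianMat (UU g) x).det = (g1 (S x) ^ 8 * KK g g1 g2 (S x)) / UU g x ^ 12 := by
  have hU := UU_pos h x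
  have hg1 := h.g1pos (S x) (S_nonneg x)
  have hg := h.gpos (S x) (S_nonneg x)
  have hδ : (1 / UU g x - (x 9) ^ 2 / UU g x ^ 3) = g (S x) / UU g x ^ 3 := by
    have hy : (x 9) ^ 2 = UU g x ^ 2 - g (S x) := by rw [UU_sq h]; ring
    rw [hy]; field_simp; ring
  rw [hess_UU h, MM_det _ _ _ _ x (by positivity) (by rw [hδ]; positivity), Delta_UU h]
  field_simp

lemma posDef_UU (h : Dat g g1 g2 ψ ψ1 ψ2) (x : E10) : (hessianMat (UU g) x).PosDef := by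
  have hU := UU_pos h x
  have hg1 := h.g1pos (S x) (S_nonneg x)
  have hg := h.gpos (S x) (S_nonneg x)
  have hK := h.Kpos (S x) (S_nonneg x)
  have hδ : (1 / UU g x - (x 9) ^ 2 / UU g x ^ 3) = g (S x) / UU g x ^ 3 := by
    have hy : (x 9) ^ 2 = UU g x ^ 2 - g (S x) := by rw [UU_sq h]; ring
    rw [hy]; field_simp; ring
  rw [hess_UU h]
  apply MM_posDef _ _ _ _ x (by positivity) (by rw [hδ]; positivity)
  rw [Delta_UU h]
  have : 0 < KK g g1 g2 (S x) := hK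
  positivity

lemma detPower_UU (h : Dat g g1 g2 ψ ψ1 ψ2) :
    detPower 10 (UU g) = fun x => ψ (S x) * UU g x ^ 11 := by
  funext x
  unfold detPower
  have hU := UU_pos h x
  have hg1 := h.g1pos (S x) (S_nonneg x)
  have hK := h.Kpos (S x) (S_nonneg x)
  have hK' : 0 < KK g g1 g2 (S x) := hK
  rw [det_UU h, h.ψeq (S x) (S_nonneg x)]
  have e : (-(((10 : ℕ) : ℝ) + 1) / (((10 : ℕ) : ℝ) + 2)) = -(11 : ℝ) / 12 := by norm_num
  rw [e, Real.div_rpow (by positivity) (by positivity)]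
  have e2 : (UU g x ^ 12) ^ (-(11 : ℝ) / 12) = (UU g x ^ 11)⁻¹ := by
    rw [← Real.rpow_natCast (UU g x) 12, ← Real.rpow_mul hU.le, ← Real.rpow_natCast (UU g x) 11,
      ← Real.rpow_neg hU.le]
    congr 1; norm_num
  rw [e2]
  unfold KK
  field_simp

/-- `w` and its gradient -/
def WW (g ψ : ℝ → ℝ) (x : E10) : ℝ := ψ (S x) * UU g x ^ 11

lemma pderiv_WW (h : Dat g g1 g2 ψ ψ1 ψ2) (j : Fin 10) (x : E10) :
    pderiv j (WW g ψ) x = ψ1 (S x) * cv x j * UU g x ^ 11 + 11 / 2 * (ψ (S x) * UU g x ^ 9) * AA g1 j x := by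
  have hU := UU_pos h x
  have hd : HasFDerivAt (WW g ψ) _ x :=
    (hasFDerivAt_compS x (h.dψ (S x) (S_nonneg x))).mul ((hasFDerivAt_UU h x).pow 11)
  unfold pderiv
  rw [hd.fderiv]
  simp only [smul_apply, add_apply, smul_eq_mul, dU_single h x j, dS_single]
  unfold AA
  field_simp
  ring

lemma hess_WW (h : Dat g g1 g2 ψ ψ1 ψ2) (x : E10) :
    hessianMat (WW g ψ) x = MM (2 * ψ1 (S x) * UU g x ^ 11 + 11 * ψ (S x) * UU g x ^ 9 * g1 (S x))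
      (ψ2 (S x) * UU g x ^ 11 + 11 * ψ1 (S x) * g1 (S x) * UU g x ^ 9
        + 99 / 4 * ψ (S x) * UU g x ^ 7 * g1 (S x) ^ 2 + 11 / 2 * ψ (S x) * UU g x ^ 9 * g2 (S x))
      (11 * ψ1 (S x) * x 9 * UU g x ^ 9 + 99 / 2 * ψ (S x) * g1 (S x) * x 9 * UU g x ^ 7)
      (99 * ψ (S x) * (x 9) ^ 2 * UU g x ^ 7 + 11 * ψ (S x) * UU g x ^ 9) x := by
  ext i j
  unfold hessianMat
  have hfun : (fun y => pderiv j (WW g ψ) y) = fun y => ψ1 (S y) * cv y j * UU g y ^ 11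
      + 11 / 2 * (ψ (S y) * UU g y ^ 9) * AA g1 j y := by
    funext y; rw [pderiv_WW h]
  rw [hfun]
  have hU := UU_pos h x
  have hd : HasFDerivAt (fun y => ψ1 (S y) * cv y j * UU g y ^ 11
      + 11 / 2 * (ψ (S y) * UU g y ^ 9) * AA g1 j y) _ x :=
    (((hasFDerivAt_compS x (h.dψ1 (S x) (S_nonneg x))).mul (hasFDerivAt_cv j x)).mul
      ((hasFDerivAt_UU h x).pow 11)).add
    ((((hasFDerivAt_compS x (h.dψ (S x) (S_nonneg x))).mul ((hasFDerivAt_UU h x).pow 9)).const_mul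
      (11 / 2)).mul (hasFDerivAt_AA h j x))
  unfold pderiv
  rw [hd.fderiv]
  simp only [smul_apply, add_apply, smul_eq_mul, dU_single h x i, dA_single, dS_single, dcv_single,
    Pi.mul_apply]
  have hI : (if j = i then 2 * pv j else 0) = 2 * Idp i j := by
    rw [Idp_symm]; unfold Idp; split_ifs <;> ring
  rw [hI]
  unfold MM AA
  field_simp
  ring

lemma alg1 (α β γ δ αw βw γw δw n : ℝ) (hα : α ≠ 0) (hΔ : (α + β * n) * δ - γ ^ 2 * n ≠ 0) :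
    9 * (1 / α * αw) + (1 / α * βw + (γ ^ 2 - β * δ) / (α * ((α + β * n) * δ - γ ^ 2 * n)) * αw +
      (γ ^ 2 - β * δ) / (α * ((α + β * n) * δ - γ ^ 2 * n)) * βw * n) * n +
      2 * (-γ / ((α + β * n) * δ - γ ^ 2 * n) * γw) * n +
      (α + β * n) / ((α + β * n) * δ - γ ^ 2 * n) * δw =
    (8 * αw * ((α + β * n) * δ - γ ^ 2 * n) / α + δ * (αw + n * βw) - 2 * n * (γ * γw) +
      (α + β * n) * δw) / ((α + β * n) * δ - γ ^ 2 * n) := by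
  generalize hDD : (α + β * n) * δ - γ ^ 2 * n = D at *
  field_simp
  rw [← hDD]
  ring

lemma alg2 (U Y s g g1 g2 ψ ψ1 ψ2 : ℝ) (hU : 0 < U) (hg1 : 0 < g1) (hY : Y = U ^ 2 - g)
    (hode : 4 * s * g * g1 * ψ2 + (16 * (g * g1 + s * (2 * g * g2 - g1 ^ 2)) + 2 * g * g1
      + 44 * s * g1 ^ 2) * ψ1 + 110 * g1 * (g1 + 2 * s * g2) * ψ = 0) :
    8 * (2 * ψ1 * U ^ 11 + 11 * ψ * U ^ 9 * g1) * ((g * g1 + s * (2 * g * g2 - g1 ^ 2)) / U ^ 4) / (g1 / U)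
      + (g / U ^ 3) * ((2 * ψ1 * U ^ 11 + 11 * ψ * U ^ 9 * g1) + (4 * s) * (ψ2 * U ^ 11
        + 11 * ψ1 * g1 * U ^ 9 + 99 / 4 * ψ * U ^ 7 * g1 ^ 2 + 11 / 2 * ψ * U ^ 9 * g2))
      - 2 * (4 * s) * (-(g1 * Y) / (2 * U ^ 3) * (11 * ψ1 * U ^ 9 + 99 / 2 * ψ * g1 * U ^ 7))
      + (g1 / U + (g2 / (2 * U) - g1 ^ 2 / (4 * U ^ 3)) * (4 * s)) *
        (99 * ψ * Y * U ^ 7 + 11 * ψ * U ^ 9) = 0 := by
  subst hY
  have : 8 * (2 * ψ1 * U ^ 11 + 11 * ψ * U ^ 9 * g1) * ((g * g1 + s * (2 * g * g2 - g1 ^ 2)) / U ^ 4) / (g1 / U)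
      + (g / U ^ 3) * ((2 * ψ1 * U ^ 11 + 11 * ψ * U ^ 9 * g1) + (4 * s) * (ψ2 * U ^ 11
        + 11 * ψ1 * g1 * U ^ 9 + 99 / 4 * ψ * U ^ 7 * g1 ^ 2 + 11 / 2 * ψ * U ^ 9 * g2))
      - 2 * (4 * s) * (-(g1 * (U ^ 2 - g)) / (2 * U ^ 3) * (11 * ψ1 * U ^ 9 + 99 / 2 * ψ * g1 * U ^ 7))
      + (g1 / U + (g2 / (2 * U) - g1 ^ 2 / (4 * U ^ 3)) * (4 * s)) *
        (99 * ψ * (U ^ 2 - g) * U ^ 7 + 11 * ψ * U ^ 9) =
      U ^ 8 / g1 * (4 * s * g * g1 * ψ2 + (16 * (g * g1 + s * (2 * g * g2 - g1 ^ 2)) + 2 * g * g1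
      + 44 * s * g1 ^ 2) * ψ1 + 110 * g1 * (g1 + 2 * s * g2) * ψ) := by
    field_simp
    ring
  rw [this, hode, mul_zero]

theorem op_zero (h : Dat g g1 g2 ψ ψ1 ψ2) (x : E10) : affineMaximalOp 10 (UU g) x = 0 := by
  unfold affineMaximalOp
  have hW : detPower 10 (UU g) = WW g ψ := detPower_UU h
  rw [hW, hess_WW h, hess_UU h]
  have hU := UU_pos h x
  have hg1 := h.g1pos (S x) (S_nonneg x)
  have hg := h.gpos (S x) (S_nonneg x)
  have hK : 0 < KK g g1 g2 (S x) := h.Kpos (S x) (S_nonneg x)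
  have hD := Delta_UU h x
  have hDne : (g1 (S x) / UU g x + (g2 (S x) / (2 * UU g x) - g1 (S x) ^ 2 / (4 * UU g x ^ 3)) * (4 * S x)) *
      (1 / UU g x - (x 9) ^ 2 / UU g x ^ 3) - (-(g1 (S x) * x 9) / (2 * UU g x ^ 3)) ^ 2 * (4 * S x) ≠ 0 := by
    rw [hD]; positivity
  rw [MM_inv _ _ _ _ x (by positivity) hDne]
  have hpull : ∀ (d : ℝ) (B W : Matrix (Fin 10) (Fin 10) ℝ),
      ∑ i, ∑ j, d * B i j * W i j = d * ∑ i, ∑ j, B i j * W i j := by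
    intro d B W
    rw [Finset.mul_sum]
    apply Finset.sum_congr rfl; intro i _
    rw [Finset.mul_sum]
    apply Finset.sum_congr rfl; intro j _
    ring
  rw [hpull]
  apply mul_eq_zero_of_right
  rw [frob, alg1 _ _ _ _ _ _ _ _ _ (by positivity) hDne, hD]
  apply div_eq_zero_iff.2
  left
  have hy : (x 9) ^ 2 = UU g x ^ 2 - g (S x) := by rw [UU_sq h]; ring
  have hδ : (1 / UU g x - (x 9) ^ 2 / UU g x ^ 3) = g (S x) / UU g x ^ 3 := by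
    rw [hy]; field_simp; ring
  have hγ : (-(g1 (S x) * x 9) / (2 * UU g x ^ 3)) * (11 * ψ1 (S x) * x 9 * UU g x ^ 9
      + 99 / 2 * ψ (S x) * g1 (S x) * x 9 * UU g x ^ 7) =
      -(g1 (S x) * (x 9) ^ 2) / (2 * UU g x ^ 3) * (11 * ψ1 (S x) * UU g x ^ 9
        + 99 / 2 * ψ (S x) * g1 (S x) * UU g x ^ 7) := by
    ring
  rw [hδ, hγ]
  have := alg2 (UU g x) ((x 9) ^ 2) (S x) (g (S x)) (g1 (S x)) (g2 (S x)) (ψ (S x)) (ψ1 (S x)) (ψ2 (S x))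
    hU hg1 hy (h.ode (S x) (S_nonneg x))
  unfold KK
  exact this

/-- nonquadratic -/
theorem not_quadratic (h : Dat g g1 g2 ψ ψ1 ψ2) :
    ¬ ∃ (A : Matrix (Fin 10) (Fin 10) ℝ) (b : EuclideanSpace ℝ (Fin 10)) (c : ℝ),
        ∀ x, UU g x = (1 / 2) * (∑ i, ∑ j, A i j * x i * x j) + (∑ i, b i * x i) + c := by
  rintro ⟨A, b, c, hq⟩
  have hS : ∀ t : ℝ, S (EuclideanSpace.single (9 : Fin 10) t) = 0 := by
    intro t
    unfold S
    apply Finset.sum_eq_zero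
    intro i _
    have hne : Fin.castSucc i ≠ (9 : Fin 10) := ne_of_lt (Fin.castSucc_lt_last i)
    simp [hne]
  have h9 : ∀ t : ℝ, (EuclideanSpace.single (9 : Fin 10) t) 9 = t := by intro t; simp
  have hv : ∀ t : ℝ, Real.sqrt (g 0 + t ^ 2) = (1 / 2) * (A 9 9 * t * t) + b 9 * t + c := by
    intro t
    have h1 := hq (EuclideanSpace.single (9 : Fin 10) t)
    unfold UU at h1
    rw [hS, h9] at h1
    rw [h1]
    congr 2
    · congr 1
      rw [Finset.sum_eq_single (9 : Fin 10)]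
      · rw [Finset.sum_eq_single (9 : Fin 10)]
        · simp
        · intro j _ hj; simp [hj]
        · simp
      · intro i _ hi
        apply Finset.sum_eq_zero; intro j _; simp [hi]
      · simp
    · rw [Finset.sum_eq_single (9 : Fin 10)]
      · simp
      · intro i _ hi; simp [hi]
      · simp
  have hg0 := h.gpos 0 le_rfl
  have hsq : ∀ t : ℝ, g 0 + t ^ 2 = ((1 / 2) * (A 9 9 * t * t) + b 9 * t + c) ^ 2 := by
    intro t; rw [← hv t, Real.sq_sqrt (by positivity)]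
  have e0 := hsq 0
  have hb : b 9 = 0 := by
    have h1 := hv 1
    have h2 := hv (-1)
    have : (1 : ℝ) ^ 2 = (-1) ^ 2 := by norm_num
    rw [this] at h1
    rw [h1] at h2
    linarith
  have e1 := hsq 1
  have e2 := hsq 2
  rw [hb] at e1 e2
  have hA : (A 9 9) ^ 2 = 0 := by nlinarith
  have hA' : A 9 9 = 0 := by simpa using hA
  rw [hA'] at e1
  nlinarith

end Crest.Agent.R236.Ex
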