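import Crest.Agent.R236.GP4

/-! Row 236, node GP = B5: lower bound for the affine area of a cap. (helper616) -/

set_option autoImplicit false
open scoped ContDiff Topology
open Crest.GeometryTopology.CoordMetric Crest.GeometryTopology.AffineMaximal
open Set Filter MeasureTheory

noncomputable section

namespace Crest.Agent.R236.GP

variable {n : ℕ} {Ω : Set (EuclideanSpace ℝ (Fin n))} {u : EuclideanSpace ℝ (Fin n) → ℝ}

/-- the cap `{u < l + b}` -/
def capD (Ω : Set (EuclideanSpace ℝ (Fin n))) (u : EuclideanSpace ℝ (Fin n) → ℝ)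
    (l : EuclideanSpace ℝ (Fin n) →L[ℝ] ℝ) (b : ℝ) : Set (EuclideanSpace ℝ (Fin n)) :=
  {x | x ∈ Ω ∧ u x < l x + b}

lemma capD_isOpen (h : SC Ω u) (l : EuclideanSpace ℝ (Fin n) →L[ℝ] ℝ) (b : ℝ) :
    IsOpen (capD Ω u l b) := by
  have h1 : ContinuousOn (fun x => l x + b - u x) Ω :=
    (l.continuous.add continuous_const).continuousOn.sub h.continuousOn
  have h2 := h1.isOpen_inter_preimage h.isOpen (isOpen_Ioi (a := (0:ℝ)))
  convert h2 using 1
  ext x
  simp [capD]

lemma capD_convex (h : SC Ω u) (l : EuclideanSpace ℝ (Fin n) →L[ℝ] ℝ) (b : ℝ) :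
    Convex ℝ (capD Ω u l b) := by
  intro x hx y hy s t hs ht hst
  refine ⟨h.convex hx.1 hy.1 hs ht hst, ?_⟩
  have h1 := h.convexOn.2 hx.1 hy.1 hs ht hst
  rw [smul_eq_mul, smul_eq_mul] at h1
  rw [map_add, map_smul, map_smul, smul_eq_mul, smul_eq_mul]
  have hx2 := hx.2
  have hy2 := hy.2
  have e : b = s * b + t * b := by rw [← add_mul, hst, one_mul]
  rcases hs.eq_or_lt with hs0 | hs0
  · have ht1 : t = 1 := by linarith
    subst hs0; subst ht1
    nlinarith
  · have : s * u x < s * (l x + b) := by gcongr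
    have : t * u y ≤ t * (l y + b) := by gcongr
    nlinarith

lemma closure_capD (l : EuclideanSpace ℝ (Fin n) →L[ℝ] ℝ) (b : ℝ)
    (hK : IsCompact {x | x ∈ Ω ∧ u x ≤ l x + b}) :
    closure (capD Ω u l b) ⊆ {x | x ∈ Ω ∧ u x ≤ l x + b} :=
  closure_minimal (fun _ hx => ⟨hx.1, hx.2.le⟩) hK.isClosed

/-- the constant -/
def cn (n : ℕ) : ℝ := (1 / 2) ^ n * ((1 / (n:ℝ)) ^ (3 * n)) ^ (1 / ((n:ℝ) + 2))

lemma cn_pos (hn : 1 ≤ n) : 0 < cn n := by
  have : (0:ℝ) < n := by exact_mod_cast hn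
  unfold cn
  positivity

/-- arithmetic of the last step -/
lemma arith (hn : 1 ≤ n) {h a m : ℝ} (hh : 0 < h) (ha : 0 < a) (hm : (1 / (n:ℝ)) ^ n ≤ m * a) :
    cn n * (h * a) ^ ((n:ℝ) / ((n:ℝ) + 2)) ≤
      (1 / 2) ^ n * a * ((h / n) ^ n * m ^ 2) ^ (1 / ((n:ℝ) + 2)) := by
  have hn0 : (0:ℝ) < n := by exact_mod_cast hn
  have hn2 : (0:ℝ) < (n:ℝ) + 2 := by positivity
  unfold cn
  have e1 : (h * a) ^ ((n:ℝ) / ((n:ℝ) + 2)) = ((h * a) ^ n) ^ (1 / ((n:ℝ) + 2)) := by
    rw [← Real.rpow_natCast (h * a) n, ← Real.rpow_mul (by positivity)]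
    congr 1
    field_simp
  have e2 : a = (a ^ (n + 2)) ^ (1 / ((n:ℝ) + 2)) := by
    rw [← Real.rpow_natCast a (n + 2), ← Real.rpow_mul ha.le]
    push_cast
    rw [mul_one_div_cancel hn2.ne', Real.rpow_one]
  have e3 : (1 / 2) ^ n * a * ((h / n) ^ n * m ^ 2) ^ (1 / ((n:ℝ) + 2)) =
      (1 / 2) ^ n * (a ^ (n + 2) * ((h / n) ^ n * m ^ 2)) ^ (1 / ((n:ℝ) + 2)) := by
    rw [Real.mul_rpow (x := a ^ (n + 2)) (by positivity) (by positivity), ← e2]
    ring
  rw [e1, e3, mul_assoc, ← Real.mul_rpow (by positivity) (by positivity)]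
  refine mul_le_mul_of_nonneg_left ?_ (by positivity)
  refine Real.rpow_le_rpow (by positivity) ?_ (by positivity)
  have h1 : ((1 / (n:ℝ)) ^ n) ^ 2 ≤ (m * a) ^ 2 := by gcongr
  calc (1 / (n:ℝ)) ^ (3 * n) * (h * a) ^ n = ((1 / (n:ℝ)) ^ n) ^ 2 * ((h / n) ^ n * a ^ n) := by
        rw [mul_pow, div_pow h, div_pow 1, div_pow 1]
        have : (n:ℝ) ^ n ≠ 0 := by positivity
        field_simp
        ring
    _ ≤ (m * a) ^ 2 * ((h / n) ^ n * a ^ n) := by gcongr
    _ = a ^ (n + 2) * ((h / n) ^ n * m ^ 2) := by ring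

theorem capArea_pos (hn : 1 ≤ n) (hsc : SC Ω u) (hpde : ∀ x ∈ Ω, affineMaximalOp n u x = 0)
    (l : EuclideanSpace ℝ (Fin n) →L[ℝ] ℝ) (b : ℝ)
    (hK : IsCompact {x | x ∈ Ω ∧ u x ≤ l x + b}) {x0 : EuclideanSpace ℝ (Fin n)} (hx0 : x0 ∈ Ω)
    {h : ℝ} (hh : 0 < h) (hle : h ≤ l x0 + b - u x0) :
    cn n * (h * (volume (capD Ω u l b)).toReal) ^ ((n:ℝ) / ((n:ℝ) + 2)) ≤
      ∫ x in capD Ω u l b, aff n u x := by
  have hn0 : (0:ℝ) < n := by exact_mod_cast hn
  set D := capD Ω u l b with hD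
  have hO : IsOpen D := capD_isOpen hsc l b
  have hC : Convex ℝ D := capD_convex hsc l b
  have hcl := closure_capD l b hK
  have hclc : IsCompact (closure D) := hK.of_isClosed_subset isClosed_closure hcl
  have hx0D : x0 ∈ D := ⟨hx0, by linarith⟩
  -- Auerbach coordinates
  set S : Set (EuclideanSpace ℝ (Fin n)) := (fun x => x - x0) '' closure D with hS
  have hScomp : IsCompact S := hclc.image (by fun_prop)
  have hSconv : Convex ℝ S := by
    have h1 := hC.closure.translate (-x0)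
    have h2 : S = (fun x => -x0 + x) '' closure D := by
      rw [hS]
      refine image_congr fun x _ => ?_
      show x - x0 = -x0 + x
      abel
    rw [h2]
    exact h1
  have h0S : (0 : EuclideanSpace ℝ (Fin n)) ∈ S := ⟨x0, subset_closure hx0D, by simp⟩
  have hSint : (interior S).Nonempty := by
    refine ⟨0, ?_⟩
    rw [mem_interior]
    refine ⟨(fun x => x - x0) '' D, image_mono subset_closure, ?_, ⟨x0, hx0D, by simp⟩⟩
    exact (Homeomorph.subRight x0).isOpenMap D hO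
  obtain ⟨B, hB1, hB2⟩ := A.auerbach n S hScomp hSconv h0S hSint
  set q := qf l b x0 h B with hq
  have hBi : ∀ x ∈ closure D, ∀ i, (B (x - x0) i) ^ 2 ≤ 1 := by
    intro x hx i
    have := hB2 (B (x - x0)) ⟨x - x0, ⟨x, hx, rfl⟩, rfl⟩ i
    rw [← sq_abs]
    exact pow_le_one₀ (abs_nonneg _) this
  have hqle : ∀ x ∈ closure D, q x ≤ l x + b := by
    intro x hx
    have h1 : ∑ i, (B (x - x0) i) ^ 2 ≤ n := by
      calc ∑ i, (B (x - x0) i) ^ 2 ≤ ∑ _i : Fin n, (1:ℝ) := Finset.sum_le_sum fun i _ => hBi x hx i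
        _ = n := by simp
    have h2 : (h / (2 * n)) * ∑ i, (B (x - x0) i) ^ 2 ≤ (h / (2 * n)) * n := by gcongr
    have h3 : (h / (2 * n)) * n = h / 2 := by field_simp
    rw [hq]
    unfold qf
    linarith
  have hqge : ∀ x, l x + b - h / 2 ≤ q x := by
    intro x
    rw [hq]
    unfold qf
    have : 0 ≤ (h / (2 * n)) * ∑ i, (B (x - x0) i) ^ 2 := by positivity
    linarith
  have hDom : Dom D Ω q u := by
    refine ⟨hO, hclc, fun x hx => (hcl hx).1, fun x hx => ?_⟩
    have hxc : x ∈ closure D := frontier_subset_closure hx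
    have hxD : x ∉ D := by
      rw [frontier, hO.interior_eq] at hx
      exact hx.2
    have : l x + b ≤ u x := by
      by_contra hlt
      push Not at hlt
      exact hxD ⟨(hcl hxc).1, hlt⟩
    exact (hqle x hxc).trans this
  have hqs : ContDiff ℝ ∞ q := qf_contDiff l b x0 h B
  have hmax := max_area hsc hpde hDom hqs fun x _ => posSemidef_hess_qf l b x0 h B hh.le x
  -- the area density of `q` is constant
  set m := |LinearMap.det ((B : EuclideanSpace ℝ (Fin n) →L[ℝ] EuclideanSpace ℝ (Fin n)) :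
      EuclideanSpace ℝ (Fin n) →ₗ[ℝ] EuclideanSpace ℝ (Fin n))| with hm
  set F := ((h / n) ^ n * m ^ 2) ^ (1 / ((n:ℝ) + 2)) with hF
  have hFq : ∀ x, aff n q x = F := by
    intro x
    unfold aff
    rw [hq, det_hess_qf, hF, hm, sq_abs]
  have hFnn : 0 ≤ F := by rw [hF]; positivity
  have hVfin : volume D ≠ ⊤ := ((measure_mono subset_closure).trans_lt hclc.measure_lt_top).ne
  have hVpos : 0 < volume D := hO.measure_pos _ ⟨x0, hx0D⟩
  set a := (volume D).toReal with ha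
  have hapos : 0 < a := ENNReal.toReal_pos hVpos.ne' hVfin
  have haD : volume D = ENNReal.ofReal a := (ENNReal.ofReal_toReal hVfin).symm
  -- volume of the half cap
  have hsub : AffineMap.homothety x0 (1 / 2 : ℝ) '' D ⊆ D ∩ {x | u x < q x} := by
    rintro _ ⟨y, hy, rfl⟩
    have hxy : AffineMap.homothety x0 (1 / 2 : ℝ) y = (1 / 2 : ℝ) • x0 + (1 / 2 : ℝ) • y := by
      rw [AffineMap.homothety_apply, vsub_eq_sub, vadd_eq_add, smul_sub]
      module
    rw [hxy]
    have hmem := hC hx0D hy (by norm_num : (0:ℝ) ≤ 1 / 2) (by norm_num : (0:ℝ) ≤ 1 / 2)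
      (by norm_num)
    refine ⟨hmem, ?_⟩
    have h1 := hsc.convexOn.2 hx0 hy.1 (by norm_num : (0:ℝ) ≤ 1 / 2) (by norm_num : (0:ℝ) ≤ 1 / 2)
      (by norm_num)
    rw [smul_eq_mul, smul_eq_mul] at h1
    have h2 := hqge ((1 / 2 : ℝ) • x0 + (1 / 2 : ℝ) • y)
    rw [map_add, map_smul, map_smul, smul_eq_mul, smul_eq_mul] at h2
    have hy2 := hy.2
    show u ((1 / 2 : ℝ) • x0 + (1 / 2 : ℝ) • y) < q ((1 / 2 : ℝ) • x0 + (1 / 2 : ℝ) • y)
    linarith
  have hvolhalf : ENNReal.ofReal ((1 / 2) ^ n * a) ≤ volume (D ∩ {x | u x < q x}) := by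
    refine le_trans ?_ (measure_mono hsub)
    rw [Measure.addHaar_image_homothety, haD, ← ENNReal.ofReal_mul (abs_nonneg _)]
    simp
  have hhalf : (1 / 2) ^ n * a ≤ (volume (D ∩ {x | u x < q x})).toReal := by
    have hfin : volume (D ∩ {x | u x < q x}) ≠ ⊤ :=
      ((measure_mono inter_subset_left).trans_lt hVfin.lt_top).ne
    exact (ENNReal.ofReal_le_iff_le_toReal hfin).mp hvolhalf
  -- the determinant
  have hdet : (1 / (n:ℝ)) ^ n ≤ m * a := by
    have h1 : {y : EuclideanSpace ℝ (Fin n) | ∀ i, 0 ≤ y i ∧ y i ≤ 1 / (n:ℝ)} ⊆ B '' S := by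
      intro y hy
      have hconv : Convex ℝ (B '' S) :=
        hSconv.linear_image ((B : EuclideanSpace ℝ (Fin n) →L[ℝ] EuclideanSpace ℝ (Fin n)) :
          EuclideanSpace ℝ (Fin n) →ₗ[ℝ] EuclideanSpace ℝ (Fin n))
      refine simplex_sub hconv ⟨0, h0S, by simp⟩ hB1 (fun i => (hy i).1) ?_
      calc ∑ i, y i ≤ ∑ _i : Fin n, 1 / (n:ℝ) := Finset.sum_le_sum fun i _ => (hy i).2
        _ = 1 := by simp [hn0.ne']
    have h2 := measure_mono (μ := volume) h1
    rw [vol_cube _ (by positivity), Measure.addHaar_image_continuousLinearEquiv] at h2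
    have h3 : volume S = volume D := by
      rw [hS]
      have e1 : volume ((fun x => x - x0) '' closure D) = volume (closure D) := by
        simp only [sub_eq_add_neg, image_add_right, measure_preimage_add_right]
      rw [e1]
      refine le_antisymm ?_ (measure_mono subset_closure)
      have : closure D = D ∪ frontier D := by
        rw [closure_eq_self_union_frontier]
      rw [this]
      refine (measure_union_le _ _).trans ?_
      rw [hC.addHaar_frontier volume, add_zero]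
    rw [h3, haD, ← ENNReal.ofReal_mul (abs_nonneg _)] at h2
    exact (ENNReal.ofReal_le_ofReal_iff (by positivity)).mp h2
  have hIu := integrableOn_aff hsc hDom
  calc cn n * (h * a) ^ ((n:ℝ) / ((n:ℝ) + 2))
      ≤ (1 / 2) ^ n * a * F := arith hn hh hapos hdet
    _ ≤ (volume (D ∩ {x | u x < q x})).toReal * F := by gcongr
    _ = ∫ x in D ∩ {x | u x < q x}, aff n q x := by
        simp_rw [hFq]
        rw [setIntegral_const, smul_eq_mul]
        rfl
    _ ≤ ∫ x in D ∩ {x | u x < q x}, aff n u x := hmax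
    _ ≤ ∫ x in D, aff n u x := by
        refine setIntegral_mono_set hIu ?_ (LE.le.eventuallyLE inter_subset_left)
        refine (ae_restrict_iff' hO.measurableSet).mpr (Eventually.of_forall fun x hx => ?_)
        exact Real.rpow_nonneg (hsc.det_pos hx.1).le _

theorem capArea_real (hn : 1 ≤ n) (hsc : SC Ω u) (hpde : ∀ x ∈ Ω, affineMaximalOp n u x = 0)
    (l : EuclideanSpace ℝ (Fin n) →L[ℝ] ℝ) (b : ℝ)
    (hK : IsCompact {x | x ∈ Ω ∧ u x ≤ l x + b}) {x0 : EuclideanSpace ℝ (Fin n)} (hx0 : x0 ∈ Ω)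
    {h : ℝ} (hh : 0 ≤ h) (hle : h ≤ l x0 + b - u x0) :
    cn n * (h * (volume {x | x ∈ Ω ∧ u x < l x + b}).toReal) ^ ((n:ℝ) / ((n:ℝ) + 2)) ≤
      ∫ x in {x | x ∈ Ω ∧ u x < l x + b}, (hessianMat u x).det ^ (1 / ((n:ℝ) + 2)) := by
  have hn0 : (0:ℝ) < n := by exact_mod_cast hn
  rcases hh.eq_or_lt with h0 | h0
  · rw [← h0, zero_mul, Real.zero_rpow (by positivity), mul_zero]
    refine setIntegral_nonneg (capD_isOpen hsc l b).measurableSet fun x hx => ?_
    exact Real.rpow_nonneg (hsc.det_pos hx.1).le _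
  · exact capArea_pos hn hsc hpde l b hK hx0 h0 hle

/-- **B5**: lower bound for the affine area of a cap. -/
theorem capArea (n : ℕ) (hn : 1 ≤ n) : ∃ c : ℝ, 0 < c ∧
    ∀ (Ω : Set (EuclideanSpace ℝ (Fin n))) (u : EuclideanSpace ℝ (Fin n) → ℝ), SC Ω u →
    (∀ x ∈ Ω, affineMaximalOp n u x = 0) → ∀ (l : EuclideanSpace ℝ (Fin n) →L[ℝ] ℝ) (b : ℝ),
    IsCompact {x | x ∈ Ω ∧ u x ≤ l x + b} → ∀ x0 ∈ Ω, ∀ h : ℝ, h ≤ l x0 + b - u x0 →
    ENNReal.ofReal c * (ENNReal.ofReal h * volume {x | x ∈ Ω ∧ u x < l x + b}) ^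
      ((n:ℝ) / ((n:ℝ) + 2)) ≤
    ∫⁻ x in {x | x ∈ Ω ∧ u x < l x + b},
      ENNReal.ofReal ((hessianMat u x).det ^ (1 / ((n:ℝ) + 2))) := by
  have hn0 : (0:ℝ) < n := by exact_mod_cast hn
  refine ⟨cn n, cn_pos hn, ?_⟩
  intro Ω u hsc hpde l b hK x0 hx0 h hle
  rcases le_or_gt h 0 with h0 | h0
  · rw [ENNReal.ofReal_of_nonpos h0, zero_mul, ENNReal.zero_rpow_of_pos (by positivity), mul_zero]
    exact zero_le
  · have hO : IsOpen (capD Ω u l b) := capD_isOpen hsc l b
    have hcl := closure_capD l b hK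
    have hclc : IsCompact (closure (capD Ω u l b)) :=
      hK.of_isClosed_subset isClosed_closure hcl
    have hVfin : volume (capD Ω u l b) ≠ ⊤ :=
      ((measure_mono subset_closure).trans_lt hclc.measure_lt_top).ne
    have hIu : IntegrableOn (aff n u) (capD Ω u l b) :=
      (((continuousOn_aff hsc).mono fun x hx => (hcl hx).1).integrableOn_compact hclc).mono_set
        subset_closure
    have h1 := capArea_pos hn hsc hpde l b hK hx0 h0 hle
    have h2 : ENNReal.ofReal (∫ x in capD Ω u l b, aff n u x) =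
        ∫⁻ x in capD Ω u l b, ENNReal.ofReal (aff n u x) := by
      refine ofReal_integral_eq_lintegral_ofReal hIu ?_
      refine (ae_restrict_iff' hO.measurableSet).mpr (Eventually.of_forall fun x hx => ?_)
      exact Real.rpow_nonneg (hsc.det_pos hx.1).le _
    have h3 := ENNReal.ofReal_le_ofReal h1
    rw [h2, ENNReal.ofReal_mul (cn_pos hn).le, ← ENNReal.ofReal_rpow_of_nonneg (by positivity)
      (by positivity), ENNReal.ofReal_mul h0.le, ENNReal.ofReal_toReal hVfin] at h3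
    exact h3

end Crest.Agent.R236.GP
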