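import Mathlib

/-! Row 236, node GP: concavity of `det^{1/(n+2)}` (tangent inequality). (helper616) -/

set_option autoImplicit false
open Matrix Finset
open scoped MatrixOrder

noncomputable section

namespace Crest.Agent.R236.GP

variable {n : ℕ}

/-- weighted AM-GM for a positive semidefinite matrix:
`det(B)^{1/(n+2)} ≤ (tr B + 2)/(n+2)`. -/
lemma det_rpow_le_trace {B : Matrix (Fin n) (Fin n) ℝ} (hB : B.PosSemidef) :
    B.det ^ (1 / ((n : ℝ) + 2)) ≤ (B.trace + 2) / ((n : ℝ) + 2) := by
  have hn2 : (0 : ℝ) < (n : ℝ) + 2 := by positivity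
  have hdet : B.det = ∏ i, hB.1.eigenvalues i := by
    simpa using hB.1.det_eq_prod_eigenvalues
  have htr : B.trace = ∑ i, hB.1.eigenvalues i := by
    simpa using hB.1.trace_eq_sum_eigenvalues
  have hev : ∀ i, 0 ≤ hB.1.eigenvalues i := hB.eigenvalues_nonneg
  -- weights on `Option (Fin n)`
  let z : Option (Fin n) → ℝ := fun o => o.elim 1 hB.1.eigenvalues
  let w : Option (Fin n) → ℝ := fun o => o.elim (2 / ((n : ℝ) + 2)) fun _ => 1 / ((n : ℝ) + 2)
  have h := Real.geom_mean_le_arith_mean_weighted (Finset.univ : Finset (Option (Fin n))) w z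
    (by
      intro o _
      cases o with
      | none => simp only [w, Option.elim]; positivity
      | some i => simp only [w, Option.elim]; positivity)
    (by
      rw [Fintype.sum_option]
      simp only [w, Option.elim, Finset.sum_const, Finset.card_univ, Fintype.card_fin,
        nsmul_eq_mul]
      field_simp
      ring)
    (by
      intro o _
      cases o with
      | none => simp [z]
      | some i => simpa [z] using hev i)
  rw [Fintype.prod_option, Fintype.sum_option] at h
  simp only [w, z, Option.elim, Real.one_rpow, one_mul, mul_one] at h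
  rw [Real.finsetProd_rpow _ _ (fun i _ => hev i), ← hdet, ← Finset.mul_sum, ← htr] at h
  refine h.trans (le_of_eq ?_)
  field_simp
  ring

/-- **GP0**: tangent inequality for the concave function `A ↦ det(A)^{1/(n+2)}`. -/
theorem det_rpow_tangent {A B : Matrix (Fin n) (Fin n) ℝ} (hA : A.PosDef) (hB : B.PosSemidef) :
    B.det ^ (1 / ((n : ℝ) + 2)) ≤ A.det ^ (1 / ((n : ℝ) + 2)) *
      (1 + ((A⁻¹ * B).trace - n) / ((n : ℝ) + 2)) := by
  have hn2 : (0 : ℝ) < (n : ℝ) + 2 := by positivity
  have hAi : (A⁻¹).PosSemidef := hA.inv.posSemidef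
  obtain ⟨C, hC⟩ := CStarAlgebra.nonneg_iff_eq_star_mul_self.mp hAi.nonneg
  rw [star_eq_conjTranspose] at hC
  have hBC : (C * B * Cᴴ).PosSemidef := hB.mul_mul_conjTranspose_same C
  have h1 := det_rpow_le_trace hBC
  have htr : (C * B * Cᴴ).trace = (A⁻¹ * B).trace := by
    rw [hC, Matrix.trace_mul_cycle]
  have hdet : (C * B * Cᴴ).det = A.det⁻¹ * B.det := by
    have : A.det⁻¹ = (Cᴴ * C).det := by
      rw [← hC, Matrix.det_nonsing_inv, Ring.inverse_eq_inv']
    rw [this, Matrix.det_mul, Matrix.det_mul, Matrix.det_mul]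
    ring
  have hAd : 0 < A.det := hA.det_pos
  have hBd : 0 ≤ B.det := hB.det_nonneg
  rw [htr, hdet, Real.mul_rpow (by positivity) hBd, Real.inv_rpow hAd.le] at h1
  have hp : 0 < A.det ^ (1 / ((n : ℝ) + 2)) := Real.rpow_pos_of_pos hAd _
  have h2 : B.det ^ (1 / ((n : ℝ) + 2)) ≤
      A.det ^ (1 / ((n : ℝ) + 2)) * (((A⁻¹ * B).trace + 2) / ((n : ℝ) + 2)) := by
    calc B.det ^ (1 / ((n : ℝ) + 2)) = A.det ^ (1 / ((n : ℝ) + 2)) *
          ((A.det ^ (1 / ((n : ℝ) + 2)))⁻¹ * B.det ^ (1 / ((n : ℝ) + 2))) := by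
            field_simp
      _ ≤ _ := mul_le_mul_of_nonneg_left h1 hp.le
  refine h2.trans (le_of_eq ?_)
  congr 1
  field_simp
  ring

end Crest.Agent.R236.GP
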