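import Crest.Agent.R236.CalcA
import Crest.Agent.R236.GP0

/-! Row 236, node GP (B5): maximality of the affine area, step 1. (helper616) -/

set_option autoImplicit false
open scoped ContDiff Topology
open Crest.GeometryTopology.CoordMetric Crest.GeometryTopology.AffineMaximal
open Set Filter MeasureTheory

noncomputable section

namespace Crest.Agent.R236.GP

variable {n : ℕ}

/-! ### the convex cut-off `sp ε` -/

/-- `sp' ε t = χ((t-ε)/ε)` -/
def spd (ε t : ℝ) : ℝ := Real.smoothTransition ((t - ε) / ε)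

/-- convex smooth function, `0` on `(-∞, ε]`, with derivative in `[0,1]`. -/
def sp (ε t : ℝ) : ℝ := ∫ s in (0:ℝ)..t, spd ε s

lemma spd_contDiff (ε : ℝ) : ContDiff ℝ ∞ (spd ε) := by
  unfold spd
  exact Real.smoothTransition.contDiff.comp ((contDiff_id.sub contDiff_const).div_const _)

lemma spd_continuous (ε : ℝ) : Continuous (spd ε) := (spd_contDiff ε).continuous

lemma spd_nonneg (ε t : ℝ) : 0 ≤ spd ε t := Real.smoothTransition.nonneg _
lemma spd_le_one (ε t : ℝ) : spd ε t ≤ 1 := Real.smoothTransition.le_one _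

lemma spd_zero {ε t : ℝ} (hε : 0 < ε) (h : t ≤ ε) : spd ε t = 0 := by
  unfold spd
  apply Real.smoothTransition.zero_of_nonpos
  exact div_nonpos_of_nonpos_of_nonneg (by linarith) hε.le

lemma spd_one {ε t : ℝ} (hε : 0 < ε) (h : 2 * ε ≤ t) : spd ε t = 1 := by
  unfold spd
  apply Real.smoothTransition.one_of_one_le
  rw [le_div_iff₀ hε]
  linarith

lemma spd_mono {ε : ℝ} (hε : 0 < ε) : Monotone (spd ε) := by
  intro a b hab
  unfold spd
  apply Real.smoothTransition.monotone
  gcongr

lemma hasDerivAt_sp (ε t : ℝ) : HasDerivAt (sp ε) (spd ε t) t :=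
  intervalIntegral.integral_hasDerivAt_right ((spd_continuous ε).intervalIntegrable _ _)
    ((spd_continuous ε).stronglyMeasurableAtFilter _ _) (spd_continuous ε).continuousAt

lemma sp_contDiff (ε : ℝ) : ContDiff ℝ ∞ (sp ε) := by
  rw [contDiff_infty_iff_deriv]
  refine ⟨fun t => (hasDerivAt_sp ε t).differentiableAt, ?_⟩
  have : deriv (sp ε) = spd ε := funext fun t => (hasDerivAt_sp ε t).deriv
  rw [this]
  exact spd_contDiff ε

lemma sp_zero {ε t : ℝ} (hε : 0 < ε) (h : t ≤ ε) : sp ε t = 0 := by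
  unfold sp
  rw [intervalIntegral.integral_congr (g := fun _ => (0:ℝ))]
  · simp
  · intro s hs
    apply spd_zero hε
    rw [Set.mem_uIcc] at hs
    rcases hs with hs | hs
    · linarith [hs.2]
    · linarith [hs.2]

lemma deriv_spd_nonneg {ε : ℝ} (hε : 0 < ε) (t : ℝ) : 0 ≤ deriv (spd ε) t :=
  (spd_mono hε).deriv_nonneg

lemma hasDerivAt_spd (ε t : ℝ) : HasDerivAt (spd ε) (deriv (spd ε) t) t :=
  ((spd_contDiff ε).differentiable (by simp)).differentiableAt.hasDerivAt

lemma tendsto_spd {t : ℝ} : Tendsto (fun k : ℕ => spd (1 / ((k:ℝ) + 1)) t) atTop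
    (𝓝 (if 0 < t then 1 else 0)) := by
  split_ifs with h
  · have h1 : Tendsto (fun k : ℕ => 1 / ((k:ℝ) + 1)) atTop (𝓝 0) :=
      tendsto_one_div_add_atTop_nhds_zero_nat
    refine tendsto_const_nhds.congr' ?_
    filter_upwards [h1.eventually (gt_mem_nhds (half_pos h))] with k hk
    exact (spd_one (by positivity) (by linarith)).symm
  · push Not at h
    refine tendsto_const_nhds.congr fun k => ?_
    exact (spd_zero (by positivity) (h.trans (by positivity))).symm

/-! ### the test function -/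

/-- the test function `ψ_ε(q - u)` on `D`, extended by zero -/
def tst (D : Set (EuclideanSpace ℝ (Fin n))) (q u : EuclideanSpace ℝ (Fin n) → ℝ) (ε : ℝ) :
    EuclideanSpace ℝ (Fin n) → ℝ :=
  open Classical in fun x => if x ∈ D then sp ε (q x - u x) else 0

structure Dom (D Ω : Set (EuclideanSpace ℝ (Fin n))) (q u : EuclideanSpace ℝ (Fin n) → ℝ) :
    Prop where
  isOpen : IsOpen D
  compact : IsCompact (closure D)
  sub : closure D ⊆ Ω
  fr : ∀ x ∈ frontier D, q x ≤ u x

variable {D Ω : Set (EuclideanSpace ℝ (Fin n))} {q u : EuclideanSpace ℝ (Fin n) → ℝ}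

/-- the support set -/
def Kset (D : Set (EuclideanSpace ℝ (Fin n))) (q u : EuclideanSpace ℝ (Fin n) → ℝ) (ε : ℝ) :
    Set (EuclideanSpace ℝ (Fin n)) := {x | x ∈ closure D ∧ ε ≤ q x - u x}

lemma Kset_sub (hD : Dom D Ω q u) {ε : ℝ} (hε : 0 < ε) : Kset D q u ε ⊆ D := by
  rintro x ⟨hx, hx2⟩
  by_contra hxD
  have : x ∈ frontier D := by
    rw [frontier, hD.isOpen.interior_eq]
    exact ⟨hx, hxD⟩
  linarith [hD.fr x this]

lemma Kset_compact (h : SC Ω u) (hD : Dom D Ω q u) (hq : Continuous q) (ε : ℝ) :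
    IsCompact (Kset D q u ε) := by
  have hc : ContinuousOn (fun x => q x - u x) (closure D) :=
    hq.continuousOn.sub ((h.smooth.continuousOn).mono hD.sub)
  have : Kset D q u ε = closure D ∩ (fun x => q x - u x) ⁻¹' Ici ε := by
    ext x; simp [Kset]
  rw [this]
  exact hD.compact.of_isClosed_subset (hc.preimage_isClosed_of_isClosed isClosed_closure
    isClosed_Ici) inter_subset_left

lemma tst_zero {ε : ℝ} (hε : 0 < ε) {x : EuclideanSpace ℝ (Fin n)} (hx : x ∉ Kset D q u ε) :
    tst D q u ε x = 0 := by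
  unfold tst
  split_ifs with hxD
  · apply sp_zero hε
    by_contra hlt
    push Not at hlt
    exact hx ⟨subset_closure hxD, hlt.le⟩
  · rfl

lemma tst_eq {ε : ℝ} {x : EuclideanSpace ℝ (Fin n)} (hx : x ∈ D) :
    tst D q u ε x = sp ε (q x - u x) := by
  unfold tst; rw [if_pos hx]

lemma tsupport_tst (h : SC Ω u) (hD : Dom D Ω q u) (hq : Continuous q) {ε : ℝ} (hε : 0 < ε) :
    tsupport (tst D q u ε) ⊆ Kset D q u ε := by
  apply closure_minimal _ (Kset_compact h hD hq ε).isClosed
  intro x hx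
  by_contra hxK
  exact hx (tst_zero hε hxK)

lemma hasCompactSupport_tst (h : SC Ω u) (hD : Dom D Ω q u) (hq : Continuous q) {ε : ℝ}
    (hε : 0 < ε) : HasCompactSupport (tst D q u ε) :=
  (Kset_compact h hD hq ε).of_isClosed_subset (isClosed_tsupport _) (tsupport_tst h hD hq hε)

lemma contDiffOn_diff (h : SC Ω u) (hD : Dom D Ω q u) (hq : ContDiff ℝ ∞ q) :
    ContDiffOn ℝ ∞ (fun x => q x - u x) D :=
  hq.contDiffOn.sub (h.smooth.mono (subset_closure.trans hD.sub))

lemma contDiff_tst (h : SC Ω u) (hD : Dom D Ω q u) (hq : ContDiff ℝ ∞ q) {ε : ℝ} (hε : 0 < ε) :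
    ContDiff ℝ ∞ (tst D q u ε) := by
  rw [contDiff_iff_contDiffAt]
  intro x
  by_cases hx : x ∈ D
  · have h1 : ContDiffAt ℝ ∞ (fun x => sp ε (q x - u x)) x :=
      (sp_contDiff ε).contDiffAt.comp x
        ((contDiffOn_diff h hD hq).contDiffAt (hD.isOpen.mem_nhds hx))
    refine h1.congr_of_eventuallyEq ?_
    filter_upwards [hD.isOpen.mem_nhds hx] with y hy using tst_eq hy
  · have hxK : x ∉ Kset D q u ε := fun hK => hx (Kset_sub hD hε hK)
    have hO : IsOpen (Kset D q u ε)ᶜ := (Kset_compact h hD hq.continuous ε).isClosed.isOpen_compl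
    refine (contDiffAt_const (c := (0:ℝ))).congr_of_eventuallyEq ?_
    filter_upwards [hO.mem_nhds hxK] with y hy using tst_zero hε hy

/-- second derivatives of the test function on `D` -/
lemma hess_tst (h : SC Ω u) (hD : Dom D Ω q u) (hq : ContDiff ℝ ∞ q) {ε : ℝ}
    {x : EuclideanSpace ℝ (Fin n)} (hx : x ∈ D) (i j : Fin n) :
    hessianMat (tst D q u ε) x i j =
      spd ε (q x - u x) * (hessianMat q x i j - hessianMat u x i j) +
      deriv (spd ε) (q x - u x) * pderiv i (fun y => q y - u y) x *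
        pderiv j (fun y => q y - u y) x := by
  have hsm := contDiffOn_diff h hD hq
  have hdiff : ∀ y ∈ D, DifferentiableAt ℝ (fun x => q x - u x) y := fun y hy =>
    (hsm.contDiffAt (hD.isOpen.mem_nhds hy)).differentiableAt (by simp)
  have h1 : ∀ y ∈ D, pderiv j (tst D q u ε) y =
      spd ε (q y - u y) * pderiv j (fun y => q y - u y) y := by
    intro y hy
    rw [pderiv_congr_of_isOpen hD.isOpen (fun z hz => tst_eq hz) hy]
    exact pderiv_comp (hasDerivAt_sp ε _) (hdiff y hy) j
  have h2 : hessianMat (tst D q u ε) x i j =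
      pderiv i (fun y => spd ε (q y - u y) * pderiv j (fun y => q y - u y) y) x :=
    pderiv_congr_of_isOpen hD.isOpen h1 hx i
  have hpj : ContDiffOn ℝ ∞ (pderiv j (fun y => q y - u y)) D :=
    contDiffOn_pderiv_infty hD.isOpen hsm j
  have hd1 : DifferentiableAt ℝ (fun y => spd ε (q y - u y)) x :=
    ((hasDerivAt_spd ε _).differentiableAt).comp x (hdiff x hx)
  have hd2 : DifferentiableAt ℝ (pderiv j (fun y => q y - u y)) x :=
    (hpj.contDiffAt (hD.isOpen.mem_nhds hx)).differentiableAt (by simp)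
  have h3 : pderiv i (fun y => pderiv j (fun y => q y - u y) y) x =
      hessianMat q x i j - hessianMat u x i j := by
    have hxΩ : x ∈ Ω := hD.sub (subset_closure hx)
    have hdu : ∀ y ∈ D, DifferentiableAt ℝ u y := fun y hy =>
      h.differentiableAt (hD.sub (subset_closure hy))
    have hdq : ∀ y, DifferentiableAt ℝ q y := fun y =>
      (hq.differentiable (by simp)).differentiableAt
    rw [pderiv_congr_of_isOpen hD.isOpen (fun y hy => pderiv_sub (hdq y) (hdu y hy) j) hx]
    rw [pderiv_sub]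
    · rfl
    · exact ((contDiffOn_pderiv_infty isOpen_univ hq.contDiffOn j).contDiffAt
        (univ_mem)).differentiableAt (by simp)
    · exact ((contDiffOn_pderiv_infty h.isOpen h.smooth j).contDiffAt
        (h.isOpen.mem_nhds hxΩ)).differentiableAt (by simp)
  rw [h2, pderiv_mul hd1 hd2, h3, pderiv_comp (hasDerivAt_spd ε _) (hdiff x hx) i]
  ring

end Crest.Agent.R236.GP
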