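import Crest.Agent.R236.GP1

/-! Row 236, node GP (B5): Green's formula and maximality of the affine area. (helper616) -/

set_option autoImplicit false
open scoped ContDiff Topology
open Crest.GeometryTopology.CoordMetric Crest.GeometryTopology.AffineMaximal
open Set Filter MeasureTheory

noncomputable section

namespace Crest.Agent.R236.GP

variable {n : ℕ} {D Ω : Set (EuclideanSpace ℝ (Fin n))} {q u : EuclideanSpace ℝ (Fin n) → ℝ}

/-! ### Integration by parts -/

lemma continuous_pderiv {X : EuclideanSpace ℝ (Fin n) → ℝ} (hX : ContDiff ℝ 1 X) (i : Fin n) :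
    Continuous (pderiv i X) := by
  have := hX.continuous_fderiv (by simp)
  exact this.clm_apply continuous_const

lemma tsupport_pderiv_subset (X : EuclideanSpace ℝ (Fin n) → ℝ) (i : Fin n) :
    tsupport (pderiv i X) ⊆ tsupport X := by
  refine (closure_mono ?_).trans (tsupport_fderiv_subset ℝ (f := X))
  intro x hx
  rw [Function.mem_support] at hx ⊢
  intro h0
  apply hx
  unfold pderiv
  rw [h0]; rfl

lemma integral_pderiv_eq_zero {X : EuclideanSpace ℝ (Fin n) → ℝ} (hX : ContDiff ℝ 1 X)
    (hc : HasCompactSupport X) (i : Fin n) : ∫ x, pderiv i X x = 0 := by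
  have hXd : Differentiable ℝ X := hX.differentiable (by simp)
  have hc' : HasCompactSupport (pderiv i X) :=
    hc.of_isClosed_subset (isClosed_tsupport _) (tsupport_pderiv_subset X i)
  have h1 := integral_mul_fderiv_eq_neg_fderiv_mul_of_integrable (μ := (volume :
    Measure (EuclideanSpace ℝ (Fin n)))) (f := fun _ => (1:ℝ)) (g := X)
    (v := EuclideanSpace.single i (1:ℝ)) (by simp)
    (by
      simp only [one_mul]
      exact (continuous_pderiv hX i).integrable_of_hasCompactSupport hc')
    (by
      simp only [one_mul]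
      exact hX.continuous.integrable_of_hasCompactSupport hc)
    (fun x _ => differentiableAt_const _) (fun x _ => hXd.differentiableAt)
  simpa [pderiv] using h1

lemma contDiff_mul_of_tsupport (hΩ : IsOpen Ω) {a φ : EuclideanSpace ℝ (Fin n) → ℝ}
    (ha : ContDiffOn ℝ ∞ a Ω) (hφ : ContDiff ℝ ∞ φ) (hs : tsupport φ ⊆ Ω) :
    ContDiff ℝ ∞ (fun x => a x * φ x) := by
  rw [contDiff_iff_contDiffAt]
  intro x
  by_cases hx : x ∈ Ω
  · exact (ha.contDiffAt (hΩ.mem_nhds hx)).mul hφ.contDiffAt
  · have hxs : x ∉ tsupport φ := fun h => hx (hs h)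
    refine (contDiffAt_const (c := (0:ℝ))).congr_of_eventuallyEq ?_
    filter_upwards [(isClosed_tsupport φ).isOpen_compl.mem_nhds hxs] with y hy
    rw [image_eq_zero_of_notMem_tsupport hy, mul_zero]

/-- **Green's formula** for the operator `U^{ij} ∂_i ∂_j`. -/
theorem int_green (h : SC Ω u) {φ f : EuclideanSpace ℝ (Fin n) → ℝ} (hφ : ContDiff ℝ ∞ φ)
    (hc : HasCompactSupport φ) (hs : tsupport φ ⊆ Ω) (hf : ContDiffOn ℝ ∞ f Ω) :
    ∫ x, φ x * (∑ i, ∑ j, cof u x i j * hessianMat f x i j) =
      ∫ x, f x * (∑ i, ∑ j, cof u x i j * hessianMat φ x i j) := by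
  -- the fields
  set G : Fin n → EuclideanSpace ℝ (Fin n) → ℝ :=
    fun i x => f x * ∑ j, cof u x i j * pderiv j φ x with hG
  set K : Fin n → EuclideanSpace ℝ (Fin n) → ℝ :=
    fun i x => φ x * ∑ j, cof u x i j * pderiv j f x with hK
  have hpφ : ∀ j, ContDiff ℝ ∞ (pderiv j φ) := fun j => by
    have := contDiffOn_pderiv_infty isOpen_univ (contDiffOn_univ.mpr hφ) j
    exact contDiffOn_univ.mp this
  have hG1 : ∀ i, ContDiff ℝ ∞ (G i) := by
    intro i
    have : G i = fun x => ∑ j, (f x * cof u x i j) * pderiv j φ x := by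
      funext x
      rw [hG]
      simp only [Finset.mul_sum]
      exact Finset.sum_congr rfl fun j _ => by ring
    rw [this]
    refine ContDiff.sum fun j _ => ?_
    exact contDiff_mul_of_tsupport h.isOpen (hf.mul (h.contDiffOn_cof i j)) (hpφ j)
      ((tsupport_pderiv_subset φ j).trans hs)
  have hK1 : ∀ i, ContDiff ℝ ∞ (K i) := by
    intro i
    have : K i = fun x => (∑ j, cof u x i j * pderiv j f x) * φ x := by
      funext x; rw [hK]; simp only; ring
    rw [this]
    refine contDiff_mul_of_tsupport h.isOpen ?_ hφ hs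
    exact ContDiffOn.sum fun j _ => (h.contDiffOn_cof i j).mul
      (contDiffOn_pderiv_infty h.isOpen hf j)
  have hz : ∀ x, x ∉ tsupport φ → φ x = 0 ∧ ∀ j, pderiv j φ x = 0 := by
    intro x hx
    refine ⟨image_eq_zero_of_notMem_tsupport hx, fun j => ?_⟩
    exact image_eq_zero_of_notMem_tsupport fun h' => hx (tsupport_pderiv_subset φ j h')
  have hzz : ∀ x, x ∉ tsupport φ → ∀ i j, hessianMat φ x i j = 0 := by
    intro x hx i j
    have : x ∉ tsupport (pderiv i (pderiv j φ)) := fun h' =>
      hx (tsupport_pderiv_subset φ j (tsupport_pderiv_subset _ i h'))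
    exact image_eq_zero_of_notMem_tsupport (f := pderiv i (pderiv j φ)) this
  have hGs : ∀ i, tsupport (G i) ⊆ tsupport φ := by
    intro i
    apply closure_minimal _ (isClosed_tsupport φ)
    intro x hx
    by_contra hxs
    apply hx
    rw [hG]
    simp only [(hz x hxs).2, mul_zero, Finset.sum_const_zero]
  have hKs : ∀ i, tsupport (K i) ⊆ tsupport φ := by
    intro i
    apply closure_minimal _ (isClosed_tsupport φ)
    intro x hx
    by_contra hxs
    apply hx
    rw [hK]
    simp only [(hz x hxs).1, zero_mul]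
  have hGc : ∀ i, HasCompactSupport (G i) := fun i =>
    hc.of_isClosed_subset (isClosed_tsupport _) (hGs i)
  have hKc : ∀ i, HasCompactSupport (K i) := fun i =>
    hc.of_isClosed_subset (isClosed_tsupport _) (hKs i)
  -- pointwise identity
  have hpt : ∀ x, f x * (∑ i, ∑ j, cof u x i j * hessianMat φ x i j) -
      φ x * (∑ i, ∑ j, cof u x i j * hessianMat f x i j) =
      ∑ i, pderiv i (G i) x - ∑ i, pderiv i (K i) x := by
    intro x
    by_cases hx : x ∈ Ω
    · have e1 := h.div_cof_grad hx (h.differentiableAt_of hf hx)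
        (hφ.contDiffAt.of_le (m := 2) (by norm_cast))
      have e2 := h.div_cof_grad hx ((hφ.differentiable (by simp)).differentiableAt)
        ((hf.contDiffAt (h.isOpen.mem_nhds hx)).of_le (m := 2) (by norm_cast))
      rw [show ∑ i, pderiv i (G i) x = ∑ i, pderiv i (fun y => f y * ∑ j, cof u y i j *
        pderiv j φ y) x from rfl, show ∑ i, pderiv i (K i) x = ∑ i, pderiv i (fun y => φ y *
        ∑ j, cof u y i j * pderiv j f y) x from rfl, e1, e2]
      have e3 : ∑ i, ∑ j, cof u x i j * pderiv i φ x * pderiv j f x =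
          ∑ i, ∑ j, cof u x i j * pderiv i f x * pderiv j φ x := by
        rw [Finset.sum_comm]
        refine Finset.sum_congr rfl fun i _ => Finset.sum_congr rfl fun j _ => ?_
        rw [h.cof_symm hx j i]; ring
      rw [e3]; ring
    · have hxs : x ∉ tsupport φ := fun h' => hx (hs h')
      have h1 : ∀ i, pderiv i (G i) x = 0 := fun i =>
        image_eq_zero_of_notMem_tsupport fun h' => hxs (hGs i (tsupport_pderiv_subset _ i h'))
      have h2 : ∀ i, pderiv i (K i) x = 0 := fun i =>
        image_eq_zero_of_notMem_tsupport fun h' => hxs (hKs i (tsupport_pderiv_subset _ i h'))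
      simp [h1, h2, (hz x hxs).1, hzz x hxs]
  have hGi : ∀ i, Integrable (pderiv i (G i)) := fun i =>
    (continuous_pderiv ((hG1 i).of_le (by norm_cast)) i).integrable_of_hasCompactSupport
      ((hGc i).of_isClosed_subset (isClosed_tsupport _) (tsupport_pderiv_subset _ i))
  have hKi : ∀ i, Integrable (pderiv i (K i)) := fun i =>
    (continuous_pderiv ((hK1 i).of_le (by norm_cast)) i).integrable_of_hasCompactSupport
      ((hKc i).of_isClosed_subset (isClosed_tsupport _) (tsupport_pderiv_subset _ i))
  -- integrability of both sides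
  have hI1 : Integrable (fun x => φ x * (∑ i, ∑ j, cof u x i j * hessianMat f x i j)) := by
    have : (fun x => φ x * (∑ i, ∑ j, cof u x i j * hessianMat f x i j)) =
        fun x => (∑ i, ∑ j, cof u x i j * hessianMat f x i j) * φ x := by
      funext x; ring
    rw [this]
    refine Continuous.integrable_of_hasCompactSupport ?_ ?_
    · refine (contDiff_mul_of_tsupport h.isOpen ?_ hφ hs).continuous
      exact ContDiffOn.sum fun i _ => ContDiffOn.sum fun j _ => (h.contDiffOn_cof i j).mul
        (contDiffOn_hess_infty h.isOpen hf i j)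
    · exact hc.mul_left
  have hI2 : Integrable (fun x => f x * (∑ i, ∑ j, cof u x i j * hessianMat φ x i j)) := by
    have : (fun x => f x * (∑ i, ∑ j, cof u x i j * hessianMat φ x i j)) =
        fun x => ∑ i, ∑ j, (f x * cof u x i j) * hessianMat φ x i j := by
      funext x
      simp only [Finset.mul_sum]
      refine Finset.sum_congr rfl fun i _ => Finset.sum_congr rfl fun j _ => by ring
    rw [this]
    refine integrable_finsetSum _ fun i _ => integrable_finsetSum _ fun j _ => ?_
    have hs2 : tsupport (fun x => hessianMat φ x i j) ⊆ tsupport φ :=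
      (tsupport_pderiv_subset _ i).trans (tsupport_pderiv_subset φ j)
    refine Continuous.integrable_of_hasCompactSupport ?_ ?_
    · refine (contDiff_mul_of_tsupport h.isOpen (hf.mul (h.contDiffOn_cof i j)) ?_
        (hs2.trans hs)).continuous
      exact contDiffOn_univ.mp (contDiffOn_hess_infty isOpen_univ (contDiffOn_univ.mpr hφ) i j)
    · have h3 : HasCompactSupport (fun x => hessianMat φ x i j) :=
        hc.of_isClosed_subset (isClosed_tsupport _) hs2
      exact HasCompactSupport.mul_left h3
  have hfin : ∫ x, (f x * (∑ i, ∑ j, cof u x i j * hessianMat φ x i j) -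
      φ x * (∑ i, ∑ j, cof u x i j * hessianMat f x i j)) = 0 := by
    simp_rw [hpt]
    rw [integral_sub (integrable_finsetSum _ fun i _ => hGi i)
      (integrable_finsetSum _ fun i _ => hKi i), integral_finsetSum _ fun i _ => hGi i,
      integral_finsetSum _ fun i _ => hKi i]
    simp only [integral_pderiv_eq_zero ((hG1 _).of_le (by norm_cast)) (hGc _),
      integral_pderiv_eq_zero ((hK1 _).of_le (by norm_cast)) (hKc _), Finset.sum_const_zero,
      sub_zero]
  rw [integral_sub hI2 hI1] at hfin
  linarith

/-- the affine maximal equation in weak form -/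
theorem int_weak (h : SC Ω u) (hpde : ∀ x ∈ Ω, affineMaximalOp n u x = 0)
    {φ : EuclideanSpace ℝ (Fin n) → ℝ} (hφ : ContDiff ℝ ∞ φ)
    (hc : HasCompactSupport φ) (hs : tsupport φ ⊆ Ω) :
    ∫ x, detPower n u x * (∑ i, ∑ j, cof u x i j * hessianMat φ x i j) = 0 := by
  rw [← int_green h hφ hc hs h.contDiffOn_detPower]
  have : ∀ x, φ x * (∑ i, ∑ j, cof u x i j * hessianMat (detPower n u) x i j) = 0 := by
    intro x
    by_cases hx : x ∈ Ω
    · rw [← h.affineMaximalOp_eq hx, hpde x hx, mul_zero]
    · rw [image_eq_zero_of_notMem_tsupport fun h' => hx (hs h'), zero_mul]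
  simp [this]

end Crest.Agent.R236.GP
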