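import Crest.Agent.R236.GP2

/-! Row 236, node GP (B5): maximality of the affine area on `{u < q}`. (helper616) -/

set_option autoImplicit false
open scoped ContDiff Topology
open Crest.GeometryTopology.CoordMetric Crest.GeometryTopology.AffineMaximal
open Set Filter MeasureTheory

noncomputable section

namespace Crest.Agent.R236.GP

variable {n : ℕ} {D Ω : Set (EuclideanSpace ℝ (Fin n))} {q u : EuclideanSpace ℝ (Fin n) → ℝ}

/-- affine area density of the graph of `f` -/
def aff (n : ℕ) (f : EuclideanSpace ℝ (Fin n) → ℝ) (x : EuclideanSpace ℝ (Fin n)) : ℝ :=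
  (hessianMat f x).det ^ (1 / ((n : ℝ) + 2))

lemma detPower_mul_cof (h : SC Ω u) {x : EuclideanSpace ℝ (Fin n)} (hx : x ∈ Ω) (i j : Fin n) :
    detPower n u x * cof u x i j = aff n u x * (hessianMat u x)⁻¹ i j := by
  have hd := h.det_pos hx
  have hn2 : ((n : ℝ) + 2) ≠ 0 := by positivity
  rw [h.cof_eq hx, ← mul_assoc]
  congr 1
  unfold detPower aff
  nth_rewrite 2 [← Real.rpow_one ((hessianMat u x).det)]
  rw [← Real.rpow_add hd]
  congr 1
  field_simp
  ring

lemma quad_cof_nonneg (h : SC Ω u) {x : EuclideanSpace ℝ (Fin n)} (hx : x ∈ Ω) (v : Fin n → ℝ) :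
    0 ≤ ∑ i, ∑ j, cof u x i j * v i * v j := by
  have h1 := (h.cof_posDef hx).posSemidef.dotProduct_mulVec_nonneg v
  have h2 : star v ⬝ᵥ (cof u x).mulVec v = ∑ i, ∑ j, cof u x i j * v i * v j := by
    simp only [dotProduct, Matrix.mulVec, Pi.star_apply, star_trivial, Finset.mul_sum]
    refine Finset.sum_congr rfl fun i _ => Finset.sum_congr rfl fun j _ => by ring
  rw [h2] at h1
  exact h1

/-- pointwise inequality -/
lemma pt_ineq (h : SC Ω u) (hD : Dom D Ω q u) (hq : ContDiff ℝ ∞ q) {ε : ℝ} (hε : 0 < ε)
    {x : EuclideanSpace ℝ (Fin n)} (hx : x ∈ D) (hqp : (hessianMat q x).PosSemidef) :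
    spd ε (q x - u x) * (aff n q x - aff n u x) ≤ (1 / ((n : ℝ) + 2)) *
      (detPower n u x * ∑ i, ∑ j, cof u x i j * hessianMat (tst D q u ε) x i j) := by
  have hxΩ : x ∈ Ω := hD.sub (subset_closure hx)
  have hn2 : (0 : ℝ) < (n : ℝ) + 2 := by positivity
  have h1 : aff n q x ≤ aff n u x * (1 + (((hessianMat u x)⁻¹ * hessianMat q x).trace - n) /
      ((n : ℝ) + 2)) := det_rpow_tangent (h.posDef x hxΩ) hqp
  have hsq : ∀ i j, hessianMat q x i j = hessianMat q x j i := fun i j =>
    hess_symm_of_isOpen isOpen_univ (contDiffOn_univ.mpr hq) (mem_univ x) i j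
  have htr1 : ((hessianMat u x)⁻¹ * hessianMat q x).trace =
      ∑ i, ∑ j, (hessianMat u x)⁻¹ i j * hessianMat q x i j := by
    simp only [Matrix.trace, Matrix.diag_apply, Matrix.mul_apply]
    refine Finset.sum_congr rfl fun i _ => Finset.sum_congr rfl fun j _ => ?_
    rw [hsq j i]
  have htr2 : (n : ℝ) = ∑ i, ∑ j, (hessianMat u x)⁻¹ i j * hessianMat u x i j := by
    have h3 : ((hessianMat u x)⁻¹ * hessianMat u x).trace = n := by
      rw [Matrix.nonsing_inv_mul _ ((h.det_pos hxΩ).ne'.isUnit), Matrix.trace_one]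
      simp
    rw [← h3]
    simp only [Matrix.trace, Matrix.diag_apply, Matrix.mul_apply]
    refine Finset.sum_congr rfl fun i _ => Finset.sum_congr rfl fun j _ => ?_
    rw [h.hess_symm hxΩ j i]
  set S := ∑ i, ∑ j, cof u x i j * (hessianMat q x i j - hessianMat u x i j) with hS
  have hwS : detPower n u x * S = aff n u x * (((hessianMat u x)⁻¹ * hessianMat q x).trace - n) := by
    rw [htr1]
    conv_rhs => rw [htr2]
    rw [hS, ← Finset.sum_sub_distrib, Finset.mul_sum, Finset.mul_sum]
    refine Finset.sum_congr rfl fun i _ => ?_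
    rw [← Finset.sum_sub_distrib, Finset.mul_sum, Finset.mul_sum]
    refine Finset.sum_congr rfl fun j _ => ?_
    rw [← mul_assoc, detPower_mul_cof h hxΩ]
    ring
  have h2 : aff n q x - aff n u x ≤ (1 / ((n : ℝ) + 2)) * (detPower n u x * S) := by
    rw [hwS]
    have : aff n u x * (1 + (((hessianMat u x)⁻¹ * hessianMat q x).trace - n) /
      ((n : ℝ) + 2)) = aff n u x + (1 / ((n : ℝ) + 2)) * (aff n u x *
        (((hessianMat u x)⁻¹ * hessianMat q x).trace - n)) := by
      field_simp
    linarith
  have hsum : ∑ i, ∑ j, cof u x i j * hessianMat (tst D q u ε) x i j =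
      spd ε (q x - u x) * S + deriv (spd ε) (q x - u x) *
        ∑ i, ∑ j, cof u x i j * pderiv i (fun y => q y - u y) x *
          pderiv j (fun y => q y - u y) x := by
    rw [hS, Finset.mul_sum, Finset.mul_sum, ← Finset.sum_add_distrib]
    refine Finset.sum_congr rfl fun i _ => ?_
    rw [Finset.mul_sum, Finset.mul_sum, ← Finset.sum_add_distrib]
    refine Finset.sum_congr rfl fun j _ => ?_
    rw [hess_tst h hD hq hx]
    ring
  have hw : 0 ≤ detPower n u x := Real.rpow_nonneg (h.det_pos hxΩ).le _
  have hQ := quad_cof_nonneg h hxΩ (fun i => pderiv i (fun y => q y - u y) x)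
  have h3 : spd ε (q x - u x) * (aff n q x - aff n u x) ≤
      spd ε (q x - u x) * ((1 / ((n : ℝ) + 2)) * (detPower n u x * S)) :=
    mul_le_mul_of_nonneg_left h2 (spd_nonneg _ _)
  refine h3.trans ?_
  rw [hsum]
  have h4 : 0 ≤ (1 / ((n : ℝ) + 2)) * (detPower n u x * (deriv (spd ε) (q x - u x) *
        ∑ i, ∑ j, cof u x i j * pderiv i (fun y => q y - u y) x *
          pderiv j (fun y => q y - u y) x)) :=
    mul_nonneg (by positivity) (mul_nonneg hw (mul_nonneg (deriv_spd_nonneg hε _) hQ))
  nlinarith [h4]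

lemma continuousOn_aff (h : SC Ω u) : ContinuousOn (aff n u) Ω :=
  (h.contDiffOn_rpow_det _).continuousOn

lemma continuous_aff (hq : ContDiff ℝ ∞ q) : Continuous (aff n q) := by
  have h1 : Continuous fun x => (hessianMat q x).det :=
    (contDiffOn_univ.mp (contDiffOn_det_of (m := ∞) fun i j =>
      contDiffOn_hess_infty isOpen_univ (contDiffOn_univ.mpr hq) i j)).continuous
  exact h1.rpow_const fun x => Or.inr (by positivity)

lemma integrableOn_aff (h : SC Ω u) (hD : Dom D Ω q u) : IntegrableOn (aff n u) D :=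
  (((continuousOn_aff h).mono hD.sub).integrableOn_compact hD.compact).mono_set subset_closure

lemma integrableOn_aff' (hD : Dom D Ω q u) (hq : ContDiff ℝ ∞ q) : IntegrableOn (aff n q) D :=
  ((continuous_aff hq).continuousOn.integrableOn_compact hD.compact).mono_set subset_closure

lemma int_ineq (h : SC Ω u) (hpde : ∀ x ∈ Ω, affineMaximalOp n u x = 0) (hD : Dom D Ω q u)
    (hq : ContDiff ℝ ∞ q) (hqp : ∀ x ∈ D, (hessianMat q x).PosSemidef) {ε : ℝ} (hε : 0 < ε) :
    ∫ x in D, spd ε (q x - u x) * (aff n q x - aff n u x) ≤ 0 := by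
  have hc := hasCompactSupport_tst h hD hq.continuous hε
  have hsm := contDiff_tst h hD hq hε
  have hs : tsupport (tst D q u ε) ⊆ D :=
    (tsupport_tst h hD hq.continuous hε).trans (Kset_sub hD hε)
  have hDΩ : D ⊆ Ω := subset_closure.trans hD.sub
  have hweak := int_weak h hpde hsm hc (hs.trans hDΩ)
  have hout : ∀ x, x ∉ D → detPower n u x *
      (∑ i, ∑ j, cof u x i j * hessianMat (tst D q u ε) x i j) = 0 := by
    intro x hx
    have hzz : ∀ i j, hessianMat (tst D q u ε) x i j = 0 := by
      intro i j
      have : x ∉ tsupport (pderiv i (pderiv j (tst D q u ε))) := fun h' =>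
        hx (hs (tsupport_pderiv_subset _ j (tsupport_pderiv_subset _ i h')))
      exact image_eq_zero_of_notMem_tsupport (f := pderiv i (pderiv j (tst D q u ε))) this
    simp [hzz]
  have hset : ∫ x in D, detPower n u x *
      (∑ i, ∑ j, cof u x i j * hessianMat (tst D q u ε) x i j) = 0 := by
    rw [setIntegral_eq_integral_of_forall_compl_eq_zero hout]
    exact hweak
  have hmeas := hD.isOpen.measurableSet
  have hcd : ContinuousOn (fun x => q x - u x) (closure D) :=
    hq.continuous.continuousOn.sub (h.smooth.continuousOn.mono hD.sub)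
  have hI1 : IntegrableOn (fun x => spd ε (q x - u x) * (aff n q x - aff n u x)) D := by
    refine (ContinuousOn.integrableOn_compact hD.compact ?_).mono_set subset_closure
    exact ((spd_continuous ε).comp_continuousOn hcd).mul
      ((continuous_aff hq).continuousOn.sub ((continuousOn_aff h).mono hD.sub))
  have hI2 : IntegrableOn (fun x => detPower n u x *
      (∑ i, ∑ j, cof u x i j * hessianMat (tst D q u ε) x i j)) D := by
    refine (ContinuousOn.integrableOn_compact hD.compact ?_).mono_set subset_closure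
    refine (h.contDiffOn_detPower.continuousOn.mono hD.sub).mul ?_
    refine continuousOn_finsetSum _ fun i _ => continuousOn_finsetSum _ fun j _ => ?_
    refine ((h.contDiffOn_cof i j).continuousOn.mono hD.sub).mul ?_
    exact (contDiffOn_univ.mp (contDiffOn_hess_infty isOpen_univ
      (contDiffOn_univ.mpr hsm) i j)).continuous.continuousOn
  calc ∫ x in D, spd ε (q x - u x) * (aff n q x - aff n u x)
      ≤ ∫ x in D, (1 / ((n : ℝ) + 2)) * (detPower n u x *
        ∑ i, ∑ j, cof u x i j * hessianMat (tst D q u ε) x i j) := by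
        refine setIntegral_mono_on hI1 (hI2.const_mul _) hmeas fun x hx => ?_
        exact pt_ineq h hD hq hε hx (hqp x hx)
    _ = 0 := by rw [integral_const_mul, hset, mul_zero]

/-- **maximality of the affine area** -/
theorem max_area (h : SC Ω u) (hpde : ∀ x ∈ Ω, affineMaximalOp n u x = 0) (hD : Dom D Ω q u)
    (hq : ContDiff ℝ ∞ q) (hqp : ∀ x ∈ D, (hessianMat q x).PosSemidef) :
    ∫ x in D ∩ {x | u x < q x}, aff n q x ≤ ∫ x in D ∩ {x | u x < q x}, aff n u x := by
  have hmeas := hD.isOpen.measurableSet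
  have hDΩ : D ⊆ Ω := subset_closure.trans hD.sub
  have hO : IsOpen (D ∩ {x | u x < q x}) := by
    have h1 : ContinuousOn (fun x => q x - u x) D :=
      hq.continuous.continuousOn.sub (h.smooth.continuousOn.mono hDΩ)
    have h2 := h1.isOpen_inter_preimage hD.isOpen (isOpen_Ioi (a := (0:ℝ)))
    convert h2 using 2
    ext x
    simp
  have hIq := integrableOn_aff' (n := n) hD hq
  have hIu := integrableOn_aff h hD
  have hI : IntegrableOn (fun x => aff n q x - aff n u x) D := hIq.sub hIu
  have hcd : ContinuousOn (fun x => q x - u x) D :=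
    hq.continuous.continuousOn.sub (h.smooth.continuousOn.mono hDΩ)
  have hlim : Tendsto (fun k : ℕ => ∫ x in D, spd (1 / ((k:ℝ) + 1)) (q x - u x) *
      (aff n q x - aff n u x)) atTop
      (𝓝 (∫ x in D, (if 0 < q x - u x then 1 else 0) * (aff n q x - aff n u x))) := by
    refine tendsto_integral_of_dominated_convergence (fun x => ‖aff n q x - aff n u x‖) ?_
      hI.norm ?_ ?_
    · intro k
      refine ContinuousOn.aestronglyMeasurable ?_ hmeas
      exact ((spd_continuous _).comp_continuousOn hcd).mul
        ((continuous_aff hq).continuousOn.sub ((continuousOn_aff h).mono hDΩ))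
    · intro k
      refine Eventually.of_forall fun x => ?_
      rw [norm_mul, Real.norm_of_nonneg (spd_nonneg _ _)]
      exact mul_le_of_le_one_left (norm_nonneg _) (spd_le_one _ _)
    · refine Eventually.of_forall fun x => ?_
      exact tendsto_spd.mul_const _
  have hle : ∫ x in D, (if 0 < q x - u x then 1 else 0) * (aff n q x - aff n u x) ≤ 0 :=
    le_of_tendsto hlim (Eventually.of_forall fun k => int_ineq h hpde hD hq hqp (by positivity))
  have heq : ∫ x in D, (if 0 < q x - u x then 1 else 0) * (aff n q x - aff n u x) =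
      ∫ x in D ∩ {x | u x < q x}, (aff n q x - aff n u x) := by
    rw [← integral_indicator hmeas, ← integral_indicator hO.measurableSet]
    congr 1
    funext x
    by_cases hx : x ∈ D
    · by_cases hx2 : u x < q x
      · have : x ∈ D ∩ {x | u x < q x} := ⟨hx, hx2⟩
        rw [indicator_of_mem hx, indicator_of_mem this, if_pos (by linarith), one_mul]
      · have : x ∉ D ∩ {x | u x < q x} := fun h' => hx2 h'.2
        rw [indicator_of_mem hx, indicator_of_notMem this, if_neg (by linarith), zero_mul]
    · rw [indicator_of_notMem hx, indicator_of_notMem fun h' => hx h'.1]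
  rw [heq, integral_sub (hIq.mono_set inter_subset_left) (hIu.mono_set inter_subset_left)] at hle
  linarith

end Crest.Agent.R236.GP
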