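import Crest.Agent.R236.GP3
import Crest.Agent.R236.AAuer

/-! Row 236, node GP (B5): the comparison paraboloid and volumes. (helper616) -/

set_option autoImplicit false
open scoped ContDiff Topology
open Crest.GeometryTopology.CoordMetric Crest.GeometryTopology.AffineMaximal
open Set Filter MeasureTheory

noncomputable section

namespace Crest.Agent.R236.GP

variable {n : ℕ}

/-! ### the quadratic comparison function -/

/-- `q = l + b - h/2 + (h/2n) |B(x-x0)|²` -/
def qf (l : EuclideanSpace ℝ (Fin n) →L[ℝ] ℝ) (b : ℝ) (x0 : EuclideanSpace ℝ (Fin n)) (h : ℝ)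
    (B : EuclideanSpace ℝ (Fin n) ≃L[ℝ] EuclideanSpace ℝ (Fin n))
    (x : EuclideanSpace ℝ (Fin n)) : ℝ :=
  l x + b - h / 2 + (h / (2 * n)) * ∑ i, (B (x - x0) i) ^ 2

/-- the coordinate functionals of `B` -/
def Bc (B : EuclideanSpace ℝ (Fin n) ≃L[ℝ] EuclideanSpace ℝ (Fin n)) (i : Fin n) :
    EuclideanSpace ℝ (Fin n) →L[ℝ] ℝ :=
  (EuclideanSpace.proj i).comp (B : EuclideanSpace ℝ (Fin n) →L[ℝ] EuclideanSpace ℝ (Fin n))

lemma Bc_apply (B : EuclideanSpace ℝ (Fin n) ≃L[ℝ] EuclideanSpace ℝ (Fin n)) (i : Fin n)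
    (v : EuclideanSpace ℝ (Fin n)) : Bc B i v = B v i := rfl

variable (l : EuclideanSpace ℝ (Fin n) →L[ℝ] ℝ) (b : ℝ) (x0 : EuclideanSpace ℝ (Fin n)) (h : ℝ)
    (B : EuclideanSpace ℝ (Fin n) ≃L[ℝ] EuclideanSpace ℝ (Fin n))

lemma qf_contDiff : ContDiff ℝ ∞ (qf l b x0 h B) := by
  unfold qf
  refine ((l.contDiff.add contDiff_const).sub contDiff_const).add (contDiff_const.mul ?_)
  refine ContDiff.sum fun i _ => ?_
  exact ((Bc B i).contDiff.comp (contDiff_id.sub contDiff_const)).pow 2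

lemma hasFDerivAt_Bc (i : Fin n) (x : EuclideanSpace ℝ (Fin n)) :
    HasFDerivAt (fun x => B (x - x0) i) (Bc B i) x := by
  have h1 : HasFDerivAt (fun x => x - x0)
      (ContinuousLinearMap.id ℝ (EuclideanSpace ℝ (Fin n))) x :=
    (hasFDerivAt_id x).sub_const x0
  have h2 := (Bc B i).hasFDerivAt.comp x h1
  exact h2

lemma pderiv_qf (j : Fin n) (x : EuclideanSpace ℝ (Fin n)) :
    pderiv j (qf l b x0 h B) x = l (EuclideanSpace.single j 1) +
      (h / (2 * n)) * ∑ i, 2 * (B (x - x0) i) * (B (EuclideanSpace.single j 1) i) := by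
  have h1 : HasFDerivAt (qf l b x0 h B)
      (l + (h / (2 * n)) • ∑ i, ((2 * (B (x - x0) i)) • (Bc B i))) x := by
    unfold qf
    refine ((l.hasFDerivAt.add_const b).sub_const (h/2)).add ?_
    refine HasFDerivAt.const_mul ?_ _
    refine HasFDerivAt.fun_sum fun i _ => ?_
    have := (hasFDerivAt_Bc x0 B i x).pow 2
    simpa using this
  unfold pderiv
  rw [h1.fderiv]
  simp [Bc_apply]

lemma hess_qf (i j : Fin n) (x : EuclideanSpace ℝ (Fin n)) :
    hessianMat (qf l b x0 h B) x i j = (h / n) *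
      ∑ k, (B (EuclideanSpace.single i 1) k) * (B (EuclideanSpace.single j 1) k) := by
  have h0 : pderiv j (qf l b x0 h B) = fun x => l (EuclideanSpace.single j 1) +
      (h / (2 * n)) * ∑ i, 2 * (B (x - x0) i) * (B (EuclideanSpace.single j 1) i) :=
    funext fun x => pderiv_qf l b x0 h B j x
  have h1 : HasFDerivAt (fun x => l (EuclideanSpace.single j 1) +
      (h / (2 * n)) * ∑ i, 2 * (B (x - x0) i) * (B (EuclideanSpace.single j 1) i))
      ((h / (2 * n)) • ∑ k, ((B (EuclideanSpace.single j 1) k) • ((2:ℝ) • (Bc B k)))) x := by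
    refine HasFDerivAt.const_add _ ?_
    refine HasFDerivAt.const_mul ?_ _
    refine HasFDerivAt.fun_sum fun k _ => ?_
    exact ((hasFDerivAt_Bc x0 B k x).const_mul 2).mul_const _
  unfold hessianMat
  rw [show (fun y => pderiv j (qf l b x0 h B) y) = pderiv j (qf l b x0 h B) from rfl, h0]
  unfold pderiv
  rw [h1.fderiv]
  simp only [smul_apply, _root_.sum_apply, smul_eq_mul, Bc_apply]
  rw [Finset.mul_sum, Finset.mul_sum]
  refine Finset.sum_congr rfl fun k _ => ?_
  by_cases hn : (n:ℝ) = 0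
  · simp [hn]
  · field_simp

/-- the matrix of `B` -/
def Bm : Matrix (Fin n) (Fin n) ℝ := fun k j => B (EuclideanSpace.single j 1) k

lemma Bm_eq : Bm B = LinearMap.toMatrix (EuclideanSpace.basisFun (Fin n) ℝ).toBasis
    (EuclideanSpace.basisFun (Fin n) ℝ).toBasis
    ((B : EuclideanSpace ℝ (Fin n) →L[ℝ] EuclideanSpace ℝ (Fin n)) :
      EuclideanSpace ℝ (Fin n) →ₗ[ℝ] EuclideanSpace ℝ (Fin n)) := by
  ext k j
  rw [LinearMap.toMatrix_apply]
  simp [Bm]

lemma det_Bm : (Bm B).det = LinearMap.det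
    ((B : EuclideanSpace ℝ (Fin n) →L[ℝ] EuclideanSpace ℝ (Fin n)) :
      EuclideanSpace ℝ (Fin n) →ₗ[ℝ] EuclideanSpace ℝ (Fin n)) := by
  rw [Bm_eq, LinearMap.det_toMatrix]

lemma hess_qf_eq (x : EuclideanSpace ℝ (Fin n)) :
    hessianMat (qf l b x0 h B) x = (h / n) • ((Bm B).transpose * Bm B) := by
  ext i j
  rw [hess_qf, Matrix.smul_apply, Matrix.mul_apply, smul_eq_mul]
  rfl

lemma det_hess_qf (x : EuclideanSpace ℝ (Fin n)) :
    (hessianMat (qf l b x0 h B) x).det = (h / n) ^ n * (LinearMap.det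
    ((B : EuclideanSpace ℝ (Fin n) →L[ℝ] EuclideanSpace ℝ (Fin n)) :
      EuclideanSpace ℝ (Fin n) →ₗ[ℝ] EuclideanSpace ℝ (Fin n))) ^ 2 := by
  rw [hess_qf_eq, Matrix.det_smul, Matrix.det_mul, Matrix.det_transpose, det_Bm,
    Fintype.card_fin]
  ring

lemma posSemidef_hess_qf (hh : 0 ≤ h) (x : EuclideanSpace ℝ (Fin n)) :
    (hessianMat (qf l b x0 h B) x).PosSemidef := by
  rw [hess_qf_eq]
  have h1 : ((Bm B).transpose * Bm B).PosSemidef := by
    have := Matrix.posSemidef_conjTranspose_mul_self (Bm B)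
    rwa [Matrix.conjTranspose_eq_transpose_of_trivial] at this
  exact h1.smul (by positivity)

/-! ### volumes -/

lemma simplex_sub {S : Set (EuclideanSpace ℝ (Fin n))} (hS : Convex ℝ S) (h0 : 0 ∈ S)
    (he : ∀ i, EuclideanSpace.single i (1:ℝ) ∈ S) {y : EuclideanSpace ℝ (Fin n)}
    (hy : ∀ i, 0 ≤ y i) (hy1 : ∑ i, y i ≤ 1) : y ∈ S := by
  classical
  have h1 := hS.sum_mem (t := (Finset.univ : Finset (Option (Fin n))))
    (w := fun o => o.elim (1 - ∑ i, y i) fun i => y i)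
    (z := fun o => o.elim 0 fun i => EuclideanSpace.single i (1:ℝ))
    (by
      intro o _
      cases o with
      | none => simpa using hy1
      | some i => exact hy i)
    (by
      rw [Fintype.sum_option]
      simp)
    (by
      intro o _
      cases o with
      | none => exact h0
      | some i => exact he i)
  rw [Fintype.sum_option] at h1
  simp only [Option.elim, smul_zero, zero_add] at h1
  convert h1 using 1
  exact (sum_single y).symm

lemma vol_cube (r : ℝ) (hr : 0 ≤ r) : volume {y : EuclideanSpace ℝ (Fin n) | ∀ i, 0 ≤ y i ∧ y i ≤ r} =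
    ENNReal.ofReal (r ^ n) := by
  have h1 : {y : EuclideanSpace ℝ (Fin n) | ∀ i, 0 ≤ y i ∧ y i ≤ r} =
      (WithLp.ofLp : EuclideanSpace ℝ (Fin n) → (Fin n → ℝ)) ⁻¹' (Icc 0 fun _ => r) := by
    ext y
    simp only [mem_ofPred_eq, mem_preimage, mem_Icc, Pi.le_def]
    constructor
    · intro hy; exact ⟨fun i => (hy i).1, fun i => (hy i).2⟩
    · intro hy i; exact ⟨hy.1 i, hy.2 i⟩
  rw [h1, (PiLp.volume_preserving_ofLp (Fin n)).measure_preimage measurableSet_Icc.nullMeasurableSet,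
    Real.volume_Icc_pi]
  simp [ENNReal.ofReal_pow hr]

end Crest.Agent.R236.GP
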