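import Crest.Agent.R236.ABP

/-! Row 236: critical density lemma (ABP with `v + A (u - h)`), helper770. -/

set_option autoImplicit false
open scoped ContDiff Topology
open MeasureTheory
open Crest.GeometryTopology.CoordMetric Crest.GeometryTopology.AffineMaximal

noncomputable section

namespace Crest.Agent.R236.ABP

variable {n : ℕ}

/-- determinant of a positive semidefinite matrix at most `(trace / n)^n`. -/
theorem det_le_trace_pow (hn : 0 < n) {P : Matrix (Fin n) (Fin n) ℝ}
    (hP : P.PosSemidef) : P.det ≤ (P.trace / n) ^ n := by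
  have h1 := hP.1.det_eq_prod_eigenvalues
  have h2 := hP.1.trace_eq_sum_eigenvalues
  simp only [RCLike.ofReal_real_eq_id, id_eq] at h1 h2
  rw [h1, h2]
  have hr' : (0 : ℝ) < n := by exact_mod_cast hn
  have hnn : ∀ i, 0 ≤ hP.1.eigenvalues i := fun i => hP.eigenvalues_nonneg i
  have h3 := Real.geom_mean_le_arith_mean_weighted Finset.univ
    (fun _ : Fin n => (1 : ℝ) / n) (fun i => hP.1.eigenvalues i)
    (fun i _ => by positivity)
    (by simp only [Finset.sum_const, Finset.card_univ, nsmul_eq_mul, Fintype.card_fin]; field_simp)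
    (fun i _ => hnn i)
  have h4 : (∏ i, hP.1.eigenvalues i ^ ((1 : ℝ) / n)) ^ n =
      ∏ i, hP.1.eigenvalues i := by
    rw [← Finset.prod_pow]
    refine Finset.prod_congr rfl fun i _ => ?_
    rw [← Real.rpow_natCast, ← Real.rpow_mul (hnn i), one_div,
      inv_mul_cancel₀ hr'.ne', Real.rpow_one]
  rw [← h4]
  have h5 : (∑ i, (1 : ℝ) / n * hP.1.eigenvalues i) = (∑ i, hP.1.eigenvalues i) / n := by
    rw [← Finset.mul_sum]; ring
  rw [← h5]
  exact pow_le_pow_left₀ (Finset.prod_nonneg fun i _ => Real.rpow_nonneg (hnn i) _) h3 _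

section factor
open scoped MatrixOrder

theorem exists_factor {A : Matrix (Fin n) (Fin n) ℝ} (hA : A.PosSemidef) :
    ∃ B : Matrix (Fin n) (Fin n) ℝ, A = B.conjTranspose * B := by
  obtain ⟨B, hB⟩ := CStarAlgebra.nonneg_iff_eq_star_mul_self.mp hA.nonneg
  exact ⟨B, hB⟩

end factor

/-- Matrix AM-GM: `H > 0`, `P ≥ 0`, `tr(H⁻¹ P) ≤ n A` implies `det P ≤ A^n det H`. -/
theorem det_le_of_trace_le (hn : 0 < n) {H P : Matrix (Fin n) (Fin n) ℝ} (hH : H.PosDef)
    (hP : P.PosSemidef) {A : ℝ} (htr : (H⁻¹ * P).trace ≤ n * A) :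
    P.det ≤ A ^ n * H.det := by
  obtain ⟨B, hB⟩ := exists_factor hH.inv.posSemidef
  have hHd : 0 < H.det := hH.det_pos
  have hQ : (B * P * B.conjTranspose).PosSemidef := hP.mul_mul_conjTranspose_same B
  have h1 := det_le_trace_pow hn hQ
  have h2 : (B * P * B.conjTranspose).trace = (H⁻¹ * P).trace := by
    rw [Matrix.trace_mul_comm, ← Matrix.mul_assoc, ← hB]
  have h3 : (B * P * B.conjTranspose).det = (H⁻¹ * P).det := by
    rw [Matrix.det_mul_comm, ← Matrix.mul_assoc, ← hB]
  rw [h2, h3, Matrix.det_mul, Matrix.det_nonsing_inv, Ring.inverse_eq_inv'] at h1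
  have hn' : (0 : ℝ) < n := by exact_mod_cast hn
  have h0 : 0 ≤ (H⁻¹ * P).trace := by rw [← h2]; exact hQ.trace_nonneg
  have h4 : ((H⁻¹ * P).trace / n) ^ n ≤ A ^ n := by
    apply pow_le_pow_left₀ (by positivity)
    rw [div_le_iff₀ hn']; linarith [mul_comm A (n:ℝ)]
  have h5 : H.det⁻¹ * P.det ≤ A ^ n := h1.trans h4
  rwa [inv_mul_le_iff₀ hHd, mul_comm] at h5

/-- The linearised Monge-Ampère operator `U^{ij} v_ij`. -/
def Lop (u v : EuclideanSpace ℝ (Fin n) → ℝ) (x : EuclideanSpace ℝ (Fin n)) : ℝ :=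
  ∑ i, ∑ j, (hessianMat u x).det * (hessianMat u x)⁻¹ i j * hessianMat v x i j

theorem Lop_eq (u v : EuclideanSpace ℝ (Fin n) → ℝ) (x : EuclideanSpace ℝ (Fin n))
    (hs : (hessianMat v x).IsHermitian) :
    Lop u v x = (hessianMat u x).det * ((hessianMat u x)⁻¹ * hessianMat v x).trace := by
  unfold Lop Matrix.trace
  rw [Finset.mul_sum]
  refine Finset.sum_congr rfl fun i _ => ?_
  simp only [Matrix.diag_apply, Matrix.mul_apply]
  rw [Finset.mul_sum]
  refine Finset.sum_congr rfl fun j _ => ?_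
  have : hessianMat v x i j = hessianMat v x j i := by
    have := congrFun (congrFun hs j) i
    simpa [Matrix.conjTranspose_apply] using this
  rw [this]; ring

theorem hessianMat_add_smul {S : Set (EuclideanSpace ℝ (Fin n))} (hS : IsOpen S)
    {u v : EuclideanSpace ℝ (Fin n) → ℝ} (hu : ContDiffOn ℝ 2 u S) (hv : ContDiffOn ℝ 2 v S)
    (A h : ℝ) {x : EuclideanSpace ℝ (Fin n)} (hx : x ∈ S) :
    hessianMat (fun y => v y + A * (u y - h)) x = hessianMat v x + A • hessianMat u x := by
  ext i j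
  have hp : ∀ y ∈ S, pderiv j (fun y => v y + A * (u y - h)) y = pderiv j v y + A * pderiv j u y := by
    intro y hy
    have h1 : DifferentiableAt ℝ u y :=
      (hu.contDiffAt (hS.mem_nhds hy)).differentiableAt (by norm_num)
    have h2 : DifferentiableAt ℝ v y :=
      (hv.contDiffAt (hS.mem_nhds hy)).differentiableAt (by norm_num)
    have h3 := h2.hasFDerivAt.add (((h1.hasFDerivAt).sub_const h).const_mul A)
    unfold pderiv
    have h4 : HasFDerivAt (fun y => v y + A * (u y - h)) (fderiv ℝ v y + A • fderiv ℝ u y) y := h3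
    rw [h4.fderiv]
    simp
  have hev : (fun y => pderiv j (fun y => v y + A * (u y - h)) y)
      =ᶠ[𝓝 x] fun y => pderiv j v y + A * pderiv j u y := by
    filter_upwards [hS.mem_nhds hx] with y hy using hp y hy
  have d1 := (diff_pderiv hS hv hx j).hasFDerivAt
  have d2 := (diff_pderiv hS hu hx j).hasFDerivAt
  have d3 : HasFDerivAt (fun y => pderiv j v y + A * pderiv j u y) _ x := d1.add (d2.const_mul A)
  have d4 := d3.congr_of_eventuallyEq hev
  rw [Matrix.add_apply, Matrix.smul_apply]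
  change fderiv ℝ (fun y => pderiv j (fun y => v y + A * (u y - h)) y) x _
    = fderiv ℝ (fun y => pderiv j v y) x _ + A • fderiv ℝ (fun y => pderiv j u y) x _
  rw [d4.fderiv]
  simp

/-- **Critical density lemma.** -/
theorem crit_density (hn : 0 < n) {K S : Set (EuclideanSpace ℝ (Fin n))} (hK : IsCompact K)
    (hS : IsOpen S) (hSK : S ⊆ K) {u v : EuclideanSpace ℝ (Fin n) → ℝ}
    (huc : ContinuousOn u K) (hvc : ContinuousOn v K)
    (hu : ContDiffOn ℝ 2 u S) (hv : ContDiffOn ℝ 2 v S)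
    (hpd : ∀ x ∈ S, (hessianMat u x).PosDef) {Λ : ℝ} (hΛ : ∀ x ∈ S, (hessianMat u x).det ≤ Λ)
    (hL : ∀ x ∈ S, Lop u v x ≤ 0) (hv0 : ∀ x ∈ K, 0 ≤ v x) {h A d : ℝ} (hh : 0 < h) (hA : 0 < A)
    (hd : 0 < d) (hu0 : ∀ x ∈ S, 0 ≤ u x) (hub : ∀ x ∈ K, x ∉ S → h ≤ u x)
    {x0 : EuclideanSpace ℝ (Fin n)} (hx0 : x0 ∈ S) (hux : u x0 ≤ h / 2)
    (hvx : v x0 ≤ A * h / 4) (hKd : ∀ x ∈ K, dist x x0 ≤ d) :
    volume (Metric.ball (0 : EuclideanSpace ℝ (Fin n)) (h / (4 * d)))
      ≤ ENNReal.ofReal Λ * volume {x | x ∈ S ∧ v x < A * h} := by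
  set φ : EuclideanSpace ℝ (Fin n) → ℝ := fun y => v y + A * (u y - h) with hφ
  have hφc : ContinuousOn φ K := hvc.add ((huc.sub continuousOn_const).const_smul A)
  have hφ2 : ContDiffOn ℝ 2 φ S := hv.add ((contDiffOn_const).mul (hu.sub contDiffOn_const))
  have hφb : ∀ x ∈ K, x ∉ S → 0 ≤ φ x := fun x hx hxS => by
    have h1 := hv0 x hx
    have h2 := hub x hx hxS
    have : 0 ≤ A * (u x - h) := mul_nonneg hA.le (by linarith)
    simp only [hφ]; linarith
  have hφx : φ x0 ≤ -(A * h / 4) := by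
    simp only [hφ]
    have : A * (u x0 - h) ≤ A * (-(h / 2)) := mul_le_mul_of_nonneg_left (by linarith) hA.le
    linarith
  have hABP := abp hK hS hSK hφc hφ2 hφb hx0 (m := A * h / 4) (by positivity) hφx hd hKd
  have hC : ∀ x ∈ contact S φ, v x < A * h ∧ (hessianMat φ x).det ≤ A ^ n * Λ := by
    intro x hx
    obtain ⟨hxS, hneg, hpsd⟩ := hx
    constructor
    · have h1 := hu0 x hxS
      have : 0 ≤ A * u x := mul_nonneg hA.le h1
      have h2 : v x + A * (u x - h) < 0 := hneg
      nlinarith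
    · have hH := hpd x hxS
      have hdet := hH.det_pos
      have hmat := hessianMat_add_smul hS hu hv A h hxS
      have htr : ((hessianMat u x)⁻¹ * hessianMat φ x).trace ≤ n * A := by
        have e1 : hessianMat φ x = hessianMat v x + A • hessianMat u x := hmat
        rw [e1, Matrix.mul_add, Matrix.trace_add, Matrix.mul_smul,
          Matrix.nonsing_inv_mul _ (isUnit_iff_ne_zero.mpr hdet.ne'), Matrix.trace_smul,
          Matrix.trace_one, Fintype.card_fin, smul_eq_mul]
        have h3 := hL x hxS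
        rw [Lop_eq u v x (hessianMat_symm hS hv hxS)] at h3
        have h4 : ((hessianMat u x)⁻¹ * hessianMat v x).trace ≤ 0 := by
          by_contra hcon
          push Not at hcon
          have := mul_pos hdet hcon
          linarith
        linarith [mul_comm A (n : ℝ)]
      have h5 := det_le_of_trace_le hn hH hpsd htr
      exact h5.trans (mul_le_mul_of_nonneg_left (hΛ x hxS) (by positivity))
  have hmeas := measurableSet_contact hS hφ2
  have hΛ0 : 0 ≤ Λ := (hpd x0 hx0).det_pos.le.trans (hΛ x0 hx0)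
  have hint : ∫⁻ x in contact S φ, ENNReal.ofReal (hessianMat φ x).det
      ≤ ENNReal.ofReal (A ^ n * Λ) * volume {x | x ∈ S ∧ v x < A * h} := by
    calc ∫⁻ x in contact S φ, ENNReal.ofReal (hessianMat φ x).det
        ≤ ∫⁻ x in contact S φ, ENNReal.ofReal (A ^ n * Λ) := by
          refine setLIntegral_mono' hmeas fun x hx => ENNReal.ofReal_le_ofReal (hC x hx).2
      _ = ENNReal.ofReal (A ^ n * Λ) * volume (contact S φ) := by
          rw [setLIntegral_const]
      _ ≤ _ := by
          gcongr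
          intro x hx
          exact ⟨hx.1, (hC x hx).1⟩
  have hball : volume (Metric.ball (0 : EuclideanSpace ℝ (Fin n)) (A * h / 4 / d))
      = ENNReal.ofReal (A ^ n) * volume (Metric.ball (0 : EuclideanSpace ℝ (Fin n)) (h / (4 * d))) := by
    have : A * h / 4 / d = A * (h / (4 * d)) := by field_simp
    rw [this, Measure.addHaar_ball_mul_of_pos volume 0 hA]
    simp
  rw [hball] at hABP
  have hAn : ENNReal.ofReal (A ^ n) ≠ 0 := by
    simp only [ne_eq, ENNReal.ofReal_eq_zero, not_le]; positivity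
  have h6 := hABP.trans hint
  rw [ENNReal.ofReal_mul (by positivity), mul_assoc] at h6
  exact (ENNReal.mul_le_mul_iff_right hAn ENNReal.ofReal_ne_top).mp h6

end Crest.Agent.R236.ABP
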