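import Mathlib
import Crest.Prelude.Def_AffineMaximal
import Crest.Agent.R236.P1

/-! Row 236: affine invariance of the affine maximal equation (helper183).

For a linear isomorphism `L`, `b`, `c > 0`, a linear form `ℓ` and `d`, put
`aff L b c ℓ d u = fun y => c * u (L y + b) + ℓ y + d`. -/

set_option autoImplicit false
open scoped ContDiff Topology Matrix
open Crest.GeometryTopology.CoordMetric Crest.GeometryTopology.AffineMaximal
open Set Filter

noncomputable section

namespace Crest.Agent.R236.Inv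

variable {n : ℕ}

lemma two_le : (2 : WithTop ℕ∞) ≤ ∞ := by
  exact ENat.LEInfty.out

local notation "E" n => EuclideanSpace ℝ (Fin n)

/-- matrix of a linear map in the standard basis: `mat L k j = (L e_j)_k`. -/
def mat (L : (E n) →L[ℝ] (E n)) : Matrix (Fin n) (Fin n) ℝ :=
  fun k j => L (EuclideanSpace.single j 1) k

lemma apply_single (L : (E n) →L[ℝ] (E n)) (j : Fin n) :
    L (EuclideanSpace.single j 1) = ∑ k, mat L k j • EuclideanSpace.single k (1 : ℝ) := by
  conv_lhs => rw [← sum_single (L (EuclideanSpace.single j 1))]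
  rfl

lemma apply_eq (L : (E n) →L[ℝ] (E n)) (v : E n) (k : Fin n) :
    L v k = ∑ j, mat L k j * v j := by
  conv_lhs => rw [← sum_single v]
  rw [map_sum]
  simp only [map_smul, mat]
  simp [mul_comm]

lemma mat_comp (L L' : (E n) →L[ℝ] (E n)) : mat (L.comp L') = mat L * mat L' := by
  ext k j
  rw [Matrix.mul_apply]
  show L (L' (EuclideanSpace.single j 1)) k = _
  rw [apply_eq]
  rfl

lemma mat_id : mat (ContinuousLinearMap.id ℝ (E n)) = 1 := by
  ext k j
  simp [mat, Matrix.one_apply]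

lemma mat_mul_symm (L : (E n) ≃L[ℝ] (E n)) :
    mat (L : (E n) →L[ℝ] (E n)) * mat (L.symm : (E n) →L[ℝ] (E n)) = 1 := by
  rw [← mat_comp, ← mat_id]
  congr 1
  ext v
  simp

lemma mat_symm_mul (L : (E n) ≃L[ℝ] (E n)) :
    mat (L.symm : (E n) →L[ℝ] (E n)) * mat (L : (E n) →L[ℝ] (E n)) = 1 := by
  rw [← mat_comp, ← mat_id]
  congr 1
  ext v
  simp

lemma isUnit_mat (L : (E n) ≃L[ℝ] (E n)) : IsUnit (mat (L : (E n) →L[ℝ] (E n))) :=
  ⟨⟨_, _, mat_mul_symm L, mat_symm_mul L⟩, rfl⟩

lemma det_mat_ne_zero (L : (E n) ≃L[ℝ] (E n)) : (mat (L : (E n) →L[ℝ] (E n))).det ≠ 0 := by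
  have := (Matrix.isUnit_iff_isUnit_det _).1 (isUnit_mat L)
  exact this.ne_zero

/-- the determinant of the matrix is the determinant of the linear map -/
lemma det_mat (L : (E n) →L[ℝ] (E n)) : (mat L).det = LinearMap.det (L : (E n) →ₗ[ℝ] (E n)) := by
  rw [← LinearMap.det_toMatrix (EuclideanSpace.basisFun (Fin n) ℝ).toBasis]
  congr 1

/-- affine change of the variable, scaling and adding an affine function -/
def aff (L : (E n) ≃L[ℝ] (E n)) (b : E n) (c : ℝ) (ℓ : (E n) →L[ℝ] ℝ) (d : ℝ) (u : (E n) → ℝ) :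
    (E n) → ℝ := fun y => c * u (L y + b) + ℓ y + d

variable (L : (E n) ≃L[ℝ] (E n)) (b : E n) (c : ℝ) (ℓ : (E n) →L[ℝ] ℝ) (d : ℝ)
  {u : (E n) → ℝ} {y : E n}

lemma hasFDerivAt_map (y : E n) :
    HasFDerivAt (fun y => L y + b) (L : (E n) →L[ℝ] (E n)) y :=
  (L.hasFDerivAt).add_const b

lemma contDiff_map : ContDiff ℝ ∞ (fun y => L y + b) :=
  L.contDiff.add contDiff_const

/-- first derivative -/
lemma hasFDerivAt_aff (hd : DifferentiableAt ℝ u (L y + b)) :
    HasFDerivAt (aff L b c ℓ d u)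
      (c • (fderiv ℝ u (L y + b)).comp (L : (E n) →L[ℝ] (E n)) + ℓ) y := by
  have h1 := hd.hasFDerivAt.comp y (hasFDerivAt_map L b y)
  exact ((h1.const_mul c).add ℓ.hasFDerivAt).add_const d

lemma fderiv_aff (hd : DifferentiableAt ℝ u (L y + b)) :
    fderiv ℝ (aff L b c ℓ d u) y =
      c • (fderiv ℝ u (L y + b)).comp (L : (E n) →L[ℝ] (E n)) + ℓ :=
  (hasFDerivAt_aff L b c ℓ d hd).fderiv

/-- eventually differentiable -/
lemma eventually_diff (hu : ContDiffAt ℝ 2 u (L y + b)) :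
    ∀ᶠ z in 𝓝 y, DifferentiableAt ℝ u (L z + b) := by
  have h1 : ∀ᶠ x in 𝓝 (L y + b), DifferentiableAt ℝ u x := by
    filter_upwards [hu.eventually (by simp)] with x hx
    exact hx.differentiableAt (by simp)
  exact (hasFDerivAt_map L b y).continuousAt.eventually h1

lemma diff_fderiv (hu : ContDiffAt ℝ 2 u (L y + b)) : DifferentiableAt ℝ (fderiv ℝ u) (L y + b) :=
  (hu.fderiv_right (m := 1) (by norm_num)).differentiableAt (by simp)

/-- second derivative -/
lemma hasFDerivAt_fderiv_aff (hu : ContDiffAt ℝ 2 u (L y + b)) (w : E n) :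
    HasFDerivAt (fun z => fderiv ℝ (aff L b c ℓ d u) z w)
      (c • ((fderiv ℝ (fderiv ℝ u) (L y + b)).flip (L w)).comp (L : (E n) →L[ℝ] (E n))) y := by
  have h0 : (fun z => fderiv ℝ (aff L b c ℓ d u) z w) =ᶠ[𝓝 y]
      fun z => c * (fderiv ℝ u (L z + b)) (L w) + ℓ w := by
    filter_upwards [eventually_diff L b hu] with z hz
    rw [fderiv_aff L b c ℓ d hz]
    simp
  refine HasFDerivAt.congr_of_eventuallyEq ?_ h0
  have h1 : HasFDerivAt (fun x => fderiv ℝ u x (L w)) ((fderiv ℝ (fderiv ℝ u) (L y + b)).flip (L w))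
      (L y + b) := by
    have := (diff_fderiv L b hu).hasFDerivAt.clm_apply
      (hasFDerivAt_const (L w) (L y + b))
    refine this.congr_fderiv ?_
    ext z
    simp
  have h2 := h1.comp y (hasFDerivAt_map L b y)
  exact (h2.const_mul c).add_const _

theorem hessianMat_aff (hu : ContDiffAt ℝ 2 u (L y + b)) :
    hessianMat (aff L b c ℓ d u) y =
      c • ((mat (L : (E n) →L[ℝ] (E n)))ᵀ * hessianMat u (L y + b) *
        mat (L : (E n) →L[ℝ] (E n))) := by
  ext i j
  show fderiv ℝ (fun z => fderiv ℝ (aff L b c ℓ d u) z (EuclideanSpace.single j 1)) y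
    (EuclideanSpace.single i 1) = _
  rw [(hasFDerivAt_fderiv_aff L b c ℓ d hu (EuclideanSpace.single j 1)).fderiv]
  simp only [smul_apply, ContinuousLinearMap.comp_apply,
    ContinuousLinearMap.flip_apply, smul_eq_mul, Matrix.smul_apply,
    ContinuousLinearEquiv.coe_coe]
  congr 1
  rw [fderiv2_eq (diff_fderiv L b hu)]
  simp only [Matrix.mul_apply, Matrix.transpose_apply, Finset.sum_mul]
  rw [Finset.sum_comm]
  refine Finset.sum_congr rfl fun k _ => Finset.sum_congr rfl fun l _ => ?_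
  simp only [mat, ContinuousLinearEquiv.coe_coe]
  ring

/-- determinant of the transformed Hessian -/
theorem det_hessianMat_aff (hu : ContDiffAt ℝ 2 u (L y + b)) :
    (hessianMat (aff L b c ℓ d u) y).det =
      (c ^ n * (mat (L : (E n) →L[ℝ] (E n))).det ^ 2) * (hessianMat u (L y + b)).det := by
  rw [hessianMat_aff L b c ℓ d hu, Matrix.det_smul, Matrix.det_mul, Matrix.det_mul,
    Matrix.det_transpose, Fintype.card_fin]
  ring

theorem posDef_aff (hu : ContDiffAt ℝ 2 u (L y + b)) (hc : 0 < c)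
    (hp : (hessianMat u (L y + b)).PosDef) : (hessianMat (aff L b c ℓ d u) y).PosDef := by
  rw [hessianMat_aff L b c ℓ d hu]
  refine Matrix.PosDef.smul ?_ hc
  have := hp.conjTranspose_mul_mul_same (B := mat (L : (E n) →L[ℝ] (E n)))
    (by
      have h := isUnit_mat L
      intro v w hvw
      have h2 := congrArg (fun z => (mat (L.symm : (E n) →L[ℝ] (E n))).mulVec z) hvw
      simpa [Matrix.mulVec_mulVec, mat_symm_mul] using h2)
  simpa using this

/-- the constant by which `detPower` is multiplied -/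
def kap (L : (E n) ≃L[ℝ] (E n)) (c : ℝ) : ℝ :=
  (c ^ n * (mat (L : (E n) →L[ℝ] (E n))).det ^ 2) ^ (-((n : ℝ) + 1) / ((n : ℝ) + 2))

lemma kap_base_pos (hc : 0 < c) : 0 < c ^ n * (mat (L : (E n) →L[ℝ] (E n))).det ^ 2 := by
  have := det_mat_ne_zero L
  positivity

lemma kap_pos (hc : 0 < c) : 0 < kap L c := Real.rpow_pos_of_pos (kap_base_pos L c hc) _

theorem detPower_aff (hu : ContDiffAt ℝ 2 u (L y + b)) (hc : 0 < c)
    (hp : (hessianMat u (L y + b)).PosDef) :
    detPower n (aff L b c ℓ d u) y = kap L c * detPower n u (L y + b) := by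
  unfold detPower kap
  rw [det_hessianMat_aff L b c ℓ d hu, Real.mul_rpow (kap_base_pos L c hc).le hp.det_pos.le]

/-- smoothness of the determinant of the Hessian and of `detPower` -/
lemma contDiffAt_hessianMat {x : E n} (hu : ContDiffAt ℝ ∞ u x) (i j : Fin n) :
    ContDiffAt ℝ ∞ (fun z => hessianMat u z i j) x := by
  have h1 : ContDiffAt ℝ ∞ (fderiv ℝ u) x := hu.fderiv_right (m := ∞) (by simp)
  have h2 : ContDiffAt ℝ ∞ (fun z => fderiv ℝ u z (EuclideanSpace.single j 1)) x :=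
    h1.clm_apply contDiffAt_const
  have h3 : ContDiffAt ℝ ∞ (fderiv ℝ (fun z => fderiv ℝ u z (EuclideanSpace.single j 1))) x :=
    h2.fderiv_right (m := ∞) (by simp)
  exact h3.clm_apply contDiffAt_const

lemma contDiffAt_det {x : E n} (hu : ContDiffAt ℝ ∞ u x) :
    ContDiffAt ℝ ∞ (fun z => (hessianMat u z).det) x := by
  simp_rw [Matrix.det_apply]
  refine ContDiffAt.sum fun σ _ => ?_
  refine ContDiffAt.const_smul _ ?_
  exact contDiffAt_prod fun i _ => contDiffAt_hessianMat hu _ _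

lemma contDiffAt_detPower {x : E n} (hu : ContDiffAt ℝ ∞ u x)
    (hp : (hessianMat u x).PosDef) : ContDiffAt ℝ ∞ (detPower n u) x := by
  unfold detPower
  exact (contDiffAt_det hu).rpow_const_of_ne hp.det_pos.ne'

/-- inverse of the transformed Hessian -/
lemma inv_hessianMat_aff (hu : ContDiffAt ℝ 2 u (L y + b)) :
    (hessianMat (aff L b c ℓ d u) y)⁻¹ =
      c⁻¹ • (mat (L.symm : (E n) →L[ℝ] (E n)) * (hessianMat u (L y + b))⁻¹ *
        (mat (L.symm : (E n) →L[ℝ] (E n)))ᵀ) := by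
  rw [hessianMat_aff L b c ℓ d hu]
  have h1 : (mat (L : (E n) →L[ℝ] (E n)))⁻¹ = mat (L.symm : (E n) →L[ℝ] (E n)) :=
    Matrix.inv_eq_right_inv (mat_mul_symm L)
  rcases eq_or_ne c 0 with rfl | hc
  · simp
  · have h3 : (c • ((mat (L : (E n) →L[ℝ] (E n)))ᵀ * hessianMat u (L y + b) *
        mat (L : (E n) →L[ℝ] (E n))))⁻¹ = c⁻¹ • ((mat (L : (E n) →L[ℝ] (E n)))ᵀ *
          hessianMat u (L y + b) * mat (L : (E n) →L[ℝ] (E n)))⁻¹ := by
      by_cases hdet : IsUnit ((mat (L : (E n) →L[ℝ] (E n)))ᵀ *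
          hessianMat u (L y + b) * mat (L : (E n) →L[ℝ] (E n))).det
      · have := Matrix.inv_smul' (A := ((mat (L : (E n) →L[ℝ] (E n)))ᵀ *
          hessianMat u (L y + b) * mat (L : (E n) →L[ℝ] (E n)))) (Units.mk0 c hc) hdet
        simpa [Units.smul_def] using this
      · rw [Matrix.nonsing_inv_apply_not_isUnit _ hdet, Matrix.nonsing_inv_apply_not_isUnit]
        · simp
        · rw [Matrix.det_smul]
          intro h
          exact hdet (isUnit_of_mul_isUnit_right h)
    rw [h3, Matrix.mul_inv_rev, Matrix.mul_inv_rev, h1, ← Matrix.transpose_nonsing_inv, h1,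
      Matrix.mul_assoc]

/-- a general bilinear identity: contraction of transformed matrices -/
lemma contract (M N A W : Matrix (Fin n) (Fin n) ℝ) (h : M * N = 1) :
    (∑ i, ∑ j, (N * A * Nᵀ) i j * (Mᵀ * W * M) i j) = ∑ i, ∑ j, A i j * W i j := by
  have key : ∀ P Q : Matrix (Fin n) (Fin n) ℝ, (∑ i, ∑ j, P i j * Q i j) = (Pᵀ * Q).trace := by
    intro P Q
    rw [Matrix.trace, Finset.sum_comm]
    refine Finset.sum_congr rfl fun j _ => ?_
    simp [Matrix.mul_apply]
  rw [key, key]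
  have h' : Nᵀ * Mᵀ = 1 := by rw [← Matrix.transpose_mul, h, Matrix.transpose_one]
  simp only [Matrix.transpose_mul, Matrix.transpose_transpose]
  calc (N * (Aᵀ * Nᵀ) * (Mᵀ * W * M)).trace = (N * Aᵀ * (Nᵀ * Mᵀ) * W * M).trace := by
        simp only [Matrix.mul_assoc]
    _ = (N * (Aᵀ * W * M)).trace := by rw [h']; simp only [Matrix.mul_assoc, Matrix.mul_one]
    _ = (Aᵀ * W * M * N).trace := by rw [Matrix.trace_mul_comm]
    _ = (Aᵀ * W).trace := by rw [Matrix.mul_assoc, h, Matrix.mul_one]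

theorem affineMaximalOp_aff {Ω : Set (E n)} (hΩ : IsOpen Ω) (hu : ContDiffOn ℝ ∞ u Ω)
    (hp : ∀ x ∈ Ω, (hessianMat u x).PosDef) (hc : 0 < c) (hy : L y + b ∈ Ω) :
    affineMaximalOp n (aff L b c ℓ d u) y =
      (c ^ n * (mat (L : (E n) →L[ℝ] (E n))).det ^ 2 * c⁻¹ * kap L c) *
        affineMaximalOp n u (L y + b) := by
  have hat : ContDiffAt ℝ ∞ u (L y + b) := hu.contDiffAt (hΩ.mem_nhds hy)
  have hat2 : ContDiffAt ℝ 2 u (L y + b) := hat.of_le two_le
  have hev : ∀ᶠ z in 𝓝 y, L z + b ∈ Ω :=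
    (hasFDerivAt_map L b y).continuousAt.eventually (hΩ.mem_nhds hy)
  have hdp : detPower n (aff L b c ℓ d u) =ᶠ[𝓝 y] aff L b (kap L c) 0 0 (detPower n u) := by
    filter_upwards [hev] with z hz
    rw [detPower_aff L b c ℓ d ((hu.contDiffAt (hΩ.mem_nhds hz)).of_le two_le)
      hc (hp _ hz)]
    simp [aff]
  have hH : hessianMat (detPower n (aff L b c ℓ d u)) y =
      hessianMat (aff L b (kap L c) 0 0 (detPower n u)) y := by
    ext i j
    unfold hessianMat pderiv
    have : (fun z => fderiv ℝ (detPower n (aff L b c ℓ d u)) z (EuclideanSpace.single j 1))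
        =ᶠ[𝓝 y] fun z => fderiv ℝ (aff L b (kap L c) 0 0 (detPower n u)) z
          (EuclideanSpace.single j 1) := by
      filter_upwards [hdp.eventuallyEq_nhds] with z hz
      rw [hz.fderiv_eq]
    rw [this.fderiv_eq]
  unfold affineMaximalOp
  rw [hH, hessianMat_aff L b (kap L c) 0 0 ((contDiffAt_detPower hat (hp _ hy)).of_le
    two_le), inv_hessianMat_aff L b c ℓ d hat2,
    det_hessianMat_aff L b c ℓ d hat2]
  have hcon := contract (mat (L : (E n) →L[ℝ] (E n))) (mat (L.symm : (E n) →L[ℝ] (E n)))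
    (hessianMat u (L y + b))⁻¹ (hessianMat (detPower n u) (L y + b)) (mat_mul_symm L)
  simp only [Matrix.smul_apply, smul_eq_mul]
  set D := (hessianMat u (L y + b)).det
  set q := c ^ n * (mat (L : (E n) →L[ℝ] (E n))).det ^ 2
  calc (∑ i, ∑ j, q * D * (c⁻¹ * (mat (L.symm : (E n) →L[ℝ] (E n)) * (hessianMat u (L y + b))⁻¹ *
        (mat (L.symm : (E n) →L[ℝ] (E n)))ᵀ) i j) * (kap L c * ((mat (L : (E n) →L[ℝ] (E n)))ᵀ *
          hessianMat (detPower n u) (L y + b) * mat (L : (E n) →L[ℝ] (E n))) i j))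
      = (q * c⁻¹ * kap L c * D) * ∑ i, ∑ j, (mat (L.symm : (E n) →L[ℝ] (E n)) *
          (hessianMat u (L y + b))⁻¹ * (mat (L.symm : (E n) →L[ℝ] (E n)))ᵀ) i j *
          ((mat (L : (E n) →L[ℝ] (E n)))ᵀ *
          hessianMat (detPower n u) (L y + b) * mat (L : (E n) →L[ℝ] (E n))) i j := by
        rw [Finset.mul_sum]
        refine Finset.sum_congr rfl fun i _ => ?_
        rw [Finset.mul_sum]
        refine Finset.sum_congr rfl fun j _ => ?_
        ring
    _ = _ := by
        rw [hcon, Finset.mul_sum, Finset.mul_sum]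
        refine Finset.sum_congr rfl fun i _ => ?_
        rw [Finset.mul_sum, Finset.mul_sum]
        refine Finset.sum_congr rfl fun j _ => ?_
        ring

theorem affineMaximalOp_aff_eq_zero {Ω : Set (E n)} (hΩ : IsOpen Ω) (hu : ContDiffOn ℝ ∞ u Ω)
    (hp : ∀ x ∈ Ω, (hessianMat u x).PosDef) (hc : 0 < c) (hy : L y + b ∈ Ω)
    (h0 : affineMaximalOp n u (L y + b) = 0) :
    affineMaximalOp n (aff L b c ℓ d u) y = 0 := by
  rw [affineMaximalOp_aff L b c ℓ d hΩ hu hp hc hy, h0, mul_zero]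

/-- `SC` is preserved -/
theorem SC_aff {Ω : Set (E n)} (h : SC Ω u) (hc : 0 < c) :
    SC ((fun y => L y + b) ⁻¹' Ω) (aff L b c ℓ d u) where
  isOpen := h.isOpen.preimage (contDiff_map L b).continuous
  convex := by
    intro x hx y hy s t hs ht hst
    have := h.convex hx hy hs ht hst
    show L (s • x + t • y) + b ∈ Ω
    convert this using 1
    simp only [map_add, map_smul]
    have : b = (s + t) • b := by rw [hst, one_smul]
    conv_lhs => rw [this]
    module
  smooth := by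
    unfold aff
    refine ContDiffOn.add (ContDiffOn.add (contDiffOn_const.mul ?_) ℓ.contDiff.contDiffOn)
      contDiffOn_const
    exact h.smooth.comp (contDiff_map L b).contDiffOn (fun x hx => hx)
  posDef := fun x hx => posDef_aff L b c ℓ d ((h.contDiffAt hx).of_le two_le)
    hc (h.posDef _ hx)

/-- height above the tangent plane -/
theorem dev_aff {Ω : Set (E n)} (h : SC Ω u) (hy : L y + b ∈ Ω) (z : E n) :
    aff L b c ℓ d u z - aff L b c ℓ d u y - fderiv ℝ (aff L b c ℓ d u) y (z - y) =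
      c * (u (L z + b) - u (L y + b) - fderiv ℝ u (L y + b) ((L z + b) - (L y + b))) := by
  rw [fderiv_aff L b c ℓ d (h.differentiableAt hy)]
  simp only [aff, add_apply, smul_apply, ContinuousLinearMap.comp_apply,
    ContinuousLinearEquiv.coe_coe, smul_eq_mul, map_sub, add_sub_add_right_eq_sub]
  ring

/-- sections are mapped to sections -/
theorem section_aff {Ω : Set (E n)} (h : SC Ω u) (hc : 0 < c) (hy : L y + b ∈ Ω) (t : ℝ) :
    {z | z ∈ (fun y => L y + b) ⁻¹' Ω ∧ aff L b c ℓ d u z ≤ aff L b c ℓ d u y +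
        fderiv ℝ (aff L b c ℓ d u) y (z - y) + t} =
      (fun y => L y + b) ⁻¹' {x | x ∈ Ω ∧ u x ≤ u (L y + b) +
        fderiv ℝ u (L y + b) (x - (L y + b)) + t / c} := by
  ext z
  simp only [mem_ofPred_eq, mem_preimage]
  refine and_congr_right fun _ => ?_
  have := dev_aff L b c ℓ d h hy z
  constructor
  · intro hz
    have h1 : c * (u (L z + b) - u (L y + b) - fderiv ℝ u (L y + b) ((L z + b) - (L y + b))) ≤ t := by
      rw [← this]; linarith
    have h2 : u (L z + b) - u (L y + b) - fderiv ℝ u (L y + b) ((L z + b) - (L y + b)) ≤ t / c := by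
      rw [le_div_iff₀ hc]; linarith
    linarith
  · intro hz
    have h2 : u (L z + b) - u (L y + b) - fderiv ℝ u (L y + b) ((L z + b) - (L y + b)) ≤ t / c := by
      linarith
    rw [le_div_iff₀ hc] at h2
    have h1 : c * (u (L z + b) - u (L y + b) - fderiv ℝ u (L y + b) ((L z + b) - (L y + b))) ≤ t := by
      linarith
    rw [← this] at h1
    linarith

theorem isCompact_section_aff {Ω : Set (E n)} (h : SC Ω u) (hc : 0 < c) (hy : L y + b ∈ Ω) (t : ℝ)
    (hcpt : IsCompact {x | x ∈ Ω ∧ u x ≤ u (L y + b) +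
        fderiv ℝ u (L y + b) (x - (L y + b)) + t / c}) :
    IsCompact {z | z ∈ (fun y => L y + b) ⁻¹' Ω ∧ aff L b c ℓ d u z ≤ aff L b c ℓ d u y +
        fderiv ℝ (aff L b c ℓ d u) y (z - y) + t} := by
  rw [section_aff L b c ℓ d h hc hy]
  have : (fun y => L y + b) ⁻¹' {x | x ∈ Ω ∧ u x ≤ u (L y + b) +
        fderiv ℝ u (L y + b) (x - (L y + b)) + t / c} =
      (fun x => L.symm (x - b)) '' {x | x ∈ Ω ∧ u x ≤ u (L y + b) +
        fderiv ℝ u (L y + b) (x - (L y + b)) + t / c} := by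
    ext z
    simp only [mem_preimage, mem_image]
    constructor
    · intro hz
      exact ⟨_, hz, by simp⟩
    · rintro ⟨x, hx, rfl⟩
      simpa using hx
  rw [this]
  exact hcpt.image (L.symm.continuous.comp (continuous_id.sub continuous_const))

end Crest.Agent.R236.Inv
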