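import Crest.Agent.R236.Jcp6

/-!
# Row 236, JCP (helper633): Jörgens–Calabi–Pogorelov for solutions with compact sections.
-/

set_option autoImplicit false

open Crest.GeometryTopology.CoordMetric Crest.GeometryTopology.AffineMaximal

namespace Crest.Agent.R236.Jcp

/-- a convex function with `det D²u = c` all of whose sections are compact is a quadratic
polynomial on the whole space -/
theorem jcp {n : ℕ} {Ω : Set (EuclideanSpace ℝ (Fin n))} {u : EuclideanSpace ℝ (Fin n) → ℝ}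
    (h : SC Ω u) (hne : Ω.Nonempty) {c : ℝ} (hdet : ∀ x ∈ Ω, (hessianMat u x).det = c)
    (hsec : ∀ x₀ ∈ Ω, ∀ t : ℝ, IsCompact {x | x ∈ Ω ∧ u x ≤ u x₀ + fderiv ℝ u x₀ (x - x₀) + t}) :
    Ω = Set.univ ∧
      ∃ (A : Matrix (Fin n) (Fin n) ℝ) (b : EuclideanSpace ℝ (Fin n)) (c : ℝ), A.PosDef ∧
        ∀ x, u x = (1 / 2) * (∑ i, ∑ j, A i j * x i * x j) + (∑ i, b i * x i) + c :=
  jcp_of (cubic_core n) h hne hdet hsec

end Crest.Agent.R236.Jcp
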