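import Mathlib

/-!
# Row 236, JCP (helper633), part 1: jets of order two, second derivative test, the three identities
obtained by differentiating `det M(s) = const`.
-/

set_option autoImplicit false

open Filter Topology Set
open scoped Matrix

namespace Crest.Agent.R236.Jcp

/-! ### jets of order two at `0` -/

section jets
variable {V W E : Type*} [NormedAddCommGroup V] [NormedSpace ℝ V] [NormedAddCommGroup W]
  [NormedSpace ℝ W] [NormedAddCommGroup E] [NormedSpace ℝ E]

/-- `f(0) = a`, `f'(0) = b`, `f''(0) = c`. -/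
structure J2 (f : ℝ → V) (a b c : V) : Prop where
  val : f 0 = a
  ex : ∃ f' : ℝ → V, (∀ᶠ s in 𝓝 0, HasDerivAt f (f' s) s) ∧ f' 0 = b ∧ HasDerivAt f' c 0

theorem J2.hasDerivAt {f : ℝ → V} {a b c : V} (h : J2 f a b c) : HasDerivAt f b 0 := by
  obtain ⟨f', h1, h2, -⟩ := h.ex
  rw [← h2]; exact h1.self_of_nhds

theorem J2.const (a : V) : J2 (fun _ => a) a 0 0 :=
  ⟨rfl, fun _ => 0, Eventually.of_forall fun s => hasDerivAt_const s a, rfl, hasDerivAt_const _ _⟩

theorem J2.affine (e t : V) : J2 (fun s : ℝ => e + s • t) e t 0 := by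
  refine ⟨by simp, fun _ => t, Eventually.of_forall fun s => ?_, rfl, hasDerivAt_const _ _⟩
  simpa using ((hasDerivAt_id s).smul_const t).const_add e

theorem J2.congr_val {f : ℝ → V} {a b c a' b' c' : V} (h : J2 f a b c) (ha : a = a') (hb : b = b')
    (hc : c = c') : J2 f a' b' c' := by subst ha hb hc; exact h

theorem J2.congr_fun {f g : ℝ → V} {a b c : V} (he : ∀ᶠ s in 𝓝 (0 : ℝ), f s = g s)
    (h : J2 g a b c) : J2 f a b c := by
  obtain ⟨g', g1, g2, g3⟩ := h.ex
  refine ⟨by rw [he.self_of_nhds, h.val], g', ?_, g2, g3⟩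
  filter_upwards [g1, he.eventually_nhds] with s q1 q2
  exact q1.congr_of_eventuallyEq q2

theorem J2.add {f g : ℝ → V} {a b c a' b' c' : V} (h : J2 f a b c) (h' : J2 g a' b' c') :
    J2 (fun s => f s + g s) (a + a') (b + b') (c + c') := by
  obtain ⟨f', f1, f2, f3⟩ := h.ex
  obtain ⟨g', g1, g2, g3⟩ := h'.ex
  refine ⟨by simp only [h.val, h'.val], fun s => f' s + g' s, ?_, by simp only [f2, g2],
    f3.add g3⟩
  filter_upwards [f1, g1] with s q1 q2 using q1.add q2

theorem J2.sub {f g : ℝ → V} {a b c a' b' c' : V} (h : J2 f a b c) (h' : J2 g a' b' c') :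
    J2 (fun s => f s - g s) (a - a') (b - b') (c - c') := by
  obtain ⟨f', f1, f2, f3⟩ := h.ex
  obtain ⟨g', g1, g2, g3⟩ := h'.ex
  refine ⟨by simp only [h.val, h'.val], fun s => f' s - g' s, ?_, by simp only [f2, g2],
    f3.sub g3⟩
  filter_upwards [f1, g1] with s q1 q2 using q1.sub q2

theorem J2.clm_apply {T : ℝ → V →L[ℝ] W} {y : ℝ → V} {a b c : V →L[ℝ] W} {y0 y1 y2 : V}
    (h : J2 T a b c) (h' : J2 y y0 y1 y2) :
    J2 (fun s => T s (y s)) (a y0) (b y0 + a y1) (c y0 + (2 : ℝ) • b y1 + a y2) := by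
  obtain ⟨f', f1, f2, f3⟩ := h.ex
  obtain ⟨g', g1, g2, g3⟩ := h'.ex
  have hT0 := h.hasDerivAt
  have hy0 := h'.hasDerivAt
  refine ⟨by simp only [h.val, h'.val], fun s => f' s (y s) + T s (g' s), ?_, ?_, ?_⟩
  · filter_upwards [f1, g1] with s q1 q2 using q1.clm_apply q2
  · simp only [f2, g2, h.val, h'.val]
  · have := (f3.clm_apply hy0).add (hT0.clm_apply g3)
    refine this.congr_deriv ?_
    simp only [h.val, h'.val, f2, g2]
    rw [two_smul]; abel

theorem J2.mul {f g : ℝ → ℝ} {a b c a' b' c' : ℝ} (h : J2 f a b c) (h' : J2 g a' b' c') :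
    J2 (fun s => f s * g s) (a * a') (b * a' + a * b') (c * a' + 2 * (b * b') + a * c') := by
  obtain ⟨f', f1, f2, f3⟩ := h.ex
  obtain ⟨g', g1, g2, g3⟩ := h'.ex
  have hT0 := h.hasDerivAt
  have hy0 := h'.hasDerivAt
  refine ⟨by simp only [h.val, h'.val], fun s => f' s * g s + f s * g' s, ?_, ?_, ?_⟩
  · filter_upwards [f1, g1] with s q1 q2 using q1.mul q2
  · simp only [f2, g2, h.val, h'.val]
  · have := (f3.mul hy0).add (hT0.mul g3)
    refine this.congr_deriv ?_
    simp only [h.val, h'.val, f2, g2]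
    ring

theorem J2.const_mul {f : ℝ → ℝ} {a b c : ℝ} (k : ℝ) (h : J2 f a b c) :
    J2 (fun s => k * f s) (k * a) (k * b) (k * c) :=
  ((J2.const k).mul h).congr_val rfl (by ring) (by ring)

theorem J2.pow {f : ℝ → ℝ} {a b c : ℝ} (h : J2 f a b c) (n : ℕ) :
    J2 (fun s => f s ^ (n + 2)) (a ^ (n + 2)) ((n + 2) * a ^ (n + 1) * b)
      ((n + 2) * (n + 1) * a ^ n * b ^ 2 + (n + 2) * a ^ (n + 1) * c) := by
  induction n with
  | zero =>
    have := h.mul h
    refine ⟨?_, ?_⟩
    · simp [h.val]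
    · obtain ⟨g, g1, g2, g3⟩ := this.ex
      refine ⟨g, ?_, ?_, ?_⟩
      · filter_upwards [g1] with s hs
        refine hs.congr_of_eventuallyEq (Eventually.of_forall fun t => ?_)
        simp only [zero_add]; ring
      · rw [g2]; push_cast; ring
      · refine g3.congr_deriv ?_
        push_cast; ring
  | succ n ih =>
    have := ih.mul h
    refine ⟨?_, ?_⟩
    · simp [h.val]
    · obtain ⟨g, g1, g2, g3⟩ := this.ex
      refine ⟨g, ?_, ?_, ?_⟩
      · filter_upwards [g1] with s hs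
        refine hs.congr_of_eventuallyEq (Eventually.of_forall fun t => ?_)
        simp only; ring
      · rw [g2]; push_cast; ring
      · refine g3.congr_deriv ?_
        push_cast; ring

/-- jet of a smooth function along a line -/
theorem J2.line {g : E → V} {x w : E} (hg : ContDiffAt ℝ 2 g x) :
    J2 (fun s : ℝ => g (x + s • w)) (g x) (fderiv ℝ g x w) (fderiv ℝ (fderiv ℝ g) x w w) := by
  have hl : ∀ s : ℝ, HasDerivAt (fun s : ℝ => x + s • w) w s := by
    intro s
    simpa using ((hasDerivAt_id s).smul_const w).const_add x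
  have hcont : ContinuousAt (fun s : ℝ => x + s • w) 0 := (hl 0).continuousAt
  have hx0 : (fun s : ℝ => x + s • w) 0 = x := by simp
  have hev : ∀ᶠ y in 𝓝 x, ContDiffAt ℝ 2 g y := hg.eventually (by simp)
  have hev' : ∀ᶠ s : ℝ in 𝓝 0, ContDiffAt ℝ 2 g (x + s • w) := by
    have : Tendsto (fun s : ℝ => x + s • w) (𝓝 0) (𝓝 x) := by
      have := hcont.tendsto
      simpa using this
    exact this.eventually hev
  refine ⟨by simp, fun s => fderiv ℝ g (x + s • w) w, ?_, by simp, ?_⟩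
  · filter_upwards [hev'] with s hs
    have h1 : HasFDerivAt g (fderiv ℝ g (x + s • w)) (x + s • w) :=
      (hs.differentiableAt (by norm_num)).hasFDerivAt
    exact h1.comp_hasDerivAt s (hl s)
  · have h1 : DifferentiableAt ℝ (fderiv ℝ g) x :=
      (hg.fderiv_right (m := 1) (by norm_num)).differentiableAt (by norm_num)
    have h2 : HasFDerivAt (fderiv ℝ g) (fderiv ℝ (fderiv ℝ g) x) (x + (0 : ℝ) • w) := by
      simpa using h1.hasFDerivAt
    have h3 : HasDerivAt (fun s : ℝ => fderiv ℝ g (x + s • w)) (fderiv ℝ (fderiv ℝ g) x w) 0 :=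
      h2.comp_hasDerivAt (0 : ℝ) (hl 0)
    have := h3.clm_apply (hasDerivAt_const (0 : ℝ) w)
    simpa using this

end jets

/-- second derivative test: necessary conditions at a local minimum -/
theorem J2.min {f : ℝ → ℝ} {a b c : ℝ} (h : J2 f a b c) (hm : ∀ᶠ s in 𝓝 (0 : ℝ), f 0 ≤ f s) :
    b = 0 ∧ 0 ≤ c := by
  have hb : b = 0 := (IsLocalMin.hasDerivAt_eq_zero (f := f) (a := 0) hm h.hasDerivAt)
  refine ⟨hb, ?_⟩
  by_contra hc
  push Not at hc
  obtain ⟨f', f1, f2, f3⟩ := h.ex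
  rw [hb] at f2
  -- f' is negative on a right neighbourhood
  have h1 : ∀ᶠ s in 𝓝[>] (0 : ℝ), f' s < 0 := by
    have := f3.tendsto_slope_zero_right
    have h2 : ∀ᶠ t in 𝓝[>] (0 : ℝ), t⁻¹ • (f' (0 + t) - f' 0) < 0 :=
      this.eventually (gt_mem_nhds hc)
    filter_upwards [h2, self_mem_nhdsWithin] with t ht ht0
    have ht0' : (0 : ℝ) < t := ht0
    rw [f2, zero_add, sub_zero, smul_eq_mul] at ht
    by_contra hn
    push Not at hn
    have : 0 ≤ t⁻¹ * f' t := by positivity
    linarith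
  have h2 : ∀ᶠ s in 𝓝[>] (0 : ℝ), f 0 ≤ f s := nhdsWithin_le_nhds hm
  have h3 : ∀ᶠ s in 𝓝[>] (0 : ℝ), HasDerivAt f (f' s) s := nhdsWithin_le_nhds f1
  obtain ⟨d, hd0, hd⟩ := (mem_nhdsGT_iff_exists_Ioo_subset).mp ((h1.and (h2.and h3)))
  have hd0' : (0 : ℝ) < d := hd0
  have hmid : d / 2 ∈ Ioo 0 d := ⟨by linarith, by linarith⟩
  have hcont : ContinuousOn f (Icc 0 (d / 2)) := by
    intro s hs
    rcases hs.1.eq_or_lt with h0 | h0
    · rw [← h0]; exact h.hasDerivAt.continuousAt.continuousWithinAt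
    · exact ((hd ⟨h0, by linarith [hs.2]⟩).2.2).continuousAt.continuousWithinAt
  obtain ⟨ξ, hξ, hs⟩ := exists_hasDerivAt_eq_slope f f' (show (0 : ℝ) < d / 2 by linarith) hcont
    (fun s hs => (hd ⟨hs.1, by linarith [hs.2]⟩).2.2)
  have hneg := (hd (show ξ ∈ Ioo 0 d from ⟨hξ.1, by linarith [hξ.2]⟩)).1
  have hge := (hd hmid).2.1
  rw [hs] at hneg
  have : 0 ≤ (f (d / 2) - f 0) / (d / 2 - 0) := div_nonneg (by linarith) (by linarith)
  linarith

/-! ### determinants -/

section det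
variable {n : ℕ}

/-- entrywise derivative -/
def MD (A : ℝ → Matrix (Fin n) (Fin n) ℝ) (A' : Matrix (Fin n) (Fin n) ℝ) (s : ℝ) : Prop :=
  ∀ i j, HasDerivAt (fun t => A t i j) (A' i j) s

theorem MD.mul {A B : ℝ → Matrix (Fin n) (Fin n) ℝ} {A' B' : Matrix (Fin n) (Fin n) ℝ} {s : ℝ}
    (hA : MD A A' s) (hB : MD B B' s) : MD (fun t => A t * B t) (A' * B s + A s * B') s := by
  intro i j
  simp only [Matrix.mul_apply, Matrix.add_apply]
  rw [← Finset.sum_add_distrib]
  exact HasDerivAt.fun_sum fun k _ => (hA i k).mul (hB k j)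

theorem MD.add {A B : ℝ → Matrix (Fin n) (Fin n) ℝ} {A' B' : Matrix (Fin n) (Fin n) ℝ} {s : ℝ}
    (hA : MD A A' s) (hB : MD B B' s) : MD (fun t => A t + B t) (A' + B') s := fun i j =>
  (hA i j).add (hB i j)

theorem MD.neg {A : ℝ → Matrix (Fin n) (Fin n) ℝ} {A' : Matrix (Fin n) (Fin n) ℝ} {s : ℝ}
    (hA : MD A A' s) : MD (fun t => -A t) (-A') s := fun i j => (hA i j).neg

theorem MD.trace {A : ℝ → Matrix (Fin n) (Fin n) ℝ} {A' : Matrix (Fin n) (Fin n) ℝ} {s : ℝ}
    (hA : MD A A' s) : HasDerivAt (fun t => (A t).trace) A'.trace s := by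
  unfold Matrix.trace
  simp only [Matrix.diag_apply]
  exact HasDerivAt.fun_sum fun i _ => hA i i

/-- Jacobi's formula -/
theorem MD.det {A : ℝ → Matrix (Fin n) (Fin n) ℝ} {A' : Matrix (Fin n) (Fin n) ℝ} {s : ℝ}
    (hA : MD A A' s) : HasDerivAt (fun t => (A t).det) ((A s).adjugate * A').trace s := by
  have h1 : HasDerivAt (fun t => ∑ σ : Equiv.Perm (Fin n), ((Equiv.Perm.sign σ : ℤ) : ℝ) *
      ∏ i, A t (σ i) i) (∑ σ : Equiv.Perm (Fin n), ((Equiv.Perm.sign σ : ℤ) : ℝ) *
        ∑ k, (∏ i ∈ Finset.univ.erase k, A s (σ i) i) * A' (σ k) k) s := by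
    refine HasDerivAt.fun_sum fun σ _ => HasDerivAt.const_mul _ ?_
    have := HasDerivAt.fun_finsetProd (u := Finset.univ) (f := fun i t => A t (σ i) i)
      (f' := fun i => A' (σ i) i) (x := s) (fun i _ => hA (σ i) i)
    simpa only [smul_eq_mul] using this
  have e0 : (fun t => (A t).det) = fun t => ∑ σ : Equiv.Perm (Fin n),
      ((Equiv.Perm.sign σ : ℤ) : ℝ) * ∏ i, A t (σ i) i := by
    funext t
    rw [Matrix.det_apply']
  rw [e0]
  refine h1.congr_deriv ?_
  have e1 : ((A s).adjugate * A').trace = ∑ k, ((A s).updateCol k (fun i => A' i k)).det := by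
    unfold Matrix.trace
    refine Finset.sum_congr rfl fun k _ => ?_
    rw [Matrix.diag_apply, ← Matrix.cramer_apply, Matrix.cramer_eq_adjugate_mulVec]
    rfl
  rw [e1]
  simp only [Matrix.det_apply', Finset.mul_sum]
  rw [Finset.sum_comm]
  refine Finset.sum_congr rfl fun k _ => Finset.sum_congr rfl fun σ _ => ?_
  congr 1
  rw [← Finset.prod_erase_mul Finset.univ _ (Finset.mem_univ k)]
  congr 1
  · refine Finset.prod_congr rfl fun i hi => ?_
    rw [Matrix.updateCol_ne (Finset.ne_of_mem_erase hi)]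
  · rw [Matrix.updateCol_self]

theorem MD.adjugate {A : ℝ → Matrix (Fin n) (Fin n) ℝ} {A' : Matrix (Fin n) (Fin n) ℝ} {s : ℝ}
    (hA : MD A A' s) : ∃ N' : Matrix (Fin n) (Fin n) ℝ, MD (fun t => (A t).adjugate) N' s := by
  have : ∀ i j, ∃ y : ℝ, HasDerivAt (fun t => (A t).adjugate i j) y s := by
    intro i j
    have h1 : MD (fun t => (A t).updateRow j (Pi.single i 1))
        (fun a b => if a = j then 0 else A' a b) s := by
      intro a b
      by_cases h : a = j
      · subst h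
        simp only [Matrix.updateRow_self, if_true]
        exact hasDerivAt_const _ _
      · simp only [Matrix.updateRow_ne h, if_neg h]
        exact hA a b
    have h2 := h1.det
    exact ⟨_, by simpa only [Matrix.adjugate_apply] using h2⟩
  choose N' hN using this
  exact ⟨N', hN⟩

/-- the three identities from `det M = 1` -/
theorem det_identities {M M1 M2 : ℝ → Matrix (Fin n) (Fin n) ℝ} {M3 : Matrix (Fin n) (Fin n) ℝ}
    (h0 : M 0 = 1) (h1 : ∀ᶠ s in 𝓝 (0 : ℝ), MD M (M1 s) s)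
    (h2 : ∀ᶠ s in 𝓝 (0 : ℝ), MD M1 (M2 s) s) (h3 : MD M2 M3 0)
    (hdet : ∀ᶠ s in 𝓝 (0 : ℝ), (M s).det = 1) :
    (M1 0).trace = 0 ∧ (M2 0).trace = (M1 0 * M1 0).trace ∧
      M3.trace = 3 * (M1 0 * M2 0).trace - 2 * (M1 0 * M1 0 * M1 0).trace := by
  set N : ℝ → Matrix (Fin n) (Fin n) ℝ := fun s => (M s).adjugate with hN
  have hN0 : N 0 = 1 := by simp [hN, h0]
  have hdet2 := hdet.eventually_nhds
  -- derivative of the adjugate
  have hNd : ∀ᶠ s in 𝓝 (0 : ℝ), MD N (-(N s * M1 s * N s)) s := by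
    filter_upwards [h1, hdet, hdet2] with s hs hds hds2
    obtain ⟨N', hN'⟩ := hs.adjugate
    have e1 : MD (fun t => N t * M t) (N' * M s + N s * M1 s) s := hN'.mul hs
    have e2 : MD (fun t => N t * M t) 0 s := by
      intro i j
      have : (fun t => (N t * M t) i j) =ᶠ[𝓝 s] fun _ => (1 : Matrix (Fin n) (Fin n) ℝ) i j := by
        filter_upwards [hds2] with t ht
        simp only [hN, Matrix.adjugate_mul, ht, one_smul]
      exact (hasDerivAt_const s _).congr_of_eventuallyEq this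
    have e3 : N' * M s + N s * M1 s = 0 := by
      ext i j
      exact (e1 i j).unique (e2 i j)
    have e4 : M s * N s = 1 := by
      simp only [hN, Matrix.mul_adjugate, hds, one_smul]
    have e5 : N' = -(N s * M1 s * N s) := by
      have : (N' * M s + N s * M1 s) * N s = 0 := by rw [e3, Matrix.zero_mul]
      rw [Matrix.add_mul, Matrix.mul_assoc, e4, Matrix.mul_one] at this
      exact eq_neg_of_add_eq_zero_left this
    rw [← e5]
    exact hN'
  -- first identity near 0
  have k1 : ∀ᶠ s in 𝓝 (0 : ℝ), (N s * M1 s).trace = 0 := by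
    filter_upwards [h1, hdet2] with s hs hds
    have a1 := hs.det
    have a2 : HasDerivAt (fun t => (M t).det) 0 s :=
      (hasDerivAt_const s (1 : ℝ)).congr_of_eventuallyEq hds
    exact a1.unique a2
  have k1' := k1.eventually_nhds
  have k2 : ∀ᶠ s in 𝓝 (0 : ℝ),
      (-(N s * M1 s * N s) * M1 s + N s * M2 s).trace = 0 := by
    filter_upwards [hNd, h2, k1'] with s a1 a2 a3
    have b1 := (a1.mul a2).trace
    have b2 : HasDerivAt (fun t => (N t * M1 t).trace) 0 s :=
      (hasDerivAt_const s (0 : ℝ)).congr_of_eventuallyEq a3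
    exact b1.unique b2
  have a1 := hNd.self_of_nhds
  have a2 := h2.self_of_nhds
  have b1 := (((((a1.mul a2).mul a1)).neg).mul a2).add (a1.mul h3)
  have b2 := b1.trace
  have b3 : HasDerivAt (fun t => (-(N t * M1 t * N t) * M1 t + N t * M2 t).trace) 0 0 :=
    (hasDerivAt_const (0 : ℝ) (0 : ℝ)).congr_of_eventuallyEq k2
  have b4 := b2.unique b3
  have c1 := k1.self_of_nhds
  have c2 := k2.self_of_nhds
  simp only [hN0, Matrix.one_mul, Matrix.mul_one] at c1 c2 b4
  refine ⟨c1, ?_, ?_⟩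
  · rw [Matrix.trace_add, Matrix.neg_mul, Matrix.trace_neg] at c2
    linarith
  · have t1 : (M1 0 * M2 0).trace = (M2 0 * M1 0).trace := Matrix.trace_mul_comm _ _
    simp only [Matrix.neg_mul, Matrix.mul_neg, Matrix.add_mul, Matrix.trace_add,
      Matrix.trace_neg] at b4
    linarith

end det

end Crest.Agent.R236.Jcp
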