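import Crest.Agent.R236.Jcp1
import Crest.Agent.R236.P1

/-!
# Row 236, JCP (helper633), part 2: nested Fréchet derivatives, their symmetries, jets along the
curves `(x + s w, e + s θ)`, and the identities from `det D²u = const`.
-/

set_option autoImplicit false
set_option synthInstance.maxHeartbeats 400000
set_option synthInstance.maxSize 2000
set_option maxSynthPendingDepth 6
set_option maxHeartbeats 1000000

open Filter Topology Set
open scoped Matrix ContDiff
open Crest.GeometryTopology.CoordMetric Crest.GeometryTopology.AffineMaximal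

noncomputable section

namespace Crest.Agent.R236.Jcp

section F
variable {E V : Type*} [NormedAddCommGroup E] [NormedSpace ℝ E] [NormedAddCommGroup V]
  [NormedSpace ℝ V]

/-- first derivative -/
def F1 (u : E → ℝ) : E → E →L[ℝ] ℝ := fderiv ℝ u
/-- second derivative -/
def F2 (u : E → ℝ) : E → E →L[ℝ] E →L[ℝ] ℝ := fderiv ℝ (F1 u)
/-- third derivative -/
def F3 (u : E → ℝ) : E → E →L[ℝ] E →L[ℝ] E →L[ℝ] ℝ := fderiv ℝ (F2 u)
/-- fourth derivative -/
def F4 (u : E → ℝ) : E → E →L[ℝ] E →L[ℝ] E →L[ℝ] E →L[ℝ] ℝ := fderiv ℝ (F3 u)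
theorem ap1 {G : E → E →L[ℝ] V} {x : E} (hG : DifferentiableAt ℝ G x) (a b : E) :
    fderiv ℝ (fun y => G y b) x a = fderiv ℝ G x a b := by
  rw [fderiv_clm_apply hG (differentiableAt_const _)]; simp

theorem dap {G : E → E →L[ℝ] V} {x : E} (hG : DifferentiableAt ℝ G x) (b : E) :
    DifferentiableAt ℝ (fun y => G y b) x := hG.clm_apply (differentiableAt_const _)

theorem ap2 {G : E → E →L[ℝ] E →L[ℝ] V} {x : E} (hG : DifferentiableAt ℝ G x) (a b c : E) :
    fderiv ℝ (fun y => G y b c) x a = fderiv ℝ G x a b c := by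
  rw [ap1 (dap hG b), ap1 hG]

theorem ap3 {G : E → E →L[ℝ] E →L[ℝ] E →L[ℝ] V} {x : E} (hG : DifferentiableAt ℝ G x)
    (a b c d : E) : fderiv ℝ (fun y => G y b c d) x a = fderiv ℝ G x a b c d := by
  rw [ap1 (dap (dap hG b) c), ap2 hG]

theorem two_le : (2 : WithTop ℕ∞) ≤ ∞ :=
  show ((2 : ℕ∞) : WithTop ℕ∞) ≤ ((⊤ : ℕ∞) : WithTop ℕ∞) from WithTop.coe_le_coe.2 le_top

theorem symm_snd {g : E → V} {x : E} (hg : ContDiffAt ℝ ∞ g x) (a b : E) :
    fderiv ℝ (fderiv ℝ g) x a b = fderiv ℝ (fderiv ℝ g) x b a := by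
  have : IsSymmSndFDerivAt ℝ g x := hg.isSymmSndFDerivAt (by simpa using two_le)
  exact this.eq a b

theorem fderiv_congr_on {Ω : Set E} (hΩ : IsOpen Ω) {g g' : E → V} (h : ∀ y ∈ Ω, g y = g' y)
    {x : E} (hx : x ∈ Ω) : fderiv ℝ g x = fderiv ℝ g' x :=
  (Filter.eventuallyEq_of_mem (hΩ.mem_nhds hx) h).fderiv_eq

/-- smooth function on an open set -/
structure Sm (Ω : Set E) (u : E → ℝ) : Prop where
  op : IsOpen Ω
  sm : ContDiffOn ℝ ∞ u Ω

namespace Sm

variable {Ω : Set E} {u : E → ℝ} (h : Sm Ω u) {x : E} (hx : x ∈ Ω)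
include h hx

theorem c0 : ContDiffAt ℝ ∞ u x := h.sm.contDiffAt (h.op.mem_nhds hx)
theorem c1 : ContDiffAt ℝ ∞ (F1 u) x := (h.c0 hx).fderiv_right (m := ∞) (by simp)
theorem c2 : ContDiffAt ℝ ∞ (F2 u) x := (h.c1 hx).fderiv_right (m := ∞) (by simp)
theorem c3 : ContDiffAt ℝ ∞ (F3 u) x := (h.c2 hx).fderiv_right (m := ∞) (by simp)

theorem d0 : DifferentiableAt ℝ u x := (h.c0 hx).differentiableAt (by simp)
theorem d1 : DifferentiableAt ℝ (F1 u) x := (h.c1 hx).differentiableAt (by simp)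
theorem d2 : DifferentiableAt ℝ (F2 u) x := (h.c2 hx).differentiableAt (by simp)
theorem d3 : DifferentiableAt ℝ (F3 u) x := (h.c3 hx).differentiableAt (by simp)

theorem s2 (a b : E) : F2 u x a b = F2 u x b a := symm_snd (h.c0 hx) a b
theorem s3a (a b : E) : F3 u x a b = F3 u x b a := symm_snd (h.c1 hx) a b
theorem s4a (a b : E) : F4 u x a b = F4 u x b a := symm_snd (h.c2 hx) a b

theorem s3b (a b c : E) : F3 u x a b c = F3 u x a c b := by
  have := fderiv_congr_on h.op (g := fun y => F2 u y b c) (g' := fun y => F2 u y c b)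
    (fun y hy => h.s2 hy b c) hx
  have h2 := congrArg (fun T : E →L[ℝ] ℝ => T a) this
  simp only [ap2 (h.d2 hx)] at h2
  exact h2

theorem s4b (a b c : E) : F4 u x a b c = F4 u x a c b := by
  have := fderiv_congr_on h.op (g := fun y => F3 u y b c) (g' := fun y => F3 u y c b)
    (fun y hy => h.s3a hy b c) hx
  have h2 := congrArg (fun T : E →L[ℝ] (E →L[ℝ] ℝ) => T a) this
  simp only [ap2 (h.d3 hx)] at h2
  exact h2

theorem s4c (a b c d : E) : F4 u x a b c d = F4 u x a b d c := by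
  have := fderiv_congr_on h.op (g := fun y => F3 u y b c d) (g' := fun y => F3 u y b d c)
    (fun y hy => h.s3b hy b c d) hx
  have h2 := congrArg (fun T : E →L[ℝ] ℝ => T a) this
  simp only [ap3 (h.d3 hx)] at h2
  exact h2

/-- `F4 w w e e = F4 e e w w` -/
theorem s4 (w e : E) : F4 u x w w e e = F4 u x e e w w := by
  rw [h.s4b hx w w e, h.s4a hx w e, h.s4c hx e w w e, h.s4b hx e w e]

/-! jets -/

theorem near (w : E) : ∀ᶠ s : ℝ in 𝓝 0, x + s • w ∈ Ω := by
  have hc : Continuous (fun s : ℝ => x + s • w) := by fun_prop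
  have : x + (0 : ℝ) • w ∈ Ω := by simpa using hx
  exact hc.continuousAt.eventually (h.op.mem_nhds this)

theorem ju (w : E) : J2 (fun s : ℝ => u (x + s • w)) (u x) (F1 u x w) (F2 u x w w) :=
  J2.line ((h.c0 hx).of_le two_le)

theorem jF1 (w : E) : J2 (fun s : ℝ => F1 u (x + s • w)) (F1 u x) (F2 u x w) (F3 u x w w) :=
  J2.line ((h.c1 hx).of_le two_le)

theorem jF2 (w : E) : J2 (fun s : ℝ => F2 u (x + s • w)) (F2 u x) (F3 u x w) (F4 u x w w) :=
  J2.line ((h.c2 hx).of_le two_le)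

theorem jp (w e t : E) : J2 (fun s : ℝ => F1 u (x + s • w) (e + s • t)) (F1 u x e)
    (F2 u x e w + F1 u x t) (F3 u x e w w + 2 * F2 u x w t) := by
  have := (h.jF1 hx w).clm_apply (J2.affine e t)
  refine this.congr_val rfl (by rw [h.s2 hx w e]) ?_
  rw [map_zero, add_zero, smul_eq_mul, h.s3b hx w w e, h.s3a hx w e]

theorem jh (w e t : E) : J2 (fun s : ℝ => F2 u (x + s • w) (e + s • t) (e + s • t)) (F2 u x e e)
    (F3 u x e e w + 2 * F2 u x e t)
    (F4 u x e e w w + 4 * F3 u x e w t + 2 * F2 u x t t) := by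
  have := ((h.jF2 hx w).clm_apply (J2.affine e t)).clm_apply (J2.affine e t)
  refine this.congr_val rfl ?_ ?_
  · simp only [add_apply]
    rw [h.s2 hx t e, h.s3a hx w e, h.s3b hx e w e]
    ring
  · simp only [add_apply, smul_apply, smul_eq_mul, map_zero, add_zero]
    rw [h.s4 hx w e, h.s3a hx w e, h.s3a hx w t, h.s3b hx t w e, h.s3a hx t e, h.s3b hx e t w]
    ring

/-- scalar functions of the third derivative are smooth -/
theorem c3s (a b c : E) : ContDiffAt ℝ ∞ (fun y => F3 u y a b c) x :=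
  (((h.c3 hx).clm_apply contDiffAt_const).clm_apply contDiffAt_const).clm_apply contDiffAt_const

theorem j3 (w a b c : E) : J2 (fun s : ℝ => F3 u (x + s • w) a b c) (F3 u x a b c)
    (F4 u x w a b c) (fderiv ℝ (fderiv ℝ (fun y => F3 u y a b c)) x w w) := by
  refine (J2.line (g := fun y => F3 u y a b c) ((h.c3s hx a b c).of_le two_le)).congr_val rfl ?_
    rfl
  exact ap3 (h.d3 hx) w a b c

theorem ap4 (a b c d : E) : fderiv ℝ (fun y => F3 u y b c d) x a = F4 u x a b c d :=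
  ap3 (h.d3 hx) a b c d

/-- `∂_w ∂_w (D³u(e,e,e)) = ∂_e (D⁴u(e,e,w,w))` -/
theorem fifth (w e : E) : fderiv ℝ (fderiv ℝ (fun y => F3 u y e e e)) x w w =
    fderiv ℝ (fun y => F4 u y e e w w) x e := by
  have e1 : fderiv ℝ (fderiv ℝ (fun y => F3 u y e e e)) x w w
      = fderiv ℝ (fun y => fderiv ℝ (fun y => F3 u y e e e) y w) x w := by
    rw [ap1]
    exact (((h.c3s hx e e e).fderiv_right (m := ∞) (by simp)).differentiableAt (by simp))
  have e2 : ∀ y ∈ Ω, fderiv ℝ (fun y => F3 u y e e e) y w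
      = fderiv ℝ (fun y => F3 u y e e w) y e := by
    intro y hy
    rw [h.ap4 hy, h.ap4 hy, h.s4a hy w e, h.s4b hy e w e, h.s4c hy e e w e]
  have hb : ContDiffAt ℝ ∞ (fderiv ℝ (fun y => F3 u y e e w)) x :=
    (h.c3s hx e e w).fderiv_right (m := ∞) (by simp)
  have e3 : fderiv ℝ (fun y => fderiv ℝ (fun y => F3 u y e e w) y e) x w
      = fderiv ℝ (fun y => fderiv ℝ (fun y => F3 u y e e w) y w) x e := by
    rw [ap1 (hb.differentiableAt (by simp)), ap1 (hb.differentiableAt (by simp))]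
    exact symm_snd (h.c3s hx e e w) w e
  have e4 : ∀ y ∈ Ω, fderiv ℝ (fun y => F3 u y e e w) y w = F4 u y e e w w := by
    intro y hy
    rw [h.ap4 hy, h.s4a hy w e, h.s4b hy e w e]
  rw [e1, fderiv_congr_on h.op e2 hx, e3, fderiv_congr_on h.op e4 hx]

theorem jC (w e t : E) :
    J2 (fun s : ℝ => F3 u (x + s • w) (e + s • t) (e + s • t) (e + s • t)) (F3 u x e e e)
    (F4 u x e e e w + 3 * F3 u x e e t)
    (fderiv ℝ (fun y => F4 u y e e w w) x e + 6 * F4 u x e e w t + 6 * F3 u x e t t) := by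
  have hs : J2 (fun s : ℝ => s) 0 1 0 := by
    refine ⟨rfl, fun _ => 1, Eventually.of_forall fun s => hasDerivAt_id s, rfl,
      hasDerivAt_const _ _⟩
  have a0 := h.j3 hx w e e e
  have a1 := (hs.mul (h.j3 hx w e e t)).const_mul 3
  have a2 := ((hs.mul hs).mul (h.j3 hx w e t t)).const_mul 3
  have a3 := (hs.mul (hs.mul hs)).mul (h.j3 hx w t t t)
  have a := ((a0.add a1).add a2).add a3
  refine J2.congr_fun ?_ (a.congr_val ?_ ?_ ?_)
  · filter_upwards [h.near hx w] with s hs'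
    simp only [map_add, map_smul, add_apply, smul_apply, smul_eq_mul]
    have q1 : F3 u (x + s • w) e t e = F3 u (x + s • w) e e t := h.s3b hs' e t e
    have q2 : F3 u (x + s • w) t e e = F3 u (x + s • w) e e t := by rw [h.s3a hs' t e, q1]
    have q3 : F3 u (x + s • w) t e t = F3 u (x + s • w) e t t := by rw [h.s3a hs' t e]
    have q4 : F3 u (x + s • w) t t e = F3 u (x + s • w) e t t := by rw [h.s3b hs' t t e, q3]
    rw [q1, q2, q3, q4]
    ring
  · ring
  · rw [h.s4a hx w e, h.s4b hx e w e, h.s4c hx e e w e]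
    ring
  · rw [h.fifth hx w e, h.s4a hx w e, h.s4b hx e w e]
    ring

end Sm

end F

/-! ### orthonormal families and the matrix of the third derivative -/

section coord
variable {n : ℕ} {Ω : Set (EuclideanSpace ℝ (Fin n))} {u : EuclideanSpace ℝ (Fin n) → ℝ}

theorem sm_of (h : SC Ω u) : Sm Ω u := ⟨h.isOpen, h.smooth⟩

theorem F2_pos (h : SC Ω u) {x : EuclideanSpace ℝ (Fin n)} (hx : x ∈ Ω)
    {v : EuclideanSpace ℝ (Fin n)} (hv : v ≠ 0) : 0 < F2 u x v v := fderiv2_pos h hx hv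

theorem F2_matrix (h : SC Ω u) {x : EuclideanSpace ℝ (Fin n)} (hx : x ∈ Ω)
    (w : Fin n → EuclideanSpace ℝ (Fin n)) :
    (Matrix.of fun i j => F2 u x (w i) (w j)) =
      (Matrix.of fun i k => w i k) * hessianMat u x * (Matrix.of fun i k => w i k)ᵀ := by
  ext i j
  simp only [Matrix.of_apply, Matrix.mul_apply, Matrix.transpose_apply]
  have := fderiv2_eq (h.differentiableAt_fderiv hx) (w i) (w j)
  change F2 u x (w i) (w j) = _ at this
  rw [this, Finset.sum_comm]
  refine Finset.sum_congr rfl fun k _ => ?_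
  rw [Finset.sum_mul]
  refine Finset.sum_congr rfl fun l _ => ?_
  ring

/-- `w` is orthonormal for `D²u(x)` -/
def ON (u : EuclideanSpace ℝ (Fin n) → ℝ) (x : EuclideanSpace ℝ (Fin n))
    (w : Fin n → EuclideanSpace ℝ (Fin n)) : Prop :=
  ∀ i j, F2 u x (w i) (w j) = if i = j then 1 else 0

/-- **the three identities** -/
theorem identities (h : SC Ω u) {c : ℝ} (hdet : ∀ x ∈ Ω, (hessianMat u x).det = c)
    {x : EuclideanSpace ℝ (Fin n)} (hx : x ∈ Ω) {w : Fin n → EuclideanSpace ℝ (Fin n)}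
    (hw : ON u x w) (e : EuclideanSpace ℝ (Fin n)) :
    (∑ i, F3 u x e (w i) (w i) = 0) ∧
    (∑ i, F4 u x e e (w i) (w i) = ∑ i, ∑ j, F3 u x e (w i) (w j) ^ 2) ∧
    (∑ i, fderiv ℝ (fun y => F4 u y e e (w i) (w i)) x e =
      3 * (∑ i, ∑ j, F3 u x e (w i) (w j) * F4 u x e e (w i) (w j))
      - 2 * ∑ i, ∑ j, ∑ k, F3 u x e (w i) (w j) * F3 u x e (w i) (w k) * F3 u x e (w j) (w k)) := by
  have hs := sm_of h
  set M : ℝ → Matrix (Fin n) (Fin n) ℝ := fun s => Matrix.of fun i j => F2 u (x + s • e) (w i) (w j)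
    with hM
  set M1 : ℝ → Matrix (Fin n) (Fin n) ℝ :=
    fun s => Matrix.of fun i j => F3 u (x + s • e) e (w i) (w j) with hM1
  set M2 : ℝ → Matrix (Fin n) (Fin n) ℝ :=
    fun s => Matrix.of fun i j => F4 u (x + s • e) e e (w i) (w j) with hM2
  set M3 : Matrix (Fin n) (Fin n) ℝ := Matrix.of fun i j => fderiv ℝ (fun y => F4 u y e e (w i) (w j)) x e with hM3
  have hl : ∀ s : ℝ, HasDerivAt (fun s : ℝ => x + s • e) e s := fun s => hasDerivAt_affine x e s
  have hnear : ∀ᶠ s : ℝ in 𝓝 0, x + s • e ∈ Ω := by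
    have hc : ContinuousAt (fun s : ℝ => x + s • e) 0 := (hl 0).continuousAt
    have : x + (0 : ℝ) • e ∈ Ω := by simpa using hx
    exact hc.eventually (h.isOpen.mem_nhds this)
  have D2 : ∀ s : ℝ, x + s • e ∈ Ω → MD M (M1 s) s := by
    intro s hsx i j
    have h1 : HasFDerivAt (F2 u) (F3 u (x + s • e)) (x + s • e) := (hs.d2 hsx).hasFDerivAt
    have h2 := h1.comp_hasDerivAt s (hl s)
    have h3 := (h2.clm_apply (hasDerivAt_const s (w i))).clm_apply (hasDerivAt_const s (w j))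
    simpa [hM, hM1] using h3
  have D3 : ∀ s : ℝ, x + s • e ∈ Ω → MD M1 (M2 s) s := by
    intro s hsx i j
    have h1 : HasFDerivAt (F3 u) (F4 u (x + s • e)) (x + s • e) := (hs.d3 hsx).hasFDerivAt
    have h2 := h1.comp_hasDerivAt s (hl s)
    have h3 := ((h2.clm_apply (hasDerivAt_const s e)).clm_apply
      (hasDerivAt_const s (w i))).clm_apply (hasDerivAt_const s (w j))
    simpa [hM2, hM1] using h3
  have D4 : MD M2 M3 0 := by
    intro i j
    have hx0 : x + (0 : ℝ) • e ∈ Ω := by simpa using hx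
    have hd : DifferentiableAt ℝ (fun y => F4 u y e e (w i) (w j)) (x + (0 : ℝ) • e) := by
      have h4 : DifferentiableAt ℝ (F4 u) (x + (0 : ℝ) • e) :=
        ((hs.c3 hx0).fderiv_right (m := ∞) (by simp)).differentiableAt (by simp)
      exact dap (dap (dap (dap h4 e) e) (w i)) (w j)
    have h2 := hd.hasFDerivAt.comp_hasDerivAt (0 : ℝ) (hl 0)
    rw [show x + (0 : ℝ) • e = x by simp] at h2
    exact h2
  have h0 : M 0 = 1 := by
    ext i j
    simp only [hM, Matrix.of_apply, zero_smul, add_zero]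
    rw [hw i j, Matrix.one_apply]
  have hdetM : ∀ s : ℝ, x + s • e ∈ Ω → (M s).det =
      (Matrix.of fun i k => w i k).det * c * (Matrix.of fun i k => w i k).det := by
    intro s hsx
    rw [hM]
    simp only
    rw [F2_matrix h hsx w, Matrix.det_mul, Matrix.det_mul, Matrix.det_transpose, hdet _ hsx]
  have hone : (Matrix.of fun i k => w i k).det * c * (Matrix.of fun i k => w i k).det = 1 := by
    rw [← hdetM 0 (by simpa using hx), h0, Matrix.det_one]
  obtain ⟨i1, i2, i3⟩ := det_identities (M := M) (M1 := M1) (M2 := M2) (M3 := M3) h0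
    (hnear.mono D2) (hnear.mono D3) D4 (hnear.mono fun s hsx => by rw [hdetM s hsx, hone])
  have x0 : x + (0 : ℝ) • e = x := by simp
  simp only [hM1, hM2, hM3, Matrix.trace, Matrix.diag_apply, Matrix.of_apply, Matrix.mul_apply,
    x0] at i1 i2 i3
  refine ⟨i1, ?_, ?_⟩
  · rw [i2]
    refine Finset.sum_congr rfl fun i _ => Finset.sum_congr rfl fun j _ => ?_
    rw [hs.s3b hx e (w j) (w i)]; ring
  · rw [i3]
    congr 1
    · congr 1
      refine Finset.sum_congr rfl fun i _ => Finset.sum_congr rfl fun j _ => ?_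
      rw [hs.s4c hx e e (w j) (w i)]
    · congr 1
      refine Finset.sum_congr rfl fun i _ => ?_
      rw [Finset.sum_comm]
      simp only [Finset.sum_mul]
      rw [Finset.sum_comm]
      refine Finset.sum_congr rfl fun j _ => Finset.sum_congr rfl fun k _ => ?_
      rw [hs.s3b hx e (w k) (w j), hs.s3b hx e (w k) (w i)]
      ring

end coord

end Crest.Agent.R236.Jcp
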