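import Crest.Agent.R236.P1

/-! Row 236, JCP, closed pieces (helper40 for helper633): an orthonormal family for a positive
definite bilinear form through a prescribed unit vector; functions with vanishing cubic form and
compact sections are quadratic polynomials on the whole space. -/

set_option autoImplicit false
open scoped ContDiff Topology
open Crest.GeometryTopology.CoordMetric Crest.GeometryTopology.AffineMaximal
open Set Filter MeasureTheory

noncomputable section

namespace Crest.Agent.R236.Jcp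

theorem exists_on_aux {V : Type*} [NormedAddCommGroup V] [InnerProductSpace ℝ V]
    [FiniteDimensional ℝ V] {n : ℕ} (hn : Module.finrank ℝ V = n) (i0 : Fin n) {e : V}
    (he : inner ℝ e e = (1:ℝ)) :
    ∃ w : Fin n → V, w i0 = e ∧ ∀ i j, inner ℝ (w i) (w j) = if i = j then (1:ℝ) else 0 := by
  have hnorm : ‖e‖ = 1 := by
    rw [real_inner_self_eq_norm_sq] at he
    nlinarith [norm_nonneg e]
  have hv : Orthonormal ℝ (({i0} : Set (Fin n)).domRestrict (fun _ : Fin n => e)) := by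
    rw [orthonormal_iff_ite]
    intro i j
    have hij : i = j := Subsingleton.elim _ _
    simp [hij, hnorm]
  obtain ⟨b, hb⟩ := hv.exists_orthonormalBasis_extension_of_card_eq (by simpa using hn)
  refine ⟨b, hb i0 rfl, fun i j => ?_⟩
  exact orthonormal_iff_ite.mp b.orthonormal i j

theorem exists_on {V : Type*} [AddCommGroup V] [Module ℝ V] [FiniteDimensional ℝ V]
    (B : V →ₗ[ℝ] V →ₗ[ℝ] ℝ) (hs : ∀ x y, B x y = B y x) (hp : ∀ x, x ≠ 0 → 0 < B x x) {n : ℕ}
    (hn : Module.finrank ℝ V = n) (i0 : Fin n) {e : V} (he : B e e = 1) :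
    ∃ w : Fin n → V, w i0 = e ∧ ∀ i j, B (w i) (w j) = if i = j then 1 else 0 := by
  let cd : InnerProductSpace.Core ℝ V :=
    { inner := fun x y => B x y
      conj_inner_symm := fun x y => by simpa using hs y x
      re_inner_nonneg := fun x => by
        rcases eq_or_ne x 0 with rfl | h
        · simp
        · exact (hp x h).le
      add_left := fun x y z => by simp
      smul_left := fun x y r => by simp
      definite := fun x h => by
        by_contra hx
        exact (hp x hx).ne' h }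
  let i1 : NormedAddCommGroup V := cd.toNormedAddCommGroup
  let i2 : InnerProductSpace ℝ V := InnerProductSpace.ofCore cd.toCore
  exact exists_on_aux (V := V) hn i0 he

/-- second order expansion along a segment when the pure third derivatives vanish -/
theorem eq_taylor_of_cubic_zero {n : ℕ} {Ω : Set (EuclideanSpace ℝ (Fin n))}
    {u : EuclideanSpace ℝ (Fin n) → ℝ} (h : SC Ω u)
    (hC : ∀ x ∈ Ω, ∀ e, fderiv ℝ (fderiv ℝ (fderiv ℝ u)) x e e e = 0)
    {x₀ x : EuclideanSpace ℝ (Fin n)} (hx₀ : x₀ ∈ Ω) (hx : x ∈ Ω) :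
    u x = u x₀ + fderiv ℝ u x₀ (x - x₀) + 1 / 2 * fderiv ℝ (fderiv ℝ u) x₀ (x - x₀) (x - x₀) := by
  set v := x - x₀ with hv
  have hseg : ∀ t ∈ Icc (0:ℝ) 1, x₀ + t • v ∈ Ω := fun t ht => h.segment_mem hx₀ hx ht
  -- second derivative constant
  have hd3 : ∀ t : ℝ, x₀ + t • v ∈ Ω →
      HasDerivAt (fun s : ℝ => fderiv ℝ (fderiv ℝ u) (x₀ + s • v) v v) 0 t := by
    intro t ht
    have hd : DifferentiableAt ℝ (fderiv ℝ (fderiv ℝ u)) (x₀ + t • v) :=
      (((h.contDiffAt_fderiv ht).fderiv_right (m := ∞) (by simp))).differentiableAt (by simp)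
    have h1 : HasDerivAt (fun s : ℝ => fderiv ℝ (fderiv ℝ u) (x₀ + s • v))
        (fderiv ℝ (fderiv ℝ (fderiv ℝ u)) (x₀ + t • v) v) t := by
      have hf := hd.hasFDerivAt
      have hg := (hasDerivAt_affine x₀ v t)
      exact HasFDerivAt.comp_hasDerivAt
        (E := EuclideanSpace ℝ (Fin n) →L[ℝ] EuclideanSpace ℝ (Fin n) →L[ℝ] ℝ)
        (l := fderiv ℝ (fderiv ℝ u)) (f := fun s : ℝ => x₀ + s • v) t hf hg
    have h2 := (h1.clm_apply (hasDerivAt_const t v)).clm_apply (hasDerivAt_const t v)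
    refine h2.congr_deriv ?_
    simp [hC _ ht v]
  have hconst : ∀ t ∈ Icc (0:ℝ) 1, fderiv ℝ (fderiv ℝ u) (x₀ + t • v) v v =
      fderiv ℝ (fderiv ℝ u) x₀ v v := by
    intro t ht
    have := constant_of_derivWithin_zero (f := fun s : ℝ => fderiv ℝ (fderiv ℝ u) (x₀ + s • v) v v)
      (a := 0) (b := 1) (fun s hs => (hd3 s (hseg s hs)).differentiableAt.differentiableWithinAt)
      (fun s hs => by
        have hs' : s ∈ Icc (0:ℝ) 1 := Ico_subset_Icc_self hs
        exact (hd3 s (hseg s hs')).hasDerivWithinAt.derivWithin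
          (uniqueDiffOn_Icc one_pos s hs')) t ht
    simpa using this
  set q := fderiv ℝ (fderiv ℝ u) x₀ v v with hq
  have hconst1 : ∀ t ∈ Icc (0:ℝ) 1, fderiv ℝ u (x₀ + t • v) v = fderiv ℝ u x₀ v + t * q := by
    intro t ht
    have hder : ∀ s ∈ Icc (0:ℝ) 1,
        HasDerivAt (fun s : ℝ => fderiv ℝ u (x₀ + s • v) v - s * q) 0 s := by
      intro s hs
      have := (h.hasDerivAt_line2 (hseg s hs) v).sub ((hasDerivAt_id s).mul_const q)
      refine this.congr_deriv ?_
      rw [hconst s hs]; ring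
    have := constant_of_derivWithin_zero (f := fun s : ℝ => fderiv ℝ u (x₀ + s • v) v - s * q)
      (a := 0) (b := 1) (fun s hs => (hder s hs).differentiableAt.differentiableWithinAt)
      (fun s hs => by
        have hs' : s ∈ Icc (0:ℝ) 1 := Ico_subset_Icc_self hs
        exact (hder s hs').hasDerivWithinAt.derivWithin
          (uniqueDiffOn_Icc one_pos s hs')) t ht
    simp only [zero_smul, add_zero, zero_mul, sub_zero] at this
    linarith
  have hder : ∀ s ∈ Icc (0:ℝ) 1,
      HasDerivAt (fun s : ℝ => u (x₀ + s • v) - s * fderiv ℝ u x₀ v - 1 / 2 * s ^ 2 * q) 0 s := by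
    intro s hs
    have := ((h.hasDerivAt_line (hseg s hs)).sub ((hasDerivAt_id s).mul_const
      (fderiv ℝ u x₀ v))).sub (((hasDerivAt_pow 2 s).const_mul (1/2:ℝ)).mul_const q)
    refine this.congr_deriv ?_
    rw [hconst1 s hs]
    norm_num
    ring
  have := constant_of_derivWithin_zero
    (f := fun s : ℝ => u (x₀ + s • v) - s * fderiv ℝ u x₀ v - 1 / 2 * s ^ 2 * q)
    (a := 0) (b := 1) (fun s hs => (hder s hs).differentiableAt.differentiableWithinAt)
    (fun s hs => by
      have hs' : s ∈ Icc (0:ℝ) 1 := Ico_subset_Icc_self hs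
      exact (hder s hs').hasDerivWithinAt.derivWithin
        (uniqueDiffOn_Icc one_pos s hs')) 1 (right_mem_Icc.mpr zero_le_one)
  have hxv : x₀ + v = x := by rw [hv]; abel
  simp only [zero_smul, add_zero, zero_mul, sub_zero, one_smul, one_mul, one_pow, mul_one, hxv,
    ne_eq, OfNat.ofNat_ne_zero, not_false_eq_true, zero_pow, mul_zero] at this
  linarith

theorem of_cubic_zero {n : ℕ} {Ω : Set (EuclideanSpace ℝ (Fin n))}
    {u : EuclideanSpace ℝ (Fin n) → ℝ} (h : SC Ω u) (hne : Ω.Nonempty)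
    (hsec : ∀ x₀ ∈ Ω, ∀ t : ℝ,
      IsCompact {x | x ∈ Ω ∧ u x ≤ u x₀ + fderiv ℝ u x₀ (x - x₀) + t})
    (hC : ∀ x ∈ Ω, ∀ e, fderiv ℝ (fderiv ℝ (fderiv ℝ u)) x e e e = 0) :
    Ω = Set.univ ∧
      ∃ (A : Matrix (Fin n) (Fin n) ℝ) (b : EuclideanSpace ℝ (Fin n)) (c : ℝ), A.PosDef ∧
        ∀ x, u x = (1 / 2) * (∑ i, ∑ j, A i j * x i * x j) + (∑ i, b i * x i) + c := by
  obtain ⟨x₀, hx₀⟩ := hne
  have hclosed : IsClosed Ω := by
    rw [← closure_subset_iff_isClosed]
    intro z hz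
    obtain ⟨s, hs, hsz⟩ := mem_closure_iff_seq_limit.mp hz
    have hlim : Tendsto (fun k => 1 / 2 * fderiv ℝ (fderiv ℝ u) x₀ (s k - x₀) (s k - x₀)) atTop
        (𝓝 (1 / 2 * fderiv ℝ (fderiv ℝ u) x₀ (z - x₀) (z - x₀))) := by
      have hcont : Continuous (fun y => 1 / 2 * fderiv ℝ (fderiv ℝ u) x₀ (y - x₀) (y - x₀)) := by
        fun_prop
      exact (hcont.tendsto z).comp hsz
    obtain ⟨t, ht⟩ := hlim.bddAbove_range
    have hmem : ∀ k, s k ∈ {x | x ∈ Ω ∧ u x ≤ u x₀ + fderiv ℝ u x₀ (x - x₀) + t} := by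
      intro k
      refine ⟨hs k, ?_⟩
      rw [eq_taylor_of_cubic_zero h hC hx₀ (hs k)]
      have := ht (mem_range_self k)
      linarith
    exact ((hsec x₀ hx₀ t).isClosed.mem_of_tendsto hsz (Eventually.of_forall hmem)).1
  have huniv : Ω = Set.univ := IsClopen.eq_univ ⟨hclosed, h.isOpen⟩ ⟨x₀, hx₀⟩
  refine ⟨huniv, hessianMat u 0, WithLp.toLp 2 (fun i => fderiv ℝ u 0 (EuclideanSpace.single i 1)),
    u 0, h.posDef 0 (huniv ▸ mem_univ _), fun x => ?_⟩
  have h0 : (0 : EuclideanSpace ℝ (Fin n)) ∈ Ω := huniv ▸ mem_univ _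
  rw [eq_taylor_of_cubic_zero h hC h0 (huniv ▸ mem_univ x), sub_zero,
    fderiv2_eq (h.differentiableAt_fderiv h0)]
  have h1 : fderiv ℝ u 0 x = ∑ i, fderiv ℝ u 0 (EuclideanSpace.single i 1) * x i := by
    conv_lhs => rw [← sum_single x]
    rw [map_sum]
    simp only [map_smul, smul_eq_mul]
    refine Finset.sum_congr rfl fun i _ => ?_
    ring
  rw [h1]
  ring

end Crest.Agent.R236.Jcp
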