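import Crest.Agent.R236.Jcp2
import Crest.Agent.R236.JcpFin

/-!
# Row 236, JCP (helper633), part 3: maximum over a compact set times directions; gradient estimate.
-/

set_option autoImplicit false
set_option synthInstance.maxHeartbeats 400000
set_option synthInstance.maxSize 2000
set_option maxSynthPendingDepth 6
set_option maxHeartbeats 1000000

open Filter Topology Set
open scoped Matrix ContDiff
open Crest.GeometryTopology.CoordMetric Crest.GeometryTopology.AffineMaximal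

noncomputable section

namespace Crest.Agent.R236.Jcp

section max
variable {E : Type*} [NormedAddCommGroup E] [NormedSpace ℝ E] [FiniteDimensional ℝ E]

/-- a quotient homogeneous of degree zero in the direction attains its maximum -/
theorem exists_max {S : Set E} (hS : IsCompact S) {x0 : E} (hx0 : x0 ∈ S) (N D : E → E → ℝ) (k : ℕ)
    (hN : ContinuousOn (fun p : E × E => N p.1 p.2) (S ×ˢ Set.univ))
    (hD : ContinuousOn (fun p : E × E => D p.1 p.2) (S ×ˢ Set.univ))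
    (hpos : ∀ x ∈ S, ∀ e, e ≠ 0 → 0 < D x e)
    (hNk : ∀ x, ∀ (t : ℝ) (e : E), N x (t • e) = t ^ k * N x e)
    (hDk : ∀ x, ∀ (t : ℝ) (e : E), D x (t • e) = t ^ k * D x e)
    {e0 : E} (he0 : e0 ≠ 0) :
    ∃ x ∈ S, ∃ e, e ≠ 0 ∧ ∀ y ∈ S, ∀ f, f ≠ 0 → N y f * D x e ≤ N x e * D y f := by
  have := FiniteDimensional.proper_real E
  have hK : IsCompact (S ×ˢ Metric.sphere (0 : E) 1) := hS.prod (isCompact_sphere _ _)
  have hne : (S ×ˢ Metric.sphere (0 : E) 1).Nonempty := by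
    refine ⟨(x0, ‖e0‖⁻¹ • e0), hx0, ?_⟩
    simp only [mem_sphere_iff_norm, sub_zero, norm_smul, norm_inv, norm_norm]
    exact inv_mul_cancel₀ (norm_ne_zero_iff.2 he0)
  have hsub : S ×ˢ Metric.sphere (0 : E) 1 ⊆ S ×ˢ Set.univ := Set.prod_mono le_rfl (subset_univ _)
  have hn0 : ∀ e : E, e ∈ Metric.sphere (0 : E) 1 → e ≠ 0 := by
    intro e he h0
    rw [h0] at he
    simp at he
  have hc : ContinuousOn (fun p : E × E => N p.1 p.2 / D p.1 p.2)
      (S ×ˢ Metric.sphere (0 : E) 1) :=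
    (hN.mono hsub).div (hD.mono hsub) fun p hp => (hpos p.1 hp.1 p.2 (hn0 _ hp.2)).ne'
  obtain ⟨⟨x, e⟩, ⟨hxS, heS⟩, hmax⟩ := hK.exists_isMaxOn hne hc
  refine ⟨x, hxS, e, hn0 _ heS, fun y hy f hf => ?_⟩
  have hf0 : 0 < ‖f‖ := norm_pos_iff.2 hf
  have hf1 : ‖f‖⁻¹ • f ∈ Metric.sphere (0 : E) 1 := by
    simp only [mem_sphere_iff_norm, sub_zero, norm_smul, norm_inv, norm_norm]
    exact inv_mul_cancel₀ hf0.ne'
  have h1 : N y (‖f‖⁻¹ • f) / D y (‖f‖⁻¹ • f) ≤ N x e / D x e :=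
    hmax (show (y, ‖f‖⁻¹ • f) ∈ S ×ˢ Metric.sphere (0 : E) 1 from ⟨hy, hf1⟩)
  rw [div_le_div_iff₀ (hpos y hy _ (hn0 _ hf1)) (hpos x hxS _ (hn0 _ heS)), hNk, hDk] at h1
  have h2 : 0 < (‖f‖⁻¹) ^ k := by positivity
  have h3 : (‖f‖⁻¹) ^ k * (N y f * D x e) ≤ (‖f‖⁻¹) ^ k * (N x e * D y f) := by
    linarith [h1]
  exact le_of_mul_le_mul_left h3 h2

end max

/-- one-variable test for the gradient quantity -/
theorem jet_test {m : ℕ} {H P η : ℝ → ℝ} {H1 H2 p P1 P2 η0 η1 η2 : ℝ} (hη : 0 < η0) (hp : p ≠ 0)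
    (jH : J2 H 1 H1 H2) (jP : J2 P p P1 P2) (jη : J2 η η0 η1 η2)
    (hmin : ∀ᶠ s in 𝓝 (0 : ℝ), P s ^ 2 * η s ^ (m + 2) ≤ p ^ 2 * η0 ^ (m + 2) * H s) :
    p * H1 * η0 - 2 * P1 * η0 - (m + 2) * p * η1 = 0 ∧
    0 ≤ p ^ 2 * η0 ^ 2 * H2 - (2 * p * P2 + 2 * P1 ^ 2) * η0 ^ 2 - 4 * p * P1 * (m + 2) * η0 * η1
      - p ^ 2 * ((m + 2) * (m + 1) * η1 ^ 2 + (m + 2) * η0 * η2) := by
  have j := (jH.const_mul (p ^ 2 * η0 ^ (m + 2))).sub ((jP.mul jP).mul (jη.pow m))
  have hm : ∀ᶠ s in 𝓝 (0 : ℝ), (fun s => p ^ 2 * η0 ^ (m + 2) * H s -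
      P s * P s * η s ^ (m + 2)) 0 ≤ (fun s => p ^ 2 * η0 ^ (m + 2) * H s -
      P s * P s * η s ^ (m + 2)) s := by
    filter_upwards [hmin] with s hs
    simp only [jH.val, jP.val, jη.val]
    nlinarith [hs]
  obtain ⟨h1, h2⟩ := j.min hm
  have e0 : 0 < η0 ^ m := by positivity
  constructor
  · have : p * η0 ^ (m + 1) * (p * H1 * η0 - 2 * P1 * η0 - (m + 2) * p * η1) = 0 := by
      have e : p * η0 ^ (m + 1) * (p * H1 * η0 - 2 * P1 * η0 - (m + 2) * p * η1) =
        p ^ 2 * η0 ^ (m + 2) * H1 - ((P1 * p + p * P1) * η0 ^ (m + 2) +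
          p * p * ((m + 2) * η0 ^ (m + 1) * η1)) := by ring
      rw [e]; exact h1
    rcases mul_eq_zero.1 this with h | h
    · exfalso
      rcases mul_eq_zero.1 h with h | h
      · exact hp h
      · exact (pow_ne_zero _ hη.ne') h
    · exact h
  · refine nonneg_of_mul_nonneg_right (a := η0 ^ m) ?_ e0
    refine h2.trans (le_of_eq ?_)
    ring

section grad
variable {n : ℕ} {Ω : Set (EuclideanSpace ℝ (Fin n))} {u : EuclideanSpace ℝ (Fin n) → ℝ}

/-- existence of an orthonormal family starting with `e` -/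
theorem exists_ON (h : SC Ω u) {x : EuclideanSpace ℝ (Fin n)} (hx : x ∈ Ω) (i0 : Fin n)
    {e : EuclideanSpace ℝ (Fin n)} (he : F2 u x e e = 1) :
    ∃ w : Fin n → EuclideanSpace ℝ (Fin n), w i0 = e ∧ ON u x w := by
  have hs := sm_of h
  obtain ⟨w, hw, hon⟩ := exists_on
    (LinearMap.mk₂ ℝ (fun a b : EuclideanSpace ℝ (Fin n) => F2 u x a b)
      (by intros; simp) (by intros; simp) (by intros; simp) (by intros; simp))
    (fun a b => by simpa using hs.s2 hx a b)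
    (fun a ha => by simpa using F2_pos h hx ha) (n := n) (by simp) i0 (e := e) (by simpa using he)
  exact ⟨w, hw, fun i j => by simpa using hon i j⟩

theorem sum_sq_le_helper {ι : Type*} [Fintype ι] [DecidableEq ι] (A : ι → ι → ℝ) (i0 : ι) (m : ℕ)
    (hcard : Fintype.card ι = m + 1) (htr : ∑ i, A i i = 0) :
    (m + 1) * A i0 i0 ^ 2 ≤ m * ∑ i, ∑ j, A i j ^ 2 := by
  have h1 : ∑ i, A i i ^ 2 ≤ ∑ i, ∑ j, A i j ^ 2 := by
    refine Finset.sum_le_sum fun i _ => ?_
    exact Finset.single_le_sum (f := fun j => A i j ^ 2) (fun j _ => sq_nonneg _)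
      (Finset.mem_univ i)
  have h2 : A i0 i0 + ∑ i ∈ Finset.univ.erase i0, A i i = 0 := by
    rw [Finset.add_sum_erase Finset.univ (fun i => A i i) (Finset.mem_univ i0), htr]
  have h3 : A i0 i0 ^ 2 + ∑ i ∈ Finset.univ.erase i0, A i i ^ 2 = ∑ i, A i i ^ 2 :=
    Finset.add_sum_erase Finset.univ (fun i => A i i ^ 2) (Finset.mem_univ i0)
  have h4 : (∑ i ∈ Finset.univ.erase i0, A i i) ^ 2 ≤
      (Finset.univ.erase i0).card * ∑ i ∈ Finset.univ.erase i0, A i i ^ 2 :=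
    sq_sum_le_card_mul_sum_sq
  have h5 : ((Finset.univ.erase i0).card : ℝ) = m := by
    rw [Finset.card_erase_of_mem (Finset.mem_univ i0), Finset.card_univ, hcard]
    simp
  rw [h5] at h4
  have h6 : (∑ i ∈ Finset.univ.erase i0, A i i) ^ 2 = A i0 i0 ^ 2 := by
    have : ∑ i ∈ Finset.univ.erase i0, A i i = - A i0 i0 := by linarith
    rw [this]; ring
  rw [h6] at h4
  have hm : (0 : ℝ) ≤ m := Nat.cast_nonneg m
  nlinarith [mul_le_mul_of_nonneg_left h1 hm]

theorem final_alg {m : ℕ} {P Q a z : ℝ} (hz : 0 < z)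
    (hQ : (m + 1) * (2 * a - z) ^ 2 ≤ m * Q)
    (hP : Q ≤ 2 * z ^ 2 - 2 * a ^ 2 - (m + 1) / (m + 2) * z ^ 2 + (m + 1) * z * a)
    (hPz : z = (m + 2) * P) : P ≤ (m + 1) * (m + 4) / 2 * a := by
  have hm : (0 : ℝ) ≤ m := Nat.cast_nonneg m
  have h1 : (m + 1) * (2 * a - z) ^ 2 ≤
      m * (2 * z ^ 2 - 2 * a ^ 2 - (m + 1) / (m + 2) * z ^ 2 + (m + 1) * z * a) :=
    hQ.trans (mul_le_mul_of_nonneg_left hP hm)
  have hm2 : (0 : ℝ) < m + 2 := by positivity
  have h2 : (m + 2) * ((m + 1) * (2 * a - z) ^ 2) ≤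
      m * ((m + 2) * (2 * z ^ 2 - 2 * a ^ 2) - (m + 1) * z ^ 2 + (m + 2) * ((m + 1) * z * a)) := by
    have := mul_le_mul_of_nonneg_left h1 hm2.le
    refine this.trans (le_of_eq ?_)
    field_simp
  have h3 : 2 * z * z ≤ (m + 1) * (m + 2) * (m + 4) * a * z := by
    nlinarith [mul_nonneg hm hm, sq_nonneg a, mul_nonneg hm (sq_nonneg a),
      mul_nonneg (mul_nonneg hm hm) (sq_nonneg a)]
  have h4 : 2 * z ≤ (m + 1) * (m + 2) * (m + 4) * a := le_of_mul_le_mul_right h3 hz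
  rw [hPz] at h4
  have h5 : (m + 2 : ℝ) * (2 * P) ≤ (m + 2) * ((m + 1) * (m + 4) * a) := by linarith
  have h6 := le_of_mul_le_mul_left h5 hm2
  linarith

theorem grad_core (h : SC Ω u) {c : ℝ} (hdet : ∀ x ∈ Ω, (hessianMat u x).det = c)
    {x : EuclideanSpace ℝ (Fin n)} (hx : x ∈ Ω) (l : EuclideanSpace ℝ (Fin n) →L[ℝ] ℝ) (κ : ℝ)
    (hη : 0 < κ + l x - u x) {e : EuclideanSpace ℝ (Fin n)} (he : F2 u x e e = 1)
    (hp : F1 u x e - l e ≠ 0)
    (hmax : ∀ y ∈ Ω, 0 ≤ κ + l y - u y → ∀ f, (F1 u y f - l f) ^ 2 * (κ + l y - u y) ^ (n + 1) ≤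
      (F1 u x e - l e) ^ 2 * (κ + l x - u x) ^ (n + 1) * F2 u y f f) :
    (F1 u x e - l e) ^ 2 ≤ n * (n + 3) / 2 * (κ + l x - u x) := by
  have hs := sm_of h
  obtain ⟨m, rfl⟩ : ∃ m, n = m + 1 := by
    rcases n with _ | m
    · exfalso
      have : e = 0 := Subsingleton.elim _ _
      simp [this] at he
    · exact ⟨m, rfl⟩
  set p := F1 u x e - l e with hpdef
  set η0 := κ + l x - u x with hη0
  have test : ∀ w t : EuclideanSpace ℝ (Fin (m + 1)),
      p * (F3 u x e e w + 2 * F2 u x e t) * η0 - 2 * (F2 u x e w + F1 u x t - l t) * η0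
        - (m + 2) * p * (l w - F1 u x w) = 0 ∧
      0 ≤ p ^ 2 * η0 ^ 2 * (F4 u x e e w w + 4 * F3 u x e w t + 2 * F2 u x t t)
        - (2 * p * (F3 u x e w w + 2 * F2 u x w t) + 2 * (F2 u x e w + F1 u x t - l t) ^ 2) * η0 ^ 2
        - 4 * p * (F2 u x e w + F1 u x t - l t) * (m + 2) * η0 * (l w - F1 u x w)
        - p ^ 2 * ((m + 2) * (m + 1) * (l w - F1 u x w) ^ 2 + (m + 2) * η0 * (- F2 u x w w)) := by
    intro w t
    have jH := (hs.jh hx w e t).congr_val he rfl rfl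
    have jl : ∀ a b : EuclideanSpace ℝ (Fin (m + 1)),
        J2 (fun s : ℝ => l (a + s • b)) (l a) (l b) 0 := by
      intro a b
      refine ((J2.const l).clm_apply (J2.affine a b)).congr_val rfl ?_ ?_
      · simp
      · simp
    have jP : J2 (fun s : ℝ => F1 u (x + s • w) (e + s • t) - l (e + s • t)) p
        (F2 u x e w + F1 u x t - l t) (F3 u x e w w + 2 * F2 u x w t) :=
      ((hs.jp hx w e t).sub (jl e t)).congr_val rfl rfl (by ring)
    have jη : J2 (fun s : ℝ => κ + l (x + s • w) - u (x + s • w)) η0 (l w - F1 u x w)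
        (- F2 u x w w) :=
      (((J2.const κ).add (jl x w)).sub (hs.ju hx w)).congr_val rfl (by ring) (by ring)
    have hpos : ∀ᶠ s : ℝ in 𝓝 0, 0 < κ + l (x + s • w) - u (x + s • w) := by
      have hc : ContinuousAt (fun s : ℝ => κ + l (x + s • w) - u (x + s • w)) 0 :=
        jη.hasDerivAt.continuousAt
      refine hc.eventually (lt_mem_nhds ?_)
      show 0 < κ + l (x + (0 : ℝ) • w) - u (x + (0 : ℝ) • w)
      rw [zero_smul, add_zero]
      exact hη
    refine jet_test hη hp jH jP jη ?_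
    filter_upwards [hs.near hx w, hpos] with s h1 h2
    exact hmax _ h1 h2.le _
  -- direction test
  have hdir : ∀ y, F1 u x y - l y = p * F2 u x e y := by
    intro y
    have := (test 0 y).1
    simp only [map_zero, sub_zero, zero_add, mul_zero] at this
    have h2 : (2 * η0) * (p * F2 u x e y - (F1 u x y - l y)) = 0 := by linarith
    rcases mul_eq_zero.1 h2 with h3 | h3
    · exfalso; linarith
    · linarith
  obtain ⟨w, hw0, hon⟩ := exists_ON h hx (0 : Fin (m + 1)) he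
  obtain ⟨i1, i2, -⟩ := identities h hdet hx hon e
  set A : Fin (m + 1) → Fin (m + 1) → ℝ := fun i j => F3 u x e (w i) (w j) with hA
  have hAs : ∀ i j, A i j = A j i := fun i j => hs.s3b hx e (w i) (w j)
  set t : Fin (m + 1) → EuclideanSpace ℝ (Fin (m + 1)) := fun i => -∑ j, A i j • w j with ht
  have hewi : ∀ i, F2 u x e (w i) = if i = 0 then 1 else 0 := by
    intro i
    rw [← hw0, hon 0 i]
    simp only [eq_comm]
  have q1 : ∀ i k, F2 u x (w k) (t i) = - A i k := by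
    intro i k
    simp only [ht, map_neg, map_sum, map_smul, smul_eq_mul, hon k]
    simp
  have q2 : ∀ i, F2 u x e (t i) = - A i 0 := by
    intro i
    have := q1 i 0
    rwa [hw0] at this
  have q3 : ∀ i, F2 u x (t i) (t i) = ∑ j, A i j ^ 2 := by
    intro i
    have : F2 u x (t i) (t i) = F2 u x (-∑ j, A i j • w j) (t i) := rfl
    rw [this]
    simp only [map_neg, map_sum, map_smul, neg_apply, sum_apply, smul_apply, smul_eq_mul, q1]
    rw [← Finset.sum_neg_distrib]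
    refine Finset.sum_congr rfl fun j _ => by ring
  have q4 : ∀ i, F3 u x e (w i) (t i) = - ∑ j, A i j ^ 2 := by
    intro i
    simp only [ht, map_neg, map_sum, map_smul, smul_eq_mul]
    congr 1
    refine Finset.sum_congr rfl fun j _ => ?_
    simp only [hA]; ring
  have q5 : ∀ i, F3 u x e e (w i) = A i 0 := by
    intro i
    rw [hAs]
    simp only [hA, hw0]
  have q6 : ∀ i, l (w i) - F1 u x (w i) = - (p * if i = 0 then 1 else 0) := by
    intro i
    have := hdir (w i)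
    rw [hewi] at this
    linarith
  have q7 : ∀ i, F2 u x e (w i) + F1 u x (t i) - l (t i) = (if i = 0 then 1 else 0) - p * A i 0 := by
    intro i
    have := hdir (t i)
    rw [q2] at this
    rw [hewi]
    linarith
  have q8 : ∀ i, F2 u x (w i) (w i) = 1 := fun i => by rw [hon i i, if_pos rfl]
  -- first order
  have fo : ∀ i, p * η0 * A i 0 = (2 * η0 - (m + 2) * p ^ 2) * if i = 0 then 1 else 0 := by
    intro i
    have := (test (w i) (t i)).1
    rw [q5, q2, q7, q6] at this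
    linarith
  have hA00 : p * η0 * A 0 0 = 2 * η0 - (m + 2) * p ^ 2 := by
    have := fo 0
    simpa using this
  have hAi0 : ∀ i, i ≠ 0 → A i 0 = 0 := by
    intro i hi
    have := fo i
    rw [if_neg hi, mul_zero] at this
    rcases mul_eq_zero.1 this with h1 | h1
    · exfalso
      rcases mul_eq_zero.1 h1 with h2 | h2
      · exact hp h2
      · exact hη.ne' h2
    · exact h1
  -- second order
  have so : ∀ i, 0 ≤ p ^ 2 * η0 ^ 2 * (F4 u x e e (w i) (w i) - 2 * ∑ j, A i j ^ 2)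
      + 2 * p * η0 ^ 2 * A i i + (m + 2) * p ^ 2 * η0
      + (if i = 0 then (- 2 * (1 - p * A 0 0) ^ 2 * η0 ^ 2
        + 4 * p ^ 2 * (1 - p * A 0 0) * (m + 2) * η0
        - (m + 2) * (m + 1) * p ^ 4) else 0) := by
    intro i
    have := (test (w i) (t i)).2
    rw [q7, q6, q8, q4, q3, q1] at this
    have e1 : F3 u x e (w i) (w i) = A i i := rfl
    rw [e1] at this
    by_cases hi : i = 0
    · subst hi
      simp only [if_true] at this ⊢
      refine this.trans (le_of_eq ?_)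
      ring
    · simp only [if_neg hi, hAi0 i hi] at this ⊢
      refine this.trans (le_of_eq ?_)
      ring
  have hsum : 0 ≤ ∑ i, (p ^ 2 * η0 ^ 2 * (F4 u x e e (w i) (w i) - 2 * ∑ j, A i j ^ 2)
      + 2 * p * η0 ^ 2 * A i i + (m + 2) * p ^ 2 * η0
      + (if i = 0 then (- 2 * (1 - p * A 0 0) ^ 2 * η0 ^ 2
        + 4 * p ^ 2 * (1 - p * A 0 0) * (m + 2) * η0
        - (m + 2) * (m + 1) * p ^ 4) else 0)) := Finset.sum_nonneg fun i _ => so i
  rw [Finset.sum_add_distrib, Finset.sum_add_distrib, Finset.sum_add_distrib, ← Finset.mul_sum,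
    Finset.sum_sub_distrib, ← Finset.mul_sum, ← Finset.mul_sum, Finset.sum_ite_eq' Finset.univ
      (0 : Fin (m + 1)), if_pos (Finset.mem_univ _)] at hsum
  rw [i2] at hsum
  have i1' : ∑ i, A i i = 0 := i1
  rw [i1'] at hsum
  simp only [Finset.sum_const, Finset.card_univ, Fintype.card_fin, nsmul_eq_mul] at hsum
  have hQA := sum_sq_le_helper A 0 m (by simp) i1'
  set Q := ∑ i, ∑ j, A i j ^ 2 with hQ
  push_cast at hsum ⊢
  have hfin := final_alg (m := m) (P := p ^ 2) (Q := p ^ 2 * η0 ^ 2 * Q) (a := η0)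
    (z := (m + 2) * p ^ 2) (by positivity) ?_ ?_ rfl
  · refine hfin.trans (le_of_eq ?_)
    ring
  · rw [← hA00]
    have : p ^ 2 * η0 ^ 2 * ((m + 1) * A 0 0 ^ 2) ≤ p ^ 2 * η0 ^ 2 * (m * Q) :=
      mul_le_mul_of_nonneg_left hQA (by positivity)
    linarith
  · have e2 : η0 * (1 - p * A 0 0) = (m + 2) * p ^ 2 - η0 := by linarith
    have e3 : (1 - p * A 0 0) ^ 2 * η0 ^ 2 = ((m + 2) * p ^ 2 - η0) ^ 2 := by
      rw [← e2]; ring
    have e4 : ((m : ℝ) + 1) / (m + 2) * ((m + 2) * p ^ 2) ^ 2 = (m + 1) * (m + 2) * p ^ 4 := by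
      have hm : (m : ℝ) + 2 ≠ 0 := by positivity
      field_simp
    rw [e4]
    have e5 : 4 * p ^ 2 * (1 - p * A 0 0) * (m + 2) * η0 =
        4 * p ^ 2 * (m + 2) * ((m + 2) * p ^ 2 - η0) := by
      rw [← e2]; ring
    have e6 : -2 * (1 - p * A 0 0) ^ 2 * η0 ^ 2 = -2 * ((m + 2) * p ^ 2 - η0) ^ 2 := by
      rw [← e3]; ring
    rw [e5, e6] at hsum
    nlinarith [hsum]

/-- **gradient estimate** -/
theorem grad_est (h : SC Ω u) {c : ℝ} (hdet : ∀ x ∈ Ω, (hessianMat u x).det = c)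
    {x0 : EuclideanSpace ℝ (Fin n)} (hx0 : x0 ∈ Ω) {T : ℝ} (hT : 0 < T)
    (hcpt : IsCompact {x | x ∈ Ω ∧ u x ≤ u x0 + fderiv ℝ u x0 (x - x0) + T})
    {x : EuclideanSpace ℝ (Fin n)} (hx : x ∈ Ω)
    (hxT : u x ≤ u x0 + fderiv ℝ u x0 (x - x0) + T) (e : EuclideanSpace ℝ (Fin n)) :
    (F1 u x e - F1 u x0 e) ^ 2 * (u x0 + fderiv ℝ u x0 (x - x0) + T - u x) ^ (n + 1) ≤
      n * (n + 3) / 2 * T ^ (n + 2) * F2 u x e e := by
  have hs := sm_of h
  rcases eq_or_ne e 0 with rfl | he0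
  · simp
  set l := F1 u x0 with hl
  set κ := T + u x0 - l x0 with hκ
  have hηeq : ∀ y, u x0 + fderiv ℝ u x0 (y - x0) + T - u y = κ + l y - u y := by
    intro y
    have : fderiv ℝ u x0 (y - x0) = l y - l x0 := by rw [hl]; exact map_sub _ _ _
    rw [this]; ring
  set S := {x | x ∈ Ω ∧ u x ≤ u x0 + fderiv ℝ u x0 (x - x0) + T} with hS
  have hmem : ∀ y, y ∈ S ↔ y ∈ Ω ∧ 0 ≤ κ + l y - u y := by
    intro y
    rw [← hηeq]
    simp only [hS, mem_ofPred_eq]
    constructor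
    · rintro ⟨a, b⟩; exact ⟨a, by linarith⟩
    · rintro ⟨a, b⟩; exact ⟨a, by linarith⟩
  have hηT : ∀ y ∈ Ω, κ + l y - u y ≤ T := by
    intro y hy
    have := h.tangent_le hx0 hy
    rw [← hηeq]
    linarith
  have hx0S : x0 ∈ S := ⟨hx0, by simp [hT.le]⟩
  have hc0 : ContinuousOn u Ω := h.continuousOn
  have hc1 : ContinuousOn (F1 u) Ω := h.continuousOn_fderiv
  have hc2 : ContinuousOn (F2 u) Ω := fun y hy => (hs.c2 hy).continuousAt.continuousWithinAt
  have hSΩ : ∀ p ∈ S ×ˢ (Set.univ : Set (EuclideanSpace ℝ (Fin n))), p.1 ∈ Ω :=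
    fun p hp => hp.1.1
  have hN : ContinuousOn (fun p : EuclideanSpace ℝ (Fin n) × EuclideanSpace ℝ (Fin n) =>
      (F1 u p.1 p.2 - l p.2) ^ 2 * (κ + l p.1 - u p.1) ^ (n + 1)) (S ×ˢ Set.univ) := by
    have a1 : ContinuousOn (fun p : EuclideanSpace ℝ (Fin n) × EuclideanSpace ℝ (Fin n) =>
        F1 u p.1) (S ×ˢ Set.univ) := hc1.comp continuous_fst.continuousOn hSΩ
    have a0 : ContinuousOn (fun p : EuclideanSpace ℝ (Fin n) × EuclideanSpace ℝ (Fin n) =>
        u p.1) (S ×ˢ Set.univ) := hc0.comp continuous_fst.continuousOn hSΩ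
    have a2 := a1.clm_apply (continuous_snd.continuousOn (s := S ×ˢ Set.univ))
    have b1 : Continuous (fun p : EuclideanSpace ℝ (Fin n) × EuclideanSpace ℝ (Fin n) => l p.2) :=
      l.continuous.comp continuous_snd
    have b2 : Continuous (fun p : EuclideanSpace ℝ (Fin n) × EuclideanSpace ℝ (Fin n) =>
        κ + l p.1) := continuous_const.add (l.continuous.comp continuous_fst)
    exact ((a2.sub b1.continuousOn).pow 2).mul ((b2.continuousOn.sub a0).pow (n + 1))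
  have hD : ContinuousOn (fun p : EuclideanSpace ℝ (Fin n) × EuclideanSpace ℝ (Fin n) =>
      F2 u p.1 p.2 p.2) (S ×ˢ Set.univ) := by
    have a1 : ContinuousOn (fun p : EuclideanSpace ℝ (Fin n) × EuclideanSpace ℝ (Fin n) =>
        F2 u p.1) (S ×ˢ Set.univ) := hc2.comp continuous_fst.continuousOn hSΩ
    have a2 : ContinuousOn (fun p : EuclideanSpace ℝ (Fin n) × EuclideanSpace ℝ (Fin n) =>
        p.2) (S ×ˢ Set.univ) := continuous_snd.continuousOn
    exact (a1.clm_apply a2).clm_apply a2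
  obtain ⟨xm, hxm, em, hem, hmax⟩ := exists_max hcpt hx0S
    (fun y f => (F1 u y f - l f) ^ 2 * (κ + l y - u y) ^ (n + 1)) (fun y f => F2 u y f f) 2 hN hD
    (fun y hy f hf => F2_pos h hy.1 hf)
    (fun y t f => by simp only [map_smul, smul_eq_mul]; ring)
    (fun y t f => by simp only [map_smul, smul_apply, smul_eq_mul]; ring) he0
  have hHm : 0 < F2 u xm em em := F2_pos h hxm.1 hem
  have hηm := ((hmem xm).1 hxm).2
  rw [hηeq]
  have hxS : x ∈ S := ⟨hx, hxT⟩
  have hkey := hmax x hxS e he0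
  have hFe : 0 < F2 u x e e := F2_pos h hx he0
  have hn0 : (0 : ℝ) ≤ n := Nat.cast_nonneg n
  by_cases hz : (F1 u xm em - l em) ^ 2 * (κ + l xm - u xm) ^ (n + 1) = 0
  · rw [hz, zero_mul] at hkey
    have : (F1 u x e - l e) ^ 2 * (κ + l x - u x) ^ (n + 1) ≤ 0 :=
      nonpos_of_mul_nonpos_left hkey hHm
    refine this.trans ?_
    positivity
  · have hηm' : 0 < κ + l xm - u xm := by
      rcases hηm.eq_or_lt with h0 | h0
      · exfalso; apply hz; rw [← h0]; simp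
      · exact h0
    have hpm : F1 u xm em - l em ≠ 0 := by
      intro h0; apply hz; rw [h0]; simp
    -- normalise the direction
    set r := Real.sqrt (F2 u xm em em) with hr
    have hr0 : 0 < r := Real.sqrt_pos.2 hHm
    have hr2 : r ^ 2 = F2 u xm em em := Real.sq_sqrt hHm.le
    set e1 := r⁻¹ • em with he1
    have hH1 : F2 u xm e1 e1 = 1 := by
      simp only [he1, map_smul, smul_apply, smul_eq_mul]
      rw [← hr2]; field_simp
    have hp1 : F1 u xm e1 - l e1 = r⁻¹ * (F1 u xm em - l em) := by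
      simp only [he1, map_smul, smul_eq_mul]; ring
    have hmax1 : ∀ y ∈ Ω, 0 ≤ κ + l y - u y → ∀ f,
        (F1 u y f - l f) ^ 2 * (κ + l y - u y) ^ (n + 1) ≤
        (F1 u xm e1 - l e1) ^ 2 * (κ + l xm - u xm) ^ (n + 1) * F2 u y f f := by
      intro y hy hy0 f
      rcases eq_or_ne f 0 with rfl | hf
      · simp
      have k1 := hmax y ((hmem y).2 ⟨hy, hy0⟩) f hf
      rw [← hr2] at k1
      rw [hp1]
      have k2 : r ^ 2 * ((F1 u y f - l f) ^ 2 * (κ + l y - u y) ^ (n + 1)) ≤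
          r ^ 2 * ((r⁻¹ * (F1 u xm em - l em)) ^ 2 * (κ + l xm - u xm) ^ (n + 1) *
            F2 u y f f) := by
        have k3 : r ^ 2 * ((r⁻¹ * (F1 u xm em - l em)) ^ 2 * (κ + l xm - u xm) ^ (n + 1) *
            F2 u y f f) = (F1 u xm em - l em) ^ 2 * (κ + l xm - u xm) ^ (n + 1) *
            F2 u y f f := by
          field_simp
        rw [k3]
        linarith
      exact le_of_mul_le_mul_left k2 (by positivity)
    have hcore := grad_core h hdet hxm.1 l κ hηm' hH1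
      (by rw [hp1]; exact mul_ne_zero (inv_ne_zero hr0.ne') hpm) hmax1
    have hfin := hmax1 x hx ((hmem x).1 hxS).2 e
    refine hfin.trans (mul_le_mul_of_nonneg_right ?_ hFe.le)
    have g1 : (F1 u xm e1 - l e1) ^ 2 * (κ + l xm - u xm) ^ (n + 1) ≤
        n * (n + 3) / 2 * (κ + l xm - u xm) * (κ + l xm - u xm) ^ (n + 1) :=
      mul_le_mul_of_nonneg_right hcore (by positivity)
    refine g1.trans ?_
    have g2 : (κ + l xm - u xm) ^ (n + 2) ≤ T ^ (n + 2) :=
      pow_le_pow_left₀ hηm (hηT xm hxm.1) _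
    have g3 : n * (n + 3) / 2 * (κ + l xm - u xm) * (κ + l xm - u xm) ^ (n + 1) =
        n * (n + 3) / 2 * (κ + l xm - u xm) ^ (n + 2) := by ring
    rw [g3]
    exact mul_le_mul_of_nonneg_left g2 (by positivity)

end grad

end Crest.Agent.R236.Jcp
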