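import Crest.Agent.R236.Jcp4b

/-!
# Row 236, JCP, part 4 (helper877): the cubic estimate.
-/

set_option autoImplicit false
set_option synthInstance.maxHeartbeats 400000
set_option synthInstance.maxSize 2000
set_option maxSynthPendingDepth 6
set_option maxHeartbeats 1000000

open Filter Topology Set
open scoped Matrix ContDiff
open Crest.GeometryTopology.CoordMetric Crest.GeometryTopology.AffineMaximal

noncomputable section

namespace Crest.Agent.R236.Jcp

variable {n : ℕ} {Ω : Set (EuclideanSpace ℝ (Fin n))} {u : EuclideanSpace ℝ (Fin n) → ℝ}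

theorem point_est (h : SC Ω u) {c : ℝ} (hdet : ∀ x ∈ Ω, (hessianMat u x).det = c)
    {x : EuclideanSpace ℝ (Fin n)} (hx : x ∈ Ω)
    {x0 : EuclideanSpace ℝ (Fin n)} {T G : ℝ}
    (hgrad : ∀ y, (F1 u x y - F1 u x0 y) ^ 2 ≤ G * F2 u x y y)
    {e : EuclideanSpace ℝ (Fin n)} (he : F2 u x e e = 1) {a η : ℝ} (ha : 0 < a)
    (hae : F3 u x e e e = a) (hη : 0 < η) (hηx : T - (u x - u x0 - F1 u x0 (x - x0)) = η)
    (hmaxd : ∀ v, (F3 u x v v v) ^ 2 ≤ a ^ 2 * (F2 u x v v) ^ 3)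
    (hmax : ∀ w t, ∀ᶠ s : ℝ in 𝓝 0, (F3 u (x + s • w) (e + s • t) (e + s • t) (e + s • t)) ^ 2 *
      (T - (u (x + s • w) - u x0 - F1 u x0 (x + s • w - x0))) ^ 2 ≤
        (a * η) ^ 2 * (F2 u (x + s • w) (e + s • t) (e + s • t)) ^ 3) :
    (a * η) ^ 2 ≤ 8 * G + 4 * n * η := by
  have hs := sm_of h
  obtain ⟨w, i0, hw, hwe⟩ := exists_on4 h hx he
  obtain ⟨-, id2, id3⟩ := identities h hdet hx hw e
  set A : Fin n → Fin n → ℝ := fun i j => F3 u x e (w i) (w j) with hA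
  have hAs : ∀ i j, A i j = A j i := fun i j => hs.s3b hx e (w i) (w j)
  have hdir := dir_test h hx he ha hae hmaxd
  have hA0 : ∀ i, F3 u x e e (w i) = A i0 i := by
    intro i; simp only [hA]; rw [hwe]
  have hA00 : A i0 i0 = a := by rw [← hA0, hwe, hae]
  set t : Fin n → EuclideanSpace ℝ (Fin n) := fun i => ∑ j, (-(1 / 2) * A i j) • w j with ht
  -- linear functionals applied to `t`
  have ht1 : ∀ (B : EuclideanSpace ℝ (Fin n) →L[ℝ] ℝ) (i : Fin n),
      B (t i) = -(1 / 2) * ∑ j, A i j * B (w j) := by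
    intro B i
    simp only [ht, map_sum, map_smul, smul_eq_mul, Finset.mul_sum]
    refine Finset.sum_congr rfl fun j _ => by ring
  have hH1 : ∀ i, F3 u x e e (w i) + 2 * F2 u x e (t i) = 0 := by
    intro i
    rw [ht1, hA0]
    have : ∑ j, A i j * F2 u x e (w j) = A i i0 := by
      have e1 : ∀ j, F2 u x e (w j) = if i0 = j then 1 else 0 := by
        intro j; rw [← hwe, hw i0 j]
      simp [e1]
    rw [this, hAs i i0]; ring
  have hF3t : ∀ i, F3 u x e (w i) (t i) = -(1 / 2) * ∑ j, A i j ^ 2 := by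
    intro i
    rw [ht1]
    congr 1
    refine Finset.sum_congr rfl fun j _ => ?_
    simp only [hA]; ring
  have hF2tt : ∀ i, F2 u x (t i) (t i) = (1 / 4) * ∑ j, A i j ^ 2 := by
    intro i
    simp only [ht]
    rw [hw.sum_sum, Finset.mul_sum]
    refine Finset.sum_congr rfl fun j _ => by ring
  have hF4t : ∀ i, F4 u x e e (w i) (t i) = -(1 / 2) * ∑ j, A i j * F4 u x e e (w i) (w j) :=
    fun i => ht1 _ i
  have hF3tt : ∀ i, F3 u x e (t i) (t i) = (1 / 4) * ∑ j, ∑ k, A i j * A i k * A j k := by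
    intro i
    rw [ht1]
    have e1 : ∀ j, F3 u x e (t i) (w j) = -(1 / 2) * ∑ k, A i k * A j k := by
      intro j
      rw [hs.s3b hx e (t i) (w j), ht1]
    simp only [e1]
    have e2 : ∑ j, A i j * (-(1 / 2) * ∑ k, A i k * A j k) =
        -(1 / 2) * ∑ j, ∑ k, A i j * A i k * A j k := by
      rw [Finset.mul_sum]
      refine Finset.sum_congr rfl fun j _ => ?_
      rw [show A i j * (-(1 / 2) * ∑ k, A i k * A j k) = -(1 / 2) * (A i j * ∑ k, A i k * A j k) by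
        ring, Finset.mul_sum]
      congr 1
      refine Finset.sum_congr rfl fun k _ => by ring
    rw [e2]; ring
  have hft := fun i => frame_test h hx (x0 := x0) (T := T) (e := e) (w := w i) (t := t i) he ha hae
    hη hηx (by rw [hw i i, if_pos rfl]) (hH1 i) (hmax (w i) (t i))
  set S2 : ℝ := ∑ i, ∑ j, A i j ^ 2 with hS2
  set S3 : ℝ := ∑ i, ∑ j, ∑ k, A i j * A i k * A j k with hS3
  set SF : ℝ := ∑ i, ∑ j, A i j * F4 u x e e (w i) (w j) with hSF
  set D : ℝ := ∑ i, (F1 u x (w i) - F1 u x0 (w i)) ^ 2 with hD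
  have hsum : 0 ≤ -(3 / 2) * a ^ 2 * η ^ 2 * S2 + 4 * a ^ 2 * D + a * η ^ 2 * S3 +
      2 * a ^ 2 * η * n := by
    have h1 := Finset.sum_nonneg fun i (_ : i ∈ Finset.univ) => hft i
    refine h1.trans (le_of_eq ?_)
    have e1 : ∀ i, 3 * a ^ 2 * η ^ 2 * (F4 u x e e (w i) (w i) + 4 * F3 u x e (w i) (t i) +
        2 * F2 u x (t i) (t i)) + 4 * a ^ 2 * (F1 u x (w i) - F1 u x0 (w i)) ^ 2 -
        2 * a * η ^ 2 * (fderiv ℝ (fun y => F4 u y e e (w i) (w i)) x e +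
          6 * F4 u x e e (w i) (t i) + 6 * F3 u x e (t i) (t i)) + 2 * a ^ 2 * η =
        3 * a ^ 2 * η ^ 2 * F4 u x e e (w i) (w i) - (9 / 2) * a ^ 2 * η ^ 2 * (∑ j, A i j ^ 2) +
        4 * a ^ 2 * (F1 u x (w i) - F1 u x0 (w i)) ^ 2 -
        2 * a * η ^ 2 * fderiv ℝ (fun y => F4 u y e e (w i) (w i)) x e +
        6 * a * η ^ 2 * (∑ j, A i j * F4 u x e e (w i) (w j)) -
        3 * a * η ^ 2 * (∑ j, ∑ k, A i j * A i k * A j k) + 2 * a ^ 2 * η := by
      intro i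
      rw [hF3t, hF2tt, hF4t, hF3tt]
      ring
    simp only [e1]
    simp only [Finset.sum_add_distrib, Finset.sum_sub_distrib, ← Finset.mul_sum]
    rw [id2, id3]
    simp only [Finset.sum_const, Finset.card_univ, Fintype.card_fin, nsmul_eq_mul]
    rw [← hS2, ← hS3, ← hSF, ← hD]
    ring
  -- the cubic trace
  have hS3le : S3 ≤ a * S2 := by
    rw [hS3, hS2, Finset.mul_sum]
    refine Finset.sum_le_sum fun i _ => ?_
    have h1 := (hdir (t i)).2
    rw [hF3tt, hF2tt] at h1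
    linarith
  have hS2ge : a ^ 2 ≤ S2 := by
    have h1 : A i0 i0 ^ 2 ≤ ∑ j, A i0 j ^ 2 :=
      Finset.single_le_sum (f := fun j => A i0 j ^ 2) (fun j _ => sq_nonneg _) (Finset.mem_univ i0)
    have h2 : ∑ j, A i0 j ^ 2 ≤ S2 :=
      Finset.single_le_sum (f := fun i => ∑ j, A i j ^ 2)
        (fun i _ => Finset.sum_nonneg fun j _ => sq_nonneg _) (Finset.mem_univ i0)
    rw [hA00] at h1
    linarith
  have hDle : D ≤ G := by
    set d : Fin n → ℝ := fun i => F1 u x (w i) - F1 u x0 (w i) with hd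
    have h1 := hgrad (∑ i, d i • w i)
    have h2 : F1 u x (∑ i, d i • w i) - F1 u x0 (∑ i, d i • w i) = D := by
      simp only [map_sum, map_smul, smul_eq_mul]
      rw [← Finset.sum_sub_distrib]
      refine Finset.sum_congr rfl fun i _ => ?_
      simp only [hd]; ring
    have h3 : F2 u x (∑ i, d i • w i) (∑ i, d i • w i) = D := by
      rw [hw.sum_sum]
      refine Finset.sum_congr rfl fun i _ => ?_
      simp only [hd]; ring
    rw [h2, h3] at h1
    have hD0 : 0 ≤ D := Finset.sum_nonneg fun i _ => sq_nonneg _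
    rcases hD0.eq_or_lt with h0 | h0
    · -- G ≥ 0 follows from the gradient bound at `e`
      have h4 := hgrad e
      rw [he] at h4
      rw [← h0]
      nlinarith [sq_nonneg (F1 u x e - F1 u x0 e)]
    · nlinarith
  have ha2 : (0 : ℝ) < a ^ 2 := by positivity
  have hη2 : (0 : ℝ) < η ^ 2 := by positivity
  have k1 : a * η ^ 2 * S3 ≤ a ^ 2 * η ^ 2 * S2 := by
    have := mul_le_mul_of_nonneg_left hS3le (by positivity : (0 : ℝ) ≤ a * η ^ 2)
    linarith
  have k2 : 4 * a ^ 2 * D ≤ 4 * a ^ 2 * G := mul_le_mul_of_nonneg_left hDle (by positivity)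
  have k3 : 0 ≤ a ^ 2 * (-(1 / 2) * η ^ 2 * S2 + 4 * G + 2 * η * n) := by linarith
  have k4 : 0 ≤ -(1 / 2) * η ^ 2 * S2 + 4 * G + 2 * η * n := nonneg_of_mul_nonneg_right k3 ha2
  have k5 : η ^ 2 * a ^ 2 ≤ η ^ 2 * S2 := mul_le_mul_of_nonneg_left hS2ge hη2.le
  rw [mul_pow]
  linarith

/-- **the cubic estimate** -/
theorem cubic_est (h : SC Ω u) {c : ℝ} (hdet : ∀ x ∈ Ω, (hessianMat u x).det = c)
    {x0 : EuclideanSpace ℝ (Fin n)} (hx0 : x0 ∈ Ω) {T G : ℝ} (hT : 0 < T) (hG : 0 ≤ G)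
    (hcpt : IsCompact {x | x ∈ Ω ∧ u x ≤ u x0 + fderiv ℝ u x0 (x - x0) + T})
    (hgrad : ∀ x ∈ Ω, u x ≤ u x0 + fderiv ℝ u x0 (x - x0) + T →
      ∀ e, (F1 u x e - F1 u x0 e) ^ 2 ≤ G * F2 u x e e) (e : EuclideanSpace ℝ (Fin n)) :
    (F3 u x0 e e e) ^ 2 * T ^ 2 ≤ (8 * G + 4 * n * T) * (F2 u x0 e e) ^ 3 := by
  have hs := sm_of h
  rcases eq_or_ne e 0 with rfl | he0
  · simp
  set S : Set (EuclideanSpace ℝ (Fin n)) :=
    {x | x ∈ Ω ∧ u x ≤ u x0 + fderiv ℝ u x0 (x - x0) + T} with hS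
  set η : EuclideanSpace ℝ (Fin n) → ℝ := fun x => T - (u x - u x0 - F1 u x0 (x - x0)) with hη
  have hηS : ∀ x ∈ S, 0 ≤ η x := by
    intro x hx
    have := hx.2
    change u x ≤ u x0 + F1 u x0 (x - x0) + T at this
    simp only [hη]; linarith
  have hηT : ∀ x ∈ Ω, η x ≤ T := by
    intro x hx
    have : u x0 + F1 u x0 (x - x0) ≤ u x := h.tangent_le hx0 hx
    simp only [hη]; linarith
  have hηx0 : η x0 = T := by simp [hη]
  have hx0S : x0 ∈ S := ⟨hx0, by simp [hT.le]⟩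
  have hηc : ∀ x ∈ Ω, ContinuousAt η x := by
    intro x hx
    have h1 : ContinuousAt u x := (hs.d0 hx).continuousAt
    have h2 : ContinuousAt (fun x => F1 u x0 (x - x0)) x := by fun_prop
    exact continuousAt_const.sub ((h1.sub continuousAt_const).sub h2)
  set Φ : EuclideanSpace ℝ (Fin n) × EuclideanSpace ℝ (Fin n) → ℝ := fun p =>
    (F3 u p.1 p.2 p.2 p.2) ^ 2 * (η p.1) ^ 2 / (F2 u p.1 p.2 p.2) ^ 3 with hΦ
  have hK : IsCompact (S ×ˢ Metric.sphere (0 : EuclideanSpace ℝ (Fin n)) 1) :=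
    hcpt.prod (isCompact_sphere _ _)
  have hunit : ∀ v : EuclideanSpace ℝ (Fin n), v ≠ 0 →
      ‖v‖⁻¹ • v ∈ Metric.sphere (0 : EuclideanSpace ℝ (Fin n)) 1 := by
    intro v hv
    rw [mem_sphere_zero_iff_norm, norm_smul, norm_inv, norm_norm]
    exact inv_mul_cancel₀ (norm_ne_zero_iff.2 hv)
  have hΦc : ContinuousOn Φ (S ×ˢ Metric.sphere (0 : EuclideanSpace ℝ (Fin n)) 1) := by
    intro p hp
    apply ContinuousAt.continuousWithinAt
    have hp1 : p.1 ∈ Ω := hp.1.1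
    have hp2 : p.2 ≠ 0 := by
      intro h0
      have := mem_sphere_zero_iff_norm.1 hp.2
      rw [h0, norm_zero] at this
      exact zero_ne_one this
    have c3 : ContinuousAt (fun p : EuclideanSpace ℝ (Fin n) × EuclideanSpace ℝ (Fin n) =>
        F3 u p.1) p := ContinuousAt.comp (f := Prod.fst) (g := F3 u) (hs.d3 hp1).continuousAt
          continuousAt_fst
    have c2 : ContinuousAt (fun p : EuclideanSpace ℝ (Fin n) × EuclideanSpace ℝ (Fin n) =>
        F2 u p.1) p := ContinuousAt.comp (f := Prod.fst) (g := F2 u) (hs.d2 hp1).continuousAt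
          continuousAt_fst
    have cs : ContinuousAt (fun p : EuclideanSpace ℝ (Fin n) × EuclideanSpace ℝ (Fin n) =>
        p.2) p := continuousAt_snd
    have cη : ContinuousAt (fun p : EuclideanSpace ℝ (Fin n) × EuclideanSpace ℝ (Fin n) =>
        η p.1) p := ContinuousAt.comp (f := Prod.fst) (g := η) (hηc _ hp1) continuousAt_fst
    have d3 := ((c3.clm_apply cs).clm_apply cs).clm_apply cs
    have d2 := (c2.clm_apply cs).clm_apply cs
    refine ((d3.pow 2).mul (cη.pow 2)).div (d2.pow 3) ?_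
    exact pow_ne_zero 3 (F2_pos h hp1 hp2).ne'
  obtain ⟨⟨x1, e1⟩, hp1, hmax⟩ := hK.exists_isMaxOn ⟨(x0, ‖e‖⁻¹ • e), hx0S, hunit e he0⟩ hΦc
  have hx1S : x1 ∈ S := hp1.1
  have hx1 : x1 ∈ Ω := hx1S.1
  have he1 : e1 ≠ 0 := by
    intro h0
    have := mem_sphere_zero_iff_norm.1 hp1.2
    simp only at this
    rw [h0, norm_zero] at this
    exact zero_ne_one this
  set m2 : ℝ := Φ (x1, e1) with hm2
  have key : ∀ x ∈ S, ∀ v, (F3 u x v v v) ^ 2 * (η x) ^ 2 ≤ m2 * (F2 u x v v) ^ 3 := by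
    intro x hx v
    rcases eq_or_ne v 0 with rfl | hv
    · simp
    have h1 : Φ (x, ‖v‖⁻¹ • v) ≤ m2 := hmax ⟨hx, hunit v hv⟩
    have h2 : Φ (x, ‖v‖⁻¹ • v) = (F3 u x v v v) ^ 2 * (η x) ^ 2 / (F2 u x v v) ^ 3 := by
      simp only [hΦ, map_smul, smul_apply, smul_eq_mul]
      have hv0 : ‖v‖ ≠ 0 := norm_ne_zero_iff.2 hv
      have hp := (F2_pos h hx.1 hv).ne'
      field_simp
    rw [h2, div_le_iff₀ (pow_pos (F2_pos h hx.1 hv) 3)] at h1
    exact h1
  have hF20 : 0 ≤ F2 u x0 e e := F2_nonneg h hx0 e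
  have hm20 : 0 ≤ m2 := by
    have := F2_nonneg h hx1 e1
    simp only [hm2, hΦ]; positivity
  have hfin : m2 ≤ 8 * G + 4 * n * T → (F3 u x0 e e e) ^ 2 * T ^ 2 ≤
      (8 * G + 4 * n * T) * (F2 u x0 e e) ^ 3 := by
    intro hm
    have h1 := key x0 hx0S e
    rw [hηx0] at h1
    exact h1.trans (mul_le_mul_of_nonneg_right hm (by positivity))
  apply hfin
  rcases hm20.eq_or_lt with h0 | hmpos
  · rw [← h0]; positivity
  set r : ℝ := F2 u x1 e1 e1 with hr
  have hrpos : 0 < r := F2_pos h hx1 he1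
  set C1 : ℝ := F3 u x1 e1 e1 e1 with hC1
  have hm2eq : m2 = C1 ^ 2 * (η x1) ^ 2 / r ^ 3 := rfl
  have hη1 : 0 < η x1 := by
    rcases (hηS x1 hx1S).eq_or_lt with h0 | h0
    · rw [hm2eq, ← h0] at hmpos; simp at hmpos
    · exact h0
  have hC0 : C1 ≠ 0 := by
    intro h0
    rw [hm2eq, h0] at hmpos; simp at hmpos
  -- normalised direction
  obtain ⟨κ, hκ1, hκ2⟩ : ∃ κ : ℝ, κ ^ 2 * r = 1 ∧ 0 < κ ^ 3 * C1 := by
    have hsq : Real.sqrt r ^ 2 = r := Real.sq_sqrt hrpos.le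
    have hsp : 0 < Real.sqrt r := Real.sqrt_pos.2 hrpos
    rcases lt_or_gt_of_ne hC0 with hneg | hpos
    · refine ⟨-(Real.sqrt r)⁻¹, ?_, ?_⟩
      · rw [neg_sq, inv_pow, hsq, inv_mul_cancel₀ hrpos.ne']
      · have : 0 < ((Real.sqrt r)⁻¹) ^ 3 * (-C1) := by
          apply mul_pos (by positivity) (by linarith)
        linarith [show (-(Real.sqrt r)⁻¹) ^ 3 * C1 = ((Real.sqrt r)⁻¹) ^ 3 * (-C1) by ring]
    · refine ⟨(Real.sqrt r)⁻¹, ?_, by positivity⟩
      rw [inv_pow, hsq, inv_mul_cancel₀ hrpos.ne']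
  set e2 : EuclideanSpace ℝ (Fin n) := κ • e1 with he2
  set a : ℝ := κ ^ 3 * C1 with ha
  have hF2e2 : F2 u x1 e2 e2 = 1 := by
    simp only [he2, map_smul, smul_apply, smul_eq_mul]
    rw [← hκ1]; ring
  have hF3e2 : F3 u x1 e2 e2 e2 = a := by
    simp only [he2, map_smul, smul_apply, smul_eq_mul, ha]
    ring
  have hm2a : m2 = (a * η x1) ^ 2 := by
    rw [hm2eq, ha, div_eq_iff (pow_pos hrpos 3).ne']
    have : (κ ^ 2 * r) ^ 3 = 1 := by rw [hκ1, one_pow]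
    calc C1 ^ 2 * η x1 ^ 2 = C1 ^ 2 * η x1 ^ 2 * (κ ^ 2 * r) ^ 3 := by rw [this, mul_one]
      _ = (κ ^ 3 * C1 * η x1) ^ 2 * r ^ 3 := by ring
  have hpe := point_est h hdet hx1 (x0 := x0) (T := T) (G := G) (hgrad x1 hx1 hx1S.2) hF2e2 hκ2
    hF3e2 hη1 rfl (by
      intro v
      have h1 := key x1 hx1S v
      rw [hm2a] at h1
      have h2 : 0 < η x1 ^ 2 := by positivity
      have h3 : η x1 ^ 2 * (F3 u x1 v v v) ^ 2 ≤ η x1 ^ 2 * (a ^ 2 * (F2 u x1 v v) ^ 3) := by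
        calc η x1 ^ 2 * (F3 u x1 v v v) ^ 2 = (F3 u x1 v v v) ^ 2 * η x1 ^ 2 := by ring
          _ ≤ (a * η x1) ^ 2 * (F2 u x1 v v) ^ 3 := h1
          _ = _ := by ring
      exact le_of_mul_le_mul_left h3 h2) (by
      intro w t
      have hev : ∀ᶠ s : ℝ in 𝓝 0, 0 < η (x1 + s • w) := by
        have hc : ContinuousAt (fun s : ℝ => x1 + s • w) 0 := by fun_prop
        have hx1' : x1 + (0 : ℝ) • w = x1 := by simp
        have h1 : ContinuousAt (fun s : ℝ => η (x1 + s • w)) 0 :=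
          ContinuousAt.comp (g := η) (by rw [hx1']; exact hηc x1 hx1) hc
        have h2 : 0 < (fun s : ℝ => η (x1 + s • w)) 0 := by
          simp only [hx1']; exact hη1
        exact h1.eventually (lt_mem_nhds h2)
      filter_upwards [hs.near hx1 w, hev] with s hs1 hs2
      have hsS : x1 + s • w ∈ S := by
        refine ⟨hs1, ?_⟩
        change u (x1 + s • w) ≤ u x0 + F1 u x0 (x1 + s • w - x0) + T
        simp only [hη] at hs2
        linarith
      have h1 := key _ hsS (e2 + s • t)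
      rw [hm2a] at h1
      exact h1)
  rw [hm2a]
  have hn0 : (0 : ℝ) ≤ n := Nat.cast_nonneg n
  have := hηT x1 hx1
  nlinarith

end Crest.Agent.R236.Jcp
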