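import Crest.Agent.R236.Jcp2
import Crest.Agent.R236.MPMat

/-!
# Row 236, JCP, part 4a (helper877): orthonormal frames for `D²u(x)` through a given unit vector.
-/

set_option autoImplicit false
set_option synthInstance.maxHeartbeats 400000
set_option synthInstance.maxSize 2000
set_option maxSynthPendingDepth 6
set_option maxHeartbeats 1000000

open Filter Topology Set
open scoped Matrix ContDiff
open Crest.GeometryTopology.CoordMetric Crest.GeometryTopology.AffineMaximal

noncomputable section

namespace Crest.Agent.R236.Jcp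

variable {n : ℕ} {Ω : Set (EuclideanSpace ℝ (Fin n))} {u : EuclideanSpace ℝ (Fin n) → ℝ}

/-- `D²u(x)` is the pull back of the Euclidean inner product under a linear equivalence. -/
theorem exists_root (h : SC Ω u) {x : EuclideanSpace ℝ (Fin n)} (hx : x ∈ Ω) :
    ∃ P : EuclideanSpace ℝ (Fin n) ≃ₗ[ℝ] EuclideanSpace ℝ (Fin n),
      ∀ v w, F2 u x v w = inner ℝ (P v) (P w) := by
  obtain ⟨B, hB⟩ := Jet.psd_factor (h.posDef x hx).posSemidef
  have hF : ∀ v w : EuclideanSpace ℝ (Fin n), F2 u x v w =
      inner ℝ (Matrix.toEuclideanLin B v) (Matrix.toEuclideanLin B w) := by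
    intro v w
    have h1 := fderiv2_eq (h.differentiableAt_fderiv hx) v w
    change F2 u x v w = _ at h1
    rw [h1, PiLp.inner_apply]
    simp only [RCLike.inner_apply, conj_trivial]
    have h2 : ∀ (z : EuclideanSpace ℝ (Fin n)) (k : Fin n),
        (Matrix.toEuclideanLin B z) k = ∑ i, B k i * z i := fun z k => rfl
    simp only [h2]
    have h3 : ∀ k, (∑ i, B k i * w i) * (∑ i, B k i * v i) =
        ∑ i, ∑ j, B k i * B k j * v i * w j := by
      intro k
      rw [mul_comm, Finset.sum_mul_sum]
      refine Finset.sum_congr rfl fun i _ => Finset.sum_congr rfl fun j _ => by ring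
    simp only [h3]
    rw [← Jet.sum3 (fun i j k => B k i * B k j * v i * w j)]
    refine Finset.sum_congr rfl fun i _ => Finset.sum_congr rfl fun j _ => ?_
    rw [hB, Finset.sum_mul, Finset.sum_mul]
  have hinj : Function.Injective (Matrix.toEuclideanLin B) := by
    rw [← LinearMap.ker_eq_bot, LinearMap.ker_eq_bot']
    intro v hv
    by_contra h0
    have := F2_pos h hx h0
    rw [hF, hv, inner_zero_left] at this
    exact lt_irrefl _ this
  refine ⟨LinearEquiv.ofInjectiveEndo _ hinj, fun v w => ?_⟩
  rw [hF]; rfl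

/-- there is a frame orthonormal for `D²u(x)` through every unit vector -/
theorem exists_on4 (h : SC Ω u) {x : EuclideanSpace ℝ (Fin n)} (hx : x ∈ Ω)
    {e : EuclideanSpace ℝ (Fin n)} (he : F2 u x e e = 1) :
    ∃ (w : Fin n → EuclideanSpace ℝ (Fin n)) (i0 : Fin n), ON u x w ∧ w i0 = e := by
  obtain ⟨P, hP⟩ := exists_root h hx
  have hn : 0 < n := by
    rcases Nat.eq_zero_or_pos n with h0 | h0
    · subst h0
      have : e = 0 := Subsingleton.elim _ _
      rw [this, map_zero] at he
      simp at he
    · exact h0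
  set i0 : Fin n := ⟨0, hn⟩
  have hnorm : ‖P e‖ = 1 := by
    have h1 : inner ℝ (P e) (P e) = 1 := by rw [← hP]; exact he
    rw [real_inner_self_eq_norm_sq] at h1
    nlinarith [norm_nonneg (P e)]
  have hon : Orthonormal ℝ (({i0} : Set (Fin n)).domRestrict (fun _ : Fin n => P e)) := by
    constructor
    · intro i; exact hnorm
    · intro i j hij
      exact absurd (Subsingleton.elim i j) hij
  obtain ⟨b, hb⟩ := hon.exists_orthonormalBasis_extension_of_card_eq
    (by simp) (v := fun _ : Fin n => P e)
  refine ⟨fun i => P.symm (b i), i0, fun i j => ?_, ?_⟩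
  · rw [hP]
    simp only [LinearEquiv.apply_symm_apply]
    exact orthonormal_iff_ite.1 b.orthonormal i j
  · simp only
    rw [hb i0 (by simp)]
    simp

/-- bilinear expansions in an orthonormal family -/
theorem ON.sum_sum {x : EuclideanSpace ℝ (Fin n)} {w : Fin n → EuclideanSpace ℝ (Fin n)}
    (hw : ON u x w) (a b : Fin n → ℝ) :
    F2 u x (∑ j, a j • w j) (∑ j, b j • w j) = ∑ j, a j * b j := by
  have h1 : ∀ j, F2 u x (∑ j, a j • w j) (b j • w j) = a j * b j := by
    intro j
    rw [map_smul, map_sum, sum_apply, smul_eq_mul]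
    have : ∀ i, F2 u x (a i • w i) (w j) = if i = j then a i else 0 := by
      intro i
      rw [map_smul, smul_apply, hw i j, smul_eq_mul]
      split_ifs <;> simp
    simp only [this]
    simp [mul_comm]
  rw [map_sum (F2 u x (∑ j, a j • w j))]
  exact Finset.sum_congr rfl fun j _ => h1 j

end Crest.Agent.R236.Jcp
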