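import Crest.Agent.R236.Jcp4a

/-!
# Row 236, JCP, part 4b (helper877): the direction test and the point test.
-/

set_option autoImplicit false
set_option synthInstance.maxHeartbeats 400000
set_option synthInstance.maxSize 2000
set_option maxSynthPendingDepth 6
set_option maxHeartbeats 1000000

open Filter Topology Set
open scoped Matrix ContDiff
open Crest.GeometryTopology.CoordMetric Crest.GeometryTopology.AffineMaximal

noncomputable section

namespace Crest.Agent.R236.Jcp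

variable {n : ℕ} {Ω : Set (EuclideanSpace ℝ (Fin n))} {u : EuclideanSpace ℝ (Fin n) → ℝ}

theorem F2_nonneg (h : SC Ω u) {x : EuclideanSpace ℝ (Fin n)} (hx : x ∈ Ω)
    (v : EuclideanSpace ℝ (Fin n)) : 0 ≤ F2 u x v v := by
  rcases eq_or_ne v 0 with rfl | hv
  · simp
  · exact (F2_pos h hx hv).le

theorem F2_cs (h : SC Ω u) {x : EuclideanSpace ℝ (Fin n)} (hx : x ∈ Ω)
    {e : EuclideanSpace ℝ (Fin n)} (he : F2 u x e e = 1) (y : EuclideanSpace ℝ (Fin n)) :
    F2 u x e y ^ 2 ≤ F2 u x y y := by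
  have h1 := F2_nonneg h hx (y - F2 u x e y • e)
  have h2 : F2 u x (y - F2 u x e y • e) (y - F2 u x e y • e) = F2 u x y y - F2 u x e y ^ 2 := by
    simp only [map_sub, map_smul, sub_apply, smul_apply, smul_eq_mul]
    rw [(sm_of h).s2 hx y e, he]
    ring
  linarith

/-- direction test -/
theorem dir_test (h : SC Ω u) {x : EuclideanSpace ℝ (Fin n)} (hx : x ∈ Ω)
    {e : EuclideanSpace ℝ (Fin n)} (he : F2 u x e e = 1) {a : ℝ} (ha : 0 < a)
    (hae : F3 u x e e e = a)
    (hmax : ∀ v, (F3 u x v v v) ^ 2 ≤ a ^ 2 * (F2 u x v v) ^ 3) (y : EuclideanSpace ℝ (Fin n)) :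
    F3 u x e e y = a * F2 u x e y ∧ F3 u x e y y ≤ a * F2 u x y y := by
  have hs := sm_of h
  have j1 := hs.jh hx 0 e y
  have j2 := hs.jC hx 0 e y
  have j3 := ((j1.pow 1).const_mul (a ^ 2)).sub (j2.pow 0)
  have j4 := j3.min (by
    refine Eventually.of_forall fun s => ?_
    simp only [smul_zero, add_zero, zero_smul]
    rw [he, hae]
    have e3 : a ^ 2 * (1 : ℝ) ^ (1 + 2) - a ^ (0 + 2) = 0 := by ring
    rw [e3]
    exact sub_nonneg.2 (hmax (e + s • y)))
  have z1 : (fun y : EuclideanSpace ℝ (Fin n) => F4 u y e e (0 : EuclideanSpace ℝ (Fin n)) 0) =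
      fun _ => (0 : ℝ) := by
    funext z; rw [map_zero]
  obtain ⟨k1, k2⟩ := j4
  rw [z1] at k2
  simp only [map_zero, fderiv_const_apply, zero_apply, he, hae] at k1 k2
  push_cast at k1 k2
  norm_num at k1 k2
  have ha0 : a ≠ 0 := ha.ne'
  have e1 : F3 u x e e y = a * F2 u x e y := by
    have : 6 * a * (a * F2 u x e y - F3 u x e e y) = 0 := by linarith
    rcases mul_eq_zero.1 this with h0 | h0
    · exact absurd h0 (by positivity)
    · linarith
  refine ⟨e1, ?_⟩
  have hcs := F2_cs h hx he y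
  rw [e1] at k2
  have k3 : 0 ≤ a * (a * (F2 u x e y ^ 2 + F2 u x y y) - 2 * F3 u x e y y) := by
    nlinarith [k2]
  have k4 : 0 ≤ a * (F2 u x e y ^ 2 + F2 u x y y) - 2 * F3 u x e y y :=
    nonneg_of_mul_nonneg_right k3 ha
  nlinarith

/-- the second order conditions along the frame, for one direction -/
theorem frame_test (h : SC Ω u) {x : EuclideanSpace ℝ (Fin n)} (hx : x ∈ Ω)
    {x0 : EuclideanSpace ℝ (Fin n)} {T : ℝ}
    {e w t : EuclideanSpace ℝ (Fin n)} (he : F2 u x e e = 1) {a η : ℝ} (ha : 0 < a)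
    (hae : F3 u x e e e = a) (hη : 0 < η) (hηx : T - (u x - u x0 - F1 u x0 (x - x0)) = η)
    (hw : F2 u x w w = 1) (hH1 : F3 u x e e w + 2 * F2 u x e t = 0)
    (hmax : ∀ᶠ s : ℝ in 𝓝 0, (F3 u (x + s • w) (e + s • t) (e + s • t) (e + s • t)) ^ 2 *
      (T - (u (x + s • w) - u x0 - F1 u x0 (x + s • w - x0))) ^ 2 ≤
        (a * η) ^ 2 * (F2 u (x + s • w) (e + s • t) (e + s • t)) ^ 3) :
    0 ≤ 3 * a ^ 2 * η ^ 2 * (F4 u x e e w w + 4 * F3 u x e w t + 2 * F2 u x t t) +
      4 * a ^ 2 * (F1 u x w - F1 u x0 w) ^ 2 -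
      2 * a * η ^ 2 * (fderiv ℝ (fun y => F4 u y e e w w) x e + 6 * F4 u x e e w t +
        6 * F3 u x e t t) + 2 * a ^ 2 * η := by
  have hs := sm_of h
  have j1 := hs.jh hx w e t
  have j2 := hs.jC hx w e t
  have j3 : J2 (fun s : ℝ => T - (u (x + s • w) - u x0 - F1 u x0 (x + s • w - x0))) η
      (-(F1 u x w - F1 u x0 w)) (-1) := by
    have hs1 : J2 (fun s : ℝ => s) 0 1 0 := by
      refine ⟨rfl, fun _ => 1, Eventually.of_forall fun s => hasDerivAt_id s, rfl,
        hasDerivAt_const _ _⟩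
    have k1 := hs.ju hx w
    have k2 := ((J2.const (T + u x0 + F1 u x0 (x - x0))).add (hs1.const_mul (F1 u x0 w))).sub k1
    refine J2.congr_fun ?_ (k2.congr_val ?_ ?_ ?_)
    · refine Eventually.of_forall fun s => ?_
      have : x + s • w - x0 = (x - x0) + s • w := by abel
      rw [this, map_add, map_smul, smul_eq_mul]
      ring
    · rw [← hηx]; ring
    · ring
    · rw [hw]; ring
  have j4 := ((j1.pow 1).const_mul ((a * η) ^ 2)).sub ((j2.pow 0).mul (j3.pow 0))
  obtain ⟨k1, k2⟩ := j4.min (by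
    filter_upwards [hmax] with s hs'
    have q1 := j1.val
    have q2 := j2.val
    have q3 := j3.val
    rw [q1, q2, q3, he, hae]
    have e3 : (a * η) ^ 2 * (1 : ℝ) ^ (1 + 2) - a ^ (0 + 2) * η ^ (0 + 2) = 0 := by ring
    rw [e3]
    exact sub_nonneg.2 hs')
  rw [hH1, he, hae] at k1 k2
  set C1 : ℝ := F4 u x e e e w + 3 * F3 u x e e t with hC1
  set C2 : ℝ := fderiv ℝ (fun y => F4 u y e e w w) x e + 6 * F4 u x e e w t + 6 * F3 u x e t t
    with hC2
  set H2 : ℝ := F4 u x e e w w + 4 * F3 u x e w t + 2 * F2 u x t t with hH2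
  set d : ℝ := F1 u x w - F1 u x0 w with hd
  push_cast at k1 k2
  norm_num at k1 k2
  have e1 : C1 * η = a * d := by
    have : 2 * a * η * (a * d - C1 * η) = 0 := by linarith
    rcases mul_eq_zero.1 this with h0 | h0
    · exact absurd h0 (by positivity)
    · linarith
  have e2 : (C1 * η) ^ 2 = (a * d) ^ 2 := by rw [e1]
  nlinarith [k2, e1, e2, mul_pos ha hη]

end Crest.Agent.R236.Jcp
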