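import Crest.Agent.R236.Jcp3

/-!
# Row 236, JCP (helper633), part 5: the cubic estimate from its value at the maximum point, and the
Jörgens–Calabi–Pogorelov theorem for complete sections.
-/

set_option autoImplicit false
set_option synthInstance.maxHeartbeats 400000
set_option synthInstance.maxSize 2000
set_option maxSynthPendingDepth 6
set_option maxHeartbeats 1000000

open Filter Topology Set
open scoped Matrix ContDiff
open Crest.GeometryTopology.CoordMetric Crest.GeometryTopology.AffineMaximal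

noncomputable section

namespace Crest.Agent.R236.Jcp

/-- the cubic estimate at the maximum point (proved in `Jcp4`) -/
def CubicCore (n : ℕ) : Prop :=
  ∀ (Ω : Set (EuclideanSpace ℝ (Fin n))) (u : EuclideanSpace ℝ (Fin n) → ℝ), SC Ω u →
    ∀ c : ℝ, (∀ x ∈ Ω, (hessianMat u x).det = c) →
    ∀ x ∈ Ω, ∀ (l : EuclideanSpace ℝ (Fin n) →L[ℝ] ℝ) (κ G : ℝ), 0 < κ + l x - u x →
    ∀ e, F2 u x e e = 1 → 0 < F3 u x e e e →
    (∀ f, (F1 u x f - l f) ^ 2 ≤ G * F2 u x f f) →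
    (∀ y ∈ Ω, 0 ≤ κ + l y - u y → ∀ f, (F3 u y f f f) ^ 2 * (κ + l y - u y) ^ 2 ≤
      (F3 u x e e e) ^ 2 * (κ + l x - u x) ^ 2 * (F2 u y f f) ^ 3) →
    (F3 u x e e e) ^ 2 * (κ + l x - u x) ^ 2 ≤ 8 * G + 4 * n * (κ + l x - u x)

variable {n : ℕ} {Ω : Set (EuclideanSpace ℝ (Fin n))} {u : EuclideanSpace ℝ (Fin n) → ℝ}

/-- **cubic estimate** -/
theorem cubic_est_of (hcore : CubicCore n) (h : SC Ω u) {c : ℝ}
    (hdet : ∀ x ∈ Ω, (hessianMat u x).det = c)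
    {x0 : EuclideanSpace ℝ (Fin n)} (hx0 : x0 ∈ Ω) {T G : ℝ} (hT : 0 < T) (hG : 0 ≤ G)
    (hcpt : IsCompact {x | x ∈ Ω ∧ u x ≤ u x0 + fderiv ℝ u x0 (x - x0) + T})
    (hgrad : ∀ x ∈ Ω, u x ≤ u x0 + fderiv ℝ u x0 (x - x0) + T → ∀ e,
      (F1 u x e - F1 u x0 e) ^ 2 ≤ G * F2 u x e e) (e : EuclideanSpace ℝ (Fin n)) :
    (F3 u x0 e e e) ^ 2 * T ^ 2 ≤ (8 * G + 4 * n * T) * (F2 u x0 e e) ^ 3 := by
  have hs := sm_of h
  rcases eq_or_ne e 0 with rfl | he0
  · simp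
  set l := F1 u x0 with hl
  set κ := T + u x0 - l x0 with hκ
  have hηeq : ∀ y, u x0 + fderiv ℝ u x0 (y - x0) + T - u y = κ + l y - u y := by
    intro y
    have : fderiv ℝ u x0 (y - x0) = l y - l x0 := by rw [hl]; exact map_sub _ _ _
    rw [this]; ring
  set S := {x | x ∈ Ω ∧ u x ≤ u x0 + fderiv ℝ u x0 (x - x0) + T} with hS
  have hmem : ∀ y, y ∈ S ↔ y ∈ Ω ∧ 0 ≤ κ + l y - u y := by
    intro y
    rw [← hηeq]
    simp only [hS, mem_ofPred_eq]
    constructor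
    · rintro ⟨a, b⟩; exact ⟨a, by linarith⟩
    · rintro ⟨a, b⟩; exact ⟨a, by linarith⟩
  have hηT : ∀ y ∈ Ω, κ + l y - u y ≤ T := by
    intro y hy
    have := h.tangent_le hx0 hy
    rw [← hηeq]
    linarith
  have hx0S : x0 ∈ S := ⟨hx0, by simp [hT.le]⟩
  have hηx0 : κ + l x0 - u x0 = T := by rw [hκ]; ring
  have hc0 : ContinuousOn u Ω := h.continuousOn
  have hc3 : ContinuousOn (F3 u) Ω := fun y hy => (hs.c3 hy).continuousAt.continuousWithinAt
  have hc2 : ContinuousOn (F2 u) Ω := fun y hy => (hs.c2 hy).continuousAt.continuousWithinAt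
  have hSΩ : ∀ p ∈ S ×ˢ (Set.univ : Set (EuclideanSpace ℝ (Fin n))), p.1 ∈ Ω :=
    fun p hp => hp.1.1
  have a2 : ContinuousOn (fun p : EuclideanSpace ℝ (Fin n) × EuclideanSpace ℝ (Fin n) =>
      p.2) (S ×ˢ Set.univ) := continuous_snd.continuousOn
  have hN : ContinuousOn (fun p : EuclideanSpace ℝ (Fin n) × EuclideanSpace ℝ (Fin n) =>
      (F3 u p.1 p.2 p.2 p.2) ^ 2 * (κ + l p.1 - u p.1) ^ 2) (S ×ˢ Set.univ) := by
    have a1 : ContinuousOn (fun p : EuclideanSpace ℝ (Fin n) × EuclideanSpace ℝ (Fin n) =>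
        F3 u p.1) (S ×ˢ Set.univ) := hc3.comp continuous_fst.continuousOn hSΩ
    have a0 : ContinuousOn (fun p : EuclideanSpace ℝ (Fin n) × EuclideanSpace ℝ (Fin n) =>
        u p.1) (S ×ˢ Set.univ) := hc0.comp continuous_fst.continuousOn hSΩ
    have b2 : Continuous (fun p : EuclideanSpace ℝ (Fin n) × EuclideanSpace ℝ (Fin n) =>
        κ + l p.1) := continuous_const.add (l.continuous.comp continuous_fst)
    exact ((((a1.clm_apply a2).clm_apply a2).clm_apply a2).pow 2).mul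
      ((b2.continuousOn.sub a0).pow 2)
  have hD : ContinuousOn (fun p : EuclideanSpace ℝ (Fin n) × EuclideanSpace ℝ (Fin n) =>
      (F2 u p.1 p.2 p.2) ^ 3) (S ×ˢ Set.univ) := by
    have a1 : ContinuousOn (fun p : EuclideanSpace ℝ (Fin n) × EuclideanSpace ℝ (Fin n) =>
        F2 u p.1) (S ×ˢ Set.univ) := hc2.comp continuous_fst.continuousOn hSΩ
    exact ((a1.clm_apply a2).clm_apply a2).pow 3
  obtain ⟨xm, hxm, em, hem, hmax⟩ := exists_max hcpt hx0S
    (fun y f => (F3 u y f f f) ^ 2 * (κ + l y - u y) ^ 2) (fun y f => (F2 u y f f) ^ 3) 6 hN hD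
    (fun y hy f hf => by have := F2_pos h hy.1 hf; positivity)
    (fun y t f => by simp only [map_smul, smul_apply, smul_eq_mul]; ring)
    (fun y t f => by simp only [map_smul, smul_apply, smul_eq_mul]; ring) he0
  have hHm : 0 < F2 u xm em em := F2_pos h hxm.1 hem
  have hηm := ((hmem xm).1 hxm).2
  have hkey := hmax x0 hx0S e he0
  rw [hηx0] at hkey
  have hFe : 0 < F2 u x0 e e := F2_pos h hx0 he0
  have hn0 : (0 : ℝ) ≤ n := Nat.cast_nonneg n
  by_cases hz : (F3 u xm em em em) ^ 2 * (κ + l xm - u xm) ^ 2 = 0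
  · rw [hz, zero_mul] at hkey
    have : (F3 u x0 e e e) ^ 2 * T ^ 2 ≤ 0 := nonpos_of_mul_nonpos_left hkey (by positivity)
    refine this.trans ?_
    positivity
  · have hηm' : 0 < κ + l xm - u xm := by
      rcases hηm.eq_or_lt with h0 | h0
      · exfalso; apply hz; rw [← h0]; simp
      · exact h0
    have hCm : F3 u xm em em em ≠ 0 := by
      intro h0; apply hz; rw [h0]; simp
    -- normalise the direction
    set r := Real.sqrt (F2 u xm em em) with hr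
    have hr0 : 0 < r := Real.sqrt_pos.2 hHm
    have hr2 : r ^ 2 = F2 u xm em em := Real.sq_sqrt hHm.le
    obtain ⟨σ, hσ, hσC⟩ : ∃ σ : ℝ, σ ^ 2 = 1 ∧ 0 < σ * F3 u xm em em em := by
      rcases lt_or_gt_of_ne hCm with h0 | h0
      · exact ⟨-1, by norm_num, by linarith⟩
      · exact ⟨1, by norm_num, by linarith⟩
    set k := σ * r⁻¹ with hk
    have hk2 : k ^ 2 * r ^ 2 = 1 := by
      rw [hk, mul_pow, hσ]; field_simp
    set e1 := k • em with he1
    have hH1 : F2 u xm e1 e1 = 1 := by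
      simp only [he1, map_smul, smul_apply, smul_eq_mul]
      rw [← hr2, ← hk2]; ring
    have hC1 : F3 u xm e1 e1 e1 = k ^ 3 * F3 u xm em em em := by
      simp only [he1, map_smul, smul_apply, smul_eq_mul]; ring
    have hC1pos : 0 < F3 u xm e1 e1 e1 := by
      rw [hC1]
      have : k ^ 3 * F3 u xm em em em = (σ ^ 2 * (r⁻¹) ^ 3) * (σ * F3 u xm em em em) := by
        rw [hk]; ring
      rw [this, hσ, one_mul]
      positivity
    have hmax1 : ∀ y ∈ Ω, 0 ≤ κ + l y - u y → ∀ f,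
        (F3 u y f f f) ^ 2 * (κ + l y - u y) ^ 2 ≤
        (F3 u xm e1 e1 e1) ^ 2 * (κ + l xm - u xm) ^ 2 * (F2 u y f f) ^ 3 := by
      intro y hy hy0 f
      rcases eq_or_ne f 0 with rfl | hf
      · simp
      have k1 := hmax y ((hmem y).2 ⟨hy, hy0⟩) f hf
      rw [← hr2] at k1
      rw [hC1]
      have k2 : (k ^ 3) ^ 2 * ((F3 u y f f f) ^ 2 * (κ + l y - u y) ^ 2 * (r ^ 2) ^ 3) ≤
          (k ^ 3) ^ 2 * ((F3 u xm em em em) ^ 2 * (κ + l xm - u xm) ^ 2 * (F2 u y f f) ^ 3) :=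
        mul_le_mul_of_nonneg_left k1 (by positivity)
      have k3 : (k ^ 3) ^ 2 * ((F3 u y f f f) ^ 2 * (κ + l y - u y) ^ 2 * (r ^ 2) ^ 3) =
          (k ^ 2 * r ^ 2) ^ 3 * ((F3 u y f f f) ^ 2 * (κ + l y - u y) ^ 2) := by ring
      rw [k3, hk2, one_pow, one_mul] at k2
      refine k2.trans (le_of_eq ?_)
      ring
    have hc := hcore Ω u h c hdet xm hxm.1 l κ G hηm' e1 hH1 hC1pos
      (fun f => hgrad xm hxm.1 hxm.2 f) hmax1
    have hfin := hmax1 x0 hx0 (by rw [hηx0]; exact hT.le) e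
    rw [hηx0] at hfin
    refine hfin.trans (mul_le_mul_of_nonneg_right ?_ (by positivity))
    refine hc.trans ?_
    have := mul_le_mul_of_nonneg_left (hηT xm hxm.1) (show (0 : ℝ) ≤ 4 * n by positivity)
    linarith

/-- the third derivative vanishes -/
theorem cubic_zero_of (hcore : CubicCore n) (h : SC Ω u) {c : ℝ}
    (hdet : ∀ x ∈ Ω, (hessianMat u x).det = c)
    (hsec : ∀ x₀ ∈ Ω, ∀ t : ℝ, IsCompact {x | x ∈ Ω ∧ u x ≤ u x₀ + fderiv ℝ u x₀ (x - x₀) + t})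
    {x0 : EuclideanSpace ℝ (Fin n)} (hx0 : x0 ∈ Ω) (e : EuclideanSpace ℝ (Fin n)) :
    F3 u x0 e e e = 0 := by
  have hn0 : (0 : ℝ) ≤ n := Nat.cast_nonneg n
  rcases eq_or_ne e 0 with rfl | he0
  · simp
  have hFe : 0 < F2 u x0 e e := F2_pos h hx0 he0
  -- gradient bound on the section of height `T`
  have hgrad : ∀ T : ℝ, 0 < T → ∀ x ∈ Ω, u x ≤ u x0 + fderiv ℝ u x0 (x - x0) + T → ∀ f,
      (F1 u x f - F1 u x0 f) ^ 2 ≤ (n * (n + 3) / 2 * 2 ^ (n + 2) * T) * F2 u x f f := by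
    intro T hT x hx hxT f
    have h1 := grad_est h hdet hx0 (T := 2 * T) (by linarith) (hsec x0 hx0 _) hx (by linarith) f
    have h2 : T ^ (n + 1) ≤ (u x0 + fderiv ℝ u x0 (x - x0) + 2 * T - u x) ^ (n + 1) :=
      pow_le_pow_left₀ hT.le (by linarith) _
    have h3 : (F1 u x f - F1 u x0 f) ^ 2 * T ^ (n + 1) ≤
        n * (n + 3) / 2 * (2 * T) ^ (n + 2) * F2 u x f f :=
      (mul_le_mul_of_nonneg_left h2 (sq_nonneg _)).trans h1
    have h4 : n * (n + 3) / 2 * (2 * T) ^ (n + 2) * F2 u x f f =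
        (n * (n + 3) / 2 * 2 ^ (n + 2) * T) * F2 u x f f * T ^ (n + 1) := by
      rw [mul_pow]; ring
    rw [h4] at h3
    exact le_of_mul_le_mul_right h3 (by positivity)
  set K : ℝ := (8 * (n * (n + 3) / 2 * 2 ^ (n + 2)) + 4 * n) * (F2 u x0 e e) ^ 3 with hK
  have hK0 : 0 ≤ K := by positivity
  have hall : ∀ T : ℝ, 0 < T → (F3 u x0 e e e) ^ 2 * T ≤ K := by
    intro T hT
    have h1 := cubic_est_of hcore h hdet hx0 hT
      (G := n * (n + 3) / 2 * 2 ^ (n + 2) * T) (by positivity) (hsec x0 hx0 _)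
      (hgrad T hT) e
    have h2 : (8 * (n * (n + 3) / 2 * 2 ^ (n + 2) * T) + 4 * n * T) * (F2 u x0 e e) ^ 3 =
        K * T := by rw [hK]; ring
    rw [h2] at h1
    have h3 : (F3 u x0 e e e) ^ 2 * T * T ≤ K * T := by
      refine le_trans (le_of_eq ?_) h1
      ring
    exact le_of_mul_le_mul_right h3 hT
  by_contra hne
  have hpos : 0 < (F3 u x0 e e e) ^ 2 := by positivity
  have h1 := hall ((K + 1) / (F3 u x0 e e e) ^ 2) (by positivity)
  rw [mul_div_cancel₀ _ hpos.ne'] at h1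
  linarith

/-- **Jörgens–Calabi–Pogorelov** -/
theorem jcp_of (hcore : CubicCore n) (h : SC Ω u) (hne : Ω.Nonempty) {c : ℝ}
    (hdet : ∀ x ∈ Ω, (hessianMat u x).det = c)
    (hsec : ∀ x₀ ∈ Ω, ∀ t : ℝ, IsCompact {x | x ∈ Ω ∧ u x ≤ u x₀ + fderiv ℝ u x₀ (x - x₀) + t}) :
    Ω = Set.univ ∧
      ∃ (A : Matrix (Fin n) (Fin n) ℝ) (b : EuclideanSpace ℝ (Fin n)) (c : ℝ), A.PosDef ∧
        ∀ x, u x = (1 / 2) * (∑ i, ∑ j, A i j * x i * x j) + (∑ i, b i * x i) + c :=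
  of_cubic_zero h hne hsec fun _ hx e => cubic_zero_of hcore h hdet hsec hx e

end Crest.Agent.R236.Jcp
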