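import Crest.Agent.R236.Jcp5

/-!
# Row 236, JCP (helper633), part 6: the cubic estimate at the maximum point.
-/

set_option autoImplicit false
set_option synthInstance.maxHeartbeats 400000
set_option synthInstance.maxSize 2000
set_option maxSynthPendingDepth 6
set_option maxHeartbeats 1000000

open Filter Topology Set
open scoped Matrix ContDiff
open Crest.GeometryTopology.CoordMetric Crest.GeometryTopology.AffineMaximal

noncomputable section

namespace Crest.Agent.R236.Jcp

/-- one-variable test for the cubic quantity -/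
theorem cubic_test {H C η : ℝ → ℝ} {H1 H2 a C1 C2 η0 η1 η2 : ℝ} (hη : 0 < η0) (ha : 0 < a)
    (jH : J2 H 1 H1 H2) (jC : J2 C a C1 C2) (jη : J2 η η0 η1 η2)
    (hmin : ∀ᶠ s in 𝓝 (0 : ℝ), C s ^ 2 * η s ^ 2 ≤ a ^ 2 * η0 ^ 2 * H s ^ 3) :
    3 * a * η0 * H1 - 2 * C1 * η0 - 2 * a * η1 = 0 ∧
    0 ≤ a ^ 2 * η0 ^ 2 * (6 * H1 ^ 2 + 3 * H2) - ((2 * C1 ^ 2 + 2 * a * C2) * η0 ^ 2
      + 8 * a * C1 * η0 * η1 + a ^ 2 * (2 * η1 ^ 2 + 2 * η0 * η2)) := by
  have j := (((jH.mul jH).mul jH).const_mul (a ^ 2 * η0 ^ 2)).sub ((jC.mul jC).mul (jη.mul jη))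
  have hm : ∀ᶠ s in 𝓝 (0 : ℝ), (fun s => a ^ 2 * η0 ^ 2 * (H s * H s * H s) -
      C s * C s * (η s * η s)) 0 ≤ (fun s => a ^ 2 * η0 ^ 2 * (H s * H s * H s) -
      C s * C s * (η s * η s)) s := by
    filter_upwards [hmin] with s hs
    simp only [jH.val, jC.val, jη.val]
    nlinarith [hs]
  obtain ⟨h1, h2⟩ := j.min hm
  constructor
  · have : a * η0 * (3 * a * η0 * H1 - 2 * C1 * η0 - 2 * a * η1) = 0 := by
      refine Eq.trans ?_ h1
      ring
    rcases mul_eq_zero.1 this with h | h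
    · exfalso
      have : 0 < a * η0 := by positivity
      linarith
    · exact h
  · refine h2.trans (le_of_eq ?_)
    ring

variable {n : ℕ} {Ω : Set (EuclideanSpace ℝ (Fin n))} {u : EuclideanSpace ℝ (Fin n) → ℝ}

/-- Cauchy–Schwarz -/
theorem cs_F2 (h : SC Ω u) {x : EuclideanSpace ℝ (Fin n)} (hx : x ∈ Ω)
    {e : EuclideanSpace ℝ (Fin n)} (he : F2 u x e e = 1) (y : EuclideanSpace ℝ (Fin n)) :
    F2 u x e y ^ 2 ≤ F2 u x y y := by
  have hs := sm_of h
  have h1 : 0 ≤ F2 u x (y - F2 u x e y • e) (y - F2 u x e y • e) := by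
    rcases eq_or_ne (y - F2 u x e y • e) 0 with h0 | h0
    · rw [h0]; simp
    · exact (F2_pos h hx h0).le
  simp only [map_sub, map_smul, sub_apply, smul_apply, smul_eq_mul, he, hs.s2 hx y e] at h1
  linarith [h1]

theorem cubic_core (n : ℕ) : CubicCore n := by
  intro Ω u h c hdet x hx l κ G hη e he ha hgrad hmax
  have hs := sm_of h
  obtain ⟨m, rfl⟩ : ∃ m, n = m + 1 := by
    rcases n with _ | m
    · exfalso
      have : e = 0 := Subsingleton.elim _ _
      simp [this] at he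
    · exact ⟨m, rfl⟩
  set a := F3 u x e e e with hadef
  set η0 := κ + l x - u x with hη0
  have test : ∀ w t : EuclideanSpace ℝ (Fin (m + 1)),
      3 * a * η0 * (F3 u x e e w + 2 * F2 u x e t) - 2 * (F4 u x e e e w + 3 * F3 u x e e t) * η0
        - 2 * a * (l w - F1 u x w) = 0 ∧
      0 ≤ a ^ 2 * η0 ^ 2 * (6 * (F3 u x e e w + 2 * F2 u x e t) ^ 2 +
          3 * (F4 u x e e w w + 4 * F3 u x e w t + 2 * F2 u x t t))
        - ((2 * (F4 u x e e e w + 3 * F3 u x e e t) ^ 2 + 2 * a *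
            (fderiv ℝ (fun y => F4 u y e e w w) x e + 6 * F4 u x e e w t + 6 * F3 u x e t t))
              * η0 ^ 2
          + 8 * a * (F4 u x e e e w + 3 * F3 u x e e t) * η0 * (l w - F1 u x w)
          + a ^ 2 * (2 * (l w - F1 u x w) ^ 2 + 2 * η0 * (- F2 u x w w))) := by
    intro w t
    have jH := (hs.jh hx w e t).congr_val he rfl rfl
    have jl : ∀ a b : EuclideanSpace ℝ (Fin (m + 1)),
        J2 (fun s : ℝ => l (a + s • b)) (l a) (l b) 0 := by
      intro a b
      refine ((J2.const l).clm_apply (J2.affine a b)).congr_val rfl ?_ ?_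
      · simp
      · simp
    have jC := hs.jC hx w e t
    have jη : J2 (fun s : ℝ => κ + l (x + s • w) - u (x + s • w)) η0 (l w - F1 u x w)
        (- F2 u x w w) :=
      (((J2.const κ).add (jl x w)).sub (hs.ju hx w)).congr_val rfl (by ring) (by ring)
    have hpos : ∀ᶠ s : ℝ in 𝓝 0, 0 < κ + l (x + s • w) - u (x + s • w) := by
      have hc : ContinuousAt (fun s : ℝ => κ + l (x + s • w) - u (x + s • w)) 0 :=
        jη.hasDerivAt.continuousAt
      refine hc.eventually (lt_mem_nhds ?_)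
      show 0 < κ + l (x + (0 : ℝ) • w) - u (x + (0 : ℝ) • w)
      rw [zero_smul, add_zero]
      exact hη
    refine cubic_test hη ha jH jC jη ?_
    filter_upwards [hs.near hx w, hpos] with s h1 h2
    exact hmax _ h1 h2.le _
  -- direction tests
  have hdir1 : ∀ y, F3 u x e e y = a * F2 u x e y := by
    intro y
    have := (test 0 y).1
    simp only [map_zero, sub_zero, zero_add, mul_zero] at this
    have h2 : (6 * η0) * (a * F2 u x e y - F3 u x e e y) = 0 := by linarith
    rcases mul_eq_zero.1 h2 with h3 | h3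
    · exfalso; linarith
    · linarith
  have hdir2 : ∀ y, F3 u x e y y ≤ a * F2 u x y y := by
    intro y
    have h1 := (test 0 y).2
    have h0 : fderiv ℝ (fun y => F4 u y e e 0 0) x e = 0 := by
      have : (fun y => F4 u y e e 0 0) = fun _ : EuclideanSpace ℝ (Fin (m + 1)) => (0 : ℝ) := by
        funext y
        simp only [map_zero]
      rw [this]; simp
    have z1 : F4 u x e e (0 : EuclideanSpace ℝ (Fin (m + 1))) = 0 := map_zero _
    have z2 : F3 u x e (0 : EuclideanSpace ℝ (Fin (m + 1))) = 0 := map_zero _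
    rw [h0, hdir1 y, z1, z2] at h1
    simp only [map_zero, zero_apply, sub_zero, zero_add, mul_zero, add_zero] at h1
    have h2 := cs_F2 h hx he y
    have h3 : 0 ≤ (12 * a * η0 ^ 2) * (a / 2 * (F2 u x y y + F2 u x e y ^ 2) - F3 u x e y y) := by
      refine h1.trans (le_of_eq ?_)
      ring
    have h4 := nonneg_of_mul_nonneg_right h3 (by positivity)
    have h5 := mul_le_mul_of_nonneg_left h2 ha.le
    linarith
  obtain ⟨w, hw0, hon⟩ := exists_ON h hx (0 : Fin (m + 1)) he
  obtain ⟨i1, i2, i3⟩ := identities h hdet hx hon e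
  set A : Fin (m + 1) → Fin (m + 1) → ℝ := fun i j => F3 u x e (w i) (w j) with hA
  have hAs : ∀ i j, A i j = A j i := fun i j => hs.s3b hx e (w i) (w j)
  set t : Fin (m + 1) → EuclideanSpace ℝ (Fin (m + 1)) := fun i => -((1 / 2 : ℝ) • ∑ j, A i j • w j)
    with ht
  have hewi : ∀ i, F2 u x e (w i) = if i = 0 then 1 else 0 := by
    intro i
    rw [← hw0, hon 0 i]
    simp only [eq_comm]
  have q1 : ∀ i k, F2 u x (w k) (t i) = - (1 / 2) * A i k := by
    intro i k
    simp only [ht, map_neg, map_sum, map_smul, smul_eq_mul, hon k]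
    simp
  have q2 : ∀ i, F2 u x e (t i) = - (1 / 2) * A i 0 := by
    intro i
    have := q1 i 0
    rwa [hw0] at this
  have q3 : ∀ i, F2 u x (t i) (t i) = (1 / 4) * ∑ j, A i j ^ 2 := by
    intro i
    have : F2 u x (t i) (t i) = F2 u x (-((1 / 2 : ℝ) • ∑ j, A i j • w j)) (t i) := rfl
    rw [this]
    simp only [map_neg, map_sum, map_smul, neg_apply, sum_apply, smul_apply, smul_eq_mul, q1]
    rw [Finset.mul_sum, Finset.mul_sum, ← Finset.sum_neg_distrib]
    refine Finset.sum_congr rfl fun j _ => by ring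
  have q4 : ∀ i, F3 u x e (w i) (t i) = - (1 / 2) * ∑ j, A i j ^ 2 := by
    intro i
    simp only [ht, map_neg, map_sum, map_smul, smul_eq_mul]
    rw [Finset.mul_sum, Finset.mul_sum, ← Finset.sum_neg_distrib]
    refine Finset.sum_congr rfl fun j _ => ?_
    simp only [hA]; ring
  have q5 : ∀ i, F3 u x e e (w i) = A i 0 := by
    intro i
    rw [hAs]
    simp only [hA, hw0]
  have q8 : ∀ i, F2 u x (w i) (w i) = 1 := fun i => by rw [hon i i, if_pos rfl]
  have q9 : ∀ i, F4 u x e e (w i) (t i) = - (1 / 2) * ∑ j, A i j * F4 u x e e (w i) (w j) := by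
    intro i
    simp only [ht, map_neg, map_sum, map_smul, smul_eq_mul]
    ring
  have q10 : ∀ i, F3 u x e (t i) (t i) = (1 / 4) * ∑ j, ∑ k, A i j * A i k * A j k := by
    intro i
    have e1 : ∀ j, F3 u x e (w j) (t i) = - (1 / 2) * ∑ k, A i k * A j k := by
      intro j
      simp only [ht, map_neg, map_sum, map_smul, smul_eq_mul]
      ring
    have : F3 u x e (t i) (t i) = F3 u x e (-((1 / 2 : ℝ) • ∑ j, A i j • w j)) (t i) := rfl
    rw [this]
    simp only [map_neg, map_sum, map_smul, neg_apply, sum_apply, smul_apply, smul_eq_mul, e1]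
    rw [Finset.mul_sum, Finset.mul_sum, ← Finset.sum_neg_distrib]
    refine Finset.sum_congr rfl fun j _ => ?_
    have : ∑ k, A i j * A i k * A j k = A i j * ∑ k, A i k * A j k := by
      rw [Finset.mul_sum]
      exact Finset.sum_congr rfl fun k _ => by ring
    rw [this]
    ring
  -- first order
  have fo : ∀ i, (F4 u x e e e (w i) + 3 * F3 u x e e (t i)) * η0 = - a * (l (w i) - F1 u x (w i)) := by
    intro i
    have := (test (w i) (t i)).1
    rw [q5, q2] at this
    linarith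
  -- second order
  have so : ∀ i, 0 ≤ 3 * a ^ 2 * η0 ^ 2 * (F4 u x e e (w i) (w i) - 3 / 2 * ∑ j, A i j ^ 2)
      + 4 * a ^ 2 * (l (w i) - F1 u x (w i)) ^ 2
      - 2 * a * η0 ^ 2 * (fderiv ℝ (fun y => F4 u y e e (w i) (w i)) x e
        - 3 * ∑ j, A i j * F4 u x e e (w i) (w j)
        + 3 / 2 * ∑ j, ∑ k, A i j * A i k * A j k) + 2 * a ^ 2 * η0 := by
    intro i
    have h1 := (test (w i) (t i)).2
    have h2 := fo i
    rw [q5, q2, q4, q3, q8, q9, q10] at h1
    set C1 := F4 u x e e e (w i) + 3 * F3 u x e e (t i) with hC1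
    set E1 := l (w i) - F1 u x (w i) with hE1
    have h3 : (2 * C1 ^ 2) * η0 ^ 2 = 2 * a ^ 2 * E1 ^ 2 := by
      have : (2 * C1 ^ 2) * η0 ^ 2 = 2 * (C1 * η0) ^ 2 := by ring
      rw [this, h2]; ring
    have h4 : 8 * a * C1 * η0 * E1 = - 8 * a ^ 2 * E1 ^ 2 := by
      have : 8 * a * C1 * η0 * E1 = 8 * a * (C1 * η0) * E1 := by ring
      rw [this, h2]; ring
    rw [h4, add_mul, h3] at h1
    refine h1.trans (le_of_eq ?_)
    ring
  have hsum := Finset.sum_nonneg fun i (_ : i ∈ (Finset.univ : Finset (Fin (m + 1)))) => so i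
  set Q := ∑ i, ∑ j, A i j ^ 2 with hQ
  set R := ∑ i, ∑ j, ∑ k, A i j * A i k * A j k with hR
  set Sg := ∑ i, (l (w i) - F1 u x (w i)) ^ 2 with hSg
  have hsum2 : 0 ≤ 3 * a ^ 2 * η0 ^ 2 * (- (1 / 2) * Q) + 4 * a ^ 2 * Sg
      + a * η0 ^ 2 * R + 2 * a ^ 2 * (m + 1) * η0 := by
    refine hsum.trans (le_of_eq ?_)
    rw [Finset.sum_add_distrib, Finset.sum_sub_distrib, Finset.sum_add_distrib, ← Finset.mul_sum,
      Finset.sum_sub_distrib, ← Finset.mul_sum, ← Finset.mul_sum, ← Finset.mul_sum,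
      Finset.sum_add_distrib, Finset.sum_sub_distrib, ← Finset.mul_sum, ← Finset.mul_sum, i2, i3]
    simp only [Finset.sum_const, Finset.card_univ, Fintype.card_fin, nsmul_eq_mul]
    push_cast
    rw [← hQ, ← hR, ← hSg]
    ring
  -- `R ≤ a Q`
  have hRQ : R ≤ a * Q := by
    have e1 : R = ∑ i, 4 * F3 u x e (t i) (t i) := by
      rw [hR]
      refine Finset.sum_congr rfl fun i _ => ?_
      rw [q10]; ring
    have e2 : a * Q = ∑ i, 4 * (a * F2 u x (t i) (t i)) := by
      rw [hQ, Finset.mul_sum]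
      refine Finset.sum_congr rfl fun i _ => ?_
      rw [q3]; ring
    rw [e1, e2]
    refine Finset.sum_le_sum fun i _ => ?_
    linarith [hdir2 (t i)]
  -- `a² ≤ Q`
  have hQa : a ^ 2 ≤ Q := by
    have e1 : A 0 0 = a := by simp only [hA, hw0]; rfl
    rw [← e1]
    calc A 0 0 ^ 2 ≤ ∑ j, A 0 j ^ 2 :=
          Finset.single_le_sum (f := fun j => A 0 j ^ 2) (fun j _ => sq_nonneg _)
            (Finset.mem_univ 0)
      _ ≤ Q := Finset.single_le_sum (f := fun i => ∑ j, A i j ^ 2)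
            (fun i _ => Finset.sum_nonneg fun j _ => sq_nonneg _) (Finset.mem_univ 0)
  -- `Sg ≤ G`
  have hG0 : 0 ≤ G := by
    have := hgrad e
    rw [he, mul_one] at this
    exact (sq_nonneg _).trans this
  have hSgG : Sg ≤ G := by
    set y := ∑ i, (l (w i) - F1 u x (w i)) • w i with hy
    have e1 : F1 u x y - l y = - Sg := by
      simp only [hy, map_sum, map_smul, smul_eq_mul]
      rw [← Finset.sum_sub_distrib, hSg, ← Finset.sum_neg_distrib]
      exact Finset.sum_congr rfl fun i _ => by ring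
    have e2 : ∀ k, F2 u x (w k) y = l (w k) - F1 u x (w k) := by
      intro k
      simp only [hy, map_sum, map_smul, smul_eq_mul, hon k]
      simp
    have e3 : F2 u x y y = Sg := by
      have : F2 u x y y = F2 u x (∑ i, (l (w i) - F1 u x (w i)) • w i) y := rfl
      rw [this]
      simp only [map_sum, map_smul, sum_apply, smul_apply, smul_eq_mul, e2]
      rw [hSg]
      exact Finset.sum_congr rfl fun i _ => by ring
    have h1 := hgrad y
    rw [e1, e3] at h1
    have hSg0 : 0 ≤ Sg := Finset.sum_nonneg fun i _ => sq_nonneg _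
    rcases hSg0.eq_or_lt with h0 | h0
    · rw [← h0]; exact hG0
    · have : Sg * Sg ≤ G * Sg := by linarith [h1]
      exact le_of_mul_le_mul_right this h0
  -- conclusion
  have hfin : 0 ≤ a ^ 2 * (- (1 / 2) * η0 ^ 2 * Q + 4 * G + 2 * (m + 1) * η0) := by
    have k1 : a * η0 ^ 2 * R ≤ a * η0 ^ 2 * (a * Q) := mul_le_mul_of_nonneg_left hRQ (by positivity)
    have k2 : 4 * a ^ 2 * Sg ≤ 4 * a ^ 2 * G := mul_le_mul_of_nonneg_left hSgG (by positivity)
    linarith [hsum2, k1, k2]
  have hfin2 := nonneg_of_mul_nonneg_right hfin (by positivity)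
  have hfin3 : η0 ^ 2 * a ^ 2 ≤ η0 ^ 2 * Q := mul_le_mul_of_nonneg_left hQa (by positivity)
  push_cast
  linarith [hfin2, hfin3]

end Crest.Agent.R236.Jcp
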