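import Crest.Agent.R236.LS3

/-! Row 236, lemma LS (helper329): Liouville theorem for the linearised Monge-Ampere operator. -/

set_option autoImplicit false
open scoped ContDiff Topology
open Crest.GeometryTopology.CoordMetric Crest.GeometryTopology.AffineMaximal
open Set Filter MeasureTheory

noncomputable section

namespace Crest.Agent.R236.LS

open Crest.Agent.R236.Sec Crest.Agent.R236.ABP

variable {n : ℕ} {Ω : Set (EuclideanSpace ℝ (Fin n))} {u w : EuclideanSpace ℝ (Fin n) → ℝ}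

lemma hessianMat_zero (x : EuclideanSpace ℝ (Fin n)) :
    hessianMat (fun _ : EuclideanSpace ℝ (Fin n) => (0 : ℝ)) x = 0 := by
  ext i j
  simp [hessianMat, pderiv]

lemma Lop_affine (hΩ : IsOpen Ω) (hw : ContDiffOn ℝ 2 w Ω) (A c : ℝ)
    {x : EuclideanSpace ℝ (Fin n)} (hx : x ∈ Ω) :
    Lop u (fun y => 0 + A * (w y - c)) x = A * Lop u w x := by
  have h1 : hessianMat (fun y => 0 + A * (w y - c)) x
      = hessianMat (fun _ : EuclideanSpace ℝ (Fin n) => (0 : ℝ)) x + A • hessianMat w x :=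
    hessianMat_add_smul (u := w) (v := fun _ => 0) hΩ hw contDiffOn_const A c hx
  unfold Lop
  rw [h1, hessianMat_zero, Finset.mul_sum]
  refine Finset.sum_congr rfl fun i _ => ?_
  rw [Finset.mul_sum]
  refine Finset.sum_congr rfl fun j _ => ?_
  simp only [Matrix.add_apply, Matrix.zero_apply, zero_add, Matrix.smul_apply, smul_eq_mul]
  ring

/-- **Liouville theorem**: bounded solutions of `U^{ij} w_ij = 0` are constant. -/
theorem liouville (hn : 0 < n) (h : SC Ω u) (hne : Ω.Nonempty) (hc : CS Ω u) {C0 th : ℝ}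
    (hth : 0 < th) (hQ : QS Ω u C0) (hB : BAL Ω u th) (hw2 : ContDiffOn ℝ 2 w Ω) {M : ℝ}
    (hM : ∀ x ∈ Ω, |w x| ≤ M) (hL : ∀ x ∈ Ω, Lop u w x = 0) : ∃ c, ∀ x ∈ Ω, w x = c := by
  have hQ1 : QS Ω u (max C0 1) := by
    intro a ha b hb
    refine (hQ a ha b hb).trans ?_
    exact mul_le_mul_of_nonneg_right (le_max_left _ _) (dev_nonneg h ha hb)
  have hU : Ω = univ := eq_univ h hne hQ hc
  have mem : ∀ y, y ∈ Ω := fun y => by rw [hU]; exact mem_univ y
  have hbA : BddAbove (w '' Ω) := ⟨M, by rintro _ ⟨x, hx, rfl⟩; exact (abs_le.mp (hM x hx)).2⟩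
  have hbB : BddBelow (w '' Ω) := ⟨-M, by rintro _ ⟨x, hx, rfl⟩; exact (abs_le.mp (hM x hx)).1⟩
  have hne' : (w '' Ω).Nonempty := hne.image w
  set W := sSup (w '' Ω) with hW
  set I := sInf (w '' Ω) with hI
  have hwW : ∀ x, w x ≤ W := fun x => le_csSup hbA ⟨x, mem x, rfl⟩
  have hwI : ∀ x, I ≤ w x := fun x => csInf_le hbB ⟨x, mem x, rfl⟩
  by_cases hosc : W ≤ I
  · exact ⟨W, fun x _ => le_antisymm (hwW x) (hosc.trans (hwI x))⟩
  exfalso
  push Not at hosc
  set A : ℝ := 3 / (W - I) with hA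
  have hosc' : 0 < W - I := by linarith
  have hA0 : 0 < A := by positivity
  have hAosc : A * (W - I) = 3 := by rw [hA]; field_simp
  obtain ⟨ε, hε, hwh⟩ := weak_harnack hn h hU hc hth hQ1 hB (le_max_right _ _)
    (δ := 1 / 4) (by norm_num)
  obtain ⟨x1, hx1⟩ : ∃ x1, W - ε / A < w x1 := by
    obtain ⟨_, ⟨x1, _, rfl⟩, hx1⟩ := exists_lt_of_lt_csSup hne'
      (show W - ε / A < sSup (w '' Ω) by
        have : 0 < ε / A := by positivity
        linarith)
    exact ⟨x1, hx1⟩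
  obtain ⟨x2, hx2⟩ : ∃ x2, w x2 < I + ε / A := by
    obtain ⟨_, ⟨x2, _, rfl⟩, hx2⟩ := exists_lt_of_csInf_lt hne'
      (show sInf (w '' Ω) < I + ε / A by
        have : 0 < ε / A := by positivity
        linarith)
    exact ⟨x2, hx2⟩
  set v1 : EuclideanSpace ℝ (Fin n) → ℝ := fun y => 0 + (-A) * (w y - W) with hv1
  set v2 : EuclideanSpace ℝ (Fin n) → ℝ := fun y => 0 + A * (w y - I) with hv2
  have hv1c : ContDiffOn ℝ 2 v1 Ω :=
    contDiffOn_const.add (contDiffOn_const.mul (hw2.sub contDiffOn_const))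
  have hv2c : ContDiffOn ℝ 2 v2 Ω :=
    contDiffOn_const.add (contDiffOn_const.mul (hw2.sub contDiffOn_const))
  have hv1n : ∀ x ∈ Ω, 0 ≤ v1 x := by
    intro x _
    have := mul_nonneg hA0.le (sub_nonneg.mpr (hwW x))
    simp only [hv1]; linarith
  have hv2n : ∀ x ∈ Ω, 0 ≤ v2 x := by
    intro x _
    have := mul_nonneg hA0.le (sub_nonneg.mpr (hwI x))
    simp only [hv2]; linarith
  have hv1L : ∀ x ∈ Ω, Lop u v1 x ≤ 0 := by
    intro x hx
    rw [hv1, Lop_affine h.isOpen hw2 (-A) W hx, hL x hx, mul_zero]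
  have hv2L : ∀ x ∈ Ω, Lop u v2 x ≤ 0 := by
    intro x hx
    rw [hv2, Lop_affine h.isOpen hw2 A I hx, hL x hx, mul_zero]
  have hAe : A * (ε / A) = ε := by field_simp
  have hv1x : v1 x1 ≤ ε := by
    have := mul_le_mul_of_nonneg_left (show W - w x1 ≤ ε / A by linarith) hA0.le
    simp only [hv1]; linarith
  have hv2x : v2 x2 ≤ ε := by
    have := mul_le_mul_of_nonneg_left (show w x2 - I ≤ ε / A by linarith) hA0.le
    simp only [hv2]; linarith
  set t : ℝ := dev u x1 x2 + 1 with ht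
  have hd0 : 0 ≤ dev u x1 x2 := dev_nonneg h (mem x1) (mem x2)
  have ht0 : 0 < t := by linarith
  have h1 := hwh v1 hv1c hv1n hv1L x1 x1 t ht0 (by rw [dev_self]; exact ht0) hv1x
  have h2 := hwh v2 hv2c hv2n hv2L x1 x2 t ht0 (by linarith) hv2x
  have hcov : Sct Ω u x1 t ⊆ (Sct Ω u x1 t \ Vle Ω v1 1) ∪ (Sct Ω u x1 t \ Vle Ω v2 1) := by
    intro x hx
    have hsum : v1 x + v2 x = 3 := by
      simp only [hv1, hv2]
      linarith
    by_cases hx1' : v1 x ≤ 1
    · right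
      refine ⟨hx, fun hh => ?_⟩
      have := hh.2
      linarith
    · left
      exact ⟨hx, fun hh => hx1' hh.2⟩
  have hfin : MA u (Sct Ω u x1 t) ≠ ⊤ := (MA_Sct_lt_top h hc (mem x1) t).ne
  have hpos : 0 < MA u (Sct Ω u x1 t) := MA_Sct_pos h (mem x1) ht0
  have h3 : MA u (Sct Ω u x1 t) ≤ ENNReal.ofReal (1 / 2) * MA u (Sct Ω u x1 t) := by
    calc MA u (Sct Ω u x1 t)
        ≤ MA u ((Sct Ω u x1 t \ Vle Ω v1 1) ∪ (Sct Ω u x1 t \ Vle Ω v2 1)) := MA_mono hcov
      _ ≤ _ := MA_union_le _ _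
      _ ≤ ENNReal.ofReal (1 / 4) * MA u (Sct Ω u x1 t)
          + ENNReal.ofReal (1 / 4) * MA u (Sct Ω u x1 t) := add_le_add h1 h2
      _ = (ENNReal.ofReal (1 / 4) + ENNReal.ofReal (1 / 4)) * MA u (Sct Ω u x1 t) := by ring
      _ = _ := by rw [← ENNReal.ofReal_add (by norm_num) (by norm_num)]; norm_num
  have h4 : (MA u (Sct Ω u x1 t)).toReal ≤ 1 / 2 * (MA u (Sct Ω u x1 t)).toReal := by
    have := ENNReal.toReal_mono (ENNReal.mul_ne_top ENNReal.ofReal_ne_top hfin) h3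
    rwa [ENNReal.toReal_mul, ENNReal.toReal_ofReal (by norm_num)] at this
  have h5 : 0 < (MA u (Sct Ω u x1 t)).toReal := ENNReal.toReal_pos hpos.ne' hfin
  linarith

end Crest.Agent.R236.LS
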