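import Crest.Agent.R236.SecGrowth
import Crest.Agent.R236.Growth

/-! Row 236, lemma LS (helper329), part 1: the exact-constant contact set inequality. -/

set_option autoImplicit false
open scoped ContDiff Topology
open Crest.GeometryTopology.CoordMetric Crest.GeometryTopology.AffineMaximal
open Set Filter MeasureTheory

noncomputable section

namespace Crest.Agent.R236.LS

open Crest.Agent.R236.Sec Crest.Agent.R236.ABP

variable {n : ℕ} {Ω : Set (EuclideanSpace ℝ (Fin n))} {u v : EuclideanSpace ℝ (Fin n) → ℝ}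

/-- compact sections -/
def CS (Ω : Set (EuclideanSpace ℝ (Fin n))) (u : EuclideanSpace ℝ (Fin n) → ℝ) : Prop :=
  ∀ x₀ ∈ Ω, ∀ t : ℝ, IsCompact {x | x ∈ Ω ∧ u x ≤ u x₀ + fderiv ℝ u x₀ (x - x₀) + t}

lemma two_le : (2 : WithTop ℕ∞) ≤ ∞ := by
  exact ENat.LEInfty.out

lemma continuousOn_dev (h : SC Ω u) (z : EuclideanSpace ℝ (Fin n)) :
    ContinuousOn (fun y => dev u z y) Ω := by
  unfold dev
  exact (h.continuousOn.sub continuousOn_const).sub (Continuous.continuousOn (by fun_prop))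

/-- existence of a minimiser of `dev u z + K v` -/
lemma exists_min (h : SC Ω u) (hc : CS Ω u) (hvc : ContinuousOn v Ω) (hv : ∀ x ∈ Ω, 0 ≤ v x)
    {K : ℝ} (hK : 0 ≤ K) {z : EuclideanSpace ℝ (Fin n)} (hz : z ∈ Ω) :
    ∃ x ∈ Ω, ∀ y ∈ Ω, dev u z x + K * v x ≤ dev u z y + K * v y := by
  set C := {x | x ∈ Ω ∧ u x ≤ u z + fderiv ℝ u z (x - z) + K * v z} with hC
  have hCc : IsCompact C := hc z hz _
  have hKv : 0 ≤ K * v z := mul_nonneg hK (hv z hz)
  have hzC : z ∈ C := ⟨hz, by simpa using hKv⟩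
  have hcont : ContinuousOn (fun y => dev u z y + K * v y) C :=
    ((continuousOn_dev h z).add (continuousOn_const.mul hvc)).mono fun x hx => hx.1
  obtain ⟨x, hxC, hx⟩ := hCc.exists_isMinOn ⟨z, hzC⟩ hcont
  refine ⟨x, hxC.1, fun y hy => ?_⟩
  by_cases hyC : y ∈ C
  · exact hx hyC
  · have h1 : K * v z < dev u z y := by
      by_contra hcon
      push Not at hcon
      apply hyC
      refine ⟨hy, ?_⟩
      unfold dev at hcon
      linarith
    have h2 := hx hzC
    have h3 : 0 ≤ K * v y := mul_nonneg hK (hv y hy)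
    simp only [mem_ofPred_eq, dev_self] at h2
    linarith

/-- first and second order conditions at a minimiser -/
lemma at_min (h : SC Ω u) (hv2 : ContDiffOn ℝ 2 v Ω) {K : ℝ} {z x : EuclideanSpace ℝ (Fin n)}
    (hx : x ∈ Ω) (hmin : ∀ y ∈ Ω, dev u z x + K * v x ≤ dev u z y + K * v y) :
    gradE (fun y => u y + K * (v y - 0)) x = gradE u z ∧
      (hessianMat (fun y => u y + K * (v y - 0)) x).PosSemidef := by
  have hu2 : ContDiffOn ℝ 2 u Ω := h.smooth.of_le two_le
  have hψ : ContDiffOn ℝ 2 (fun y => u y + K * (v y - 0)) Ω :=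
    hu2.add (contDiffOn_const.mul (hv2.sub contDiffOn_const))
  refine posSemidef_of_isLocalMin h.isOpen hψ hx (p := gradE u z) ?_
  filter_upwards [h.isOpen.mem_nhds hx] with y hy
  have h1 := hmin y hy
  have e : ∀ y : EuclideanSpace ℝ (Fin n), ∑ j, gradE u z j * y j = fderiv ℝ u z y := by
    intro y
    rw [fderiv_eq_sum]
    rfl
  rw [e, e]
  unfold dev at h1
  rw [map_sub, map_sub] at h1
  linarith

/-- the gradient map is injective -/
lemma gradE_injOn (h : SC Ω u) : InjOn (gradE u) Ω := by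
  intro x hx y hy hxy
  by_contra hne
  have h1 := h.grad_mono hx hy hne
  have h2 : ∀ w, fderiv ℝ u x w = fderiv ℝ u y w := by
    intro w
    rw [fderiv_eq_sum, fderiv_eq_sum]
    refine Finset.sum_congr rfl fun i _ => ?_
    have : gradE u x i = gradE u y i := by rw [hxy]
    have h3 : pderiv i u x = pderiv i u y := this
    rw [h3]
  rw [sub_apply, h2] at h1
  simp at h1

/-- Monge-Ampere measure -/
def MA (u : EuclideanSpace ℝ (Fin n) → ℝ) (E : Set (EuclideanSpace ℝ (Fin n))) : ENNReal :=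
  ∫⁻ x in E, ENNReal.ofReal (hessianMat u x).det

lemma contDiffOn2 (h : SC Ω u) : ContDiffOn ℝ 2 u Ω := h.smooth.of_le two_le

lemma MA_eq_image (h : SC Ω u) {E : Set (EuclideanSpace ℝ (Fin n))} (hE : MeasurableSet E)
    (hEΩ : E ⊆ Ω) : MA u E = volume (gradE u '' E) := by
  rw [← lintegral_abs_det_fderiv_eq_addHaar_image volume hE
    (fun x hx => (hasFDerivAt_gradE h.isOpen (contDiffOn2 h) (hEΩ hx)).hasFDerivWithinAt)
    ((gradE_injOn h).mono hEΩ)]
  unfold MA
  refine setLIntegral_congr_fun hE fun x hx => ?_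
  rw [hessL_det, abs_of_nonneg (h.posDef x (hEΩ hx)).det_pos.le]

lemma MA_mono {E F : Set (EuclideanSpace ℝ (Fin n))} (hEF : E ⊆ F) : MA u E ≤ MA u F :=
  lintegral_mono_set hEF

lemma MA_union_le (E F : Set (EuclideanSpace ℝ (Fin n))) : MA u (E ∪ F) ≤ MA u E + MA u F :=
  lintegral_union_le _ _ _

lemma MA_union_disjoint {E F : Set (EuclideanSpace ℝ (Fin n))} (hF : MeasurableSet F)
    (hd : Disjoint E F) : MA u (E ∪ F) = MA u E + MA u F :=
  lintegral_union hF hd

/-- **The contact inequality with exact constant one.** -/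
theorem contact_le (hn : 0 < n) (h : SC Ω u) (hc : CS Ω u) (hv2 : ContDiffOn ℝ 2 v Ω)
    (hv : ∀ x ∈ Ω, 0 ≤ v x) (hL : ∀ x ∈ Ω, Lop u v x ≤ 0) {K : ℝ} (hK : 0 < K)
    {Z X : Set (EuclideanSpace ℝ (Fin n))} (hZ : MeasurableSet Z) (hZΩ : Z ⊆ Ω)
    (hX : MeasurableSet X) (hXΩ : X ⊆ Ω)
    (hZX : ∀ z ∈ Z, ∀ x ∈ Ω, (∀ y ∈ Ω, dev u z x + K * v x ≤ dev u z y + K * v y) → x ∈ X) :
    MA u Z ≤ MA u X := by
  set ψ : EuclideanSpace ℝ (Fin n) → ℝ := fun y => u y + K * (v y - 0) with hψ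
  have hψ2 : ContDiffOn ℝ 2 ψ Ω :=
    (contDiffOn2 h).add (contDiffOn_const.mul (hv2.sub contDiffOn_const))
  set X' := X ∩ {x | x ∈ Ω ∧ (hessianMat ψ x).PosSemidef} with hX'
  have hP : MeasurableSet {x | x ∈ Ω ∧ (hessianMat ψ x).PosSemidef} := by
    have h2 : MeasurableSet (Ω ∩ (hessianMat ψ) ⁻¹' {M | M.PosSemidef}ᶜ) :=
      ((continuousOn_hessianMat h.isOpen hψ2).isOpen_inter_preimage h.isOpen
        isClosed_posSemidef.isOpen_compl).measurableSet
    have : {x | x ∈ Ω ∧ (hessianMat ψ x).PosSemidef}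
        = Ω \ (Ω ∩ (hessianMat ψ) ⁻¹' {M | M.PosSemidef}ᶜ) := by
      ext x
      simp only [mem_ofPred_eq, Set.mem_sdiff, mem_inter_iff, mem_preimage, mem_compl_iff]
      tauto
    rw [this]
    exact h.isOpen.measurableSet.diff h2
  have hX'm : MeasurableSet X' := hX.inter hP
  have hsub : gradE u '' Z ⊆ gradE ψ '' X' := by
    rintro _ ⟨z, hz, rfl⟩
    obtain ⟨x, hxΩ, hx⟩ := exists_min h hc hv2.continuousOn hv hK.le (hZΩ hz)
    obtain ⟨h1, h2⟩ := at_min h hv2 hxΩ hx
    exact ⟨x, ⟨hZX z hz x hxΩ hx, hxΩ, h2⟩, h1⟩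
  have hdet : ∀ x ∈ X', |(hessL ψ x).det| ≤ (hessianMat u x).det := by
    intro x hx
    have hxΩ := hx.2.1
    have hpsd := hx.2.2
    rw [hessL_det, abs_of_nonneg hpsd.det_nonneg]
    have hH := h.posDef x hxΩ
    have hd := hH.det_pos
    have e1 : hessianMat ψ x = hessianMat u x + K • hessianMat v x :=
      hessianMat_add_smul h.isOpen hv2 (contDiffOn2 h) K 0 hxΩ
    have htr : ((hessianMat u x)⁻¹ * hessianMat ψ x).trace ≤ n * 1 := by
      rw [e1, Matrix.mul_add, Matrix.trace_add, Matrix.mul_smul,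
        Matrix.nonsing_inv_mul _ (isUnit_iff_ne_zero.mpr hd.ne'), Matrix.trace_smul,
        Matrix.trace_one, Fintype.card_fin, smul_eq_mul]
      have h3 := hL x hxΩ
      rw [Lop_eq u v x (hessianMat_symm h.isOpen hv2 hxΩ)] at h3
      have h4 : ((hessianMat u x)⁻¹ * hessianMat v x).trace ≤ 0 := by
        by_contra hcon
        push Not at hcon
        have := mul_pos hd hcon
        linarith
      have h5 : K * ((hessianMat u x)⁻¹ * hessianMat v x).trace ≤ 0 :=
        mul_nonpos_of_nonneg_of_nonpos hK.le h4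
      linarith
    have h5 := det_le_of_trace_le hn hH hpsd htr
    simpa using h5
  calc MA u Z = volume (gradE u '' Z) := MA_eq_image h hZ hZΩ
    _ ≤ volume (gradE ψ '' X') := measure_mono hsub
    _ ≤ ∫⁻ x in X', ENNReal.ofReal |(hessL ψ x).det| :=
        addHaar_image_le_lintegral_abs_det_fderiv volume hX'm
          (fun x hx => (hasFDerivAt_gradE h.isOpen hψ2 hx.2.1).hasFDerivWithinAt)
    _ ≤ ∫⁻ x in X', ENNReal.ofReal (hessianMat u x).det :=
        setLIntegral_mono' hX'm fun x hx => ENNReal.ofReal_le_ofReal (hdet x hx)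
    _ ≤ MA u X := MA_mono inter_subset_left

end Crest.Agent.R236.LS
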