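import Crest.Agent.R236.LS1

/-! Row 236, lemma LS (helper329), part 2: engulfing, layers, doubling. -/

set_option autoImplicit false
open scoped ContDiff Topology
open Crest.GeometryTopology.CoordMetric Crest.GeometryTopology.AffineMaximal
open Set Filter MeasureTheory

noncomputable section

namespace Crest.Agent.R236.LS

open Crest.Agent.R236.Sec Crest.Agent.R236.ABP

variable {n : ℕ} {Ω : Set (EuclideanSpace ℝ (Fin n))} {u v : EuclideanSpace ℝ (Fin n) → ℝ}

lemma dev_sub (B z x : EuclideanSpace ℝ (Fin n)) :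
    dev u z x = dev u B x - dev u B z - (fderiv ℝ u z - fderiv ℝ u B) (x - z) := by
  unfold dev
  simp only [sub_apply, map_sub]
  ring

/-- the engulfing constant -/
def Cen (C0 th : ℝ) : ℝ := 1 + (1 + C0) + (2 + C0) / th

lemma one_le_Cen {C0 th : ℝ} (hC0 : 0 ≤ C0) (hth : 0 < th) : 1 ≤ Cen C0 th := by
  unfold Cen
  have : 0 ≤ (2 + C0) / th := by positivity
  linarith

lemma C0_le_Cen {C0 th : ℝ} (hC0 : 0 ≤ C0) (hth : 0 < th) : C0 ≤ Cen C0 th := by
  unfold Cen
  have : 0 ≤ (2 + C0) / th := by positivity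
  linarith

/-- engulfing -/
theorem engulf (h : SC Ω u) {C0 th : ℝ} (hth : 0 < th) (hQ : QS Ω u C0) (hB : BAL Ω u th)
    (hC0 : 0 ≤ C0) {B z x : EuclideanSpace ℝ (Fin n)} (hBΩ : B ∈ Ω) (hz : z ∈ Ω) (hx : x ∈ Ω)
    {t : ℝ} (hzt : dev u B z ≤ t) (hxt : dev u B x ≤ t) : dev u z x ≤ Cen C0 th * t := by
  have ht : 0 ≤ t := (dev_nonneg h hBΩ hz).trans hzt
  set q := fderiv ℝ u z - fderiv ℝ u B with hq
  have h1 : dev u B z + dev u z B = q (z - B) := dev_add_dev B z
  have h2 : dev u z B ≤ C0 * dev u B z := hQ B hBΩ z hz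
  have h3 : q (z - B) ≤ (1 + C0) * t := by
    have : C0 * dev u B z ≤ C0 * t := mul_le_mul_of_nonneg_left hzt hC0
    linarith
  obtain ⟨hx'Ω, hx't⟩ := hB B hBΩ x hx t hxt
  set x' := B - th • (x - B) with hx'
  have h4 : 0 ≤ dev u z x' := dev_nonneg h hz hx'Ω
  rw [dev_sub B z x'] at h4
  have h5 : 0 ≤ dev u B z := dev_nonneg h hBΩ hz
  have h6 : q (x' - z) = -th * q (x - B) - q (z - B) := by
    have e : x' - z = -(th • (x - B)) - (z - B) := by rw [hx']; abel
    rw [e, map_sub, map_neg, map_smul, smul_eq_mul]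
    ring
  rw [← hq, h6] at h4
  have h7 : -th * q (x - B) ≤ (2 + C0) * t := by linarith
  have h8 : -q (x - B) ≤ (2 + C0) / th * t := by
    rw [div_mul_eq_mul_div, le_div_iff₀ hth]
    linarith
  have h9 : q (x - z) = q (x - B) - q (z - B) := by
    have e : x - z = (x - B) - (z - B) := by abel
    rw [e, map_sub]
  rw [dev_sub B z x, ← hq, h9]
  unfold Cen
  linarith

theorem engulf2 (h : SC Ω u) {C0 th : ℝ} (hth : 0 < th) (hQ : QS Ω u C0) (hB : BAL Ω u th)
    (hC0 : 0 ≤ C0) {B z x : EuclideanSpace ℝ (Fin n)} (hBΩ : B ∈ Ω) (hz : z ∈ Ω) (hx : x ∈ Ω)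
    {t s : ℝ} (hzt : dev u B z ≤ t) (hts : C0 * t ≤ s) (hxs : dev u z x ≤ s) :
    dev u B x ≤ Cen C0 th * s := by
  refine engulf h hth hQ hB hC0 hz hBΩ hx ?_ hxs
  have h2 : dev u z B ≤ C0 * dev u B z := hQ B hBΩ z hz
  have : C0 * dev u B z ≤ C0 * t := mul_le_mul_of_nonneg_left hzt hC0
  linarith

/-- thin layers -/
theorem layer (h : SC Ω u) (hU : Ω = univ) {C0 th : ℝ} (hth : 0 < th) (hQ : QS Ω u C0)
    (hB : BAL Ω u th) (hC0 : 1 ≤ C0) {w : ℝ} (hw : 0 < w) :
    ∃ ε : ℝ, 0 < ε ∧ ε ≤ 1 ∧ ∀ B z x : EuclideanSpace ℝ (Fin n), ∀ T : ℝ, 0 < T →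
      dev u B z ≤ T → dev u z x ≤ ε * T → dev u B x ≤ (1 + w) * T := by
  have hC0' : 0 ≤ C0 := by linarith
  have hCe := one_le_Cen hC0' hth
  set D := Cen C0 th * C0 with hD
  have hD1 : 1 ≤ D := by nlinarith
  set M : ℝ := max 1 (2 * D / w) with hM
  have hM1 : 1 ≤ M := le_max_left _ _
  have hM0 : 0 < M := by linarith
  have hMp : 0 < M ^ (1 + C0) := Real.rpow_pos_of_pos hM0 _
  refine ⟨min (min 1 (w / 2)) (1 / M ^ (1 + C0)), by positivity, 
    (min_le_left _ _).trans (min_le_left _ _), ?_⟩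
  intro B z x T hT hz hx
  set ε := min (min 1 (w / 2)) (1 / M ^ (1 + C0)) with hε
  have hεw : ε ≤ w / 2 := (min_le_left _ _).trans (min_le_right _ _)
  have hεM : ε ≤ 1 / M ^ (1 + C0) := min_le_right _ _
  have mem : ∀ y, y ∈ Ω := fun y => by rw [hU]; exact mem_univ y
  set y := z + M • (x - z) with hy
  have h1 : dev u z y ≤ T := by
    have g := dev_growth_le h hQ (x := z) (v := x - z) one_pos hM1 (mem _) (mem _)
    rw [one_smul, div_one] at g
    have e : z + (x - z) = x := by abel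
    rw [e] at g
    have h2 : M ^ (1 + C0) * dev u z x ≤ M ^ (1 + C0) * (1 / M ^ (1 + C0) * T) := by
      refine mul_le_mul_of_nonneg_left (hx.trans ?_) hMp.le
      exact mul_le_mul_of_nonneg_right hεM hT.le
    have e2 : M ^ (1 + C0) * (1 / M ^ (1 + C0) * T) = T := by
      field_simp
    linarith
  have h2 : dev u B y ≤ D * T := by
    have := engulf2 h hth hQ hB hC0' (mem B) (mem z) (mem y) hz (s := C0 * T) le_rfl
      (h1.trans (by nlinarith))
    rw [hD]
    linarith
  set q := fderiv ℝ u z - fderiv ℝ u B with hq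
  have h3 : 0 ≤ dev u z y := dev_nonneg h (mem _) (mem _)
  rw [dev_sub B z y, ← hq] at h3
  have h4 : 0 ≤ dev u B z := dev_nonneg h (mem _) (mem _)
  have h5 : q (y - z) = M * q (x - z) := by
    have e : y - z = M • (x - z) := by rw [hy]; abel
    rw [e, map_smul, smul_eq_mul]
  rw [h5] at h3
  have h6 : q (x - z) ≤ w / 2 * T := by
    have h7 : M * q (x - z) ≤ D * T := by linarith
    have h8 : 2 * D / w ≤ M := le_max_right _ _
    have h9 : D ≤ w / 2 * M := by
      rw [div_le_iff₀ hw] at h8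
      linarith
    have h10 : M * q (x - z) ≤ M * (w / 2 * T) := by nlinarith
    exact le_of_mul_le_mul_left h10 hM0
  have h7 := dev_sub (u := u) B z x
  rw [← hq] at h7
  have h8 : ε * T ≤ w / 2 * T := mul_le_mul_of_nonneg_right hεw hT.le
  nlinarith

/-- open sections -/
def Sct (Ω : Set (EuclideanSpace ℝ (Fin n))) (u : EuclideanSpace ℝ (Fin n) → ℝ)
    (B : EuclideanSpace ℝ (Fin n)) (t : ℝ) : Set (EuclideanSpace ℝ (Fin n)) :=
  {x | x ∈ Ω ∧ dev u B x < t}

lemma isOpen_Sct (h : SC Ω u) (B : EuclideanSpace ℝ (Fin n)) (t : ℝ) : IsOpen (Sct Ω u B t) :=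
  (continuousOn_dev h B).isOpen_inter_preimage h.isOpen isOpen_Iio

lemma Sct_mono {B : EuclideanSpace ℝ (Fin n)} {s t : ℝ} (hst : s ≤ t) :
    Sct Ω u B s ⊆ Sct Ω u B t := fun _ hx => ⟨hx.1, hx.2.trans_le hst⟩

lemma continuousOn_gradE (h : SC Ω u) : ContinuousOn (gradE u) Ω := fun _ hx =>
  (hasFDerivAt_gradE h.isOpen (contDiffOn2 h) hx).continuousAt.continuousWithinAt

lemma MA_Sct_lt_top (h : SC Ω u) (hc : CS Ω u) {B : EuclideanSpace ℝ (Fin n)} (hB : B ∈ Ω)
    (t : ℝ) : MA u (Sct Ω u B t) < ⊤ := by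
  set C := {x | x ∈ Ω ∧ u x ≤ u B + fderiv ℝ u B (x - B) + t} with hC
  have hCc : IsCompact C := hc B hB t
  have hsub : Sct Ω u B t ⊆ C := by
    intro x hx
    refine ⟨hx.1, ?_⟩
    have := hx.2
    unfold dev at this
    linarith
  refine (MA_mono hsub).trans_lt ?_
  rw [MA_eq_image h hCc.measurableSet (fun x hx => hx.1)]
  exact (hCc.image_of_continuousOn ((continuousOn_gradE h).mono fun x hx => hx.1)).measure_lt_top

lemma MA_Sct_pos (h : SC Ω u) {B : EuclideanSpace ℝ (Fin n)} (hB : B ∈ Ω)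
    {t : ℝ} (ht : 0 < t) : 0 < MA u (Sct Ω u B t) := by
  have hopen := isOpen_Sct h (u := u) B t
  have hne : (Sct Ω u B t).Nonempty := ⟨B, hB, by simpa using ht⟩
  have hvol : 0 < volume (Sct Ω u B t) := hopen.measure_pos volume hne
  by_contra hcon
  have h0 : MA u (Sct Ω u B t) = 0 := le_antisymm (not_lt.mp hcon) bot_le
  unfold MA at h0
  have hcont : ContinuousOn (fun x => ENNReal.ofReal (hessianMat u x).det) (Sct Ω u B t) := by
    refine ENNReal.continuous_ofReal.comp_continuousOn ?_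
    have h1 : ContinuousOn (hessianMat u) (Sct Ω u B t) :=
      (continuousOn_hessianMat h.isOpen (contDiffOn2 h)).mono fun x hx => hx.1
    exact (Continuous.matrix_det continuous_id).comp_continuousOn h1
  have hae : AEMeasurable (fun x => ENNReal.ofReal (hessianMat u x).det)
      (volume.restrict (Sct Ω u B t)) := hcont.aemeasurable hopen.measurableSet
  rw [lintegral_eq_zero_iff' hae] at h0
  rw [Filter.EventuallyEq, ae_restrict_iff' hopen.measurableSet] at h0
  have h1 : volume (Sct Ω u B t) = 0 := by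
    refine measure_mono_null ?_ h0
    intro x hx hcon
    have h2 := hcon hx
    simp only [Pi.zero_apply, ENNReal.ofReal_eq_zero] at h2
    have := (h.posDef x hx.1).det_pos
    linarith
  exact hvol.ne' h1

/-- the gradient image of a large section is contained in a dilation of that of a small one -/
theorem doubling (h : SC Ω u) (hc : CS Ω u) {C0 : ℝ} (hQ : QS Ω u C0) (hC0 : 1 ≤ C0)
    {B : EuclideanSpace ℝ (Fin n)} (hB : B ∈ Ω) {t T lam : ℝ} (hT : 0 < T) (hlam : 1 < lam)
    (hlt : C0 ^ 2 * T < lam * t) :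
    MA u (Sct Ω u B T) ≤ ENNReal.ofReal (lam ^ n) * MA u (Sct Ω u B t) := by
  have hlam0 : 0 < lam := by linarith
  rw [MA_eq_image h (isOpen_Sct h B T).measurableSet (fun x hx => hx.1),
    MA_eq_image h (isOpen_Sct h B t).measurableSet (fun x hx => hx.1)]
  set g := gradE u B with hg
  have hsub : gradE u '' Sct Ω u B T ⊆
      (AffineMap.homothety g lam) '' (gradE u '' Sct Ω u B t) := by
    rintro _ ⟨x, ⟨hxΩ, hxT⟩, rfl⟩
    set q := fderiv ℝ u x - fderiv ℝ u B with hq
    set f : EuclideanSpace ℝ (Fin n) → ℝ := fun y => dev u B y - lam⁻¹ * q (y - B) with hf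
    have hfid : ∀ y, f y = lam⁻¹ * (dev u x y - dev u x B) + (1 - lam⁻¹) * dev u B y := by
      intro y
      have h1 := dev_sub (u := u) B x y
      have h2 := dev_sub (u := u) B x B
      rw [← hq] at h1 h2
      have h3 : q (y - x) = q (y - B) + q (B - x) := by
        rw [← map_add]; congr 1; abel
      rw [h1, h2, h3, dev_self]
      simp only [hf]
      ring
    have hl1 : lam⁻¹ < 1 := inv_lt_one_of_one_lt₀ hlam
    have hl0 : 0 < lam⁻¹ := inv_pos.mpr hlam0
    have hfB : f B = 0 := by simp [hf]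
    -- minimiser
    set R : ℝ := lam⁻¹ * dev u x B / (1 - lam⁻¹) with hR
    set C := {y | y ∈ Ω ∧ u y ≤ u B + fderiv ℝ u B (y - B) + R} with hC
    have hCc : IsCompact C := hc B hB R
    have hR0 : 0 ≤ R := div_nonneg (mul_nonneg hl0.le (dev_nonneg h hxΩ hB)) (by linarith)
    have hBC : B ∈ C := ⟨hB, by simpa using hR0⟩
    have hfc : ContinuousOn f C :=
      ((continuousOn_dev h B).mono fun y hy => hy.1).sub (Continuous.continuousOn (by fun_prop))
    obtain ⟨y, hyC, hy⟩ := hCc.exists_isMinOn ⟨B, hBC⟩ hfc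
    have hyΩ : y ∈ Ω := hyC.1
    have hmin : ∀ y' ∈ Ω, f y ≤ f y' := by
      intro y' hy'
      by_cases hy'C : y' ∈ C
      · exact hy hy'C
      · have h1 : R < dev u B y' := by
          by_contra hcon
          push Not at hcon
          apply hy'C
          refine ⟨hy', ?_⟩
          unfold dev at hcon
          linarith
        have h2 : f y ≤ f B := hy hBC
        rw [hfB] at h2
        have h3 : 0 ≤ f y' := by
          rw [hfid]
          have h4 : 0 ≤ dev u x y' := dev_nonneg h hxΩ hy'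
          have h5 : lam⁻¹ * dev u x B ≤ (1 - lam⁻¹) * dev u B y' := by
            have : R * (1 - lam⁻¹) = lam⁻¹ * dev u x B := by
              rw [hR, div_mul_cancel₀]
              linarith
            nlinarith
          nlinarith
        linarith
    -- gradient at the minimiser
    have hder : HasFDerivAt f (fderiv ℝ u y - fderiv ℝ u B - lam⁻¹ • q) y := by
      have h1 : HasFDerivAt (fun y => dev u B y) (fderiv ℝ u y - fderiv ℝ u B) y := by
        unfold dev
        have h2 := (h.differentiableAt hyΩ).hasFDerivAt.sub_const (u B)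
        have h3 : HasFDerivAt (fun y => fderiv ℝ u B (y - B)) (fderiv ℝ u B) y := by
          have h4 : HasFDerivAt (fun y => fderiv ℝ u B (y - B))
              ((fderiv ℝ u B).comp (ContinuousLinearMap.id ℝ _)) y :=
            (fderiv ℝ u B).hasFDerivAt.comp y ((hasFDerivAt_id y).sub_const B)
          rwa [ContinuousLinearMap.comp_id] at h4
        exact h2.sub h3
      have h3 : HasFDerivAt (fun y => lam⁻¹ * q (y - B)) (lam⁻¹ • q) y := by
        have h4 : HasFDerivAt (fun y => lam⁻¹ * q (y - B))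
            (lam⁻¹ • (q.comp (ContinuousLinearMap.id ℝ _))) y :=
          (q.hasFDerivAt.comp y ((hasFDerivAt_id y).sub_const B)).const_mul lam⁻¹
        rwa [ContinuousLinearMap.comp_id] at h4
      exact h1.sub h3
    have hloc : IsLocalMin f y := by
      filter_upwards [h.isOpen.mem_nhds hyΩ] with y' hy' using hmin y' hy'
    have hzero := hloc.hasFDerivAt_eq_zero hder
    have hgrad : fderiv ℝ u y - fderiv ℝ u B = lam⁻¹ • q := by
      rw [sub_eq_zero] at hzero; exact hzero
    have hfy : f y = - dev u y B := by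
      have h1 := dev_add_dev (u := u) B y
      rw [hgrad] at h1
      simp only [hf]
      simp only [smul_apply, smul_eq_mul] at h1
      linarith
    have h2 : dev u y B ≤ lam⁻¹ * dev u x B := by
      have h3 := hfid y
      rw [hfy] at h3
      have h4 : 0 ≤ dev u x y := dev_nonneg h hxΩ hyΩ
      have h5 : 0 ≤ dev u B y := dev_nonneg h hB hyΩ
      nlinarith
    have h3 : dev u x B ≤ C0 * T := by
      have := hQ B hB x hxΩ
      nlinarith
    have h4 : dev u B y ≤ C0 * dev u y B := hQ y hyΩ B hB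
    have h5 : dev u B y < t := by
      have h6 : dev u B y ≤ C0 * (lam⁻¹ * (C0 * T)) := by
        refine h4.trans (mul_le_mul_of_nonneg_left (h2.trans ?_) (by linarith))
        exact mul_le_mul_of_nonneg_left h3 hl0.le
      have h7 : C0 * (lam⁻¹ * (C0 * T)) = lam⁻¹ * (C0 ^ 2 * T) := by ring
      have h8 : lam⁻¹ * (C0 ^ 2 * T) < lam⁻¹ * (lam * t) := mul_lt_mul_of_pos_left hlt hl0
      rw [inv_mul_cancel_left₀ hlam0.ne'] at h8
      linarith
    refine ⟨gradE u y, ⟨y, ⟨hyΩ, h5⟩, rfl⟩, ?_⟩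
    -- identify the gradients
    rw [AffineMap.homothety_apply]
    ext i
    have h6 := DFunLike.congr_fun hgrad (EuclideanSpace.single i 1)
    simp only [sub_apply, smul_apply, smul_eq_mul, hq] at h6
    have h7 : gradE u y i - gradE u B i = lam⁻¹ * (gradE u x i - gradE u B i) := h6
    have h8 : lam * (gradE u y i - gradE u B i) = gradE u x i - gradE u B i := by
      rw [h7, mul_inv_cancel_left₀ hlam0.ne']
    simp only [vsub_eq_sub, vadd_eq_add, PiLp.add_apply, PiLp.smul_apply, PiLp.sub_apply,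
      smul_eq_mul, hg]
    linarith
  refine (measure_mono hsub).trans ?_
  rw [Measure.addHaar_image_homothety]
  simp only [finrank_euclideanSpace, Fintype.card_fin]
  rw [abs_of_nonneg (by positivity)]

end Crest.Agent.R236.LS
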