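import Crest.Agent.R236.LS2

/-! Row 236, lemma LS (helper329), part 3: weak Harnack inequality in measure and Liouville. -/

set_option autoImplicit false
open scoped ContDiff Topology
open Crest.GeometryTopology.CoordMetric Crest.GeometryTopology.AffineMaximal
open Set Filter MeasureTheory

noncomputable section

namespace Crest.Agent.R236.LS

open Crest.Agent.R236.Sec Crest.Agent.R236.ABP

variable {n : ℕ} {Ω : Set (EuclideanSpace ℝ (Fin n))} {u v : EuclideanSpace ℝ (Fin n) → ℝ}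

/-- sublevel sets of `v` -/
def Vle (Ω : Set (EuclideanSpace ℝ (Fin n))) (v : EuclideanSpace ℝ (Fin n) → ℝ) (e : ℝ) :
    Set (EuclideanSpace ℝ (Fin n)) := {x | x ∈ Ω ∧ v x ≤ e}

lemma Vle_mono {e e' : ℝ} (hee : e ≤ e') : Vle Ω v e ⊆ Vle Ω v e' :=
  fun _ hx => ⟨hx.1, hx.2.trans hee⟩

lemma measurableSet_Vle (h : SC Ω u) (hvc : ContinuousOn v Ω) (e : ℝ) :
    MeasurableSet (Vle Ω v e) := by
  have h1 : MeasurableSet (Ω ∩ v ⁻¹' Ioi e) :=
    (hvc.isOpen_inter_preimage h.isOpen isOpen_Ioi).measurableSet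
  have : Vle Ω v e = Ω \ (Ω ∩ v ⁻¹' Ioi e) := by
    ext x
    simp only [Vle, mem_ofPred_eq, Set.mem_sdiff, mem_inter_iff, mem_preimage, mem_Ioi]
    constructor
    · intro hx
      exact ⟨hx.1, fun hh => absurd hh.2 (not_lt.mpr hx.2)⟩
    · intro hx
      refine ⟨hx.1, ?_⟩
      by_contra hcon
      push Not at hcon
      exact hx.2 ⟨hx.1, hcon⟩
  rw [this]
  exact h.isOpen.measurableSet.diff h1

/-- one step of the accounting -/
theorem step (hn : 0 < n) (h : SC Ω u) (hU : Ω = univ) (hc : CS Ω u) {C0 th : ℝ} (hth : 0 < th)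
    (hQ : QS Ω u C0) (hB : BAL Ω u th) (hC0 : 1 ≤ C0) (hv2 : ContDiffOn ℝ 2 v Ω)
    (hv : ∀ x ∈ Ω, 0 ≤ v x) (hL : ∀ x ∈ Ω, Lop u v x ≤ 0) {w ε : ℝ} (hw : 0 < w)
    (hε : 0 < ε) (hε1 : ε ≤ 1)
    (hlay : ∀ B z x : EuclideanSpace ℝ (Fin n), ∀ T : ℝ, 0 < T →
      dev u B z ≤ T → dev u z x ≤ ε * T → dev u B x ≤ (1 + w / 2) * T)
    {B x1 : EuclideanSpace ℝ (Fin n)} {t T η : ℝ} (ht : 0 < t)
    (hT : 3 * Cen C0 th ^ 2 * t ≤ T) (hx1 : dev u B x1 < t) (hη : 0 < η) (hvx1 : v x1 ≤ η / 2) :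
    MA u (Sct Ω u B t \ Vle Ω v (ε * η)) + MA u (Sct Ω u B T ∩ Vle Ω v (ε * η)) ≤
      MA u (Sct Ω u B T ∩ Vle Ω v η) + MA u (Sct Ω u B ((1 + w) * T) \ Sct Ω u B T) := by
  have mem : ∀ y, y ∈ Ω := fun y => by rw [hU]; exact mem_univ y
  have hC0' : 0 ≤ C0 := by linarith
  set C := Cen C0 th with hC
  have hC1 : 1 ≤ C := one_le_Cen hC0' hth
  have hCC0 : C0 ≤ C := C0_le_Cen hC0' hth
  have hT0 : 0 < T := by
    have : 0 < 3 * C ^ 2 * t := by positivity
    linarith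
  have h2CT : 2 * C * t ≤ T := by nlinarith [mul_pos (by linarith : 0 < C) ht]
  set K : ℝ := 2 * C * t / η with hK
  have hKpos : 0 < K := by positivity
  have hKη : K * η = 2 * C * t := by rw [hK]; field_simp
  have hmS : ∀ s, MeasurableSet (Sct Ω u B s) := fun s => (isOpen_Sct h B s).measurableSet
  have hmV : ∀ e, MeasurableSet (Vle Ω v e) := measurableSet_Vle h hv2.continuousOn
  have key : MA u (Sct Ω u B t ∪ (Sct Ω u B T ∩ Vle Ω v (ε * η))) ≤
      MA u (Sct Ω u B ((1 + w) * T) ∩ Vle Ω v η) := by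
    refine contact_le hn h hc hv2 hv hL hKpos ((hmS t).union ((hmS T).inter (hmV _)))
      (fun x _ => mem x) ((hmS _).inter (hmV _)) (fun x _ => mem x) ?_
    rintro z hz x hxΩ hmin
    rcases hz with hz | ⟨hz, hzV⟩
    · -- z in the small section
      have h1 := hmin x1 (mem x1)
      have h2 : dev u z x1 ≤ C * t :=
        engulf h hth hQ hB hC0' (mem B) (mem z) (mem x1) hz.2.le hx1.le
      have h3 : K * v x1 ≤ C * t := by
        have := mul_le_mul_of_nonneg_left hvx1 hKpos.le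
        have e : K * (η / 2) = C * t := by
          have : K * (η / 2) = K * η / 2 := by ring
          rw [this, hKη]; ring
        linarith
      have h4 : 0 ≤ dev u z x := dev_nonneg h (mem z) (mem x)
      have h5 : 0 ≤ K * v x := mul_nonneg hKpos.le (hv x (mem x))
      have h6 : dev u z x ≤ 2 * C * t := by linarith
      have h7 : K * v x ≤ K * η := by rw [hKη]; linarith
      have h8 : v x ≤ η := le_of_mul_le_mul_left h7 hKpos
      have h9 : dev u B x ≤ C * (2 * C * t) :=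
        engulf2 h hth hQ hB hC0' (mem B) (mem z) (mem x) hz.2.le
          (by nlinarith) h6
      refine ⟨⟨mem x, ?_⟩, mem x, h8⟩
      have h10 : C * (2 * C * t) < 3 * C ^ 2 * t := by nlinarith [mul_pos (mul_pos (by linarith : 0 < C) (by linarith : 0 < C)) ht]
      have h11 : T ≤ (1 + w) * T := by nlinarith
      linarith
    · have h1 := hmin z (mem z)
      rw [dev_self, zero_add] at h1
      have h4 : 0 ≤ dev u z x := dev_nonneg h (mem z) (mem x)
      have h5 : 0 ≤ K * v x := mul_nonneg hKpos.le (hv x (mem x))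
      have h6 : K * v z ≤ K * (ε * η) := mul_le_mul_of_nonneg_left hzV.2 hKpos.le
      have h7 : K * (ε * η) = ε * (2 * C * t) := by rw [← hKη]; ring
      have h8 : ε * (2 * C * t) ≤ ε * T := mul_le_mul_of_nonneg_left h2CT hε.le
      have h9 : dev u z x ≤ ε * T := by linarith
      have h10 := hlay B z x T hT0 hz.2.le h9
      have h11 : K * v x ≤ K * v z := by linarith
      have h12 : v x ≤ v z := le_of_mul_le_mul_left h11 hKpos
      have h13 : ε * η ≤ η := by nlinarith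
      refine ⟨⟨mem x, ?_⟩, mem x, (h12.trans hzV.2).trans h13⟩
      have : (1 + w / 2) * T < (1 + w) * T := by nlinarith
      linarith
  have hdisj : Disjoint (Sct Ω u B t \ Vle Ω v (ε * η)) (Sct Ω u B T ∩ Vle Ω v (ε * η)) := by
    rw [Set.disjoint_left]
    intro x hx hx'
    exact hx.2 hx'.2
  calc MA u (Sct Ω u B t \ Vle Ω v (ε * η)) + MA u (Sct Ω u B T ∩ Vle Ω v (ε * η))
      = MA u ((Sct Ω u B t \ Vle Ω v (ε * η)) ∪ (Sct Ω u B T ∩ Vle Ω v (ε * η))) :=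
        (MA_union_disjoint ((hmS T).inter (hmV _)) hdisj).symm
    _ ≤ MA u (Sct Ω u B t ∪ (Sct Ω u B T ∩ Vle Ω v (ε * η))) :=
        MA_mono (union_subset_union_left _ sdiff_subset)
    _ ≤ MA u (Sct Ω u B ((1 + w) * T) ∩ Vle Ω v η) := key
    _ ≤ MA u ((Sct Ω u B T ∩ Vle Ω v η) ∪ (Sct Ω u B ((1 + w) * T) \ Sct Ω u B T)) := by
        refine MA_mono ?_
        intro x hx
        by_cases hxT : x ∈ Sct Ω u B T
        · exact Or.inl ⟨hxT, hx.2⟩
        · exact Or.inr ⟨hx.1, hxT⟩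
    _ ≤ _ := MA_union_le _ _

/-- iterated accounting -/
theorem steps (hn : 0 < n) (h : SC Ω u) (hU : Ω = univ) (hc : CS Ω u) {C0 th : ℝ} (hth : 0 < th)
    (hQ : QS Ω u C0) (hB : BAL Ω u th) (hC0 : 1 ≤ C0) (hv2 : ContDiffOn ℝ 2 v Ω)
    (hv : ∀ x ∈ Ω, 0 ≤ v x) (hL : ∀ x ∈ Ω, Lop u v x ≤ 0) {w ε : ℝ} (hw : 0 < w)
    (hε : 0 < ε) (hε1 : ε ≤ 1)
    (hlay : ∀ B z x : EuclideanSpace ℝ (Fin n), ∀ T : ℝ, 0 < T →
      dev u B z ≤ T → dev u z x ≤ ε * T → dev u B x ≤ (1 + w / 2) * T)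
    {B x1 : EuclideanSpace ℝ (Fin n)} {t T : ℝ} (ht : 0 < t)
    (hT : 3 * Cen C0 th ^ 2 * t ≤ T) (hx1 : dev u B x1 < t) (N : ℕ) (hvx1 : v x1 ≤ ε ^ N / 2) :
    ∀ k : ℕ, k ≤ N → (k : ENNReal) * MA u (Sct Ω u B t \ Vle Ω v 1)
      + MA u (Sct Ω u B T ∩ Vle Ω v (ε ^ k)) ≤
      MA u (Sct Ω u B T ∩ Vle Ω v 1)
        + (k : ENNReal) * MA u (Sct Ω u B ((1 + w) * T) \ Sct Ω u B T) := by
  intro k
  induction k with
  | zero =>
    intro _
    simp
  | succ k ih =>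
    intro hk
    have ihk := ih (by omega)
    have hpow : ε ^ N ≤ ε ^ k := pow_le_pow_of_le_one hε.le hε1 (by omega)
    have hs := step hn h hU hc hth hQ hB hC0 hv2 hv hL hw hε hε1 hlay ht hT hx1
      (η := ε ^ k) (by positivity) (by linarith)
    have e1 : ε * ε ^ k = ε ^ (k + 1) := by ring
    rw [e1] at hs
    have h1 : MA u (Sct Ω u B t \ Vle Ω v 1) ≤ MA u (Sct Ω u B t \ Vle Ω v (ε ^ (k + 1))) := by
      refine MA_mono (sdiff_subset_sdiff_right (Vle_mono ?_))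
      exact pow_le_one₀ hε.le hε1
    set a := MA u (Sct Ω u B t \ Vle Ω v 1)
    set L := MA u (Sct Ω u B ((1 + w) * T) \ Sct Ω u B T)
    set m := MA u (Sct Ω u B T ∩ Vle Ω v (ε ^ k))
    set m' := MA u (Sct Ω u B T ∩ Vle Ω v (ε ^ (k + 1)))
    have h2 : a + m' ≤ m + L := (add_le_add_left h1 m').trans hs
    push_cast
    calc ((k : ENNReal) + 1) * a + m' = (k : ENNReal) * a + (a + m') := by ring
      _ ≤ (k : ENNReal) * a + (m + L) := add_le_add_right h2 _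
      _ = ((k : ENNReal) * a + m) + L := by ring
      _ ≤ (MA u (Sct Ω u B T ∩ Vle Ω v 1) + (k : ENNReal) * L) + L := add_le_add_left ihk _
      _ = _ := by ring

/-- pigeonhole for the layers -/
theorem exists_layer (h : SC Ω u) {w : ℝ} (hw : 0 < w) {B : EuclideanSpace ℝ (Fin n)} {T1 : ℝ}
    (hT1 : 0 < T1) {P : ℕ} (hP : 0 < P) :
    ∃ k : ℕ, k < P ∧ (P : ENNReal) *
      MA u (Sct Ω u B ((1 + w) * ((1 + w) ^ k * T1)) \ Sct Ω u B ((1 + w) ^ k * T1)) ≤
        MA u (Sct Ω u B ((1 + w) ^ P * T1)) := by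
  set L : ℕ → ENNReal := fun k =>
    MA u (Sct Ω u B ((1 + w) * ((1 + w) ^ k * T1)) \ Sct Ω u B ((1 + w) ^ k * T1)) with hL
  have hsum : ∀ P : ℕ, ∑ k ∈ Finset.range P, L k ≤ MA u (Sct Ω u B ((1 + w) ^ P * T1)) := by
    intro P
    induction P with
    | zero => simp
    | succ P ih =>
      rw [Finset.sum_range_succ]
      have e : (1 + w) ^ (P + 1) * T1 = (1 + w) * ((1 + w) ^ P * T1) := by ring
      have hle : (1 + w) ^ P * T1 ≤ (1 + w) * ((1 + w) ^ P * T1) := by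
        have : 0 < (1 + w) ^ P * T1 := by positivity
        nlinarith
      calc ∑ k ∈ Finset.range P, L k + L P
          ≤ MA u (Sct Ω u B ((1 + w) ^ P * T1)) + L P := add_le_add_left ih _
        _ = MA u (Sct Ω u B ((1 + w) ^ P * T1) ∪
              (Sct Ω u B ((1 + w) * ((1 + w) ^ P * T1)) \ Sct Ω u B ((1 + w) ^ P * T1))) := by
            rw [MA_union_disjoint (((isOpen_Sct h B _).measurableSet).diff
              ((isOpen_Sct h B _).measurableSet)) disjoint_sdiff_right]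
        _ = MA u (Sct Ω u B ((1 + w) ^ (P + 1) * T1)) := by
            rw [e, union_sdiff_cancel (Sct_mono hle)]
  obtain ⟨k, hk, hkmin⟩ := Finset.exists_min_image (Finset.range P) L
    (Finset.nonempty_range_iff.mpr hP.ne')
  refine ⟨k, Finset.mem_range.mp hk, ?_⟩
  have h1 := Finset.card_nsmul_le_sum (Finset.range P) L (L k) hkmin
  rw [Finset.card_range, nsmul_eq_mul] at h1
  exact h1.trans (hsum P)

/-- **Weak Harnack inequality in (Monge-Ampere) measure.** -/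
theorem weak_harnack (hn : 0 < n) (h : SC Ω u) (hU : Ω = univ) (hc : CS Ω u) {C0 th : ℝ}
    (hth : 0 < th) (hQ : QS Ω u C0) (hB : BAL Ω u th) (hC0 : 1 ≤ C0) {δ : ℝ} (hδ : 0 < δ) :
    ∃ ε : ℝ, 0 < ε ∧ ∀ v : EuclideanSpace ℝ (Fin n) → ℝ, ContDiffOn ℝ 2 v Ω →
      (∀ x ∈ Ω, 0 ≤ v x) → (∀ x ∈ Ω, Lop u v x ≤ 0) →
      ∀ (B x1 : EuclideanSpace ℝ (Fin n)) (t : ℝ), 0 < t → dev u B x1 < t → v x1 ≤ ε →
        MA u (Sct Ω u B t \ Vle Ω v 1) ≤ ENNReal.ofReal δ * MA u (Sct Ω u B t) := by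
  have mem : ∀ y, y ∈ Ω := fun y => by rw [hU]; exact mem_univ y
  have hC0' : 0 ≤ C0 := by linarith
  set C := Cen C0 th with hC
  have hC1 : 1 ≤ C := one_le_Cen hC0' hth
  set lam : ℝ := 9 * C0 ^ 2 * C ^ 2 + 1 with hlam
  have hlam1 : 1 < lam := by
    have : 0 < 9 * C0 ^ 2 * C ^ 2 := by positivity
    linarith
  obtain ⟨N, hN⟩ := exists_nat_gt (2 * lam ^ n / δ)
  have hlamn : 0 < lam ^ n := by positivity
  have hN0 : (0 : ℝ) < N := lt_of_le_of_lt (by positivity) hN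
  have hN0' : 0 < N := by exact_mod_cast hN0
  set w : ℝ := 1 / N with hw
  have hw0 : 0 < w := by positivity
  obtain ⟨ε, hε, hε1, hlay⟩ := layer h hU hth hQ hB hC0 (w := w / 2) (by positivity)
  refine ⟨ε ^ N / 2, by positivity, ?_⟩
  intro v hv2 hv hL B x1 t ht hx1 hvx1
  set T1 : ℝ := 3 * C ^ 2 * t with hT1
  have hT10 : 0 < T1 := by positivity
  obtain ⟨k, hk, hlayk⟩ := exists_layer h hw0 (B := B) hT10 hN0'
  set T : ℝ := (1 + w) ^ k * T1 with hT
  have hw1 : 1 ≤ 1 + w := by linarith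
  have hTT1 : T1 ≤ T := by
    have : 1 ≤ (1 + w) ^ k := one_le_pow₀ hw1
    nlinarith
  have hst := steps hn h hU hc hth hQ hB hC0 hv2 hv hL hw0 hε hε1 hlay ht hTT1 hx1 N hvx1 N le_rfl
  have hexp : (1 + w) ^ N ≤ 3 := by
    have h1 : 1 + w ≤ Real.exp w := by linarith [Real.add_one_le_exp w]
    have h2 : (1 + w) ^ N ≤ Real.exp w ^ N := pow_le_pow_left₀ (by linarith) h1 N
    rw [← Real.exp_nat_mul] at h2
    have h3 : (N : ℝ) * w = 1 := by rw [hw]; field_simp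
    rw [h3] at h2
    linarith [Real.exp_one_lt_d9]
  have hTN : (1 + w) ^ N * T1 ≤ 3 * T1 := by nlinarith
  have hTN' : T ≤ 3 * T1 := by
    have : (1 + w) ^ k ≤ (1 + w) ^ N := pow_le_pow_right₀ hw1 hk.le
    rw [hT]
    nlinarith
  set M := MA u (Sct Ω u B (3 * T1)) with hM
  set a := MA u (Sct Ω u B t \ Vle Ω v 1) with ha
  have h1 : (N : ENNReal) * a ≤ M + M := by
    calc (N : ENNReal) * a ≤ (N : ENNReal) * a + MA u (Sct Ω u B T ∩ Vle Ω v (ε ^ N)) :=
          le_self_add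
      _ ≤ MA u (Sct Ω u B T ∩ Vle Ω v 1)
          + (N : ENNReal) * MA u (Sct Ω u B ((1 + w) * T) \ Sct Ω u B T) := hst
      _ ≤ M + M := by
          refine add_le_add (MA_mono (inter_subset_left.trans (Sct_mono hTN'))) ?_
          exact hlayk.trans (MA_mono (Sct_mono hTN))
  have h2 : M ≤ ENNReal.ofReal (lam ^ n) * MA u (Sct Ω u B t) := by
    refine doubling h hc hQ hC0 (mem B) (by positivity) hlam1 ?_
    rw [hlam, hT1]
    nlinarith
  have hfin : MA u (Sct Ω u B t) ≠ ⊤ := (MA_Sct_lt_top h hc (mem B) t).ne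
  have h3 : (N : ENNReal) * a ≤ ENNReal.ofReal (2 * lam ^ n) * MA u (Sct Ω u B t) := by
    refine h1.trans ?_
    calc M + M ≤ ENNReal.ofReal (lam ^ n) * MA u (Sct Ω u B t)
          + ENNReal.ofReal (lam ^ n) * MA u (Sct Ω u B t) := add_le_add h2 h2
      _ = ENNReal.ofReal (2 * lam ^ n) * MA u (Sct Ω u B t) := by
          rw [ENNReal.ofReal_mul (by norm_num), ENNReal.ofReal_ofNat]
          ring
  have h4 : ENNReal.ofReal (2 * lam ^ n) ≤ ENNReal.ofReal δ * N := by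
    have : ENNReal.ofReal δ * N = ENNReal.ofReal (δ * N) := by
      rw [ENNReal.ofReal_mul hδ.le, ENNReal.ofReal_natCast]
    rw [this]
    refine ENNReal.ofReal_le_ofReal ?_
    rw [div_lt_iff₀ hδ] at hN
    linarith
  have h5 : (N : ENNReal) * a ≤ (N : ENNReal) * (ENNReal.ofReal δ * MA u (Sct Ω u B t)) := by
    refine h3.trans ?_
    calc ENNReal.ofReal (2 * lam ^ n) * MA u (Sct Ω u B t)
        ≤ (ENNReal.ofReal δ * N) * MA u (Sct Ω u B t) := mul_le_mul_left h4 _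
      _ = _ := by ring
  exact (ENNReal.mul_le_mul_iff_right (by exact_mod_cast hN0'.ne') (ENNReal.natCast_ne_top N)).mp h5

end Crest.Agent.R236.LS
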