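import Crest.Agent.R236.SecNorm
import Crest.Agent.R236.CalcA

/-! Row 236: Liouville theorem for `detPower`: the determinant is constant (helper202). -/

set_option autoImplicit false
open scoped ContDiff Topology
open Crest.GeometryTopology.CoordMetric Crest.GeometryTopology.AffineMaximal
open Set Filter MeasureTheory

noncomputable section

namespace Crest.Agent.R236.Sec

variable {n : ℕ} {u : EuclideanSpace ℝ (Fin n) → ℝ}

lemma norm_eq_aff (L : EuclideanSpace ℝ (Fin n) ≃L[ℝ] EuclideanSpace ℝ (Fin n))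
    (x₀ : EuclideanSpace ℝ (Fin n)) (R : ℝ) : (fun y => dev u x₀ (L y + x₀) / R) =
      Inv.aff L x₀ (1 / R) (-(1 / R) • (fderiv ℝ u x₀).comp
        (L : EuclideanSpace ℝ (Fin n) →L[ℝ] EuclideanSpace ℝ (Fin n)))
        (-(1 / R) * u x₀) u := by
  funext y
  simp only [dev, Inv.aff, add_sub_cancel_right, smul_apply,
    ContinuousLinearMap.comp_apply, ContinuousLinearEquiv.coe_coe, smul_eq_mul]
  ring

lemma hess_add_mul {f : EuclideanSpace ℝ (Fin n) → ℝ} (hf : ContDiff ℝ ∞ f) (a c : ℝ)
    (x : EuclideanSpace ℝ (Fin n)) (i j : Fin n) :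
    hessianMat (fun z => a + c * f z) x i j = c * hessianMat f x i j := by
  have hd : ∀ y, DifferentiableAt ℝ f y := fun y => hf.contDiffAt.differentiableAt (by simp)
  have h1 : (fun y => pderiv j (fun z => a + c * f z) y) = fun y => c * pderiv j f y := by
    funext y
    unfold pderiv
    rw [fderiv_const_add, fderiv_const_mul (hd y)]
    simp
  unfold hessianMat
  rw [h1]
  have hd2 : DifferentiableAt ℝ (fun y => pderiv j f y) x := by
    unfold pderiv
    have : ContDiff ℝ ∞ (fderiv ℝ f) := hf.fderiv_right (m := ∞) (by simp)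
    exact ((this.clm_apply contDiff_const).contDiffAt).differentiableAt (by simp)
  unfold pderiv at hd2 ⊢
  rw [fderiv_const_mul hd2]
  simp

section
variable (hn : 0 < n) (hU : DetUpper n) (hL : DetLower n)

/-- common normalisation data at the origin -/
lemma norm_data (hn : 0 < n) (hU : DetUpper n) (hL : DetLower n) (h : SC univ u)
    (hp : PDE univ u) {C0 th : ℝ} (hC0 : 0 < C0)
    (hQ : QS univ u C0) (hth : 0 < th) (hB : BAL univ u th) (hsec : HSec univ u)
    {R : ℝ} (hR : 0 < R) :
    ∃ (L : EuclideanSpace ℝ (Fin n) ≃L[ℝ] EuclideanSpace ℝ (Fin n)) (q κ : ℝ), 0 < q ∧ 0 < κ ∧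
      NSec n (min th 1 / n) (Pre.lamC n (min th 1 / n) C0) (Pre.LamC n (min th 1 / n) C0)
        (UU (min th 1 / n) C0 3) (fun y => dev u 0 (L y) / R) ∧
      PDE univ (fun y => dev u 0 (L y) / R) ∧
      (∀ y, (hessianMat (fun y => dev u 0 (L y) / R) y).det = q * (hessianMat u (L y)).det) ∧
      (∀ y, detPower n (fun y => dev u 0 (L y) / R) y = κ * detPower n u (L y)) := by
  obtain ⟨L, hPre⟩ := exists_normalise hn h hp hQ hth hB hsec 0 hR
  have hr : 0 < min th 1 / n := div_pos (lt_min hth one_pos) (by exact_mod_cast hn)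
  have hNS := hPre.nsec hr hC0 hU hL
  have hR' : 0 < 1 / R := by positivity
  have hpd := hPre.pde
  simp only [add_zero] at hNS hpd
  have haff := norm_eq_aff (u := u) L 0 R
  simp only [add_zero] at haff
  refine ⟨L, _, Inv.kap L (1 / R), Inv.kap_base_pos L (1 / R) hR', Inv.kap_pos L (1 / R) hR',
    hNS, hpd, ?_, ?_⟩
  · intro y
    rw [haff]
    have := Inv.det_hessianMat_aff L 0 (1 / R) (-(1 / R) • (fderiv ℝ u 0).comp
        (L : EuclideanSpace ℝ (Fin n) →L[ℝ] EuclideanSpace ℝ (Fin n)))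
        (-(1 / R) * u 0) (u := u) (y := y)
        ((h.contDiffAt (mem_univ _)).of_le Inv.two_le)
    rw [this, add_zero]
  · intro y
    rw [haff]
    have := Inv.detPower_aff L 0 (1 / R) (-(1 / R) • (fderiv ℝ u 0).comp
        (L : EuclideanSpace ℝ (Fin n) →L[ℝ] EuclideanSpace ℝ (Fin n)))
        (-(1 / R) * u 0) (u := u) (y := y)
        ((h.contDiffAt (mem_univ _)).of_le Inv.two_le) hR' (h.posDef _ (mem_univ _))
    rw [this, add_zero]

/-- `detPower` is bounded above -/
lemma detPower_bdd (hn : 0 < n) (hU : DetUpper n) (hL : DetLower n) (h : SC univ u)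
    (hp : PDE univ u) {C0 th : ℝ} (hC0 : 0 < C0)
    (hQ : QS univ u C0) (hth : 0 < th) (hB : BAL univ u th) (hsec : HSec univ u) :
    ∃ M, ∀ y, detPower n u y ≤ M := by
  set lam := Pre.lamC n (min th 1 / n) C0
  set Lam := Pre.LamC n (min th 1 / n) C0
  have hlam : 0 < lam := Pre.lamC_pos _ _ _
  have hLam : 0 < Lam := Pre.LamC_pos _ _ _
  have hD0 : 0 < (hessianMat u 0).det := (h.posDef 0 (mem_univ _)).det_pos
  refine ⟨(lam * (hessianMat u 0).det / Lam) ^ (-((n : ℝ) + 1) / ((n : ℝ) + 2)), fun y => ?_⟩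
  set R := max (dev u 0 y) 1 with hRdef
  have hR : 0 < R := lt_max_of_lt_right one_pos
  obtain ⟨L, q, κ, hq, -, hNS, -, hdet, -⟩ := norm_data hn hU hL h hp hC0 hQ hth hB hsec hR
  have h1 := hNS.det_ge (L.symm y) (by
    simp only [ContinuousLinearEquiv.apply_symm_apply]
    rw [div_le_iff₀ hR]
    have : dev u 0 y ≤ R := le_max_left _ _
    linarith)
  have h2 := hNS.det_le 0 (by simp)
  rw [hdet] at h1 h2
  rw [ContinuousLinearEquiv.apply_symm_apply] at h1
  rw [map_zero] at h2
  unfold detPower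
  apply Real.rpow_le_rpow_of_nonpos (by positivity)
  · rw [div_le_iff₀ hLam]
    have hDy : 0 < (hessianMat u y).det := (h.posDef y (mem_univ _)).det_pos
    have e1 : lam * (q * (hessianMat u 0).det) ≤ (q * (hessianMat u y).det) * Lam :=
      mul_le_mul h1 h2 (by positivity) (by positivity)
    have e2 : q * (lam * (hessianMat u 0).det) ≤ q * ((hessianMat u y).det * Lam) := by
      linarith
    exact le_of_mul_le_mul_left e2 hq
  · have : (0:ℝ) ≤ n := Nat.cast_nonneg n
    apply div_nonpos_of_nonpos_of_nonneg <;> linarith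

/-- **Liouville.** `detPower` is constant. -/
theorem detPower_const (hn : 0 < n) (hU : DetUpper n) (hL : DetLower n) (hWH : WHStmt n)
    (h : SC univ u) (hp : PDE univ u) {C0 th : ℝ} (hC0 : 0 < C0)
    (hQ : QS univ u C0) (hth : 0 < th) (hB : BAL univ u th) (hsec : HSec univ u) :
    ∀ x y, detPower n u x = detPower n u y := by
  obtain ⟨M, hM⟩ := detPower_bdd hn hU hL h hp hC0 hQ hth hB hsec
  set w := detPower n u with hw
  have hwpos : ∀ x, 0 < w x := fun x =>
    Real.rpow_pos_of_pos (h.posDef x (mem_univ _)).det_pos _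
  set r := min th 1 / n with hr
  have hr0 : 0 < r := div_pos (lt_min hth one_pos) (by exact_mod_cast hn)
  obtain ⟨C, hC, hCH⟩ := hWH r (Pre.lamC n r C0) (Pre.LamC n r C0) (UU r C0 3) hr0
    (Pre.lamC_pos _ _ _) (Pre.LamC_pos _ _ _) (UU_pos _ _ _)
  have hbA : BddAbove (range w) := ⟨M, by rintro _ ⟨y, rfl⟩; exact hM y⟩
  have hbB : BddBelow (range w) := ⟨0, by rintro _ ⟨y, rfl⟩; exact (hwpos y).le⟩
  have hne : (range w).Nonempty := ⟨w 0, mem_range_self _⟩
  set W := sSup (range w) with hWdef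
  set m := sInf (range w) with hmdef
  have hleW : ∀ x, w x ≤ W := fun x => le_csSup hbA (mem_range_self x)
  have hlem : ∀ x, m ≤ w x := fun x => csInf_le hbB (mem_range_self x)
  suffices hWm : W ≤ m by
    intro x y
    have := hleW x; have := hleW y; have := hlem x; have := hlem y
    linarith
  by_contra hcon
  push Not at hcon
  set d := (W - m) / 2 with hd
  have hd0 : 0 < d := by rw [hd]; linarith
  set V0 := (volume (Metric.closedBall (0 : EuclideanSpace ℝ (Fin n)) (r / 4))).toReal with hV0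
  have hV0pos : 0 < V0 := by
    apply ENNReal.toReal_pos
    · have : 0 < volume (Metric.closedBall (0 : EuclideanSpace ℝ (Fin n)) (r / 4)) :=
        Metric.measure_closedBall_pos _ _ (by positivity)
      exact this.ne'
    · exact measure_closedBall_lt_top.ne
  -- choice of ε
  set ε := d / 8 * Real.exp (-(2 * C / V0 + 1)) with hε
  have hε0 : 0 < ε := by positivity
  have hεd : 8 * ε < d := by
    have : Real.exp (-(2 * C / V0 + 1)) < 1 := by
      rw [Real.exp_lt_one_iff]
      have : 0 < 2 * C / V0 := by positivity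
      linarith
    rw [hε]; nlinarith
  have hlog : Real.log (d / (4 * (2 * ε))) = 2 * C / V0 + 1 := by
    have : d / (4 * (2 * ε)) = Real.exp (2 * C / V0 + 1) := by
      rw [hε, Real.exp_neg]
      field_simp
      norm_num
    rw [this, Real.log_exp]
  obtain ⟨_, ⟨x₁, rfl⟩, hx₁⟩ := exists_lt_of_lt_csSup hne (show W - ε < sSup (range w) by
    rw [← hWdef]; linarith)
  obtain ⟨_, ⟨x₂, rfl⟩, hx₂⟩ := exists_lt_of_csInf_lt hne (show sInf (range w) < m + ε by
    rw [← hmdef]; linarith)
  set R := 2 * max (max (dev u 0 x₁) (dev u 0 x₂)) 1 with hRdef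
  have hR : 0 < R := by
    have : (0:ℝ) < max (max (dev u 0 x₁) (dev u 0 x₂)) 1 := lt_max_of_lt_right one_pos
    linarith
  obtain ⟨L, q, κ, hq, hκ, hNS, hpde, hdet, hdp⟩ := norm_data hn hU hL h hp hC0 hQ hth hB hsec hR
  set v := fun y => dev u 0 (L y) / R with hv
  have hz₁ : v (L.symm x₁) ≤ 1 / 2 := by
    simp only [hv, ContinuousLinearEquiv.apply_symm_apply]
    rw [div_le_iff₀ hR]
    have : dev u 0 x₁ ≤ max (max (dev u 0 x₁) (dev u 0 x₂)) 1 :=
      (le_max_left _ _).trans (le_max_left _ _)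
    linarith
  have hz₂ : v (L.symm x₂) ≤ 1 / 2 := by
    simp only [hv, ContinuousLinearEquiv.apply_symm_apply]
    rw [div_le_iff₀ hR]
    have : dev u 0 x₂ ≤ max (max (dev u 0 x₁) (dev u 0 x₂)) 1 :=
      (le_max_right _ _).trans (le_max_left _ _)
    linarith
  set f := detPower n v with hf
  have hfw : ∀ y, κ⁻¹ * f y = w (L y) := by
    intro y
    rw [hdp, ← mul_assoc, inv_mul_cancel₀ hκ.ne', one_mul]
  have hfs : ContDiff ℝ ∞ f := by
    rw [← contDiffOn_univ]
    intro x _
    exact (Inv.contDiffAt_detPower (hNS.sc.contDiffAt (mem_univ x))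
      (hNS.sc.posDef x (mem_univ _))).contDiffWithinAt
  have hop : ∀ x, ∑ i, ∑ j, (hessianMat v x).adjugate i j * hessianMat f x i j = 0 := by
    intro x
    have h1 := hpde x (mem_univ _)
    unfold affineMaximalOp at h1
    rw [← h1]
    refine Finset.sum_congr rfl fun i _ => Finset.sum_congr rfl fun j _ => ?_
    congr 1
    have hdet0 : (hessianMat v x).det ≠ 0 := (hNS.sc.posDef x (mem_univ _)).det_pos.ne'
    rw [Matrix.inv_def, Matrix.smul_apply, smul_eq_mul, Ring.inverse_eq_inv', ← mul_assoc,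
      mul_inv_cancel₀ hdet0, one_mul]
  have hopv : ∀ a c : ℝ, ∀ x, ∑ i, ∑ j, (hessianMat v x).adjugate i j *
      hessianMat (fun z => a + c * f z) x i j ≤ 0 := by
    intro a c x
    have h1 : ∑ i, ∑ j, (hessianMat v x).adjugate i j *
      hessianMat (fun z => a + c * f z) x i j = c * ∑ i, ∑ j, (hessianMat v x).adjugate i j *
        hessianMat f x i j := by
      rw [Finset.mul_sum]
      refine Finset.sum_congr rfl fun i _ => ?_
      rw [Finset.mul_sum]
      refine Finset.sum_congr rfl fun j _ => ?_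
      rw [hess_add_mul hfs]
      ring
    rw [h1, hop, mul_zero]
  -- first function
  have k1 := hCH v hNS (fun z => (W + ε) + (-κ⁻¹) * f z)
    (contDiff_const.add (contDiff_const.mul hfs)) (fun x => by
      have := hfw x
      have := hleW (L x)
      nlinarith) (fun x _ => hopv _ _ x) (L.symm x₁) hz₁ (2 * ε) d (by positivity) (by
      have e := hfw (L.symm x₁)
      rw [ContinuousLinearEquiv.apply_symm_apply] at e
      rw [neg_mul, e]
      linarith) (by linarith)
  have k2 := hCH v hNS (fun z => (ε - m) + κ⁻¹ * f z)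
    (contDiff_const.add (contDiff_const.mul hfs)) (fun x => by
      have := hfw x
      have := hlem (L x)
      linarith) (fun x _ => hopv _ _ x) (L.symm x₂) hz₂ (2 * ε) d (by positivity) (by
      have e := hfw (L.symm x₂)
      rw [ContinuousLinearEquiv.apply_symm_apply] at e
      rw [e]
      linarith) (by linarith)
  rw [hlog] at k1 k2
  set S1 := {x | v x ≤ 1 / 2 ∧ d ≤ (W + ε) + (-κ⁻¹) * f x} with hS1
  set S2 := {x | v x ≤ 1 / 2 ∧ d ≤ (ε - m) + κ⁻¹ * f x} with hS2
  have hfin : ∀ S : Set (EuclideanSpace ℝ (Fin n)), S ⊆ {x | v x ≤ 1 / 2} → volume S ≠ ⊤ := by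
    intro S hS
    have : S ⊆ Metric.closedBall 0 1 := by
      intro x hx
      rw [mem_closedBall_zero_iff]
      have hx' : v x ≤ 1 / 2 := hS hx
      exact hNS.bdd x (by linarith)
    exact ((measure_mono this).trans_lt measure_closedBall_lt_top).ne
  have hcover : Metric.closedBall (0 : EuclideanSpace ℝ (Fin n)) (r / 4) ⊆ S1 ∪ S2 := by
    intro x hx
    rw [mem_closedBall_zero_iff] at hx
    have hx2 : v x ≤ 1 / 2 := by
      have h1 := hNS.sc.convex_comb_le (x := 0) (y := (4:ℝ) • x) (mem_univ _) (mem_univ _)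
        (t := 1 / 4) (by norm_num) (by norm_num)
      rw [hNS.zero, zero_add, sub_zero, smul_smul] at h1
      have h2 := hNS.ball ((4:ℝ) • x) (by
        rw [norm_smul, Real.norm_of_nonneg (by norm_num)]; linarith)
      norm_num at h1
      linarith
    by_cases hc : d ≤ (W + ε) + (-κ⁻¹) * f x
    · exact Or.inl ⟨hx2, hc⟩
    · right
      refine ⟨hx2, ?_⟩
      push Not at hc
      have e := hfw x
      rw [neg_mul, e] at hc
      rw [e]
      rw [hd] at hc ⊢
      linarith
  have hvol : V0 ≤ (volume S1).toReal + (volume S2).toReal := by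
    have h1 : volume (Metric.closedBall (0 : EuclideanSpace ℝ (Fin n)) (r / 4)) ≤
        volume S1 + volume S2 := (measure_mono hcover).trans (measure_union_le _ _)
    have f1 := hfin S1 (fun x hx => hx.1)
    have f2 := hfin S2 (fun x hx => hx.1)
    rw [hV0, ← ENNReal.toReal_add f1 f2]
    exact ENNReal.toReal_mono (ENNReal.add_ne_top.mpr ⟨f1, f2⟩) h1
  have hpos : 0 < 2 * C / V0 + 1 := by positivity
  have hfinal : V0 * (2 * C / V0 + 1) ≤ 2 * C := by
    calc V0 * (2 * C / V0 + 1) ≤ ((volume S1).toReal + (volume S2).toReal) * (2 * C / V0 + 1) :=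
          mul_le_mul_of_nonneg_right hvol hpos.le
      _ ≤ 2 * C := by linarith
  have : V0 * (2 * C / V0 + 1) = 2 * C + V0 := by field_simp
  linarith

/-- **The determinant is constant.** -/
theorem det_const {Ω : Set (EuclideanSpace ℝ (Fin n))} (hn : 0 < n) (hU : DetUpper n)
    (hL : DetLower n) (hWH : WHStmt n) (h : SC Ω u) (hne : Ω.Nonempty) (hp : PDE Ω u)
    {C0 th : ℝ} (hC0 : 0 < C0)
    (hQ : QS Ω u C0) (hth : 0 < th) (hB : BAL Ω u th) (hsec : HSec Ω u) :
    Ω = univ ∧ ∃ c : ℝ, ∀ x, (hessianMat u x).det = c := by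
  have hΩ : Ω = univ := eq_univ h hne hQ hsec
  subst hΩ
  refine ⟨rfl, (hessianMat u 0).det, fun x => ?_⟩
  have h1 := detPower_const hn hU hL hWH h hp hC0 hQ hth hB hsec x 0
  unfold detPower at h1
  have hx : 0 < (hessianMat u x).det := (h.posDef x (mem_univ _)).det_pos
  have h0 : 0 < (hessianMat u 0).det := (h.posDef 0 (mem_univ _)).det_pos
  have hexp : -((n : ℝ) + 1) / ((n : ℝ) + 2) ≠ 0 := by
    have : (0:ℝ) ≤ n := Nat.cast_nonneg n
    apply div_ne_zero
    · apply ne_of_lt; linarith
    · apply ne_of_gt; linarith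
  exact (Real.rpow_left_inj hx.le h0.le hexp).mp h1

end

end Crest.Agent.R236.Sec
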