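import Mathlib
import Crest.Agent.R236.BmassF
import Crest.Agent.R236.BVolF
import Crest.Agent.R236.GP
import Crest.Agent.R236.BFinal

/-!
# Row 236, Part B, node B6: `LowerStmt`  (helper218)
-/

set_option autoImplicit false
noncomputable section
open MeasureTheory Set
open scoped ENNReal ContDiff
open Crest.GeometryTopology.CoordMetric Crest.GeometryTopology.AffineMaximal

namespace Crest.Agent.R236.BmassF

open Crest.Agent.R236.A (EE epi SOL STRUCT IsStruct ConeData Appr)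
open Crest.Agent.R236.B Crest.Agent.R236.BA Crest.Agent.R236.BVol Crest.Agent.R236.BmassM

theorem exists_B5Hyp (n : ℕ) (hn : 1 ≤ n) : ∃ c : ℝ, 0 < c ∧ B5Hyp n c := by
  obtain ⟨c, hc, H⟩ := GP.capArea n hn
  refine ⟨c, hc, ?_⟩
  intro Ω u hsc hpde l b h hK hh ⟨x0, hx0, he⟩ hle
  exact H Ω u hsc hpde l b hK x0 hx0 h he.ge

theorem m2Hyp (n : ℕ) (Θ K c2 C0 : ℝ) (hC0 : 1 ≤ C0) :
    M2Hyp n Θ K c2 C0 (2 * ((n : ℝ) + 1) * (8 * C0) ^ (n + 1)) := by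
  intro N ε0 Ω u P0 W0 pc wc eP eW O es Q nrm h lam tau hg
  have hkap : 0 < BVolC.kap (nrm lam tau) := BVolC.kap_pos _ (h.definite lam tau hg)
  have hsub : Dr Ω u P0 W0 pc wc lam tau Θ ⊆ BVolC.DD Ω u P0 W0 pc wc Θ lam tau :=
    fun x hx => ⟨hx.1, hx.2.le⟩
  refine ⟨hkap, ?_, fun δ hδ => ⟨?_, ?_⟩⟩
  · refine (lintegral_mono_set hsub).trans ((BVolC.M2 h hg).trans
      (ENNReal.ofReal_le_ofReal ?_))
    have h1 : ((n : ℝ) + 1) * (4 * C0) ^ (n + 1) ≤ 2 * ((n : ℝ) + 1) * (8 * C0) ^ (n + 1) := by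
      have h2 : (4 * C0) ^ (n + 1) ≤ (8 * C0) ^ (n + 1) :=
        pow_le_pow_left₀ (by linarith) (by linarith) _
      have h3 : 0 ≤ (4 * C0) ^ (n + 1) := by positivity
      have h4 : (0 : ℝ) ≤ (n : ℝ) + 1 := by positivity
      nlinarith [mul_le_mul_of_nonneg_left h2 h4, mul_nonneg h4 h3]
    exact div_le_div_of_nonneg_right h1 hkap.le
  · exact (lintegral_mono_set (inter_subset_inter_left _ hsub)).trans (BVolC.M2P h hg hδ)
  · exact (lintegral_mono_set (inter_subset_inter_left _ hsub)).trans (BVolC.M2W h hg hδ)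

/-- **B6**. -/
theorem lowerStmt (n : ℕ) (hn : 2 ≤ n) : BF.LowerStmt n := by
  intro Θ K c2 C0 hΘ hK hc2 hC0
  obtain ⟨cB, hcB, hB⟩ := exists_B5Hyp n (by omega)
  obtain ⟨ε0, ⟨hε0, hε1⟩, c4, hc4, H⟩ := lower n hn Θ K c2 C0 (by linarith) hK hc2 hC0 cB hcB hB
    (2 * ((n : ℝ) + 1) * (8 * C0) ^ (n + 1)) (by positivity) (m2Hyp n Θ K c2 C0 hC0)
  refine ⟨ε0, c4, Θ, hε0, hε1, hc4, by linarith, ?_⟩
  intro N Ω u P0 W0 pc wc eP eW O es Q nrm h a b ha hb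
  exact H N Ω u P0 W0 pc wc eP eW O es Q nrm h ((2:ℝ) ^ a) ((2:ℝ) ^ b) ⟨a, b, ha, hb, rfl, rfl⟩

end Crest.Agent.R236.BmassF
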