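import Mathlib

/-! Row 236: the `W^{1,1}` Poincaré inequality on convex sets (helper770). -/

set_option autoImplicit false
open scoped Topology ENNReal
open MeasureTheory Set

noncomputable section

namespace Crest.Agent.R236.Poinc

variable {n : ℕ}

theorem lintegral_aff (G : EuclideanSpace ℝ (Fin n) → ℝ≥0∞) (hG : Measurable G) {r : ℝ}
    (hr : r ≠ 0) (c : EuclideanSpace ℝ (Fin n)) :
    ∫⁻ x, G (r • x + c) = ENNReal.ofReal |(r ^ n)⁻¹| * ∫⁻ x, G x := by
  have h1 : ∫⁻ x, G (r • x + c) = ∫⁻ z, G (z + c) ∂(Measure.map (fun x => r • x) volume) := by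
    rw [lintegral_map (by fun_prop) (by fun_prop)]
  rw [h1, Measure.map_addHaar_smul volume hr, lintegral_smul_measure, smul_eq_mul,
    lintegral_add_right_eq_self G c]
  simp

/-- the half of the segment integral -/
theorem half {S : Set (EuclideanSpace ℝ (Fin n))} (hS : MeasurableSet S) (hc : Convex ℝ S)
    {F : EuclideanSpace ℝ (Fin n) → ℝ≥0∞} (hF : Measurable F) {t : ℝ} (ht0 : 0 ≤ t)
    (ht : t ≤ 1 / 2) :
    ∫⁻ y in S, ∫⁻ x in S, F ((1 - t) • x + t • y) ≤ 2 ^ n * volume S * ∫⁻ z in S, F z := by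
  have key : ∀ y ∈ S, ∫⁻ x in S, F ((1 - t) • x + t • y) ≤ 2 ^ n * ∫⁻ z in S, F z := by
    intro y hy
    have hr : (1 - t) ≠ 0 := by linarith
    have h1 : ∫⁻ x in S, F ((1 - t) • x + t • y) ≤ ∫⁻ x, S.indicator F ((1 - t) • x + t • y) := by
      rw [← lintegral_indicator hS]
      apply lintegral_mono
      intro x
      by_cases hx : x ∈ S
      · have hm : (1 - t) • x + t • y ∈ S := hc hx hy (by linarith) ht0 (by ring)
        simp [hx, hm]
      · simp [hx]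
    rw [lintegral_aff _ (hF.indicator hS) hr, lintegral_indicator hS] at h1
    refine h1.trans ?_
    gcongr
    have h2 : |((1 - t) ^ n)⁻¹| ≤ 2 ^ n := by
      have h3 : (1 / 2 : ℝ) ^ n ≤ (1 - t) ^ n := pow_le_pow_left₀ (by norm_num) (by linarith) n
      have h4 : (0 : ℝ) < (1 / 2 : ℝ) ^ n := by positivity
      rw [abs_of_nonneg (inv_nonneg.mpr (h4.le.trans h3))]
      calc ((1 - t) ^ n)⁻¹ ≤ ((1 / 2 : ℝ) ^ n)⁻¹ := inv_anti₀ h4 h3
        _ = 2 ^ n := by rw [one_div, inv_pow, inv_inv]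
    calc ENNReal.ofReal |((1 - t) ^ n)⁻¹| ≤ ENNReal.ofReal (2 ^ n) := ENNReal.ofReal_le_ofReal h2
      _ = 2 ^ n := by
        rw [ENNReal.ofReal_pow (by norm_num)]; simp
  calc ∫⁻ y in S, ∫⁻ x in S, F ((1 - t) • x + t • y)
      ≤ ∫⁻ y in S, 2 ^ n * ∫⁻ z in S, F z := setLIntegral_mono' hS key
    _ = 2 ^ n * volume S * ∫⁻ z in S, F z := by
        rw [setLIntegral_const]; ring

theorem seg {S : Set (EuclideanSpace ℝ (Fin n))} (hS : MeasurableSet S) (hc : Convex ℝ S)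
    {F : EuclideanSpace ℝ (Fin n) → ℝ≥0∞} (hF : Measurable F) :
    ∫⁻ y in S, ∫⁻ x in S, ∫⁻ t in Icc (0 : ℝ) 1, F ((1 - t) • x + t • y)
      ≤ 2 ^ n * volume S * ∫⁻ z in S, F z := by
  have h1 : ∀ y, ∫⁻ x in S, ∫⁻ t in Icc (0 : ℝ) 1, F ((1 - t) • x + t • y)
      = ∫⁻ t in Icc (0 : ℝ) 1, ∫⁻ x in S, F ((1 - t) • x + t • y) := by
    intro y
    refine lintegral_lintegral_swap (Measurable.aemeasurable ?_)
    exact hF.comp (by fun_prop)
  simp only [h1]
  have h2 : ∫⁻ y in S, ∫⁻ t in Icc (0 : ℝ) 1, ∫⁻ x in S, F ((1 - t) • x + t • y)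
      = ∫⁻ t in Icc (0 : ℝ) 1, ∫⁻ y in S, ∫⁻ x in S, F ((1 - t) • x + t • y) := by
    refine lintegral_lintegral_swap (Measurable.aemeasurable ?_)
    refine Measurable.lintegral_prod_right' (f := fun p : ((EuclideanSpace ℝ (Fin n)) × ℝ) ×
      (EuclideanSpace ℝ (Fin n)) => F ((1 - p.1.2) • p.2 + p.1.2 • p.1.1)) ?_
    exact hF.comp (by fun_prop)
  rw [h2]
  calc ∫⁻ t in Icc (0 : ℝ) 1, ∫⁻ y in S, ∫⁻ x in S, F ((1 - t) • x + t • y)
      ≤ ∫⁻ t in Icc (0 : ℝ) 1, 2 ^ n * volume S * ∫⁻ z in S, F z := by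
        refine setLIntegral_mono' measurableSet_Icc fun t ht => ?_
        rcases le_total t (1 / 2) with h | h
        · exact half hS hc hF ht.1 h
        · have h3 : ∫⁻ y in S, ∫⁻ x in S, F ((1 - t) • x + t • y)
              = ∫⁻ x in S, ∫⁻ y in S, F ((1 - t) • x + t • y) := by
            refine lintegral_lintegral_swap (Measurable.aemeasurable ?_)
            exact hF.comp (by fun_prop)
          rw [h3]
          have h4 := half hS hc hF (t := 1 - t) (by linarith [ht.2]) (by linarith)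
          refine le_trans (le_of_eq ?_) h4
          refine lintegral_congr fun x => lintegral_congr fun y => ?_
          congr 1
          rw [sub_sub_cancel, add_comm]
    _ = 2 ^ n * volume S * ∫⁻ z in S, F z := by
        rw [setLIntegral_const]; simp

theorem diff_le {S : Set (EuclideanSpace ℝ (Fin n))} (hS : IsOpen S) (hc : Convex ℝ S)
    {f : EuclideanSpace ℝ (Fin n) → ℝ} (hf : ContDiffOn ℝ 1 f S) {d : ℝ}
    {x y : EuclideanSpace ℝ (Fin n)} (hx : x ∈ S) (hy : y ∈ S) (hd : dist x y ≤ d) :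
    ‖f y - f x‖ₑ ≤ ENNReal.ofReal d *
      ∫⁻ t in Icc (0 : ℝ) 1, ‖fderiv ℝ f ((1 - t) • x + t • y)‖ₑ := by
  have hγ : ∀ t ∈ Icc (0 : ℝ) 1, (1 - t) • x + t • y ∈ S := fun t ht =>
    hc hx hy (by linarith [ht.2]) ht.1 (by ring)
  have hder : ∀ t ∈ uIcc (0 : ℝ) 1, HasDerivAt (fun t : ℝ => f ((1 - t) • x + t • y))
      (fderiv ℝ f ((1 - t) • x + t • y) (y - x)) t := by
    intro t ht
    rw [uIcc_of_le zero_le_one] at ht
    have h1 : HasDerivAt (fun t : ℝ => (1 - t) • x + t • y) (y - x) t := by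
      have ha : HasDerivAt (fun t : ℝ => (1 - t) • x) ((-1 : ℝ) • x) t := by
        simpa using ((hasDerivAt_id t).const_sub 1).smul_const x
      have hb : HasDerivAt (fun t : ℝ => t • y) ((1 : ℝ) • y) t :=
        (hasDerivAt_id t).smul_const y
      have e : y - x = (-1 : ℝ) • x + (1 : ℝ) • y := by module
      rw [e]
      exact ha.fun_add hb
    have h2 : DifferentiableAt ℝ f ((1 - t) • x + t • y) :=
      (hf.contDiffAt (hS.mem_nhds (hγ t ht))).differentiableAt (by norm_num)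
    exact h2.hasFDerivAt.comp_hasDerivAt t h1
  have hcont : ContinuousOn (fun t : ℝ => fderiv ℝ f ((1 - t) • x + t • y) (y - x))
      (uIcc (0 : ℝ) 1) := by
    rw [uIcc_of_le zero_le_one]
    have h1 : ContinuousOn (fderiv ℝ f) S := hf.continuousOn_fderiv_of_isOpen hS (by norm_num)
    have h2 : ContinuousOn (fun t : ℝ => (1 - t) • x + t • y) (Icc (0 : ℝ) 1) := by fun_prop
    exact (h1.comp h2 hγ).clm_apply continuousOn_const
  have hFTC := intervalIntegral.integral_eq_sub_of_hasDerivAt hder hcont.intervalIntegrable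
  simp only [sub_self, zero_smul, one_smul, zero_add, sub_zero, add_zero] at hFTC
  rw [← hFTC, intervalIntegral.integral_of_le zero_le_one]
  refine (enorm_integral_le_lintegral_enorm _).trans ?_
  rw [← lintegral_const_mul' _ _ ENNReal.ofReal_ne_top]
  refine (lintegral_mono fun t => ?_).trans (lintegral_mono_set Ioc_subset_Icc_self)
  have h5 : ‖fderiv ℝ f ((1 - t) • x + t • y) (y - x)‖ₑ
      ≤ ‖fderiv ℝ f ((1 - t) • x + t • y)‖ₑ * ‖y - x‖ₑ := ContinuousLinearMap.le_opENorm _ _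
  refine h5.trans ?_
  rw [mul_comm]
  gcongr
  rw [← ofReal_norm]
  apply ENNReal.ofReal_le_ofReal
  rw [← dist_eq_norm, dist_comm]; exact hd

/-- `W^{1,1}` Poincaré inequality on an open convex set. -/
theorem poincare {S : Set (EuclideanSpace ℝ (Fin n))} (hS : IsOpen S) (hc : Convex ℝ S)
    {f : EuclideanSpace ℝ (Fin n) → ℝ} (hf : ContDiffOn ℝ 1 f S) {d : ℝ}
    (hd : ∀ x ∈ S, ∀ y ∈ S, dist x y ≤ d) :
    ∫⁻ y in S, ∫⁻ x in S, ‖f y - f x‖ₑ
      ≤ ENNReal.ofReal d * (2 ^ n * volume S * ∫⁻ z in S, ‖fderiv ℝ f z‖ₑ) := by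
  have hF : Measurable (fun z => ‖fderiv ℝ f z‖ₑ) := (measurable_fderiv ℝ f).enorm
  calc ∫⁻ y in S, ∫⁻ x in S, ‖f y - f x‖ₑ
      ≤ ∫⁻ y in S, ∫⁻ x in S, ENNReal.ofReal d *
          ∫⁻ t in Icc (0 : ℝ) 1, ‖fderiv ℝ f ((1 - t) • x + t • y)‖ₑ :=
        setLIntegral_mono' hS.measurableSet fun y hy =>
          setLIntegral_mono' hS.measurableSet fun x hx => diff_le hS hc hf hx hy (hd x hx y hy)
    _ = ENNReal.ofReal d * ∫⁻ y in S, ∫⁻ x in S,
          ∫⁻ t in Icc (0 : ℝ) 1, ‖fderiv ℝ f ((1 - t) • x + t • y)‖ₑ := by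
        rw [← lintegral_const_mul' _ _ ENNReal.ofReal_ne_top]
        refine lintegral_congr fun y => ?_
        rw [← lintegral_const_mul' _ _ ENNReal.ofReal_ne_top]
    _ ≤ _ := by
        gcongr
        exact seg hS.measurableSet hc hF

/-- isoperimetric form: `(b - a) |{f ≤ a}| |{b ≤ f}| ≤ 2^n d |S| ∫_S |Df|`. -/
theorem poincare_sets {S : Set (EuclideanSpace ℝ (Fin n))} (hS : IsOpen S) (hc : Convex ℝ S)
    {f : EuclideanSpace ℝ (Fin n) → ℝ} (hf : ContDiffOn ℝ 1 f S) {d : ℝ}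
    (hd : ∀ x ∈ S, ∀ y ∈ S, dist x y ≤ d) (a b : ℝ) :
    ENNReal.ofReal (b - a) * volume {x | x ∈ S ∧ f x ≤ a} * volume {x | x ∈ S ∧ b ≤ f x}
      ≤ ENNReal.ofReal d * (2 ^ n * volume S * ∫⁻ z in S, ‖fderiv ℝ f z‖ₑ) := by
  refine le_trans ?_ (poincare hS hc hf hd)
  have hmA : MeasurableSet {x | x ∈ S ∧ f x ≤ a} := by
    have h : MeasurableSet (S ∩ f ⁻¹' Ioi a) :=
      (hf.continuousOn.isOpen_inter_preimage hS isOpen_Ioi).measurableSet
    have e : {x | x ∈ S ∧ f x ≤ a} = S \ (S ∩ f ⁻¹' Ioi a) := by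
      ext x
      simp only [mem_ofPred_eq, mem_sdiff, mem_inter_iff, mem_preimage, mem_Ioi]
      constructor
      · rintro ⟨h1, h2⟩; exact ⟨h1, fun h3 => absurd h3.2 (not_lt.mpr h2)⟩
      · rintro ⟨h1, h2⟩; exact ⟨h1, not_lt.mp fun h3 => h2 ⟨h1, h3⟩⟩
    rw [e]; exact hS.measurableSet.diff h
  have hmB : MeasurableSet {x | x ∈ S ∧ b ≤ f x} := by
    have h : MeasurableSet (S ∩ f ⁻¹' Iio b) :=
      (hf.continuousOn.isOpen_inter_preimage hS isOpen_Iio).measurableSet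
    have e : {x | x ∈ S ∧ b ≤ f x} = S \ (S ∩ f ⁻¹' Iio b) := by
      ext x
      simp only [mem_ofPred_eq, mem_sdiff, mem_inter_iff, mem_preimage, mem_Iio]
      constructor
      · rintro ⟨h1, h2⟩; exact ⟨h1, fun h3 => absurd h3.2 (not_lt.mpr h2)⟩
      · rintro ⟨h1, h2⟩; exact ⟨h1, not_lt.mp fun h3 => h2 ⟨h1, h3⟩⟩
    rw [e]; exact hS.measurableSet.diff h
  calc ENNReal.ofReal (b - a) * volume {x | x ∈ S ∧ f x ≤ a} * volume {x | x ∈ S ∧ b ≤ f x}
      = ∫⁻ y in {x | x ∈ S ∧ b ≤ f x}, ∫⁻ x in {x | x ∈ S ∧ f x ≤ a}, ENNReal.ofReal (b - a) := by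
        rw [setLIntegral_const, setLIntegral_const]
    _ ≤ ∫⁻ y in {x | x ∈ S ∧ b ≤ f x}, ∫⁻ x in {x | x ∈ S ∧ f x ≤ a}, ‖f y - f x‖ₑ := by
        refine setLIntegral_mono' hmB fun y hy => setLIntegral_mono' hmA fun x hx => ?_
        rw [Real.enorm_eq_ofReal_abs]
        apply ENNReal.ofReal_le_ofReal
        exact le_trans (by linarith [hx.2, hy.2]) (le_abs_self _)
    _ ≤ ∫⁻ y in S, ∫⁻ x in S, ‖f y - f x‖ₑ := by
        refine (lintegral_mono fun y => lintegral_mono_set fun x hx => hx.1).trans ?_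
        exact lintegral_mono_set fun x hx => hx.1

end Crest.Agent.R236.Poinc
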