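import Crest.Agent.R236.SecDefs

/-! Row 236: growth of the deviation along rays under (QS), `Ω = univ` (helper202). -/

set_option autoImplicit false
open scoped ContDiff Topology
open Crest.GeometryTopology.CoordMetric Crest.GeometryTopology.AffineMaximal
open Set Filter MeasureTheory

noncomputable section

namespace Crest.Agent.R236.Sec

/-- one-dimensional growth lemma -/
lemma rpow_growth_le {f f' : ℝ → ℝ} {s t p : ℝ} (hs : 0 < s) (hst : s ≤ t)
    (hf : ∀ τ ∈ Icc s t, HasDerivAt f (f' τ) τ) (hle : ∀ τ ∈ Icc s t, τ * f' τ ≤ p * f τ) :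
    f t ≤ (t / s) ^ p * f s := by
  have hg : ∀ τ ∈ Icc s t, HasDerivAt (fun τ => f τ * τ ^ (-p))
      (f' τ * τ ^ (-p) + f τ * (-p * τ ^ (-p - 1))) τ := by
    intro τ hτ
    have hτ0 : 0 < τ := hs.trans_le hτ.1
    exact (hf τ hτ).mul (Real.hasDerivAt_rpow_const (Or.inl hτ0.ne'))
  have hanti : AntitoneOn (fun τ => f τ * τ ^ (-p)) (Icc s t) := by
    apply antitoneOn_of_deriv_nonpos (convex_Icc s t)
    · exact fun τ hτ => (hg τ hτ).continuousAt.continuousWithinAt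
    · exact fun τ hτ => (hg τ (interior_subset hτ)).differentiableAt.differentiableWithinAt
    · intro τ hτ
      have hτ' := interior_subset hτ
      rw [(hg τ hτ').deriv]
      have hτ0 : 0 < τ := hs.trans_le hτ'.1
      have e1 : τ ^ (-p) = τ ^ (-p - 1) * τ := by
        rw [← Real.rpow_add_one hτ0.ne']; ring_nf
      rw [e1]
      have h1 := hle τ hτ'
      have h2 : 0 < τ ^ (-p - 1) := Real.rpow_pos_of_pos hτ0 _
      have h3 : f' τ * (τ ^ (-p - 1) * τ) + f τ * (-p * τ ^ (-p - 1))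
          = τ ^ (-p - 1) * (τ * f' τ - p * f τ) := by ring
      rw [h3]
      exact mul_nonpos_of_nonneg_of_nonpos h2.le (by linarith)
  have h1 := hanti (left_mem_Icc.mpr hst) (right_mem_Icc.mpr hst) hst
  simp only at h1
  have ht : 0 < t := hs.trans_le hst
  have h2 : 0 < t ^ p := Real.rpow_pos_of_pos ht _
  have h3 : 0 < s ^ p := Real.rpow_pos_of_pos hs _
  rw [Real.rpow_neg ht.le, Real.rpow_neg hs.le] at h1
  rw [Real.div_rpow ht.le hs.le]
  rw [← div_eq_mul_inv, ← div_eq_mul_inv, div_le_div_iff₀ h2 h3] at h1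
  rw [div_mul_eq_mul_div, le_div_iff₀ h3]
  linarith

lemma rpow_growth_ge {f f' : ℝ → ℝ} {s t p : ℝ} (hs : 0 < s) (hst : s ≤ t)
    (hf : ∀ τ ∈ Icc s t, HasDerivAt f (f' τ) τ) (hle : ∀ τ ∈ Icc s t, p * f τ ≤ τ * f' τ) :
    (t / s) ^ p * f s ≤ f t := by
  have := rpow_growth_le (f := fun τ => - f τ) (f' := fun τ => - f' τ) (p := p) hs hst
    (fun τ hτ => (hf τ hτ).neg) (fun τ hτ => by
      have := hle τ hτ
      simp only [mul_neg]
      linarith)
  linarith

variable {n : ℕ} {Ω : Set (EuclideanSpace ℝ (Fin n))} {u : EuclideanSpace ℝ (Fin n) → ℝ}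

@[simp] lemma dev_self (x : EuclideanSpace ℝ (Fin n)) : dev u x x = 0 := by
  simp [dev]

lemma dev_nonneg (h : SC Ω u) {x y : EuclideanSpace ℝ (Fin n)} (hx : x ∈ Ω) (hy : y ∈ Ω) :
    0 ≤ dev u x y := by
  have := h.tangent_le hx hy
  unfold dev; linarith

lemma dev_pos (h : SC Ω u) {x y : EuclideanSpace ℝ (Fin n)} (hx : x ∈ Ω) (hy : y ∈ Ω)
    (hxy : x ≠ y) : 0 < dev u x y := by
  have := h.tangent_lt hx hy hxy
  unfold dev; linarith

lemma dev_add_dev (x y : EuclideanSpace ℝ (Fin n)) :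
    dev u x y + dev u y x = (fderiv ℝ u y - fderiv ℝ u x) (y - x) := by
  unfold dev
  have : fderiv ℝ u y (x - y) = - fderiv ℝ u y (y - x) := by rw [← map_neg, neg_sub]
  rw [this]
  simp only [sub_apply]
  ring

lemma hasDerivAt_dev_line (h : SC Ω u) {x v : EuclideanSpace ℝ (Fin n)} {t : ℝ}
    (hx : x + t • v ∈ Ω) :
    HasDerivAt (fun s : ℝ => dev u x (x + s • v))
      ((fderiv ℝ u (x + t • v) - fderiv ℝ u x) v) t := by
  unfold dev
  have h1 := h.hasDerivAt_line hx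
  have h2 : HasDerivAt (fun s : ℝ => fderiv ℝ u x (x + s • v - x)) (fderiv ℝ u x v) t := by
    have e : (fun s : ℝ => fderiv ℝ u x (x + s • v - x)) = fun s : ℝ => s * fderiv ℝ u x v := by
      funext s
      rw [add_sub_cancel_left, map_smul, smul_eq_mul]
    rw [e]
    simpa using (hasDerivAt_id t).mul_const (fderiv ℝ u x v)
  exact (h1.sub_const (u x)).sub h2

lemma mul_deriv_dev_line (x v : EuclideanSpace ℝ (Fin n)) (t : ℝ) :
    t * ((fderiv ℝ u (x + t • v) - fderiv ℝ u x) v) =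
      dev u x (x + t • v) + dev u (x + t • v) x := by
  rw [dev_add_dev, add_sub_cancel_left, map_smul, smul_eq_mul]

/-- upper growth along rays -/
lemma dev_growth_le (h : SC Ω u) {C0 : ℝ} (hQ : QS Ω u C0) {x v : EuclideanSpace ℝ (Fin n)}
    {s t : ℝ} (hs : 0 < s) (hst : s ≤ t) (hx : x ∈ Ω) (hxt : x + t • v ∈ Ω) :
    dev u x (x + t • v) ≤ (t / s) ^ (1 + C0) * dev u x (x + s • v) := by
  have hmem : ∀ τ ∈ Icc s t, x + τ • v ∈ Ω := by
    intro τ hτ
    have ht : 0 < t := hs.trans_le hst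
    have h1 := h.segment_mem hx hxt (t := τ / t)
      ⟨div_nonneg (hs.le.trans hτ.1) ht.le, (div_le_one ht).mpr hτ.2⟩
    have e : x + (τ / t) • (x + t • v - x) = x + τ • v := by
      rw [add_sub_cancel_left, smul_smul, div_mul_cancel₀ _ ht.ne']
    rwa [e] at h1
  refine rpow_growth_le (f := fun τ => dev u x (x + τ • v)) hs hst
    (fun τ hτ => hasDerivAt_dev_line h (hmem τ hτ)) (fun τ hτ => ?_)
  rw [mul_deriv_dev_line]
  have := hQ x hx _ (hmem τ hτ)
  linarith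

/-- lower growth along rays -/
lemma dev_growth_ge (h : SC Ω u) {C0 : ℝ} (hC0 : 0 < C0) (hQ : QS Ω u C0)
    {x v : EuclideanSpace ℝ (Fin n)}
    {s t : ℝ} (hs : 0 < s) (hst : s ≤ t) (hx : x ∈ Ω) (hxt : x + t • v ∈ Ω) :
    (t / s) ^ (1 + 1 / C0) * dev u x (x + s • v) ≤ dev u x (x + t • v) := by
  have hmem : ∀ τ ∈ Icc s t, x + τ • v ∈ Ω := by
    intro τ hτ
    have ht : 0 < t := hs.trans_le hst
    have h1 := h.segment_mem hx hxt (t := τ / t)
      ⟨div_nonneg (hs.le.trans hτ.1) ht.le, (div_le_one ht).mpr hτ.2⟩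
    have e : x + (τ / t) • (x + t • v - x) = x + τ • v := by
      rw [add_sub_cancel_left, smul_smul, div_mul_cancel₀ _ ht.ne']
    rwa [e] at h1
  refine rpow_growth_ge (f := fun τ => dev u x (x + τ • v)) hs hst
    (fun τ hτ => hasDerivAt_dev_line h (hmem τ hτ)) (fun τ hτ => ?_)
  rw [mul_deriv_dev_line]
  have := hQ _ (hmem τ hτ) x hx
  have h2 : dev u x (x + τ • v) / C0 ≤ dev u (x + τ • v) x := by
    rw [div_le_iff₀ hC0]; linarith
  have h3 : (1 + 1 / C0) * dev u x (x + τ • v) =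
      dev u x (x + τ • v) + dev u x (x + τ • v) / C0 := by ring
  linarith

/-- **Entire.** Under (QS), a function with compact sections is defined everywhere. -/
theorem eq_univ (h : SC Ω u) (hne : Ω.Nonempty) {C0 : ℝ} (hQ : QS Ω u C0)
    (hsec : ∀ x₀ ∈ Ω, ∀ t : ℝ,
      IsCompact {x | x ∈ Ω ∧ u x ≤ u x₀ + fderiv ℝ u x₀ (x - x₀) + t}) : Ω = univ := by
  obtain ⟨x, hx⟩ := hne
  refine eq_univ_of_forall fun p => ?_
  set v := p - x with hv
  set L : ℝ → EuclideanSpace ℝ (Fin n) := fun t => x + t • v with hL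
  have hLc : Continuous L := by fun_prop
  -- an initial parameter
  obtain ⟨t₁, ht₁, hmem₁⟩ : ∃ t₁ > (0:ℝ), L t₁ ∈ Ω := by
    have h0 : L 0 ∈ Ω := by simpa [hL] using hx
    have h1 : ∀ᶠ t in 𝓝 (0:ℝ), L t ∈ Ω := hLc.continuousAt.eventually_mem (h.isOpen.mem_nhds h0)
    have h2 : ∀ᶠ t in 𝓝[>] (0:ℝ), L t ∈ Ω := h1.filter_mono nhdsWithin_le_nhds
    obtain ⟨t, ht, ht'⟩ := (h2.and self_mem_nhdsWithin).exists
    exact ⟨t, ht', ht⟩
  by_cases h1t : 1 ≤ t₁
  · have h1 := h.segment_mem hx hmem₁ (t := 1 / t₁) ⟨by positivity, by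
      rw [div_le_one ht₁]; exact h1t⟩
    have e : x + (1 / t₁) • (L t₁ - x) = p := by
      simp only [hL]
      rw [add_sub_cancel_left, smul_smul, one_div, inv_mul_cancel₀ ht₁.ne', one_smul, hv]
      abel
    rwa [e] at h1
  push Not at h1t
  set M : ℝ := (1 / t₁) ^ (1 + max C0 0) * dev u x (L t₁) with hM
  have hd1 : 0 ≤ dev u x (L t₁) := dev_nonneg h hx hmem₁
  have hQ' : QS Ω u (max C0 0) := by
    intro a ha b hb
    refine (hQ a ha b hb).trans ?_
    exact mul_le_mul_of_nonneg_right (le_max_left _ _) (dev_nonneg h ha hb)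
  have hbound : ∀ t ∈ Icc t₁ 1, L t ∈ Ω → dev u x (L t) ≤ M := by
    intro t ht hmem
    have h1 := dev_growth_le h hQ' ht₁ ht.1 hx hmem
    refine h1.trans ?_
    apply mul_le_mul_of_nonneg_right _ hd1
    apply Real.rpow_le_rpow (div_nonneg (ht₁.le.trans ht.1) ht₁.le)
    · gcongr
      exact ht.2
    · have := le_max_right C0 0; linarith
  -- the set of good parameters is clopen in `[t₁, 1]`
  have hA : Icc t₁ 1 ⊆ L ⁻¹' Ω := by
    have hK := hsec x hx M
    have hKc : IsClosed {y | y ∈ Ω ∧ u y ≤ u x + fderiv ℝ u x (y - x) + M} := hK.isClosed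
    have hopen : IsOpen (L ⁻¹' Ω) := h.isOpen.preimage hLc
    have hclosed : IsClosed (L ⁻¹' {y | y ∈ Ω ∧ u y ≤ u x + fderiv ℝ u x (y - x) + M}) :=
      hKc.preimage hLc
    have heq : ∀ t ∈ Icc t₁ 1, (t ∈ L ⁻¹' Ω ↔
        t ∈ L ⁻¹' {y | y ∈ Ω ∧ u y ≤ u x + fderiv ℝ u x (y - x) + M}) := by
      intro t ht
      constructor
      · intro hm
        refine ⟨hm, ?_⟩
        have := hbound t ht hm
        unfold dev at this
        linarith
      · exact fun hm => hm.1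
    have hpre : IsPreconnected (Icc t₁ (1:ℝ)) := isPreconnected_Icc
    by_contra hcon
    rw [Set.not_subset] at hcon
    obtain ⟨t, ht, htn⟩ := hcon
    have := hpre (L ⁻¹' Ω)
      (L ⁻¹' {y | y ∈ Ω ∧ u y ≤ u x + fderiv ℝ u x (y - x) + M})ᶜ hopen hclosed.isOpen_compl
      (fun s hs => by
        by_cases hm : s ∈ L ⁻¹' Ω
        · exact Or.inl hm
        · exact Or.inr fun hm' => hm ((heq s hs).mpr hm'))
      ⟨t₁, ⟨le_rfl, h1t.le⟩, hmem₁⟩ ⟨t, ht, fun hm' => htn ((heq t ht).mpr hm')⟩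
    obtain ⟨s, hs, hs1, hs2⟩ := this
    exact hs2 ((heq s hs).mp hs1)
  have := hA (right_mem_Icc.mpr h1t.le)
  have e : L 1 = p := by simp [hL, hv]
  rwa [mem_preimage, e] at this

end Crest.Agent.R236.Sec
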