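import Crest.Agent.R236.SecPre
import Crest.Agent.R236.AAuer
import Crest.Agent.R236.Inv

/-! Row 236: normalisation of a section by a linear map (helper202). -/

set_option autoImplicit false
open scoped ContDiff Topology
open Crest.GeometryTopology.CoordMetric Crest.GeometryTopology.AffineMaximal
open Set Filter MeasureTheory

noncomputable section

namespace Crest.Agent.R236.Sec

/-- compact sections -/
def HSec {n : ℕ} (Ω : Set (EuclideanSpace ℝ (Fin n))) (u : EuclideanSpace ℝ (Fin n) → ℝ) : Prop :=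
  ∀ x₀ ∈ Ω, ∀ t : ℝ, IsCompact {x | x ∈ Ω ∧ u x ≤ u x₀ + fderiv ℝ u x₀ (x - x₀) + t}

variable {n : ℕ} {u : EuclideanSpace ℝ (Fin n) → ℝ}

/-- scaling -/
def scl (n : ℕ) (s : ℝ) (hs : s ≠ 0) : EuclideanSpace ℝ (Fin n) ≃L[ℝ] EuclideanSpace ℝ (Fin n) :=
  (LinearEquiv.smulOfNeZero ℝ (EuclideanSpace ℝ (Fin n)) s hs).toContinuousLinearEquiv

@[simp] lemma scl_apply (s : ℝ) (hs : s ≠ 0) (x : EuclideanSpace ℝ (Fin n)) :
    scl n s hs x = s • x := rfl

/-- cross polytope in a convex set -/
lemma mem_of_sum_abs_le {K : Set (EuclideanSpace ℝ (Fin n))} (hK : Convex ℝ K) (h0 : (0 : EuclideanSpace ℝ (Fin n)) ∈ K)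
    {m : ℝ} (hm : 0 < m) (hp : ∀ i, m • EuclideanSpace.single i (1:ℝ) ∈ K)
    (hq : ∀ i, -(m • EuclideanSpace.single i (1:ℝ)) ∈ K) {c : EuclideanSpace ℝ (Fin n)}
    (hc : ∑ i, |c i| ≤ m) : c ∈ K := by
  classical
  set S := ∑ i, |c i| with hS
  rcases eq_or_lt_of_le (show 0 ≤ S from Finset.sum_nonneg fun i _ => abs_nonneg _) with h | h
  · have : c = 0 := by
      ext i
      have h1 : ∀ i ∈ Finset.univ, |c i| = 0 :=
        (Finset.sum_eq_zero_iff_of_nonneg fun i _ => abs_nonneg _).mp h.symm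
      simpa using h1 i (Finset.mem_univ i)
    rwa [this]
  · -- inner convex combination
    have h1 : ∑ i, (|c i| / S) • ((if 0 ≤ c i then (1:ℝ) else -1) • (m • EuclideanSpace.single i (1:ℝ) : EuclideanSpace ℝ (Fin n))) ∈ K := by
      apply hK.sum_mem
      · intro i _
        positivity
      · rw [← Finset.sum_div, ← hS, div_self h.ne']
      · intro i _
        split_ifs
        · rw [one_smul]; exact hp i
        · rw [neg_one_smul]; exact hq i
    have h2 := hK.smul_mem_of_zero_mem h0 h1 (t := S / m) ⟨by positivity, (div_le_one hm).mpr hc⟩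
    convert h2 using 1
    conv_lhs => rw [← sum_single c]
    rw [Finset.smul_sum]
    refine Finset.sum_congr rfl fun i _ => ?_
    rw [smul_smul, smul_smul, smul_smul]
    congr 1
    split_ifs with hi
    · rw [abs_of_nonneg hi]; field_simp
    · push Not at hi
      rw [abs_of_neg hi]; field_simp

lemma sum_abs_le (c : EuclideanSpace ℝ (Fin n)) : ∑ i, |c i| ≤ Real.sqrt n * ‖c‖ := by
  have h1 : (∑ i, |c i|) ^ 2 ≤ n * ‖c‖ ^ 2 := by
    have := sq_sum_le_card_mul_sum_sq (s := (Finset.univ : Finset (Fin n))) (f := fun i => |c i|)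
    rw [EuclideanSpace.real_norm_sq_eq]
    simpa using this
  have h2 : 0 ≤ Real.sqrt n * ‖c‖ := by positivity
  refine abs_le_of_sq_le_sq' ?_ h2 |>.2
  rw [mul_pow, Real.sq_sqrt (Nat.cast_nonneg n)]
  exact h1

/-- **Normalisation.** -/
theorem exists_normalise (hn : 0 < n) (h : SC univ u) (hp : PDE univ u) {C0 th : ℝ}
    (hQ : QS univ u C0) (hth : 0 < th) (hB : BAL univ u th) (hsec : HSec univ u)
    (x₀ : EuclideanSpace ℝ (Fin n)) {R : ℝ} (hR : 0 < R) :
    ∃ L : EuclideanSpace ℝ (Fin n) ≃L[ℝ] EuclideanSpace ℝ (Fin n),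
      Pre n (min th 1 / n) C0 (fun y => dev u x₀ (L y + x₀) / R) := by
  classical
  set K : Set (EuclideanSpace ℝ (Fin n)) := {v | dev u x₀ (v + x₀) ≤ 2 * R} with hKdef
  have hcont : Continuous u := continuousOn_univ.mp h.continuousOn
  have hdevc : Continuous fun v => dev u x₀ (v + x₀) := by
    unfold dev; fun_prop
  have hKeq : K = (fun x => x - x₀) '' {x | x ∈ univ ∧ u x ≤ u x₀ + fderiv ℝ u x₀ (x - x₀) + 2 * R} := by
    ext v
    simp only [hKdef, mem_ofPred_eq, mem_image, mem_univ, true_and]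
    constructor
    · intro hv
      refine ⟨v + x₀, ?_, by simp⟩
      unfold dev at hv
      linarith
    · rintro ⟨x, hx, rfl⟩
      unfold dev
      simp only [sub_add_cancel]
      linarith
  have hKc : IsCompact K := by
    rw [hKeq]
    exact (hsec x₀ (mem_univ _) (2 * R)).image (continuous_id.sub continuous_const)
  have hKconv : Convex ℝ K := by
    intro v hv w hw a b ha hb hab
    have h1 := h.convexOn.2 (mem_univ (v + x₀)) (mem_univ (w + x₀)) ha hb hab
    have e : a • (v + x₀) + b • (w + x₀) = (a • v + b • w) + x₀ := by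
      have : x₀ = (a + b) • x₀ := by rw [hab, one_smul]
      conv_rhs => rw [this]
      module
    rw [e] at h1
    simp only [hKdef, mem_ofPred_eq, dev, add_sub_cancel_right, smul_eq_mul] at hv hw h1 ⊢
    rw [map_add, map_smul, map_smul, smul_eq_mul, smul_eq_mul]
    have e1 := mul_le_mul_of_nonneg_left hv ha
    have e2 := mul_le_mul_of_nonneg_left hw hb
    have e3 : a * (2 * R) + b * (2 * R) = 2 * R := by rw [← add_mul, hab, one_mul]
    have e4 : a * u x₀ + b * u x₀ = u x₀ := by rw [← add_mul, hab, one_mul]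
    nlinarith
  have h0K : (0 : EuclideanSpace ℝ (Fin n)) ∈ K := by
    simp only [hKdef, mem_ofPred_eq, zero_add, dev_self]
    linarith
  have hint : (interior K).Nonempty := by
    refine ⟨0, ?_⟩
    rw [mem_interior_iff_mem_nhds]
    have : ∀ᶠ v in 𝓝 (0 : EuclideanSpace ℝ (Fin n)), dev u x₀ (v + x₀) < 2 * R := by
      apply hdevc.continuousAt.eventually_lt_const
      simp only [zero_add, dev_self]
      linarith
    filter_upwards [this] with v hv using hv.le
  have hbal : ∀ v ∈ K, -(th • v) ∈ K := by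
    intro v hv
    have := (hB x₀ (mem_univ _) (v + x₀) (mem_univ _) (2 * R) hv).2
    rw [add_sub_cancel_right] at this
    simp only [hKdef, mem_ofPred_eq]
    rwa [neg_add_eq_sub]
  obtain ⟨B, hB1, hB2⟩ := A.auerbach n K hKc hKconv h0K hint
  have hns : (0:ℝ) < Real.sqrt n := Real.sqrt_pos.mpr (by exact_mod_cast hn)
  set L : EuclideanSpace ℝ (Fin n) ≃L[ℝ] EuclideanSpace ℝ (Fin n) :=
    (scl n (Real.sqrt n) hns.ne').trans B.symm with hL
  have hLapp : ∀ y, B (L y) = Real.sqrt n • y := by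
    intro y
    simp [hL]
  have hmemK : ∀ y, L y ∈ K ↔ Real.sqrt n • y ∈ B '' K := by
    intro y
    constructor
    · intro hy
      exact ⟨L y, hy, hLapp y⟩
    · rintro ⟨v, hv, hv'⟩
      rw [← hLapp y] at hv'
      rwa [← B.injective hv']
  have hBKconv : Convex ℝ (B '' K) := hKconv.is_linear_image (LinearMap.isLinear (B : EuclideanSpace ℝ (Fin n) →ₗ[ℝ] EuclideanSpace ℝ (Fin n)))
  have h0BK : (0 : EuclideanSpace ℝ (Fin n)) ∈ B '' K := ⟨0, h0K, map_zero B⟩
  set m := min th 1 with hm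
  have hm0 : 0 < m := lt_min hth one_pos
  have hplus : ∀ i, m • EuclideanSpace.single i (1:ℝ) ∈ B '' K := by
    intro i
    exact hBKconv.smul_mem_of_zero_mem h0BK (hB1 i) ⟨hm0.le, min_le_right _ _⟩
  have hminus : ∀ i, -(m • EuclideanSpace.single i (1:ℝ)) ∈ B '' K := by
    intro i
    obtain ⟨v, hv, hv'⟩ := hB1 i
    have h1 : -(th • EuclideanSpace.single i (1:ℝ)) ∈ B '' K :=
      ⟨-(th • v), hbal v hv, by rw [map_neg, map_smul, hv']⟩
    have h2 := hBKconv.smul_mem_of_zero_mem h0BK h1 (t := m / th)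
      ⟨by positivity, (div_le_one hth).mpr (min_le_left _ _)⟩
    convert h2 using 1
    rw [smul_neg, smul_smul, div_mul_cancel₀ _ hth.ne']
  -- the normalised function as `aff`
  have haff : (fun y => dev u x₀ (L y + x₀) / R) =
      Inv.aff L x₀ (1 / R) (-(1 / R) • (fderiv ℝ u x₀).comp (L : EuclideanSpace ℝ (Fin n) →L[ℝ] EuclideanSpace ℝ (Fin n)))
        (-(1 / R) * u x₀) u := by
    funext y
    simp only [dev, Inv.aff, add_sub_cancel_right, smul_apply,
      ContinuousLinearMap.comp_apply, ContinuousLinearEquiv.coe_coe, smul_eq_mul]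
    ring
  have hR' : 0 < 1 / R := by positivity
  have hsc : SC univ (fun y => dev u x₀ (L y + x₀) / R) := by
    rw [haff]
    simpa using Inv.SC_aff L x₀ (1 / R) (-(1 / R) • (fderiv ℝ u x₀).comp (L : EuclideanSpace ℝ (Fin n) →L[ℝ] EuclideanSpace ℝ (Fin n)))
        (-(1 / R) * u x₀) h hR'
  refine ⟨L, ?_⟩
  constructor
  · exact hsc
  · intro y _
    rw [haff]
    exact Inv.affineMaximalOp_aff_eq_zero L x₀ (1 / R) _ _ isOpen_univ h.smooth h.posDef hR'
      (mem_univ _) (hp _ (mem_univ _))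
  · intro y _ z _
    have hd : ∀ y z, dev (fun y => dev u x₀ (L y + x₀) / R) y z =
        (1 / R) * dev u (L y + x₀) (L z + x₀) := by
      intro y z
      rw [haff]
      exact Inv.dev_aff L x₀ (1 / R) _ _ h (mem_univ _) z
    rw [hd, hd]
    have := hQ _ (mem_univ (L y + x₀)) _ (mem_univ (L z + x₀))
    have h2 := mul_le_mul_of_nonneg_left this hR'.le
    linarith
  · simp
  · rw [haff, Inv.fderiv_aff _ _ _ _ _ (h.differentiableAt (mem_univ _))]
    simp
  · intro y hy
    have hy' : Real.sqrt n • y ∈ B '' K := by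
      apply mem_of_sum_abs_le hBKconv h0BK hm0 hplus hminus
      refine (sum_abs_le _).trans ?_
      rw [norm_smul, Real.norm_of_nonneg hns.le, ← mul_assoc, Real.mul_self_sqrt (Nat.cast_nonneg n)]
      have hn' : (0:ℝ) < n := by exact_mod_cast hn
      calc (n:ℝ) * ‖y‖ ≤ n * (m / n) := by gcongr
        _ = m := by field_simp
    have := (hmemK y).mpr hy'
    simp only [hKdef, mem_ofPred_eq] at this
    rw [div_le_iff₀ hR]
    exact this
  · intro y hy
    have h1 : L y ∈ K := by
      simp only [hKdef, mem_ofPred_eq]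
      rwa [div_le_iff₀ hR] at hy
    have h2 := hB2 _ ((hmemK y).mp h1)
    have h3 : ‖Real.sqrt n • y‖ ≤ Real.sqrt n := by
      rw [EuclideanSpace.norm_eq]
      apply Real.sqrt_le_sqrt
      calc ∑ i, ‖(Real.sqrt n • y) i‖ ^ 2 ≤ ∑ _i : Fin n, (1:ℝ) := by
            refine Finset.sum_le_sum fun i _ => ?_
            have := h2 i
            rw [Real.norm_eq_abs]
            nlinarith [abs_nonneg ((Real.sqrt n • y) i)]
        _ = n := by simp
    rw [norm_smul, Real.norm_of_nonneg hns.le] at h3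
    exact le_of_mul_le_mul_left (by linarith) hns

end Crest.Agent.R236.Sec
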