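import Crest.Agent.R236.SecGrowth

/-! Row 236: estimates on a normalised section (helper202). -/

set_option autoImplicit false
open scoped ContDiff Topology
open Crest.GeometryTopology.CoordMetric Crest.GeometryTopology.AffineMaximal
open Set Filter MeasureTheory

noncomputable section

namespace Crest.Agent.R236.Sec

/-- upper determinant bound (helper877) in the form used here -/
def DetUpper (n : ℕ) : Prop :=
  ∀ u : EuclideanSpace ℝ (Fin n) → ℝ, SC univ u → PDE univ u → ∀ G : ℝ, 0 < G →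
    IsCompact {x | u x ≤ 4} → (∀ x, u x ≤ 4 → ‖fderiv ℝ u x‖ ≤ G) →
    ∀ x, u x ≤ 4 → (hessianMat u x).det * (4 - u x) ^ n ≤
      6 ^ n * Real.exp (((n:ℝ) + 2) / 4) * G ^ (2 * n)

/-- lower determinant bound (helper877) in the form used here -/
def DetLower (n : ℕ) : Prop :=
  ∀ u : EuclideanSpace ℝ (Fin n) → ℝ, SC univ u → PDE univ u → ∀ x₀ : EuclideanSpace ℝ (Fin n),
    ∀ G : ℝ, 0 < G → IsCompact {x | dev u x x₀ ≤ 1} → (∀ x, dev u x x₀ ≤ 1 → ‖x - x₀‖ ≤ G) →
    1 ≤ (4 * ((n:ℝ) + 1) * G ^ 2) ^ n * Real.exp (((n:ℝ) + 2) / (4 * ((n:ℝ) + 1))) *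
      (hessianMat u x₀).det

variable {n : ℕ} {u : EuclideanSpace ℝ (Fin n) → ℝ}

/-- the growth bound -/
def UU (r C0 ρ : ℝ) : ℝ := 2 * (max 1 (ρ / r)) ^ (1 + C0)

lemma UU_pos (r C0 ρ : ℝ) : 0 < UU r C0 ρ := by
  unfold UU
  have : 0 < max 1 (ρ / r) := lt_max_of_lt_left one_pos
  have := Real.rpow_pos_of_pos this (1 + C0)
  linarith

lemma UU_mono {r C0 ρ ρ' : ℝ} (hr : 0 < r) (hC0 : 0 ≤ C0) (h : ρ ≤ ρ') :
    UU r C0 ρ ≤ UU r C0 ρ' := by
  unfold UU
  have h0 : (0:ℝ) ≤ max 1 (ρ / r) := le_max_of_le_left zero_le_one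
  have h1 : max 1 (ρ / r) ≤ max 1 (ρ' / r) :=
    max_le_max le_rfl (div_le_div_of_nonneg_right h hr.le)
  have := Real.rpow_le_rpow h0 h1 (show 0 ≤ 1 + C0 by linarith)
  linarith

/-- an entire normalised solution before the determinant bounds -/
structure Pre (n : ℕ) (r C0 : ℝ) (u : EuclideanSpace ℝ (Fin n) → ℝ) : Prop where
  sc : SC univ u
  pde : PDE univ u
  qs : QS univ u C0
  zero : u 0 = 0
  dzero : fderiv ℝ u 0 = 0
  ball : ∀ x, ‖x‖ ≤ r → u x ≤ 2
  bdd : ∀ x, u x ≤ 2 → ‖x‖ ≤ 1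

namespace Pre

variable {r C0 : ℝ}

lemma dev_zero (h : Pre n r C0 u) (x : EuclideanSpace ℝ (Fin n)) : dev u 0 x = u x := by
  simp [dev, h.zero, h.dzero]

lemma nonneg (h : Pre n r C0 u) (x : EuclideanSpace ℝ (Fin n)) : 0 ≤ u x := by
  rw [← h.dev_zero]
  exact dev_nonneg h.sc (mem_univ _) (mem_univ _)

lemma le_UU (h : Pre n r C0 u) (hr : 0 < r) (hC0 : 0 ≤ C0) (x : EuclideanSpace ℝ (Fin n)) :
    u x ≤ UU r C0 ‖x‖ := by
  rcases le_or_gt ‖x‖ r with hx | hx
  · refine (h.ball x hx).trans ?_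
    unfold UU
    have h1 : (1:ℝ) ≤ max 1 (‖x‖ / r) := le_max_left _ _
    have := Real.one_le_rpow h1 (show 0 ≤ 1 + C0 by linarith)
    linarith
  · have hx0 : 0 < ‖x‖ := hr.trans hx
    have h1 := dev_growth_le h.sc h.qs (x := 0) (v := x) (s := r / ‖x‖) (t := 1)
      (by positivity) ((div_le_one hx0).mpr hx.le) (mem_univ _) (mem_univ _)
    rw [h.dev_zero, h.dev_zero, zero_add, zero_add, one_smul, one_div_div] at h1
    refine h1.trans ?_
    have h2 : u ((r / ‖x‖) • x) ≤ 2 := by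
      apply h.ball
      rw [norm_smul, Real.norm_of_nonneg (by positivity), div_mul_cancel₀ _ hx0.ne']
    unfold UU
    have h3 : max 1 (‖x‖ / r) = ‖x‖ / r := max_eq_right ((one_le_div hr).mpr hx.le)
    rw [h3, mul_comm]
    exact mul_le_mul_of_nonneg_right h2 (Real.rpow_nonneg (by positivity) _)

lemma norm_fderiv_le (h : Pre n r C0 u) (hr : 0 < r) (hC0 : 0 ≤ C0)
    (x : EuclideanSpace ℝ (Fin n)) : ‖fderiv ℝ u x‖ ≤ UU r C0 (‖x‖ + 1) := by
  have key : ∀ v : EuclideanSpace ℝ (Fin n), ‖v‖ = 1 → fderiv ℝ u x v ≤ UU r C0 (‖x‖ + 1) := by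
    intro v hv
    have h1 := h.sc.tangent_le (x := x) (y := x + v) (mem_univ _) (mem_univ _)
    rw [add_sub_cancel_left] at h1
    have h2 := h.le_UU hr hC0 (x + v)
    have h3 : UU r C0 ‖x + v‖ ≤ UU r C0 (‖x‖ + 1) := by
      apply UU_mono hr hC0
      have := norm_add_le x v
      rw [hv] at this; exact this
    have h4 := h.nonneg x
    linarith
  refine ContinuousLinearMap.opNorm_le_of_unit_norm (UU_pos _ _ _).le fun v hv => ?_
  rw [Real.norm_eq_abs, abs_le]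
  refine ⟨?_, key v hv⟩
  have := key (-v) (by rwa [norm_neg])
  rw [map_neg] at this
  linarith

lemma norm_le_two (h : Pre n r C0 u) {x : EuclideanSpace ℝ (Fin n)} (hx : u x ≤ 4) :
    ‖x‖ ≤ 2 := by
  have h1 := h.sc.convex_comb_le (x := 0) (y := x) (mem_univ _) (mem_univ _)
    (t := 1 / 2) (by norm_num) (by norm_num)
  rw [h.zero, zero_add, sub_zero] at h1
  have h2 := h.bdd ((1 / 2 : ℝ) • x) (by linarith)
  rw [norm_smul, Real.norm_of_nonneg (by norm_num)] at h2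
  linarith

lemma superlinear (h : Pre n r C0 u) (hC0 : 0 < C0) {x : EuclideanSpace ℝ (Fin n)}
    (hx : 2 ≤ ‖x‖) : 2 * (‖x‖ / 2) ^ (1 + 1 / C0) ≤ u x := by
  have hx0 : 0 < ‖x‖ := by linarith
  have h1 := dev_growth_ge h.sc hC0 h.qs (x := 0) (v := x) (s := 2 / ‖x‖) (t := 1)
    (by positivity) ((div_le_one hx0).mpr hx) (mem_univ _) (mem_univ _)
  rw [h.dev_zero, h.dev_zero, zero_add, zero_add, one_smul, one_div_div] at h1
  refine le_trans ?_ h1
  have h2 : 2 ≤ u ((2 / ‖x‖) • x) := by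
    by_contra hcon
    push Not at hcon
    have := h.bdd _ hcon.le
    rw [norm_smul, Real.norm_of_nonneg (by positivity), div_mul_cancel₀ _ hx0.ne'] at this
    linarith
  rw [mul_comm]
  exact mul_le_mul_of_nonneg_left h2 (Real.rpow_nonneg (by positivity) _)

lemma continuous (h : Pre n r C0 u) : Continuous u :=
  continuousOn_univ.mp h.sc.continuousOn

lemma continuous_fderiv (h : Pre n r C0 u) : Continuous (fderiv ℝ u) :=
  continuousOn_univ.mp h.sc.continuousOn_fderiv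

lemma isCompact_four (h : Pre n r C0 u) : IsCompact {x | u x ≤ 4} := by
  refine Metric.isCompact_of_isClosed_isBounded (isClosed_le h.continuous continuous_const) ?_
  refine (Metric.isBounded_closedBall (x := (0 : EuclideanSpace ℝ (Fin n))) (r := 2)).subset ?_
  intro x hx
  rw [mem_closedBall_zero_iff]
  exact h.norm_le_two hx

/-- the radius bound of dual sections -/
def rho2 (r C0 : ℝ) : ℝ := 2 * max 1 (((C0 + 2 + 3 * UU r C0 2) / 2) ^ C0)

lemma norm_le_rho2 (h : Pre n r C0 u) (hr : 0 < r) (hC0 : 0 < C0)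
    {x₀ x : EuclideanSpace ℝ (Fin n)} (hx₀ : u x₀ ≤ 2) (hx : dev u x x₀ ≤ 1) :
    ‖x‖ ≤ rho2 r C0 := by
  unfold rho2
  rcases le_or_gt ‖x‖ 2 with h2 | h2
  · have := le_max_left 1 (((C0 + 2 + 3 * UU r C0 2) / 2) ^ C0)
    linarith
  set G := UU r C0 2 with hG
  have hGpos : 0 < G := UU_pos _ _ _
  have h1 : dev u x₀ x ≤ C0 := by
    have := h.qs x (mem_univ _) x₀ (mem_univ _)
    nlinarith
  have hg : ‖fderiv ℝ u x₀‖ ≤ G := by
    refine (h.norm_fderiv_le hr hC0.le x₀).trans (UU_mono hr hC0.le ?_)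
    have := h.bdd x₀ hx₀
    linarith
  have h3 : fderiv ℝ u x₀ (x - x₀) ≤ G * (‖x‖ + 1) := by
    have e1 : fderiv ℝ u x₀ (x - x₀) ≤ ‖fderiv ℝ u x₀‖ * ‖x - x₀‖ :=
      (le_abs_self _).trans ((fderiv ℝ u x₀).le_opNorm _)
    have e2 : ‖x - x₀‖ ≤ ‖x‖ + 1 := by
      have := norm_sub_le x x₀
      have := h.bdd x₀ hx₀
      linarith
    exact e1.trans (mul_le_mul hg e2 (norm_nonneg _) hGpos.le)
  have h4 : u x ≤ C0 + 2 + G * (‖x‖ + 1) := by
    unfold dev at h1
    linarith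
  have h5 := h.superlinear hC0 h2.le
  set s := ‖x‖ / 2 with hs
  have hs1 : 1 ≤ s := by rw [hs]; linarith
  have hs0 : 0 < s := by linarith
  have hxs : ‖x‖ = 2 * s := by rw [hs]; ring
  rw [hxs] at h4
  have h6 : 2 * s ^ (1 + 1 / C0) ≤ (C0 + 2 + 3 * G) * s := by
    have : C0 + 2 + G * (2 * s + 1) ≤ (C0 + 2 + 3 * G) * s := by nlinarith
    linarith
  rw [Real.rpow_add hs0, Real.rpow_one] at h6
  have h7 : s ^ (1 / C0) ≤ (C0 + 2 + 3 * G) / 2 := by
    rw [le_div_iff₀ two_pos]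
    have : (s ^ (1 / C0) * 2) * s ≤ (C0 + 2 + 3 * G) * s := by linarith
    exact le_of_mul_le_mul_right this hs0
  have h8 : s ≤ ((C0 + 2 + 3 * G) / 2) ^ C0 := by
    have e1 : (s ^ (1 / C0)) ^ C0 = s := by
      rw [← Real.rpow_mul hs0.le, one_div, inv_mul_cancel₀ hC0.ne', Real.rpow_one]
    have e2 := Real.rpow_le_rpow (Real.rpow_nonneg hs0.le _) h7 hC0.le
    rwa [e1] at e2
  have h9 := le_max_right 1 (((C0 + 2 + 3 * G) / 2) ^ C0)
  linarith

lemma isCompact_dual (h : Pre n r C0 u) (hr : 0 < r) (hC0 : 0 < C0)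
    {x₀ : EuclideanSpace ℝ (Fin n)} (hx₀ : u x₀ ≤ 2) : IsCompact {x | dev u x x₀ ≤ 1} := by
  refine Metric.isCompact_of_isClosed_isBounded ?_ ?_
  · refine isClosed_le ?_ continuous_const
    unfold dev
    have h1 := h.continuous
    have h2 := h.continuous_fderiv
    have h3 : Continuous fun x => fderiv ℝ u x (x₀ - x) :=
      h2.clm_apply (continuous_const.sub continuous_id)
    exact (continuous_const.sub h1).sub h3
  · refine (Metric.isBounded_closedBall (x := (0 : EuclideanSpace ℝ (Fin n)))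
      (r := rho2 r C0)).subset ?_
    intro x hx
    rw [mem_closedBall_zero_iff]
    exact h.norm_le_rho2 hr hC0 hx₀ hx

lemma rho2_pos (r C0 : ℝ) : 0 < rho2 r C0 := by
  unfold rho2
  have : (0:ℝ) < max 1 (((C0 + 2 + 3 * UU r C0 2) / 2) ^ C0) := lt_max_of_lt_left one_pos
  linarith

/-- constants -/
def LamC (n : ℕ) (r C0 : ℝ) : ℝ := 6 ^ n * Real.exp (((n:ℝ) + 2) / 4) * (UU r C0 3) ^ (2 * n)

def lamC (n : ℕ) (r C0 : ℝ) : ℝ :=
  ((4 * ((n:ℝ) + 1) * (rho2 r C0 + 1) ^ 2) ^ n * Real.exp (((n:ℝ) + 2) / (4 * ((n:ℝ) + 1))))⁻¹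

lemma LamC_pos (n : ℕ) (r C0 : ℝ) : 0 < LamC n r C0 := by
  unfold LamC
  have := UU_pos r C0 3
  positivity

lemma lamC_pos (n : ℕ) (r C0 : ℝ) : 0 < lamC n r C0 := by
  unfold lamC
  have := rho2_pos r C0
  positivity

/-- **The normalised section.** -/
theorem nsec (h : Pre n r C0 u) (hr : 0 < r) (hC0 : 0 < C0) (hU : DetUpper n) (hL : DetLower n) :
    NSec n r (lamC n r C0) (LamC n r C0) (UU r C0 3) u where
  sc := h.sc
  zero := h.zero
  dzero := h.dzero
  ball := h.ball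
  bdd := h.bdd
  grad := by
    intro x hx
    refine (h.norm_fderiv_le hr hC0.le x).trans (UU_mono hr hC0.le ?_)
    have := h.bdd x hx
    linarith
  det_ge := by
    intro x hx
    have h1 := hL u h.sc h.pde x (rho2 r C0 + 1) (by have := rho2_pos r C0; linarith)
      (h.isCompact_dual hr hC0 hx) (fun y hy => by
        have e1 := h.norm_le_rho2 hr hC0 hx hy
        have e2 := h.bdd x hx
        have := norm_sub_le y x
        linarith)
    unfold lamC
    have hpos : 0 < (4 * ((n:ℝ) + 1) * (rho2 r C0 + 1) ^ 2) ^ n *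
        Real.exp (((n:ℝ) + 2) / (4 * ((n:ℝ) + 1))) := by
      have := rho2_pos r C0
      positivity
    rw [inv_le_iff_one_le_mul₀ hpos, mul_comm]
    exact h1
  det_le := by
    intro x hx
    have h1 := hU u h.sc h.pde (UU r C0 3) (UU_pos _ _ _) h.isCompact_four (fun y hy => by
      refine (h.norm_fderiv_le hr hC0.le y).trans (UU_mono hr hC0.le ?_)
      have := h.norm_le_two hy
      linarith) x (by linarith)
    have h2 : (1:ℝ) ≤ (4 - u x) ^ n := one_le_pow₀ (by linarith)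
    have h3 : 0 < (hessianMat u x).det := (h.sc.posDef x (mem_univ _)).det_pos
    unfold LamC
    nlinarith

end Pre

end Crest.Agent.R236.Sec
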