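import Crest.Agent.R236.WH3

/-! Row 236: the weak Harnack inequality in measure (`WHStmt`), helper770. -/

set_option autoImplicit false
open scoped ContDiff Topology ENNReal
open MeasureTheory Set
open Crest.GeometryTopology.CoordMetric Crest.GeometryTopology.AffineMaximal
open Crest.Agent.R236.Sec

noncomputable section

namespace Crest.Agent.R236.WH

variable {n : ℕ} {u : EuclideanSpace ℝ (Fin n) → ℝ} {r lam Lam G : ℝ}

theorem norm_fderiv_sq_le (f : EuclideanSpace ℝ (Fin n) → ℝ) (x : EuclideanSpace ℝ (Fin n)) :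
    ‖fderiv ℝ f x‖ ^ 2 ≤ ∑ i, (pderiv i f x) ^ 2 := by
  have e2 : ‖ABP.gradE f x‖ ^ 2 = ∑ i, (pderiv i f x) ^ 2 := by
    rw [EuclideanSpace.real_norm_sq_eq]
    simp [ABP.gradE]
  rw [← e2]
  apply pow_le_pow_left₀ (norm_nonneg _)
  refine ContinuousLinearMap.opNorm_le_bound _ (norm_nonneg _) fun h => ?_
  rw [ABP.fderiv_apply_eq_sum, Real.norm_eq_abs]
  have h1 := abs_real_inner_le_norm (ABP.gradE f x) h
  refine le_trans (le_of_eq ?_) h1
  congr 1
  simp only [PiLp.inner_apply, RCLike.inner_apply, conj_trivial, ABP.gradE]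
  exact Finset.sum_congr rfl fun j _ => by ring

/-- the total variation bound for `log v` on `{u < 1}` -/
theorem tv_bound (h : NSec n r lam Lam G u) (hlam : 0 < lam) (hLam : 0 < Lam) (hG : 0 < G)
    {v : EuclideanSpace ℝ (Fin n) → ℝ} (hv : ContDiff ℝ ∞ v) (hp : ∀ x, 0 < v x)
    (hL : ∀ x, u x ≤ 2 → ∑ i, ∑ j, (hessianMat u x).adjugate i j * hessianMat v x i j ≤ 0) :
    ∫⁻ x in {x | u x < 1}, ‖fderiv ℝ (fun y => Real.log (v y)) x‖ₑ
      ≤ ENNReal.ofReal (1 / 2 * (128 / 3 * n * Lam * V1 n + lam⁻¹ * (4 * G ^ 2 * V1 n))) := by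
  set f : EuclideanSpace ℝ (Fin n) → ℝ := fun y => Real.log (v y) with hf
  have hfs : ContDiff ℝ ∞ f := contDiff_log hv hp
  have hf1 : ContDiff ℝ 1 f := hfs.of_le (by norm_cast)
  have hu2 : ContDiff ℝ 2 u := (contDiff_u h).of_le (by norm_cast)
  set F : EuclideanSpace ℝ (Fin n) → ℝ := fun x => Uq u x (fun i => pderiv i f x)
    (fun i => pderiv i f x) with hF
  set T : EuclideanSpace ℝ (Fin n) → ℝ := fun x => ∑ i, hessianMat u x i i with hT
  have cF : Continuous F := continuous_Uq h hf1 hf1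
  have cT : Continuous T := continuous_finsetSum _ fun i _ => contDiff_hess hu2 i i
  have hF0 : ∀ x, 0 ≤ F x := fun x => Uq_nonneg h.sc x _
  have hT0 : ∀ x, 0 ≤ T x := fun x => by
    have := (h.sc.posDef x (mem_univ x)).posSemidef.trace_nonneg
    simpa [Matrix.trace, hT] using this
  have i4F : Integrable (fun x => cut 4 u x * F x) :=
    ((continuous_cut h _).mul cF).integrable_of_hasCompactSupport
      (cut_compact h (by norm_num)).mul_right
  have i2T : Integrable (fun x => cut 2 u x * T x) :=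
    ((continuous_cut h _).mul cT).integrable_of_hasCompactSupport
      (cut_compact h (by norm_num)).mul_right
  set W : EuclideanSpace ℝ (Fin n) → ℝ :=
    fun x => 1 / 2 * (cut 4 u x * F x + lam⁻¹ * (cut 2 u x * T x)) with hW
  have iW : Integrable W := (i4F.add (i2T.const_mul _)).const_mul _
  have hW0 : ∀ x, 0 ≤ W x := fun x => by
    simp only [hW]
    have h1 := cut_nonneg (u := u) 4 x
    have h2 := cut_nonneg (u := u) 2 x
    have h3 := hF0 x
    have h4 := hT0 x
    positivity
  have hpt : ∀ x ∈ {x | u x < 1}, ‖fderiv ℝ f x‖ ≤ W x := by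
    intro x hx
    have hx1 : u x ≤ 1 := le_of_lt hx
    have hD := h.det_ge x (by linarith)
    have hDpos := h.sc.det_pos (mem_univ x)
    have h1 := sq_det_le h.sc x (fun i => pderiv i f x)
    have h2 := norm_fderiv_sq_le f x
    have h3 : lam * ‖fderiv ℝ f x‖ ^ 2 ≤ F x * T x := by
      calc lam * ‖fderiv ℝ f x‖ ^ 2 ≤ (hessianMat u x).det * ∑ i, (pderiv i f x) ^ 2 :=
            mul_le_mul hD h2 (sq_nonneg _) hDpos.le
        _ ≤ F x * T x := h1
    have h4 : ‖fderiv ℝ f x‖ ^ 2 ≤ F x * (lam⁻¹ * T x) := by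
      rw [← mul_le_mul_iff_right₀ hlam]
      calc lam * ‖fderiv ℝ f x‖ ^ 2 ≤ F x * T x := h3
        _ = lam * (F x * (lam⁻¹ * T x)) := by field_simp
    have h5 : ‖fderiv ℝ f x‖ ≤ 1 / 2 * (F x + lam⁻¹ * T x) := by
      apply abs_le_of_sq_le_sq' _ _ |>.2
      · nlinarith [sq_nonneg (F x - lam⁻¹ * T x)]
      · have := hF0 x
        have := hT0 x
        positivity
    refine h5.trans ?_
    simp only [hW]
    have h6 : F x ≤ cut 4 u x * F x := le_mul_of_one_le_left (hF0 x) (one_le_cut hx1)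
    have h7 : T x ≤ cut 2 u x * T x := le_mul_of_one_le_left (hT0 x) (one_le_cut hx1)
    have h8 : lam⁻¹ * T x ≤ lam⁻¹ * (cut 2 u x * T x) :=
      mul_le_mul_of_nonneg_left h7 (inv_nonneg.mpr hlam.le)
    linarith
  have hS : MeasurableSet {x | u x < 1} :=
    (isOpen_lt (contDiff_u h).continuous continuous_const).measurableSet
  calc ∫⁻ x in {x | u x < 1}, ‖fderiv ℝ f x‖ₑ ≤ ∫⁻ x in {x | u x < 1}, ENNReal.ofReal (W x) := by
        refine setLIntegral_mono' hS fun x hx => ?_
        rw [← ofReal_norm]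
        exact ENNReal.ofReal_le_ofReal (hpt x hx)
    _ ≤ ∫⁻ x, ENNReal.ofReal (W x) := setLIntegral_le_lintegral _ _
    _ = ENNReal.ofReal (∫ x, W x) :=
        (ofReal_integral_eq_lintegral_ofReal iW (Filter.Eventually.of_forall hW0)).symm
    _ ≤ _ := by
        apply ENNReal.ofReal_le_ofReal
        simp only [hW]
        rw [integral_const_mul, integral_add i4F (i2T.const_mul _), integral_const_mul]
        have e1 : ∫ x, cut 4 u x * F x ≤ 128 / 3 * n * Lam * V1 n := energy_b h hLam hv hp hL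
        have e2 : ∫ x, cut 2 u x * T x ≤ 4 * G ^ 2 * V1 n := energy_c h hG
        have e3 : lam⁻¹ * ∫ x, cut 2 u x * T x ≤ lam⁻¹ * (4 * G ^ 2 * V1 n) :=
          mul_le_mul_of_nonneg_left e2 (inv_nonneg.mpr hlam.le)
        linarith

/-- **Weak Harnack inequality in measure.** -/
theorem wh (hn : 0 < n) : WHStmt n := by
  intro r lam Lam G hr hlam hLam hG
  set b0 : ℝ := (volume (Metric.ball (0 : EuclideanSpace ℝ (Fin n)) (1 / (4 * 2)))).toReal with hb0
  have hb0pos : 0 < b0 := by
    rw [hb0]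
    apply ENNReal.toReal_pos
    · exact (Metric.measure_ball_pos volume _ (by norm_num)).ne'
    · exact measure_ball_lt_top.ne
  set TV : ℝ := 1 / 2 * (128 / 3 * n * Lam * V1 n + lam⁻¹ * (4 * G ^ 2 * V1 n)) with hTV
  have hV : 0 ≤ V1 n := V1_nonneg
  have hTV0 : 0 ≤ TV := by rw [hTV]; positivity
  set C0 : ℝ := Lam * (2 * (2 ^ n * V1 n * TV)) / b0 with hC0
  have hC0n : 0 ≤ C0 := by rw [hC0]; positivity
  refine ⟨C0 + 1, by positivity, ?_⟩
  intro u h v hv hp hL z hz eps d heps hvz hd
  have huc : Continuous u := (contDiff_u h).continuous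
  have hu2 : ContDiff ℝ 2 u := (contDiff_u h).of_le (by norm_cast)
  have hv2 : ContDiff ℝ 2 v := hv.of_le (by norm_cast)
  set S : Set (EuclideanSpace ℝ (Fin n)) := {x | u x < 1} with hS
  set K : Set (EuclideanSpace ℝ (Fin n)) := {x | u x ≤ 1} with hK
  have hSo : IsOpen S := isOpen_lt huc continuous_const
  have hKb : K ⊆ Metric.closedBall 0 1 := fun x hx => by
    rw [mem_closedBall_zero_iff]
    exact h.bdd x (le_trans hx (by norm_num))
  have hKc : IsCompact K :=
    (isCompact_closedBall (0 : EuclideanSpace ℝ (Fin n)) 1).of_isClosed_subset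
      (isClosed_le huc continuous_const) hKb
  have hSK : S ⊆ K := by
    intro x hx
    have h' : u x < 1 := hx
    show u x ≤ 1
    exact h'.le
  have hSc : Convex ℝ S := by
    have := h.sc.convexOn.convex_lt 1
    simpa [hS] using this
  have hdist : ∀ x ∈ K, ∀ y ∈ K, dist x y ≤ 2 := by
    intro x hx y hy
    have h1 := hKb hx
    have h2 := hKb hy
    rw [Metric.mem_closedBall] at h1 h2
    calc dist x y ≤ dist x 0 + dist y 0 := dist_triangle_right _ _ _
      _ ≤ 2 := by linarith
  have hzS : z ∈ S := by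
    show u z < 1
    linarith
  -- critical density
  have hcd := ABP.crit_density hn hKc hSo hSK huc.continuousOn hv.continuous.continuousOn
    hu2.contDiffOn hv2.contDiffOn (fun x _ => h.sc.posDef x (mem_univ x))
    (Λ := Lam) (fun x hx => h.det_le x (by have : u x < 1 := hx; linarith))
    (fun x hx => by
      have h1 := hL x (by have : u x < 1 := hx; linarith)
      refine le_trans (le_of_eq ?_) h1
      unfold ABP.Lop
      refine Finset.sum_congr rfl fun i _ => Finset.sum_congr rfl fun j _ => ?_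
      rw [← h.sc.cof_eq (mem_univ x)]
      rfl)
    (fun x _ => (hp x).le) (h := 1) (A := 4 * eps) (d := 2) one_pos (by positivity) (by norm_num)
    (fun x _ => nonneg h x) (fun x hx hxS => not_lt.mp hxS) hzS (by linarith)
    (by linarith) (fun x hx => hdist x hx z (hSK hzS))
  -- Poincaré
  set f : EuclideanSpace ℝ (Fin n) → ℝ := fun y => Real.log (v y) with hf
  have hf1 : ContDiff ℝ 1 f := (contDiff_log hv hp).of_le (by norm_cast)
  have hpo := Poinc.poincare_sets hSo hSc hf1.contDiffOn (d := 2)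
    (fun x hx y hy => hdist x (hSK hx) y (hSK hy)) (Real.log (4 * eps)) (Real.log d)
  have htv := tv_bound h hlam hLam hG hv hp hL
  -- the two sets
  set Aset : Set (EuclideanSpace ℝ (Fin n)) := {x | x ∈ S ∧ v x < 4 * eps * 1} with hA
  set Bset : Set (EuclideanSpace ℝ (Fin n)) := {x | u x ≤ 1 / 2 ∧ d ≤ v x} with hB
  have hAsub : Aset ⊆ {x | x ∈ S ∧ f x ≤ Real.log (4 * eps)} := by
    intro x hx
    exact ⟨hx.1, Real.log_le_log (hp x) (by linarith [hx.2])⟩
  have hBsub : Bset ⊆ {x | x ∈ S ∧ Real.log d ≤ f x} := by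
    intro x hx
    refine ⟨?_, Real.log_le_log (by linarith) hx.2⟩
    show u x < 1
    linarith [hx.1]
  have hlog : Real.log d - Real.log (4 * eps) = Real.log (d / (4 * eps)) := by
    rw [Real.log_div (by linarith) (by positivity)]
  have hlogpos : 0 < Real.log (d / (4 * eps)) := by
    apply Real.log_pos
    rw [one_lt_div (by positivity)]
    exact hd
  have hmain : ENNReal.ofReal (Real.log (d / (4 * eps))) * volume Aset * volume Bset
      ≤ ENNReal.ofReal 2 * (2 ^ n * volume S * ENNReal.ofReal TV) := by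
    calc ENNReal.ofReal (Real.log (d / (4 * eps))) * volume Aset * volume Bset
        ≤ ENNReal.ofReal (Real.log d - Real.log (4 * eps)) *
          volume {x | x ∈ S ∧ f x ≤ Real.log (4 * eps)} * volume {x | x ∈ S ∧ Real.log d ≤ f x} := by
          rw [hlog]
          gcongr
      _ ≤ _ := hpo
      _ ≤ _ := by gcongr
  -- to real numbers
  have hSfin : volume S ≠ ⊤ := (measure_mono (hSK.trans hKb)).trans_lt
    (isCompact_closedBall _ _).measure_lt_top |>.ne
  have hAfin : volume Aset ≠ ⊤ := (measure_mono (fun x hx => hx.1)).trans_lt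
    (lt_top_iff_ne_top.mpr hSfin) |>.ne
  have hBfin : volume Bset ≠ ⊤ := (measure_mono (hBsub.trans fun x hx => hx.1)).trans_lt
    (lt_top_iff_ne_top.mpr hSfin) |>.ne
  have hVS : (volume S).toReal ≤ V1 n :=
    ENNReal.toReal_mono (isCompact_closedBall _ _).measure_lt_top.ne (measure_mono (hSK.trans hKb))
  have hreal : Real.log (d / (4 * eps)) * (volume Aset).toReal * (volume Bset).toReal
      ≤ 2 * (2 ^ n * (volume S).toReal * TV) := by
    have := ENNReal.toReal_mono (by finiteness) hmain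
    simpa [ENNReal.toReal_mul, ENNReal.toReal_ofReal hlogpos.le, ENNReal.toReal_ofReal hTV0]
      using this
  have hcdr : b0 ≤ Lam * (volume Aset).toReal := by
    have := ENNReal.toReal_mono (by finiteness) hcd
    rwa [ENNReal.toReal_mul, ENNReal.toReal_ofReal hLam.le] at this
  -- conclusion
  have hAr : b0 / Lam ≤ (volume Aset).toReal := by
    rw [div_le_iff₀ hLam]; linarith [mul_comm Lam (volume Aset).toReal]
  set vb := (volume Bset).toReal with hvb
  have hvb0 : 0 ≤ vb := ENNReal.toReal_nonneg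
  have h1 : Real.log (d / (4 * eps)) * (b0 / Lam) * vb ≤ 2 * (2 ^ n * V1 n * TV) := by
    calc Real.log (d / (4 * eps)) * (b0 / Lam) * vb
        ≤ Real.log (d / (4 * eps)) * (volume Aset).toReal * vb := by gcongr
      _ ≤ 2 * (2 ^ n * (volume S).toReal * TV) := hreal
      _ ≤ 2 * (2 ^ n * V1 n * TV) := by gcongr
  have h2 : vb * Real.log (d / (4 * eps)) ≤ C0 := by
    rw [hC0, le_div_iff₀ hb0pos]
    calc vb * Real.log (d / (4 * eps)) * b0
        = Lam * (Real.log (d / (4 * eps)) * (b0 / Lam) * vb) := by field_simp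
      _ ≤ Lam * (2 * (2 ^ n * V1 n * TV)) := mul_le_mul_of_nonneg_left h1 hLam.le
  linarith

end Crest.Agent.R236.WH
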