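import Crest.Agent.R236.Top0
import Crest.Agent.R236.A4
import Crest.Agent.R236.APartA
import Crest.Agent.R236.Const
import Crest.Agent.R236.BFinal
import Crest.Agent.R236.CertThm
import Crest.Agent.R236.EnergyThm
import Crest.Agent.R236.LowerThm
import Crest.Agent.R236.WH
import Crest.Agent.R236.DetAdapt
import Crest.Agent.R236.DetLower
import Crest.Agent.R236.Jcp5
import Crest.Agent.R236.BGeo
import Crest.Agent.R236.BApx
import Crest.Agent.R236.BApxW

/-! Row 236: link of `S0365` with the open nodes as hypotheses (helper709, linker). -/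

set_option autoImplicit false
open scoped ContDiff Topology
open Crest.GeometryTopology.CoordMetric Crest.GeometryTopology.AffineMaximal
open Set Filter MeasureTheory

noncomputable section

namespace Crest.Agent.R236.Top

open Crest.Agent.R236

/-- Part A -/
theorem partA : A.PartA := A.partA_of_a4 A.a4

/-- lower determinant bound, in the form of `SecPre`. -/
theorem detLower {n : ℕ} (hn : 1 ≤ n) : Sec.DetLower n := by
  intro u h hp x₀ G hG hK hb
  have := Det.det_lower_base hn h hp (x0 := x₀) (mem_univ _) one_pos
    (by simpa [Sec.dev] using hK) hG (fun x _ hx => hb x hx)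
  simpa using this

/-- `S0365` from the leaves. -/
theorem S0365_of_leaves (hJ : ∀ n : ℕ, 3 ≤ n → n ≤ 9 → Jcp.CubicCore n) :
    ∀ n : ℕ, 3 ≤ n → n ≤ 9 → Asm.S0365Stmt n :=
  Top0.S0365_of_parts partA
    (fun n h3 h9 hS => BF.struct_false (by omega) (B.apx_of_stmts B.geo B.apxW) (certStmt n h3 h9)
      (BCor.energyStmt n) (BmassF.lowerStmt n (by omega)) hS)
    (fun n h3 h9 => Sec.constStmt (by omega) (Sec.detUpper (by omega)) (detLower (by omega))
      (WH.wh (by omega)))
    (fun n h3 h9 Ω u c h hne hdet hsec => Jcp.jcp_of (hJ n h3 h9) h hne hdet hsec)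

end Crest.Agent.R236.Top
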