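import Crest.Agent.R236.Asm

/-! Row 236: S0365 from Part A, Part B, Liouville and JCP (helper850). -/

set_option autoImplicit false
open scoped ContDiff Topology
open Crest.GeometryTopology.CoordMetric Crest.GeometryTopology.AffineMaximal
open Set Filter MeasureTheory

noncomputable section

namespace Crest.Agent.R236.Top0

open Crest.Agent.R236

/-- everything together -/
theorem S0365_of_parts (hA : A.PartA) (hB : ∀ n : ℕ, 3 ≤ n → n ≤ 9 → A.STRUCT n → False)
    (hC : ∀ n : ℕ, 3 ≤ n → n ≤ 9 → Asm.ConstStmt n)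
    (hJ : ∀ n : ℕ, 3 ≤ n → n ≤ 9 → Asm.JcpStmt n) :
    ∀ n : ℕ, 3 ≤ n → n ≤ 9 → Asm.S0365Stmt n := by
  intro n h3 h9
  have hBAL : A.BAL n := by
    by_contra hcon
    exact hB n h3 h9 (hA n (by omega) hcon)
  exact Asm.S0365_of hBAL (hC n h3 h9) (hJ n h3 h9)

end Crest.Agent.R236.Top0
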