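import Crest.Agent.R236.Top
import Crest.Agent.R236.Jcp6

/-! Row 236: final link of `S0365` (helper709, linker). -/

set_option autoImplicit false
open scoped ContDiff Topology
open Crest.GeometryTopology.CoordMetric Crest.GeometryTopology.AffineMaximal
open Set Filter MeasureTheory

noncomputable section

namespace Crest.Agent.R236.TopFinal

open Crest.Agent.R236

theorem final : ∀ n : ℕ, 3 ≤ n → n ≤ 9 → Asm.S0365Stmt n :=
  Top.S0365_of_leaves fun n _ _ => Jcp.cubic_core n

end Crest.Agent.R236.TopFinal
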