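import Crest.Agent.R236.CalcA
import Crest.Agent.R236.SecDefs

/-! Row 236: the weak Harnack inequality in measure, part 1: integrations by parts with
truncated powers of `2 - u` (helper770). -/

set_option autoImplicit false
open scoped ContDiff Topology
open MeasureTheory Set
open Crest.GeometryTopology.CoordMetric Crest.GeometryTopology.AffineMaximal

noncomputable section

namespace Crest.Agent.R236.WH

variable {n : ℕ}

theorem integral_pderiv_eq_zero {Y : EuclideanSpace ℝ (Fin n) → ℝ} (hY : ContDiff ℝ 1 Y)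
    (hc : HasCompactSupport Y) (i : Fin n) : ∫ x, pderiv i Y x = 0 := by
  have hcd : Continuous (fun x => fderiv ℝ Y x (EuclideanSpace.single i 1)) :=
    (hY.continuous_fderiv (by norm_num)).clm_apply continuous_const
  have hcs : HasCompactSupport (fun x => fderiv ℝ Y x (EuclideanSpace.single i 1)) :=
    hc.fderiv_apply ℝ _
  have h := integral_mul_fderiv_eq_neg_fderiv_mul_of_integrable (𝕜 := ℝ) (μ := volume)
    (f := fun _ : EuclideanSpace ℝ (Fin n) => (1 : ℝ)) (g := Y) (v := EuclideanSpace.single i 1)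
    (by simp) (by simpa using hcd.integrable_of_hasCompactSupport hcs)
    (by simpa using hY.continuous.integrable_of_hasCompactSupport hc)
    (fun x _ => differentiableAt_const _) (fun x _ => (hY.differentiable (by norm_num)) x)
  simpa [pderiv] using h

/-- the bilinear form of the cofactor matrix -/
def Uq (u : EuclideanSpace ℝ (Fin n) → ℝ) (x : EuclideanSpace ℝ (Fin n)) (p q : Fin n → ℝ) : ℝ :=
  ∑ i, ∑ j, cof u x i j * p i * q j

theorem contDiff_pderiv {f : EuclideanSpace ℝ (Fin n) → ℝ} {m k : WithTop ℕ∞}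
    (hf : ContDiff ℝ k f) (hmk : m + 1 ≤ k) (i : Fin n) : ContDiff ℝ m (pderiv i f) := by
  have := contDiffOn_pderiv (Ω := univ) isOpen_univ (contDiffOn_univ.mpr hf) hmk i
  exact contDiffOn_univ.mp this

theorem contDiff_cof {u : EuclideanSpace ℝ (Fin n) → ℝ} (h : SC univ u) (i j : Fin n) :
    ContDiff ℝ ∞ (fun x => cof u x i j) := contDiffOn_univ.mp (h.contDiffOn_cof i j)

theorem contDiff_hess {f : EuclideanSpace ℝ (Fin n) → ℝ} (hf : ContDiff ℝ 2 f) (i j : Fin n) :
    Continuous (fun x => hessianMat f x i j) :=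
  (contDiff_pderiv (m := 0) (contDiff_pderiv (m := 1) hf (by norm_num) j) (by norm_num) i).continuous

/-- integration by parts against the cofactor matrix -/
theorem ibp {u : EuclideanSpace ℝ (Fin n) → ℝ} (h : SC univ u)
    {φ f : EuclideanSpace ℝ (Fin n) → ℝ} (hφ : ContDiff ℝ 1 φ) (hc : HasCompactSupport φ)
    (hf : ContDiff ℝ 2 f) :
    ∫ x, φ x * (∑ i, ∑ j, cof u x i j * hessianMat f x i j)
      = - ∫ x, Uq u x (fun i => pderiv i φ x) (fun j => pderiv j f x) := by
  set Y : Fin n → EuclideanSpace ℝ (Fin n) → ℝ :=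
    fun i y => φ y * ∑ j, cof u y i j * pderiv j f y with hYdef
  have hYc : ∀ i, ContDiff ℝ 1 (Y i) := by
    intro i
    refine hφ.mul (ContDiff.sum fun j _ => ?_)
    exact ((contDiff_cof h i j).of_le (by norm_cast)).mul (contDiff_pderiv hf (by norm_num) j)
  have hYs : ∀ i, HasCompactSupport (Y i) := fun i => hc.mul_right
  have h0 : ∑ i, ∫ x, pderiv i (Y i) x = 0 :=
    Finset.sum_eq_zero fun i _ => integral_pderiv_eq_zero (hYc i) (hYs i) i
  have hint : ∀ i, Integrable (fun x => pderiv i (Y i) x) := by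
    intro i
    have hcd : Continuous (fun x => fderiv ℝ (Y i) x (EuclideanSpace.single i 1)) :=
      ((hYc i).continuous_fderiv (by norm_num)).clm_apply continuous_const
    exact hcd.integrable_of_hasCompactSupport ((hYs i).fderiv_apply ℝ _)
  rw [← integral_finsetSum _ fun i _ => hint i] at h0
  have hpt : ∀ x, ∑ i, pderiv i (Y i) x = φ x * (∑ i, ∑ j, cof u x i j * hessianMat f x i j)
      + Uq u x (fun i => pderiv i φ x) (fun j => pderiv j f x) := by
    intro x
    exact h.div_cof_grad (mem_univ x) ((hφ.differentiable (by norm_num)) x) hf.contDiffAt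
  simp_rw [hpt] at h0
  have hc1 : Continuous (fun x => φ x * (∑ i, ∑ j, cof u x i j * hessianMat f x i j)) := by
    refine hφ.continuous.mul (continuous_finsetSum _ fun i _ => continuous_finsetSum _ fun j _ => ?_)
    exact (contDiff_cof h i j).continuous.mul (contDiff_hess hf i j)
  have hi1 : Integrable (fun x => φ x * (∑ i, ∑ j, cof u x i j * hessianMat f x i j)) :=
    hc1.integrable_of_hasCompactSupport hc.mul_right
  have hc2 : Continuous (fun x => Uq u x (fun i => pderiv i φ x) (fun j => pderiv j f x)) := by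
    unfold Uq
    refine continuous_finsetSum _ fun i _ => continuous_finsetSum _ fun j _ => ?_
    refine ((contDiff_cof h i j).continuous.mul ?_).mul ?_
    · exact (contDiff_pderiv (m := 0) hφ (by norm_num) i).continuous
    · exact (contDiff_pderiv (m := 1) hf (by norm_num) j).continuous
  have hs2 : HasCompactSupport (fun x => Uq u x (fun i => pderiv i φ x) (fun j => pderiv j f x)) := by
    refine HasCompactSupport.intro' (K := tsupport φ) hc (isClosed_tsupport φ) fun x hx => ?_
    have hz : ∀ i, pderiv i φ x = 0 := by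
      intro i
      have : x ∉ tsupport (fun y => fderiv ℝ φ y) := fun hh => hx (tsupport_fderiv_subset ℝ hh)
      have h1 : fderiv ℝ φ x = 0 := image_eq_zero_of_notMem_tsupport this
      unfold pderiv; rw [h1]; simp
    unfold Uq
    simp [hz]
  have hi2 : Integrable (fun x => Uq u x (fun i => pderiv i φ x) (fun j => pderiv j f x)) :=
    hc2.integrable_of_hasCompactSupport hs2
  rw [integral_add hi1 hi2] at h0
  linarith

/-- integration by parts for the Euclidean Laplacian -/
theorem ibp_id {φ f : EuclideanSpace ℝ (Fin n) → ℝ} (hφ : ContDiff ℝ 1 φ)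
    (hc : HasCompactSupport φ) (hf : ContDiff ℝ 2 f) :
    ∫ x, φ x * (∑ i, hessianMat f x i i) = - ∫ x, ∑ i, pderiv i φ x * pderiv i f x := by
  set Y : Fin n → EuclideanSpace ℝ (Fin n) → ℝ := fun i y => φ y * pderiv i f y with hYdef
  have hpd : ∀ i, ContDiff ℝ 1 (pderiv i f) := fun i => contDiff_pderiv hf (by norm_num) i
  have hYc : ∀ i, ContDiff ℝ 1 (Y i) := fun i => hφ.mul (hpd i)
  have hYs : ∀ i, HasCompactSupport (Y i) := fun i => hc.mul_right
  have h0 : ∑ i, ∫ x, pderiv i (Y i) x = 0 :=
    Finset.sum_eq_zero fun i _ => integral_pderiv_eq_zero (hYc i) (hYs i) i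
  have hint : ∀ i, Integrable (fun x => pderiv i (Y i) x) := by
    intro i
    have hcd : Continuous (fun x => fderiv ℝ (Y i) x (EuclideanSpace.single i 1)) :=
      ((hYc i).continuous_fderiv (by norm_num)).clm_apply continuous_const
    exact hcd.integrable_of_hasCompactSupport ((hYs i).fderiv_apply ℝ _)
  rw [← integral_finsetSum _ fun i _ => hint i] at h0
  have hpt : ∀ x, ∑ i, pderiv i (Y i) x = φ x * (∑ i, hessianMat f x i i)
      + ∑ i, pderiv i φ x * pderiv i f x := by
    intro x
    rw [Finset.mul_sum, ← Finset.sum_add_distrib]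
    refine Finset.sum_congr rfl fun i _ => ?_
    simp only [hYdef]
    rw [pderiv_mul ((hφ.differentiable (by norm_num)) x) ((hpd i).differentiable (by norm_num) x)]
    unfold hessianMat
    ring
  simp_rw [hpt] at h0
  have hi1 : Integrable (fun x => φ x * (∑ i, hessianMat f x i i)) :=
    (hφ.continuous.mul (continuous_finsetSum _ fun i _ =>
      contDiff_hess hf i i)).integrable_of_hasCompactSupport hc.mul_right
  have hc2 : Continuous (fun x => ∑ i, pderiv i φ x * pderiv i f x) :=
    continuous_finsetSum _ fun i _ =>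
      (contDiff_pderiv (m := 0) hφ (by norm_num) i).continuous.mul (hpd i).continuous
  have hs2 : HasCompactSupport (fun x => ∑ i, pderiv i φ x * pderiv i f x) := by
    refine HasCompactSupport.intro' (K := tsupport φ) hc (isClosed_tsupport φ) fun x hx => ?_
    have hz : ∀ i, pderiv i φ x = 0 := by
      intro i
      have : x ∉ tsupport (fun y => fderiv ℝ φ y) := fun hh => hx (tsupport_fderiv_subset ℝ hh)
      have h1 : fderiv ℝ φ x = 0 := image_eq_zero_of_notMem_tsupport this
      unfold pderiv; rw [h1]; simp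
    simp [hz]
  have hi2 : Integrable (fun x => ∑ i, pderiv i φ x * pderiv i f x) :=
    hc2.integrable_of_hasCompactSupport hs2
  rw [integral_add hi1 hi2] at h0
  linarith

/-- truncated power -/
def tp (k : ℕ) (s : ℝ) : ℝ := (max s 0) ^ k

theorem hasDerivAt_tp (k : ℕ) (s : ℝ) :
    HasDerivAt (tp (k + 2)) ((k + 2 : ℕ) * tp (k + 1) s) s := by
  rcases lt_trichotomy s 0 with hs | hs | hs
  · have h1 : tp (k + 2) =ᶠ[𝓝 s] fun _ => 0 := by
      filter_upwards [Iio_mem_nhds hs] with y hy
      simp [tp, max_eq_right (le_of_lt (mem_Iio.mp hy))]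
    have h2 : ((k + 2 : ℕ) : ℝ) * tp (k + 1) s = 0 := by
      simp [tp, max_eq_right hs.le]
    rw [h2]
    exact (hasDerivAt_const s (0 : ℝ)).congr_of_eventuallyEq h1
  · subst hs
    have h2 : ((k + 2 : ℕ) : ℝ) * tp (k + 1) 0 = 0 := by simp [tp]
    rw [h2]
    have h3 : HasDerivAt (fun y : ℝ => y ^ 2) 0 0 := by
      simpa using hasDerivAt_pow 2 (0 : ℝ)
    rw [hasDerivAt_iff_isLittleO_nhds_zero] at h3 ⊢
    simp only [zero_add, ne_eq, OfNat.ofNat_ne_zero, not_false_eq_true, zero_pow, sub_zero, smul_zero]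
      at h3 ⊢
    have h4 : tp (k + 2) 0 = 0 := by simp [tp]
    rw [h4]
    simp only [sub_zero]
    refine (Asymptotics.IsBigO.of_bound 1 ?_).trans_isLittleO h3
    filter_upwards [Iio_mem_nhds (show (0 : ℝ) < 1 by norm_num)] with y hy
    have hm0 : 0 ≤ max y 0 := le_max_right _ _
    have hm1 : max y 0 ≤ 1 := max_le (le_of_lt hy) zero_le_one
    have hm2 : (max y 0) ^ 2 ≤ y ^ 2 := by
      rcases le_total y 0 with h | h
      · rw [max_eq_right h]; nlinarith [sq_nonneg y]
      · rw [max_eq_left h]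
    have ha : 0 ≤ tp (k + 2) y := pow_nonneg hm0 _
    have hb : 0 ≤ y ^ 2 := sq_nonneg y
    rw [one_mul, Real.norm_eq_abs, Real.norm_eq_abs, abs_of_nonneg ha, abs_of_nonneg hb]
    unfold tp
    calc (max y 0) ^ (k + 2) = (max y 0) ^ k * (max y 0) ^ 2 := by ring
      _ ≤ 1 * (max y 0) ^ 2 := by
          apply mul_le_mul_of_nonneg_right (pow_le_one₀ hm0 hm1) (by positivity)
      _ ≤ y ^ 2 := by rw [one_mul]; exact hm2
  · have h1 : tp (k + 2) =ᶠ[𝓝 s] fun y => y ^ (k + 2) := by
      filter_upwards [Ioi_mem_nhds hs] with y hy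
      simp [tp, max_eq_left (le_of_lt (mem_Ioi.mp hy))]
    have h2 : tp (k + 1) s = s ^ (k + 1) := by simp [tp, max_eq_left hs.le]
    rw [h2]
    have h3 := hasDerivAt_pow (k + 2) s
    simpa using h3.congr_of_eventuallyEq h1

theorem continuous_tp (k : ℕ) : Continuous (tp k) := by
  unfold tp; fun_prop

theorem contDiff_tp (k : ℕ) : ContDiff ℝ 1 (tp (k + 2)) := by
  rw [contDiff_one_iff_deriv]
  refine ⟨fun s => (hasDerivAt_tp k s).differentiableAt, ?_⟩
  have : deriv (tp (k + 2)) = fun s => ((k + 2 : ℕ) : ℝ) * tp (k + 1) s := by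
    ext s; exact (hasDerivAt_tp k s).deriv
  rw [this]
  exact continuous_const.mul (continuous_tp _)

end Crest.Agent.R236.WH
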