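import Crest.Agent.R236.WH1
import Crest.Agent.R236.Growth
import Crest.Agent.R236.Poinc

/-! Row 236: the weak Harnack inequality in measure, part 2: energy bounds on a normalised
section (helper770). -/

set_option autoImplicit false
open scoped ContDiff Topology
open MeasureTheory Set
open Crest.GeometryTopology.CoordMetric Crest.GeometryTopology.AffineMaximal
open Crest.Agent.R236.Sec

noncomputable section

namespace Crest.Agent.R236.WH

variable {n : ℕ}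

/-! ### matrices -/

open Matrix in
theorem form_factor (C : Matrix (Fin n) (Fin n) ℝ) (x y : Fin n → ℝ) :
    x ⬝ᵥ (C.conjTranspose * C) *ᵥ y = (C *ᵥ x) ⬝ᵥ (C *ᵥ y) := by
  rw [← Matrix.mulVec_mulVec, Matrix.dotProduct_mulVec, Matrix.conjTranspose_eq_transpose_of_trivial,
    Matrix.vecMul_transpose]

open Matrix in
theorem dot_sq_le (x y : Fin n → ℝ) : (x ⬝ᵥ y) ^ 2 ≤ (x ⬝ᵥ x) * (y ⬝ᵥ y) := by
  have h := Finset.sum_mul_sq_le_sq_mul_sq Finset.univ x y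
  simpa [dotProduct, pow_two] using h

open Matrix in
theorem form_eq_sum (M : Matrix (Fin n) (Fin n) ℝ) (p q : Fin n → ℝ) :
    p ⬝ᵥ M *ᵥ q = ∑ i, ∑ j, M i j * p i * q j := by
  simp only [dotProduct, mulVec]
  refine Finset.sum_congr rfl fun i _ => ?_
  rw [Finset.mul_sum]
  refine Finset.sum_congr rfl fun j _ => by ring

open Matrix in
/-- `|p|² ≤ (pᵀ H⁻¹ p) tr H` for positive definite `H`. -/
theorem sq_le_inv_form_mul_trace {H : Matrix (Fin n) (Fin n) ℝ} (hH : H.PosDef) (p : Fin n → ℝ) :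
    ∑ i, p i ^ 2 ≤ (∑ i, ∑ j, H⁻¹ i j * p i * p j) * H.trace := by
  obtain ⟨B, hB⟩ := ABP.exists_factor hH.posSemidef
  obtain ⟨C, hC⟩ := ABP.exists_factor hH.inv.posSemidef
  have hHd : IsUnit H.det := isUnit_iff_ne_zero.mpr hH.det_pos.ne'
  have hP : ∑ i, p i ^ 2 = p ⬝ᵥ p := by simp [dotProduct, pow_two]
  rw [hP, ← form_eq_sum]
  have h1 : p ⬝ᵥ p = (C *ᵥ p) ⬝ᵥ (C *ᵥ (H *ᵥ p)) := by
    rw [← form_factor, ← hC, Matrix.mulVec_mulVec, Matrix.nonsing_inv_mul _ hHd, Matrix.one_mulVec]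
  have h2 : (C *ᵥ (H *ᵥ p)) ⬝ᵥ (C *ᵥ (H *ᵥ p)) = p ⬝ᵥ H *ᵥ p := by
    rw [← form_factor, ← hC, Matrix.mulVec_mulVec, Matrix.nonsing_inv_mul _ hHd, Matrix.one_mulVec,
      dotProduct_comm]
  have h3 : (C *ᵥ p) ⬝ᵥ (C *ᵥ p) = p ⬝ᵥ H⁻¹ *ᵥ p := by
    rw [← form_factor, ← hC]
  have h4 : (p ⬝ᵥ p) ^ 2 ≤ (p ⬝ᵥ H⁻¹ *ᵥ p) * (p ⬝ᵥ H *ᵥ p) := by
    have := dot_sq_le (C *ᵥ p) (C *ᵥ (H *ᵥ p))
    rwa [← h1, h2, h3] at this
  have hP0 : 0 ≤ p ⬝ᵥ p := by rw [← hP]; exact Finset.sum_nonneg fun i _ => sq_nonneg _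
  have hI0 : 0 ≤ p ⬝ᵥ H⁻¹ *ᵥ p := by
    rw [← h3]; exact Finset.sum_nonneg fun i _ => mul_self_nonneg _
  have htr : H.trace = ∑ k, ∑ i, B k i ^ 2 := by
    rw [hB, Matrix.trace, Finset.sum_comm]
    refine Finset.sum_congr rfl fun i _ => ?_
    rw [Matrix.diag_apply, Matrix.mul_apply]
    refine Finset.sum_congr rfl fun k _ => ?_
    simp [Matrix.conjTranspose_apply, pow_two]
  have htr0 : 0 ≤ H.trace := by
    rw [htr]; exact Finset.sum_nonneg fun k _ => Finset.sum_nonneg fun i _ => sq_nonneg _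
  have h5 : p ⬝ᵥ H *ᵥ p ≤ H.trace * (p ⬝ᵥ p) := by
    have e : p ⬝ᵥ H *ᵥ p = ∑ k, (∑ i, B k i * p i) ^ 2 := by
      conv_lhs => rw [hB]
      rw [form_factor]
      simp [dotProduct, mulVec, pow_two]
    rw [e, htr, ← hP, Finset.sum_mul]
    exact Finset.sum_le_sum fun k _ => Finset.sum_mul_sq_le_sq_mul_sq Finset.univ _ _
  rcases hP0.eq_or_lt with h0 | h0
  · rw [← h0]; exact mul_nonneg hI0 htr0
  · have h6 : (p ⬝ᵥ p) ^ 2 ≤ ((p ⬝ᵥ H⁻¹ *ᵥ p) * H.trace) * (p ⬝ᵥ p) := by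
      calc (p ⬝ᵥ p) ^ 2 ≤ (p ⬝ᵥ H⁻¹ *ᵥ p) * (p ⬝ᵥ H *ᵥ p) := h4
        _ ≤ (p ⬝ᵥ H⁻¹ *ᵥ p) * (H.trace * (p ⬝ᵥ p)) := mul_le_mul_of_nonneg_left h5 hI0
        _ = _ := by ring
    rw [pow_two] at h6
    exact le_of_mul_le_mul_right h6 h0

/-! ### the quadratic form of the cofactor matrix -/

variable {u : EuclideanSpace ℝ (Fin n) → ℝ}

theorem Uq_eq (x : EuclideanSpace ℝ (Fin n)) (p q : Fin n → ℝ) :
    Uq u x p q = ∑ i, ∑ j, cof u x i j * p i * q j := rfl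

open Matrix in
theorem Uq_nonneg (h : SC univ u) (x : EuclideanSpace ℝ (Fin n)) (p : Fin n → ℝ) :
    0 ≤ Uq u x p p := by
  obtain ⟨C, hC⟩ := ABP.exists_factor (h.cof_posDef (mem_univ x)).posSemidef
  rw [Uq_eq, ← form_eq_sum, hC, form_factor]
  exact Finset.sum_nonneg fun i _ => mul_self_nonneg _

open Matrix in
theorem Uq_cs (h : SC univ u) (x : EuclideanSpace ℝ (Fin n)) (p q : Fin n → ℝ) :
    (Uq u x p q) ^ 2 ≤ Uq u x p p * Uq u x q q := by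
  obtain ⟨C, hC⟩ := ABP.exists_factor (h.cof_posDef (mem_univ x)).posSemidef
  rw [Uq_eq, Uq_eq, Uq_eq, ← form_eq_sum, ← form_eq_sum, ← form_eq_sum, hC, form_factor,
    form_factor, form_factor]
  exact dot_sq_le _ _

theorem Uq_smul_left (x : EuclideanSpace ℝ (Fin n)) (c : ℝ) (p q : Fin n → ℝ) :
    Uq u x (fun i => c * p i) q = c * Uq u x p q := by
  unfold Uq
  rw [Finset.mul_sum]
  refine Finset.sum_congr rfl fun i _ => ?_
  rw [Finset.mul_sum]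
  refine Finset.sum_congr rfl fun j _ => by ring

/-- `|p|² det ≤ U(p,p) tr H`. -/
theorem sq_det_le (h : SC univ u) (x : EuclideanSpace ℝ (Fin n)) (p : Fin n → ℝ) :
    (hessianMat u x).det * ∑ i, p i ^ 2 ≤ Uq u x p p * ∑ i, hessianMat u x i i := by
  have h1 := sq_le_inv_form_mul_trace (h.posDef x (mem_univ x)) p
  have hd := h.det_pos (mem_univ x)
  have e : Uq u x p p = (hessianMat u x).det * ∑ i, ∑ j, (hessianMat u x)⁻¹ i j * p i * p j := by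
    unfold Uq
    rw [Finset.mul_sum]
    refine Finset.sum_congr rfl fun i _ => ?_
    rw [Finset.mul_sum]
    refine Finset.sum_congr rfl fun j _ => ?_
    rw [h.cof_eq (mem_univ x)]; ring
  rw [e, mul_assoc]
  exact mul_le_mul_of_nonneg_left h1 hd.le

end Crest.Agent.R236.WH
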