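import Crest.Agent.R236.WH2

/-! Row 236: the weak Harnack inequality in measure, part 3: energy bounds (helper770). -/

set_option autoImplicit false
open scoped ContDiff Topology
open MeasureTheory Set
open Crest.GeometryTopology.CoordMetric Crest.GeometryTopology.AffineMaximal
open Crest.Agent.R236.Sec

noncomputable section

namespace Crest.Agent.R236.WH

variable {n : ℕ} {u : EuclideanSpace ℝ (Fin n) → ℝ} {r lam Lam G : ℝ}

theorem tp_nonneg (k : ℕ) (s : ℝ) : 0 ≤ tp k s := pow_nonneg (le_max_right _ _) _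

theorem tp_zero_of_nonpos {k : ℕ} (hk : k ≠ 0) {s : ℝ} (hs : s ≤ 0) : tp k s = 0 := by
  simp [tp, max_eq_right hs, hk]

theorem tp_le {s b : ℝ} (k : ℕ) (hs : s ≤ b) (hb : 0 ≤ b) : tp k s ≤ b ^ k :=
  pow_le_pow_left₀ (le_max_right _ _) (max_le hs hb) k

/-- the cutoff functions -/
def cut (k : ℕ) (u : EuclideanSpace ℝ (Fin n) → ℝ) (x : EuclideanSpace ℝ (Fin n)) : ℝ :=
  tp k (2 - u x)

section nsec

theorem nonneg (h : NSec n r lam Lam G u) (x : EuclideanSpace ℝ (Fin n)) : 0 ≤ u x := by
  have h1 := h.sc.tangent_le (mem_univ (0 : EuclideanSpace ℝ (Fin n))) (mem_univ x)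
  rw [h.zero, h.dzero] at h1
  simpa using h1

theorem contDiff_u (h : NSec n r lam Lam G u) : ContDiff ℝ ∞ u := contDiffOn_univ.mp h.sc.smooth

theorem contDiff_cut (h : NSec n r lam Lam G u) (k : ℕ) : ContDiff ℝ 1 (cut (k + 2) u) :=
  (contDiff_tp k).comp (contDiff_const.sub ((contDiff_u h).of_le (by norm_cast)))

theorem continuous_cut (h : NSec n r lam Lam G u) (k : ℕ) : Continuous (cut k u) :=
  (continuous_tp k).comp (continuous_const.sub (contDiff_u h).continuous)

theorem cut_zero (h : NSec n r lam Lam G u) {k : ℕ} (hk : k ≠ 0) {x : EuclideanSpace ℝ (Fin n)}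
    (hx : x ∉ Metric.closedBall (0 : EuclideanSpace ℝ (Fin n)) 1) : cut k u x = 0 := by
  apply tp_zero_of_nonpos hk
  by_contra hcon
  push Not at hcon
  apply hx
  rw [mem_closedBall_zero_iff]
  exact h.bdd x (by linarith)

theorem compactSupport_of (g : EuclideanSpace ℝ (Fin n) → ℝ)
    (hg : ∀ x ∉ Metric.closedBall (0 : EuclideanSpace ℝ (Fin n)) 1, g x = 0) :
    HasCompactSupport g :=
  HasCompactSupport.intro (isCompact_closedBall _ _) hg

theorem cut_compact (h : NSec n r lam Lam G u) {k : ℕ} (hk : k ≠ 0) :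
    HasCompactSupport (cut k u) :=
  compactSupport_of _ fun _ hx => cut_zero h hk hx

theorem cut_nonneg (k : ℕ) (x : EuclideanSpace ℝ (Fin n)) : 0 ≤ cut k u x := tp_nonneg _ _

theorem cut_le (h : NSec n r lam Lam G u) (k : ℕ) (x : EuclideanSpace ℝ (Fin n)) :
    cut k u x ≤ 2 ^ k := tp_le k (by linarith [nonneg h x]) (by norm_num)

theorem one_le_cut {k : ℕ} {x : EuclideanSpace ℝ (Fin n)} (hx : u x ≤ 1) : 1 ≤ cut k u x := by
  unfold cut tp
  exact one_le_pow₀ (le_max_of_le_left (by linarith))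

theorem le_two_of_cut_ne {k : ℕ} (hk : k ≠ 0) {x : EuclideanSpace ℝ (Fin n)}
    (hx : cut k u x ≠ 0) : u x ≤ 2 := by
  by_contra hcon
  push Not at hcon
  exact hx (tp_zero_of_nonpos hk (by linarith))

theorem pderiv_cut (h : NSec n r lam Lam G u) (k : ℕ) (x : EuclideanSpace ℝ (Fin n)) (i : Fin n) :
    pderiv i (cut (k + 2) u) x = (-((k + 2 : ℕ) : ℝ) * cut (k + 1) u x) * pderiv i u x := by
  have hd : DifferentiableAt ℝ u x := (contDiff_u h).differentiable (by simp) x
  have h1 : HasDerivAt (fun s : ℝ => tp (k + 2) (2 - s)) (-((k + 2 : ℕ) : ℝ) * tp (k + 1) (2 - u x))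
      (u x) := by
    have h2 : HasDerivAt (fun s : ℝ => 2 - s) (-1) (u x) := by
      simpa using (hasDerivAt_id (u x)).const_sub 2
    exact ((hasDerivAt_tp k (2 - u x)).comp (u x) h2).congr_deriv (by push_cast; ring)
  exact pderiv_comp h1 hd i

/-- integral bound by a constant times the volume of the unit ball -/
theorem integral_le_const {g : EuclideanSpace ℝ (Fin n) → ℝ} (hg : Integrable g) {c : ℝ}
    (h1 : ∀ x ∈ Metric.closedBall (0 : EuclideanSpace ℝ (Fin n)) 1, g x ≤ c)
    (h2 : ∀ x ∉ Metric.closedBall (0 : EuclideanSpace ℝ (Fin n)) 1, g x ≤ 0) :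
    ∫ x, g x ≤ c * (volume (Metric.closedBall (0 : EuclideanSpace ℝ (Fin n)) 1)).toReal := by
  have hm : MeasurableSet (Metric.closedBall (0 : EuclideanSpace ℝ (Fin n)) 1) :=
    measurableSet_closedBall
  have hfin : volume (Metric.closedBall (0 : EuclideanSpace ℝ (Fin n)) 1) ≠ ⊤ :=
    (isCompact_closedBall _ _).measure_lt_top.ne
  have hi : Integrable ((Metric.closedBall (0 : EuclideanSpace ℝ (Fin n)) 1).indicator
      (fun _ => c)) := (integrable_indicator_iff hm).mpr (integrableOn_const hfin)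
  calc ∫ x, g x ≤ ∫ x, (Metric.closedBall (0 : EuclideanSpace ℝ (Fin n)) 1).indicator
        (fun _ => c) x := by
        refine integral_mono hg hi fun x => ?_
        by_cases hx : x ∈ Metric.closedBall (0 : EuclideanSpace ℝ (Fin n)) 1
        · simpa [hx] using h1 x hx
        · simpa [hx] using h2 x hx
    _ = c * (volume (Metric.closedBall (0 : EuclideanSpace ℝ (Fin n)) 1)).toReal := by
        rw [integral_indicator hm, setIntegral_const, smul_eq_mul, mul_comm]
        rfl

/-- abbreviation for the volume of the unit ball -/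
def V1 (n : ℕ) : ℝ := (volume (Metric.closedBall (0 : EuclideanSpace ℝ (Fin n)) 1)).toReal

theorem V1_nonneg : 0 ≤ V1 n := ENNReal.toReal_nonneg

theorem sum_cof_hess (x : EuclideanSpace ℝ (Fin n)) (h : SC univ u) :
    ∑ i, ∑ j, cof u x i j * hessianMat u x i j = n * (hessianMat u x).det := by
  have : ∀ i, ∑ j, cof u x i j * hessianMat u x i j = (hessianMat u x).det := by
    intro i
    have h1 := SC.cof_mul_hess u x i i
    rw [if_pos rfl] at h1
    rw [← h1]
    exact Finset.sum_congr rfl fun j _ => by rw [h.hess_symm (mem_univ x) i j]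
  simp_rw [this]
  simp

theorem continuous_Uq (h : NSec n r lam Lam G u) {f g : EuclideanSpace ℝ (Fin n) → ℝ}
    (hf : ContDiff ℝ 1 f) (hg : ContDiff ℝ 1 g) :
    Continuous (fun x => Uq u x (fun i => pderiv i f x) (fun j => pderiv j g x)) := by
  unfold Uq
  refine continuous_finsetSum _ fun i _ => continuous_finsetSum _ fun j _ => ?_
  refine ((contDiff_cof h.sc i j).continuous.mul ?_).mul ?_
  · exact (contDiff_pderiv (m := 0) hf (by norm_num) i).continuous
  · exact (contDiff_pderiv (m := 0) hg (by norm_num) j).continuous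

/-- first energy bound: `∫ (2-u)₊² U(du,du) ≤ (8/3) n Λ |B|`. -/
theorem energy_a (h : NSec n r lam Lam G u) (hLam : 0 < Lam) :
    ∫ x, cut 2 u x * Uq u x (fun i => pderiv i u x) (fun i => pderiv i u x)
      ≤ 8 / 3 * n * Lam * V1 n := by
  have hu2 : ContDiff ℝ 2 u := (contDiff_u h).of_le (by norm_cast)
  have h1 := ibp h.sc (contDiff_cut h 1) (cut_compact h (by norm_num)) hu2
  have h2 : ∀ x, Uq u x (fun i => pderiv i (cut (1 + 2) u) x) (fun i => pderiv i u x)
      = -3 * (cut 2 u x * Uq u x (fun i => pderiv i u x) (fun i => pderiv i u x)) := by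
    intro x
    simp_rw [pderiv_cut h 1 x]
    rw [Uq_smul_left]
    push_cast
    ring
  simp_rw [h2, sum_cof_hess _ h.sc] at h1
  rw [integral_const_mul] at h1
  have hdet : Continuous (fun x => (hessianMat u x).det) :=
    (contDiffOn_univ.mp h.sc.contDiffOn_det).continuous
  have h3 : ∫ x, cut (1 + 2) u x * (n * (hessianMat u x).det) ≤ (8 * (n * Lam)) * V1 n := by
    refine integral_le_const ?_ ?_ ?_
    · exact ((continuous_cut h _).mul (continuous_const.mul hdet)).integrable_of_hasCompactSupport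
        (cut_compact h (by norm_num)).mul_right
    · intro x _
      by_cases hc : cut (1 + 2) u x = 0
      · rw [hc, zero_mul]; positivity
      · have hx2 := le_two_of_cut_ne (by norm_num) hc
        have h4 := h.det_le x hx2
        have h5 : cut (1 + 2) u x ≤ 8 := by
          have := cut_le h (1 + 2) x
          norm_num at this ⊢; exact this
        have h6 := (h.sc.det_pos (mem_univ x)).le
        apply mul_le_mul h5 (mul_le_mul_of_nonneg_left h4 (by positivity)) (by positivity)
          (by norm_num)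
    · intro x hx
      rw [cut_zero h (by norm_num) hx, zero_mul]
  linarith

/-- second energy bound: `∫ (2-u)₊² Δu ≤ 4 G² |B|`. -/
theorem energy_c (h : NSec n r lam Lam G u) (hG : 0 < G) :
    ∫ x, cut 2 u x * (∑ i, hessianMat u x i i) ≤ 4 * G ^ 2 * V1 n := by
  have hu2 : ContDiff ℝ 2 u := (contDiff_u h).of_le (by norm_cast)
  have h1 := ibp_id (contDiff_cut h 0) (cut_compact h (by norm_num)) hu2
  have h2 : ∀ x, ∑ i, pderiv i (cut (0 + 2) u) x * pderiv i u x
      = -2 * (cut 1 u x * ∑ i, (pderiv i u x) ^ 2) := by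
    intro x
    simp_rw [pderiv_cut h 0 x]
    rw [Finset.mul_sum, Finset.mul_sum]
    refine Finset.sum_congr rfl fun i _ => ?_
    push_cast
    ring
  simp_rw [h2] at h1
  rw [integral_const_mul] at h1
  have hgr : ∀ x, ∑ i, (pderiv i u x) ^ 2 ≤ ‖fderiv ℝ u x‖ ^ 2 := by
    intro x
    have e1 : fderiv ℝ u x (ABP.gradE u x) = ∑ i, (pderiv i u x) ^ 2 := by
      rw [ABP.fderiv_apply_eq_sum]
      refine Finset.sum_congr rfl fun i _ => ?_
      simp [ABP.gradE, pow_two]
    have e2 : ‖ABP.gradE u x‖ ^ 2 = ∑ i, (pderiv i u x) ^ 2 := by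
      rw [EuclideanSpace.real_norm_sq_eq]
      simp [ABP.gradE]
    have e3 : ‖ABP.gradE u x‖ ^ 2 ≤ ‖fderiv ℝ u x‖ * ‖ABP.gradE u x‖ := by
      rw [e2, ← e1]
      exact (le_abs_self _).trans ((fderiv ℝ u x).le_opNorm _)
    have e4 : ‖ABP.gradE u x‖ ≤ ‖fderiv ℝ u x‖ := by
      rcases (norm_nonneg (ABP.gradE u x)).eq_or_lt with h0 | h0
      · rw [← h0]; exact norm_nonneg _
      · rw [pow_two] at e3
        exact le_of_mul_le_mul_right e3 h0
    rw [← e2]
    exact pow_le_pow_left₀ (norm_nonneg _) e4 2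
  have hcg : Continuous (fun x => ∑ i, (pderiv i u x) ^ 2) :=
    continuous_finsetSum _ fun i _ =>
      ((contDiff_pderiv (m := 1) hu2 (by norm_num) i).continuous).pow 2
  have h3 : ∫ x, cut 1 u x * ∑ i, (pderiv i u x) ^ 2 ≤ (2 * G ^ 2) * V1 n := by
    refine integral_le_const ?_ ?_ ?_
    · exact ((continuous_cut h _).mul hcg).integrable_of_hasCompactSupport
        (cut_compact h (by norm_num)).mul_right
    · intro x _
      by_cases hc : cut 1 u x = 0
      · rw [hc, zero_mul]; positivity
      · have hx2 := le_two_of_cut_ne (by norm_num) hc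
        have h4 := h.grad x hx2
        have h5 : cut 1 u x ≤ 2 := by
          have := cut_le h 1 x
          norm_num at this ⊢; exact this
        have h6 : ∑ i, (pderiv i u x) ^ 2 ≤ G ^ 2 :=
          (hgr x).trans (pow_le_pow_left₀ (norm_nonneg _) h4 2)
        exact mul_le_mul h5 h6 (Finset.sum_nonneg fun i _ => sq_nonneg _) (by norm_num)
    · intro x hx
      rw [cut_zero h (by norm_num) hx, zero_mul]
  linarith

/-- the logarithm of a positive function -/
theorem contDiff_log {v : EuclideanSpace ℝ (Fin n) → ℝ} (hv : ContDiff ℝ ∞ v) (hp : ∀ x, 0 < v x) :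
    ContDiff ℝ ∞ (fun x => Real.log (v x)) := hv.log fun x => (hp x).ne'

theorem pderiv_log {v : EuclideanSpace ℝ (Fin n) → ℝ} (hv : ContDiff ℝ ∞ v) (hp : ∀ x, 0 < v x)
    (i : Fin n) (x : EuclideanSpace ℝ (Fin n)) :
    pderiv i (fun y => Real.log (v y)) x = (v x)⁻¹ * pderiv i v x :=
  pderiv_comp (Real.hasDerivAt_log (hp x).ne') (hv.differentiable (by simp) x) i

theorem hess_log {v : EuclideanSpace ℝ (Fin n) → ℝ} (hv : ContDiff ℝ ∞ v) (hp : ∀ x, 0 < v x)
    (i j : Fin n) (x : EuclideanSpace ℝ (Fin n)) :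
    hessianMat (fun y => Real.log (v y)) x i j = (v x)⁻¹ * hessianMat v x i j
      - pderiv i (fun y => Real.log (v y)) x * pderiv j (fun y => Real.log (v y)) x := by
  have hvd : DifferentiableAt ℝ v x := hv.differentiable (by simp) x
  have hpd : DifferentiableAt ℝ (pderiv j v) x :=
    (contDiff_pderiv (m := 1) (hv.of_le (by norm_cast) : ContDiff ℝ 2 v) (by norm_num) j).differentiable
      (by norm_num) x
  have h1 : (fun y => pderiv j (fun z => Real.log (v z)) y) = fun y => (v y)⁻¹ * pderiv j v y := by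
    ext y; exact pderiv_log hv hp j y
  have hinv : HasDerivAt (fun s : ℝ => s⁻¹) (-((v x) ^ 2)⁻¹) (v x) := hasDerivAt_inv (hp x).ne'
  have h2 : pderiv i (fun y => (v y)⁻¹) x = -((v x) ^ 2)⁻¹ * pderiv i v x :=
    pderiv_comp hinv hvd i
  have hd : DifferentiableAt ℝ (fun y => (v y)⁻¹) x := hvd.inv (hp x).ne'
  change pderiv i (fun y => pderiv j (fun z => Real.log (v z)) y) x = _
  rw [h1, pderiv_mul hd hpd, h2, pderiv_log hv hp, pderiv_log hv hp]
  have hne := (hp x).ne'
  unfold hessianMat
  field_simp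
  ring

/-- the logarithmic energy bound -/
theorem energy_b (h : NSec n r lam Lam G u) (hLam : 0 < Lam) {v : EuclideanSpace ℝ (Fin n) → ℝ}
    (hv : ContDiff ℝ ∞ v) (hp : ∀ x, 0 < v x)
    (hL : ∀ x, u x ≤ 2 → ∑ i, ∑ j, (hessianMat u x).adjugate i j * hessianMat v x i j ≤ 0) :
    ∫ x, cut 4 u x * Uq u x (fun i => pderiv i (fun y => Real.log (v y)) x)
        (fun i => pderiv i (fun y => Real.log (v y)) x) ≤ 128 / 3 * n * Lam * V1 n := by
  set f : EuclideanSpace ℝ (Fin n) → ℝ := fun y => Real.log (v y) with hf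
  have hfs : ContDiff ℝ ∞ f := contDiff_log hv hp
  have hf2 : ContDiff ℝ 2 f := hfs.of_le (by norm_cast)
  have hf1 : ContDiff ℝ 1 f := hfs.of_le (by norm_cast)
  have hu2 : ContDiff ℝ 2 u := (contDiff_u h).of_le (by norm_cast)
  have hu1 : ContDiff ℝ 1 u := (contDiff_u h).of_le (by norm_cast)
  have h1 := ibp h.sc (contDiff_cut h 2) (cut_compact h (by norm_num)) hf2
  set F : EuclideanSpace ℝ (Fin n) → ℝ := fun x => Uq u x (fun i => pderiv i f x)
    (fun i => pderiv i f x) with hF
  set M : EuclideanSpace ℝ (Fin n) → ℝ := fun x => Uq u x (fun i => pderiv i u x)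
    (fun i => pderiv i f x) with hM
  set A : EuclideanSpace ℝ (Fin n) → ℝ := fun x => Uq u x (fun i => pderiv i u x)
    (fun i => pderiv i u x) with hA
  have cF : Continuous F := continuous_Uq h hf1 hf1
  have cM : Continuous M := continuous_Uq h hu1 hf1
  have cA : Continuous A := continuous_Uq h hu1 hu1
  have h2 : ∀ x, Uq u x (fun i => pderiv i (cut (2 + 2) u) x) (fun i => pderiv i f x)
      = -4 * (cut 3 u x * M x) := by
    intro x
    simp_rw [pderiv_cut h 2 x]
    rw [Uq_smul_left]
    push_cast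
    simp only [hM]
    ring
  simp_rw [h2] at h1
  rw [integral_const_mul] at h1
  -- L f ≤ - F
  have h3 : ∀ x, cut (2 + 2) u x * (∑ i, ∑ j, cof u x i j * hessianMat f x i j)
      ≤ - (cut 4 u x * F x) := by
    intro x
    by_cases hc : cut (2 + 2) u x = 0
    · rw [hc]; simp
    · have hx2 := le_two_of_cut_ne (by norm_num) hc
      have h4 : ∑ i, ∑ j, cof u x i j * hessianMat f x i j
          = (v x)⁻¹ * (∑ i, ∑ j, (hessianMat u x).adjugate i j * hessianMat v x i j) - F x := by
        simp only [hF, Uq]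
        rw [Finset.mul_sum, ← Finset.sum_sub_distrib]
        refine Finset.sum_congr rfl fun i _ => ?_
        rw [Finset.mul_sum, ← Finset.sum_sub_distrib]
        refine Finset.sum_congr rfl fun j _ => ?_
        rw [hess_log hv hp i j x]
        unfold cof
        ring
      have h5 := hL x hx2
      have h6 : (v x)⁻¹ * (∑ i, ∑ j, (hessianMat u x).adjugate i j * hessianMat v x i j) ≤ 0 :=
        mul_nonpos_of_nonneg_of_nonpos (inv_nonneg.mpr (hp x).le) h5
      have h7 := cut_nonneg (u := u) (2 + 2) x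
      rw [h4]
      have : cut 4 u x = cut (2 + 2) u x := rfl
      rw [this]
      nlinarith
  -- integrability
  have i4F : Integrable (fun x => cut 4 u x * F x) :=
    ((continuous_cut h _).mul cF).integrable_of_hasCompactSupport
      (cut_compact h (by norm_num)).mul_right
  have i3M : Integrable (fun x => cut 3 u x * M x) :=
    ((continuous_cut h _).mul cM).integrable_of_hasCompactSupport
      (cut_compact h (by norm_num)).mul_right
  have i2A : Integrable (fun x => cut 2 u x * A x) :=
    ((continuous_cut h _).mul cA).integrable_of_hasCompactSupport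
      (cut_compact h (by norm_num)).mul_right
  have iL : Integrable (fun x => cut (2 + 2) u x * (∑ i, ∑ j, cof u x i j * hessianMat f x i j)) := by
    refine ((continuous_cut h _).mul ?_).integrable_of_hasCompactSupport
      (cut_compact h (by norm_num)).mul_right
    exact continuous_finsetSum _ fun i _ => continuous_finsetSum _ fun j _ =>
      (contDiff_cof h.sc i j).continuous.mul (contDiff_hess hf2 i j)
  have h8 : ∫ x, cut (2 + 2) u x * (∑ i, ∑ j, cof u x i j * hessianMat f x i j)
      ≤ - ∫ x, cut 4 u x * F x := by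
    rw [← integral_neg]
    exact integral_mono iL i4F.neg h3
  -- Young
  have h9 : ∀ x, -4 * (cut 3 u x * M x) ≤ 1 / 2 * (cut 4 u x * F x) + 8 * (cut 2 u x * A x) := by
    intro x
    set s := max (2 - u x) 0 with hs
    have e2 : cut 2 u x = s ^ 2 := rfl
    have e3 : cut 3 u x = s ^ 3 := rfl
    have e4 : cut 4 u x = s ^ 4 := rfl
    have hs0 : 0 ≤ s := le_max_right _ _
    have hcs : (M x) ^ 2 ≤ A x * F x := Uq_cs h.sc x _ _
    have hA0 : 0 ≤ A x := Uq_nonneg h.sc x _
    have hF0 : 0 ≤ F x := Uq_nonneg h.sc x _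
    have hsq : (8 * s * M x) ^ 2 ≤ (s ^ 2 * F x + 16 * A x) ^ 2 := by
      have : (8 * s * M x) ^ 2 ≤ 64 * s ^ 2 * (A x * F x) := by
        have : (8 * s * M x) ^ 2 = 64 * s ^ 2 * (M x) ^ 2 := by ring
        rw [this]
        exact mul_le_mul_of_nonneg_left hcs (by positivity)
      nlinarith [sq_nonneg (s ^ 2 * F x - 16 * A x)]
    have hab := (abs_le_of_sq_le_sq' hsq (by positivity)).1
    rw [e2, e3, e4]
    have : 0 ≤ s ^ 2 * (s ^ 2 * F x + 16 * A x + 8 * s * M x) :=
      mul_nonneg (by positivity) (by linarith)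
    nlinarith
  have h10 : -4 * ∫ x, cut 3 u x * M x
      ≤ 1 / 2 * (∫ x, cut 4 u x * F x) + 8 * ∫ x, cut 2 u x * A x := by
    rw [← integral_const_mul, ← integral_const_mul, ← integral_const_mul,
      ← integral_add (i4F.const_mul _) (i2A.const_mul _)]
    exact integral_mono (i3M.const_mul _) ((i4F.const_mul _).add (i2A.const_mul _)) h9
  have h11 : ∫ x, cut 2 u x * A x ≤ 8 / 3 * n * Lam * V1 n := energy_a h hLam
  linarith

end nsec

end Crest.Agent.R236.WH
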